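import Mathlib

/-!
# R193, block P (helper990): components, boundary bumping, nested continua, holes, limits of sets

General topology used in Parts M and D: nothing here depends on the sphere.
-/

set_option autoImplicit false

open Set Filter Topology

namespace Crest.Agent.R193.P_Comp

variable {Z : Type*} [TopologicalSpace Z]

/-! ### components -/


/-- a preconnected subset of `F` meeting a component of `F` is inside it -/
lemma subset_comp_of_inter {F S : Set Z} {x : Z} (hS : IsPreconnected S) (hSF : S ⊆ F)
    (h : (S ∩ connectedComponentIn F x).Nonempty) : S ⊆ connectedComponentIn F x := by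
  obtain ⟨z, hzS, hz⟩ := h
  rw [connectedComponentIn_eq hz]
  exact hS.subset_connectedComponentIn hzS hSF

lemma isClosed_comp {F : Set Z} (hF : IsClosed F) (x : Z) :
    IsClosed (connectedComponentIn F x) := by
  by_cases hx : x ∈ F
  · refine isClosed_of_closure_subset ?_
    exact isPreconnected_connectedComponentIn.closure.subset_connectedComponentIn
      (subset_closure (mem_connectedComponentIn hx))
      (closure_minimal (connectedComponentIn_subset _ _) hF)
  · rw [connectedComponentIn_eq_empty hx]
    exact isClosed_empty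


/-- the frontier of a component of an open set `U` is inside the frontier of `U` -/
theorem frontier_comp_subset [LocallyConnectedSpace Z] {U : Set Z} (hU : IsOpen U) (x : Z) :
    frontier (connectedComponentIn U x) ⊆ frontier U := by
  intro z hz
  have hCo : IsOpen (connectedComponentIn U x) := hU.connectedComponentIn
  rw [hCo.frontier_eq] at hz
  rw [hU.frontier_eq]
  refine ⟨closure_mono (connectedComponentIn_subset _ _) hz.1, fun hzU => hz.2 ?_⟩
  have hDo : IsOpen (connectedComponentIn U z) := hU.connectedComponentIn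
  obtain ⟨w, hw1, hw2⟩ := mem_closure_iff.1 hz.1 _ hDo (mem_connectedComponentIn hzU)
  rw [connectedComponentIn_eq hw2, ← connectedComponentIn_eq hw1]
  exact mem_connectedComponentIn hzU



/-! ### splitting compact sets along unions of components -/

lemma exists_isClopen_of_comp_disjoint {X : Type*} [TopologicalSpace X] [CompactSpace X]
    [T2Space X] {F : Set X} (hF : IsClosed F) {x : X} (h : Disjoint (connectedComponent x) F) :
    ∃ s : Set X, IsClopen s ∧ x ∈ s ∧ Disjoint s F := by
  rw [connectedComponent_eq_iInter_isClopen] at h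
  have hdir : Directed (· ⊇ ·) (fun s : { s : Set X // IsClopen s ∧ x ∈ s } => (s : Set X)) := by
    rintro ⟨s, hs, hxs⟩ ⟨t, ht, hxt⟩
    exact ⟨⟨s ∩ t, hs.inter ht, hxs, hxt⟩, inter_subset_left, inter_subset_right⟩
  have : Nonempty { s : Set X // IsClopen s ∧ x ∈ s } := ⟨⟨univ, isClopen_univ, mem_univ x⟩⟩
  obtain ⟨⟨s, hs, hxs⟩, hsF⟩ := exists_subset_nhds_of_compactSpace hdir (fun s => s.2.1.1)
    (U := Fᶜ) (fun z hz => hF.isOpen_compl.mem_nhds fun hzF => disjoint_left.1 h hz hzF)
  exact ⟨s, hs, hxs, subset_compl_iff_disjoint_right.1 hsF⟩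

lemma exists_isClopen_of_comp_disjoint' {X : Type*} [TopologicalSpace X] [CompactSpace X]
    [T2Space X] {E F : Set X} (hE : IsClosed E) (hF : IsClosed F)
    (h : ∀ x ∈ E, Disjoint (connectedComponent x) F) :
    ∃ s : Set X, IsClopen s ∧ E ⊆ s ∧ Disjoint s F := by
  choose! s hs hxs hsF using fun x hx => exists_isClopen_of_comp_disjoint hF (h x hx)
  obtain ⟨t, htE, ht⟩ := hE.isCompact.elim_nhds_subcover s
    fun x hx => (hs x hx).isOpen.mem_nhds (hxs x hx)
  refine ⟨⋃ x ∈ t, s x, isClopen_biUnion_finset fun x hx => hs x (htE x hx), ht, ?_⟩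
  rw [disjoint_iUnion₂_left]
  exact fun x hx => hsF x (htE x hx)

/-- **Splitting lemma** ("cut wire"). In a compact subset `L` of a Hausdorff space, if no component
of `L` meets both closed sets `E` and `F` then `L` is a disjoint union of two closed sets, one
containing `L ∩ E`, the other `L ∩ F`. -/
theorem exists_closed_split [T2Space Z] {L E F : Set Z} (hL : IsCompact L) (hE : IsClosed E)
    (hF : IsClosed F) (h : ∀ x ∈ L ∩ E, Disjoint (connectedComponentIn L x) F) :
    ∃ A B : Set Z, IsCompact A ∧ IsCompact B ∧ A ∪ B = L ∧ Disjoint A B ∧ L ∩ E ⊆ A ∧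
      L ∩ F ⊆ B := by
  have : CompactSpace L := isCompact_iff_compactSpace.1 hL
  obtain ⟨s, hs, hEs, hsF⟩ := exists_isClopen_of_comp_disjoint' (X := L)
    (E := Subtype.val ⁻¹' E) (F := Subtype.val ⁻¹' F) (hE.preimage continuous_subtype_val)
    (hF.preimage continuous_subtype_val) (by
      rintro ⟨x, hxL⟩ hxE
      have h1 := h x ⟨hxL, hxE⟩
      rw [connectedComponentIn_eq_image hxL] at h1
      rw [disjoint_left] at h1 ⊢
      intro z hz hzF
      exact h1 (mem_image_of_mem _ hz) hzF)
  refine ⟨Subtype.val '' s, Subtype.val '' sᶜ, hs.1.isCompact.image continuous_subtype_val,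
    hs.compl.1.isCompact.image continuous_subtype_val, ?_, ?_, ?_, ?_⟩
  · rw [← image_union, union_compl_self, image_univ, Subtype.range_coe]
  · exact (disjoint_compl_right (a := s)).image Subtype.val_injective.injOn (subset_univ _)
      (subset_univ _)
  · rintro x ⟨hxL, hxE⟩
    exact ⟨⟨x, hxL⟩, hEs hxE, rfl⟩
  · rintro x ⟨hxL, hxF⟩
    exact ⟨⟨x, hxL⟩, fun h' => disjoint_left.1 hsF h' hxF, rfl⟩

/-- **Boundary bumping.** `K` compact connected, `U` open, `x ∈ K ∩ U`, `K` not inside `U`: the
component of `x` in `K ∩ closure U` reaches the frontier of `U`. -/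
theorem boundary_bumping [T2Space Z] {K U : Set Z} (hK : IsCompact K) (hKc : IsPreconnected K)
    (hU : IsOpen U) {x : Z} (hxK : x ∈ K) (hxU : x ∈ U) (hne : ¬ K ⊆ U) :
    (connectedComponentIn (K ∩ closure U) x ∩ frontier U).Nonempty := by
  by_contra hn
  have hL : IsCompact (K ∩ closure U) := hK.inter_right isClosed_closure
  have hxL : x ∈ K ∩ closure U := ⟨hxK, subset_closure hxU⟩
  obtain ⟨A, B, hA, hB, hAB, hd, hEA, hFB⟩ := exists_closed_split hL (isClosed_singleton (x := x))
    (isClosed_frontier (s := U)) (by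
      rintro y ⟨hyL, hyx⟩
      rw [mem_singleton_iff] at hyx
      subst hyx
      rw [disjoint_iff_inter_eq_empty]
      exact not_nonempty_iff_eq_empty.1 hn)
  have hxA : x ∈ A := hEA ⟨hxL, rfl⟩
  have hAL : A ⊆ K ∩ closure U := hAB ▸ subset_union_left
  have hAU : A ⊆ U := by
    intro z hz
    have hzL := hAL hz
    by_contra hzU
    have : z ∈ frontier U := by
      rw [hU.frontier_eq]
      exact ⟨hzL.2, hzU⟩
    exact disjoint_left.1 hd hz (hFB ⟨hzL, this⟩)
  have hB' : IsClosed (B ∪ (K \ U)) := hB.isClosed.union (hK.diff hU).isClosed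
  have hcov : K ⊆ A ∪ (B ∪ (K \ U)) := by
    intro z hz
    by_cases hzU : z ∈ U
    · have : z ∈ A ∪ B := by
        rw [hAB]
        exact ⟨hz, subset_closure hzU⟩
      rcases this with h | h
      · exact Or.inl h
      · exact Or.inr (Or.inl h)
    · exact Or.inr (Or.inr ⟨hz, hzU⟩)
  obtain ⟨y, hyK, hyU⟩ := not_subset.1 hne
  obtain ⟨z, hzK, hzA, hzB⟩ := (isPreconnected_closed_iff.1 hKc) A (B ∪ (K \ U)) hA.isClosed hB'
    hcov ⟨x, hxK, hxA⟩ ⟨y, hyK, Or.inr ⟨hyK, hyU⟩⟩
  rcases hzB with h | h
  · exact disjoint_left.1 hd hzA h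
  · exact h.2 (hAU hzA)

/-- metric form: a continuum through `x` not inside `ball x r` contains a continuum through `x`
inside `closedBall x r` reaching the sphere of radius `r` -/
theorem exists_mem_comp_dist_eq {Z : Type*} [MetricSpace Z] {K : Set Z} (hK : IsCompact K)
    (hKc : IsPreconnected K) {x : Z} {r : ℝ} (hr : 0 < r) (hxK : x ∈ K)
    (hne : ¬ K ⊆ Metric.ball x r) :
    ∃ y ∈ connectedComponentIn (K ∩ Metric.closedBall x r) x, dist y x = r := by
  obtain ⟨y, hy1, hy2⟩ := boundary_bumping hK hKc Metric.isOpen_ball hxK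
    (Metric.mem_ball_self hr) hne
  refine ⟨y, connectedComponentIn_mono x
    (inter_subset_inter_right K Metric.closure_ball_subset_closedBall) hy1, ?_⟩
  have := Metric.frontier_ball_subset_sphere hy2
  exact this

/-! ### nested intersections -/

/-- a directed intersection of compact connected sets is connected -/
theorem isPreconnected_iInter_of_directed [T2Space Z] {ι : Type*} [Nonempty ι] {K : ι → Set Z}
    (hd : Directed (· ⊇ ·) K) (hc : ∀ i, IsCompact (K i)) (hp : ∀ i, IsPreconnected (K i)) :
    IsPreconnected (⋂ i, K i) := by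
  have hcl : IsClosed (⋂ i, K i) := isClosed_iInter fun i => (hc i).isClosed
  obtain ⟨i0⟩ := ‹Nonempty ι›
  have : Nonempty ι := ⟨i0⟩
  have hcpt : IsCompact (⋂ i, K i) := (hc i0).of_isClosed_subset hcl (iInter_subset _ i0)
  rw [isPreconnected_iff_subset_of_fully_disjoint_closed hcl]
  intro a b ha hb hab hdis
  obtain ⟨u, v, hu, hv, hau, hbv, huv⟩ := SeparatedNhds.of_isCompact_isCompact
    (hcpt.inter_right ha) (hcpt.inter_right hb) (hdis.mono inter_subset_right inter_subset_right)
  obtain ⟨i, hi⟩ := exists_subset_nhds_of_isCompact hd hc (U := u ∪ v) (fun z hz => by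
    refine (hu.union hv).mem_nhds ?_
    rcases hab hz with h | h
    · exact Or.inl (hau ⟨hz, h⟩)
    · exact Or.inr (hbv ⟨hz, h⟩))
  rcases (hp i).subset_or_subset hu hv huv hi with h | h
  · left
    intro z hz
    rcases hab hz with h' | h'
    · exact h'
    · exact absurd (hbv ⟨hz, h'⟩) (disjoint_left.1 huv (h (mem_iInter.1 hz i)))
  · right
    intro z hz
    rcases hab hz with h' | h'
    · exact absurd (h (mem_iInter.1 hz i)) (disjoint_left.1 huv (hau ⟨hz, h'⟩))
    · exact h'


/-! ### complements -/

/-- if the frontier of an open subset of a connected space is connected, so is the complement -/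
theorem isPreconnected_compl_of_frontier [PreconnectedSpace Z] {U : Set Z} (hU : IsOpen U)
    (hf : IsPreconnected (frontier U)) : IsPreconnected Uᶜ := by
  have hcl : IsClosed Uᶜ := hU.isClosed_compl
  have hfU : frontier U ⊆ Uᶜ := by
    rw [hU.frontier_eq]
    exact fun z hz => hz.2
  rw [isPreconnected_iff_subset_of_fully_disjoint_closed hcl]
  -- the part not containing the frontier is clopen
  have key : ∀ A B : Set Z, IsClosed A → IsClosed B → Disjoint A B → Uᶜ ⊆ A ∪ B →
      frontier U ⊆ A → Uᶜ ⊆ A ∨ Uᶜ ⊆ B := by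
    intro A B hA hB hd hcov hfA
    have h1 : IsClosed (Uᶜ ∩ B) := hcl.inter hB
    have h2 : (Uᶜ ∩ B)ᶜ = closure U ∪ A := by
      ext z
      simp only [mem_compl_iff, mem_inter_iff, mem_union, not_and]
      constructor
      · intro h
        by_cases hz : z ∈ U
        · exact Or.inl (subset_closure hz)
        · right
          exact (hcov hz).resolve_right (h hz)
      · rintro (h | h) hzU hzB
        · have : z ∈ frontier U := by
            rw [hU.frontier_eq]
            exact ⟨h, hzU⟩
          exact disjoint_left.1 hd (hfA this) hzB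
        · exact disjoint_left.1 hd h hzB
    have h3 : IsClopen (Uᶜ ∩ B) := ⟨h1, by
      rw [← isClosed_compl_iff, h2]
      exact isClosed_closure.union hA⟩
    rcases isClopen_iff.1 h3 with h | h
    · left
      intro z hz
      refine (hcov hz).resolve_right fun hzB => ?_
      have : z ∈ Uᶜ ∩ B := ⟨hz, hzB⟩
      rw [h] at this
      exact this
    · right
      intro z _
      have : z ∈ Uᶜ ∩ B := by
        rw [h]
        trivial
      exact this.2
  intro A B hA hB hcov hd
  rcases (isPreconnected_iff_subset_of_fully_disjoint_closed isClosed_frontier).1 hf A B hA hB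
    (hfU.trans hcov) hd with h | h
  · exact key A B hA hB hd hcov h
  · exact (key B A hB hA hd.symm (by rw [union_comm B A]; exact hcov) h).symm






/-! ### limits of sets along a filter -/









end Crest.Agent.R193.P_Comp
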