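import Mathlib
import Crest.Agent.R193.Defs

/-!
# R193, block D7: conformal pairs over a `DForm` (definitions and interfaces)

All functions are global elements of `C(Z, ℝ)`; being harmonic / conformal is a statement about an
open set `O`.  The plane is `ℝ × ℝ` with its sup metric (balls are squares) and its volume.
-/

set_option autoImplicit false

noncomputable section

open Set Filter Topology MeasureTheory Metric

namespace Crest.Agent.R193

variable {G Z : Type} [Group G] [MetricSpace Z] [MulAction G Z] {S : Setup G Z}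

/-- `U` is harmonic on the open set `O` -/
def Harm (Q : DForm S) (O : Set Z) (U : C(Z, ℝ)) : Prop :=
  U ∈ Q.Dom ∧ ∀ w ∈ Q.Dom, tsupport w ⊆ O → Q.Γ U w 1 = 0

/-- `(U, V)` is a conformal pair on the open set `O` -/
def ConfOn (Q : DForm S) (O : Set Z) (U V : C(Z, ℝ)) : Prop :=
  U ∈ Q.Dom ∧ V ∈ Q.Dom ∧
  (∀ w ∈ Q.Dom, tsupport w ⊆ O → Q.Γ U w 1 = 0 ∧ Q.Γ V w 1 = 0) ∧
  (∀ φ : C(Z, ℝ), tsupport φ ⊆ O → Q.Γ U V φ = 0 ∧ Q.Γ U U φ = Q.Γ V V φ)

/-- the push-forward of the energy measure of `(U, V)` restricted to `W` is `c • volume` on the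
square `ball p ρ`, tested against continuous functions supported in that square -/
def PushC (Q : DForm S) (U V : C(Z, ℝ)) (W : Set Z) (p : ℝ × ℝ) (ρ c : ℝ) : Prop :=
  ∀ ψ : ℝ × ℝ → ℝ, Continuous ψ → tsupport ψ ⊆ ball p ρ → ∀ φ : C(Z, ℝ),
    (∀ x ∈ W, φ x = ψ (U x, V x)) → (∀ x, x ∉ W → φ x = 0) → Q.Γ U U φ = c * ∫ y, ψ y

/-- (MAX) maximum principle (on a proper open subset) -/
def InMax (Q : DForm S) : Prop :=
  ∀ (O : Set Z) (U : C(Z, ℝ)), IsOpen O → O ≠ univ → Harm Q O U → MonoOn U O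


/-- (C2) -/
def InC2 (Q : DForm S) : Prop :=
  ∀ (O : Set Z) (U V : C(Z, ℝ)), IsOpen O → ConfOn Q O U V → ∀ W : Set Z, IsOpen W →
    closure W ⊆ O → ∀ (p : ℝ × ℝ) (ρ : ℝ), 0 < ρ → (∀ x ∈ frontier W, (U x, V x) ∉ ball p ρ) →
    ∃ c : ℝ, 0 ≤ c ∧ PushC Q U V W p ρ c

/-- (C3) a conformal pair constant on a nontrivial connected set is constant -/
def InC3 (Q : DForm S) : Prop :=
  ∀ (O : Set Z) (U V : C(Z, ℝ)), IsOpen O → IsPreconnected O → ConfOn Q O U V → ∀ E : Set Z,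
    E ⊆ O → IsPreconnected E → E.Nontrivial → ∀ p : ℝ × ℝ, (∀ x ∈ E, (U x, V x) = p) →
    ∀ x ∈ O, (U x, V x) = p


/-- OUTPUT of (C4)-(C6): a non-constant conformal pair on a connected open set `O` is, inside any
nonempty open subset `O'`, a homeomorphism of some connected open set `W` (with connected
complement) onto a square, and the energy measure is `c • volume` there, `c > 0`. -/
def OutC6 (Q : DForm S) : Prop :=
  ∀ (O : Set Z) (U V : C(Z, ℝ)), IsOpen O → IsPreconnected O → ConfOn Q O U V →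
    (¬ ∃ p : ℝ × ℝ, ∀ x ∈ O, (U x, V x) = p) → ∀ O' : Set Z, IsOpen O' → O'.Nonempty → O' ⊆ O →
    ∃ c : ℝ, 0 < c ∧ ∃ z ∈ O', ∃ ρ : ℝ, 0 < ρ ∧ ∃ W : Set Z, IsOpen W ∧ IsConnected W ∧ z ∈ W ∧
      closure W ⊆ O' ∧ IsConnected Wᶜ ∧ InjOn (fun x => (U x, V x)) W ∧
      (fun x => (U x, V x)) '' W = ball (U z, V z) ρ ∧
      (∀ x ∈ frontier W, (U x, V x) ∈ sphere (U z, V z) ρ) ∧ PushC Q U V W (U z, V z) ρ c

lemma ConfOn.harm_left {Q : DForm S} {O : Set Z} {U V : C(Z, ℝ)} (h : ConfOn Q O U V) :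
    Harm Q O U := ⟨h.1, fun w hw hs => (h.2.2.1 w hw hs).1⟩

lemma ConfOn.harm_right {Q : DForm S} {O : Set Z} {U V : C(Z, ℝ)} (h : ConfOn Q O U V) :
    Harm Q O V := ⟨h.2.1, fun w hw hs => (h.2.2.1 w hw hs).2⟩

lemma ConfOn.mono {Q : DForm S} {O O' : Set Z} {U V : C(Z, ℝ)} (h : ConfOn Q O U V)
    (hO : O' ⊆ O) : ConfOn Q O' U V :=
  ⟨h.1, h.2.1, fun w hw hs => h.2.2.1 w hw (hs.trans hO), fun φ hs => h.2.2.2 φ (hs.trans hO)⟩

lemma Harm.mono {Q : DForm S} {O O' : Set Z} {U : C(Z, ℝ)} (h : Harm Q O U)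
    (hO : O' ⊆ O) : Harm Q O' U :=
  ⟨h.1, fun w hw hs => h.2 w hw (hs.trans hO)⟩

end Crest.Agent.R193
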