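import Mathlib
import Crest.Agent.R193.Defs

-- ▼ part R193/H4_Core
section

/-! Row 193 (helper96), block H4: properties of the action of a hyperbolic group on its boundary
that are consumed by Part K (cocompactness and properness on distinct triples, convergence
property).  Abstract over a small structure `BAct`. -/

set_option autoImplicit false

namespace Crest.Agent.R193.H4

open Topology Filter Set

/-- minimal data about a hyperbolic group acting on its boundary: `bb x y = (x|y)` for distinct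
boundary points, `bg x g = (x|g)`. -/
structure BAct (G Z : Type*) [Group G] [TopologicalSpace Z] [MulAction G Z] where
  len : G → ℕ
  bb : Z → Z → ℝ
  bg : Z → G → ℝ
  C : ℝ
  hC : 0 ≤ C
  fin : ∀ n : ℕ, {g : G | len g ≤ n}.Finite
  len_inv : ∀ g, len g⁻¹ = len g
  bb_comm : ∀ x y, bb x y = bb y x
  bb_nonneg : ∀ x y, x ≠ y → 0 ≤ bb x y
  h1 : ∀ x y z, x ≠ y → y ≠ z → x ≠ z → min (bb x y) (bb y z) - C ≤ bb x z
  h2 : ∀ x y g, x ≠ y → min (bg x g) (bg y g) - C ≤ bb x y
  h3 : ∀ x y g, x ≠ y → min (bb x y) (bg y g) - C ≤ bg x g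
  id : ∀ x y g, x ≠ y → |bb (g • x) (g • y) - (bb x y - bg x g⁻¹ - bg y g⁻¹ + len g)| ≤ C
  ray : ∀ (x : Z) (n : ℕ), ∃ g, len g = n ∧ n - C ≤ bg x g
  nhds1 : ∀ x, ∀ W ∈ 𝓝 x, ∃ N : ℝ, ∀ y, y ≠ x → N < bb x y → y ∈ W
  nhds2 : ∀ x (N : ℝ), ∃ W ∈ 𝓝 x, ∀ y ∈ W, y ≠ x → N < bb x y

namespace BAct

variable {G Z : Type*} [Group G] [TopologicalSpace Z] [MulAction G Z] (A : BAct G Z)

include A

theorem center_aux {x y z : Z} (hxy : x ≠ y) (hxz : x ≠ z) (hyz : y ≠ z)
    (h1 : A.bb x z ≤ A.bb x y) (h2 : A.bb y z ≤ A.bb x y) :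
    ∃ g : G, A.bb (g • x) (g • y) ≤ 1 + 6 * A.C ∧ A.bb (g • x) (g • z) ≤ 1 + 6 * A.C ∧
      A.bb (g • y) (g • z) ≤ 1 + 6 * A.C := by
  have hC := A.hC
  set n : ℕ := ⌊A.bb x y⌋₊ with hn
  have hn1 : (n : ℝ) ≤ A.bb x y := Nat.floor_le (A.bb_nonneg x y hxy)
  have hn2 : A.bb x y < n + 1 := Nat.lt_floor_add_one _
  obtain ⟨p, hp, hxp⟩ := A.ray x n
  have hyp : n - 2 * A.C ≤ A.bg y p := by
    have := A.h3 y x p hxy.symm
    rw [A.bb_comm y x] at this
    have h4 : n - A.C ≤ min (A.bb x y) (A.bg x p) := le_min (by linarith) hxp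
    linarith
  have hzp1 : A.bb x z - 1 - 2 * A.C ≤ A.bg z p := by
    have := A.h3 z x p hxz.symm
    rw [A.bb_comm z x] at this
    have h4 : A.bb x z - 1 - A.C ≤ min (A.bb x z) (A.bg x p) := le_min (by linarith) (by linarith)
    linarith
  have hzp2 : A.bb y z - 1 - 3 * A.C ≤ A.bg z p := by
    have := A.h3 z y p hyz.symm
    rw [A.bb_comm z y] at this
    have h4 : A.bb y z - 1 - 2 * A.C ≤ min (A.bb y z) (A.bg y p) := le_min (by linarith) (by linarith)
    linarith
  have e1 := (abs_le.mp (A.id x y p⁻¹ hxy)).2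
  have e2 := (abs_le.mp (A.id x z p⁻¹ hxz)).2
  have e3 := (abs_le.mp (A.id y z p⁻¹ hyz)).2
  rw [inv_inv, A.len_inv, hp] at e1 e2 e3
  refine ⟨p⁻¹, ?_, ?_, ?_⟩ <;> linarith

/-- cocompactness on triples, in terms of the products -/
theorem center {x y z : Z} (hxy : x ≠ y) (hxz : x ≠ z) (hyz : y ≠ z) :
    ∃ g : G, A.bb (g • x) (g • y) ≤ 1 + 6 * A.C ∧ A.bb (g • x) (g • z) ≤ 1 + 6 * A.C ∧
      A.bb (g • y) (g • z) ≤ 1 + 6 * A.C := by
  rcases le_total (A.bb x z) (A.bb x y) with h1 | h1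
  · rcases le_total (A.bb y z) (A.bb x y) with h2 | h2
    · exact A.center_aux hxy hxz hyz h1 h2
    · -- `bb y z` is the largest
      obtain ⟨g, e1, e2, e3⟩ := A.center_aux (x := y) (y := z) (z := x) hyz hxy.symm hxz.symm
        (by rw [A.bb_comm y x]; exact h2) (by rw [A.bb_comm z x]; exact h1.trans h2)
      exact ⟨g, by rw [A.bb_comm]; exact e2, by rw [A.bb_comm]; exact e3, e1⟩
  · rcases le_total (A.bb y z) (A.bb x z) with h2 | h2
    · -- `bb x z` is the largest
      obtain ⟨g, e1, e2, e3⟩ := A.center_aux (x := x) (y := z) (z := y) hxz hxy hyz.symm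
        h1 (by rw [A.bb_comm z y]; exact h2)
      exact ⟨g, e2, e1, by rw [A.bb_comm]; exact e3⟩
    · obtain ⟨g, e1, e2, e3⟩ := A.center_aux (x := y) (y := z) (z := x) hyz hxy.symm hxz.symm
        (by rw [A.bb_comm y x]; exact h1.trans h2) (by rw [A.bb_comm z x]; exact h2)
      exact ⟨g, by rw [A.bb_comm]; exact e2, by rw [A.bb_comm]; exact e3, e1⟩





/-- among three points with bounded products two have bounded product with `g` -/
theorem two_small {R : ℝ} {x y z : Z} (g : G) (hxy : x ≠ y) (hxz : x ≠ z) (hyz : y ≠ z)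
    (h1 : A.bb x y ≤ R) (h2 : A.bb x z ≤ R) (h3 : A.bb y z ≤ R) :
    (A.bg x g ≤ R + A.C ∧ A.bg y g ≤ R + A.C) ∨ (A.bg x g ≤ R + A.C ∧ A.bg z g ≤ R + A.C) ∨
      (A.bg y g ≤ R + A.C ∧ A.bg z g ≤ R + A.C) := by
  have key : ∀ u v : Z, u ≠ v → A.bb u v ≤ R → A.bg u g ≤ R + A.C ∨ A.bg v g ≤ R + A.C := by
    intro u v huv hR
    by_contra hcon
    push Not at hcon
    have h4 := A.h2 u v g huv
    have h5 : R + A.C < min (A.bg u g) (A.bg v g) := lt_min hcon.1 hcon.2
    linarith
  rcases key x y hxy h1 with hx | hy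
  · rcases key y z hyz h3 with hy | hz
    · exact Or.inl ⟨hx, hy⟩
    · exact Or.inr (Or.inl ⟨hx, hz⟩)
  · rcases key x z hxz h2 with hx | hz
    · exact Or.inl ⟨hx, hy⟩
    · exact Or.inr (Or.inr ⟨hy, hz⟩)


/-- an infinite set of group elements collapses some pair out of three given points -/
theorem collapse' (T : Set G) (hT : T.Infinite) (N : ℝ) {x y z : Z} (hxy : x ≠ y) (hxz : x ≠ z)
    (hyz : y ≠ z) :
    ∃ g ∈ T, N < A.bb (g • x) (g • y) ∨ N < A.bb (g • x) (g • z) ∨ N < A.bb (g • y) (g • z) := by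
  set R : ℝ := max (A.bb x y) (max (A.bb x z) (A.bb y z)) with hR
  have r1 : A.bb x y ≤ R := le_max_left _ _
  have r2 : A.bb x z ≤ R := (le_max_left _ _).trans (le_max_right _ _)
  have r3 : A.bb y z ≤ R := (le_max_right _ _).trans (le_max_right _ _)
  -- an element of large length
  obtain ⟨g, hgT, hg⟩ : ∃ g ∈ T, g ∉ {g : G | A.len g ≤ ⌈N + 2 * R + 4 * A.C⌉₊} := by
    by_contra hcon
    push Not at hcon
    exact hT ((A.fin _).subset hcon)
  have hlen : N + 2 * R + 4 * A.C < A.len g := by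
    simp only [Set.mem_ofPred_eq, not_le] at hg
    exact lt_of_le_of_lt (Nat.le_ceil _) (by exact_mod_cast hg)
  have hC := A.hC
  have key : ∀ u v : Z, u ≠ v → A.bg u g⁻¹ ≤ R + A.C → A.bg v g⁻¹ ≤ R + A.C →
      N < A.bb (g • u) (g • v) := by
    intro u v huv h3 h4
    have h5 := (abs_le.mp (A.id u v g huv)).1
    have h6 := A.bb_nonneg u v huv
    linarith
  refine ⟨g, hgT, ?_⟩
  rcases A.two_small g⁻¹ hxy hxz hyz r1 r2 r3 with h | h | h
  · exact Or.inl (key x y hxy h.1 h.2)
  · exact Or.inr (Or.inl (key x z hxz h.1 h.2))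
  · exact Or.inr (Or.inr (key y z hyz h.1 h.2))


end BAct

end Crest.Agent.R193.H4
end

-- ▼ part R193/K_Triples

/-! Row 193 (helper96), block H4: from `Setup` to properness / cocompactness on distinct triples and
the collapsing property (`KT1`, `KT2`). -/

set_option autoImplicit false

noncomputable section

open Set Filter Topology

namespace Crest.Agent.R193.K_Triples

open Crest.Agent.R193

variable {G Z : Type} [Group G] [MetricSpace Z] [MulAction G Z] (S : Setup G Z)

/-- `(x|y)` in terms of the visual metric -/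
def bb (S : Setup G Z) (x y : Z) : ℝ := -Real.log (dist x y) / S.ε

theorem bb_comm (x y : Z) : bb S x y = bb S y x := by unfold bb; rw [dist_comm]

theorem gp_le_left (g h : G) : gpOf S.len g h ≤ S.len g := by
  unfold gpOf
  have h1 : S.len h ≤ S.len g + S.len (g⁻¹ * h) := by
    have := S.len_mul g (g⁻¹ * h)
    rwa [mul_inv_cancel_left] at this
  have h2 : (S.len h : ℝ) ≤ S.len g + S.len (g⁻¹ * h) := by exact_mod_cast h1
  linarith

theorem gp_comm (g h : G) : gpOf S.len g h = gpOf S.len h g := by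
  unfold gpOf
  have : S.len (g⁻¹ * h) = S.len (h⁻¹ * g) := by
    rw [← S.len_inv (g⁻¹ * h), mul_inv_rev, inv_inv]
  rw [this]; ring

theorem gp_le_right (g h : G) : gpOf S.len g h ≤ S.len h := by
  rw [gp_comm]; exact gp_le_left S h g


theorem min_s_le (x y : Z) (hxy : x ≠ y) (g : G) : min (S.s x g) (S.s y g) - S.δ ≤ bb S x y := by
  have h1 := S.dist_le x y g
  have h2 : 0 < dist x y := dist_pos.mpr hxy
  have h3 := Real.log_le_log h2 h1
  rw [Real.log_exp] at h3
  unfold bb
  rw [le_div_iff₀ S.ε_pos]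
  nlinarith [S.ε_pos]

theorem bb_ge (x y : Z) (hxy : x ≠ y) : -S.δ ≤ bb S x y := by
  have h1 := min_s_le S x y hxy 1
  have h2 := S.s_nonneg x 1
  have h3 := S.s_nonneg y 1
  have h4 : 0 ≤ min (S.s x 1) (S.s y 1) := le_min h2 h3
  linarith

/-- along the ray to `y`, `(x|h) ≈ (x|y)` -/
theorem ray_approx (x y : Z) (hxy : x ≠ y) (h : G) (hh : bb S x y + S.δ < S.s y h) :
    |S.s x h - bb S x y| ≤ S.δ := by
  have hδ := S.one_le_δ
  have h1 := min_s_le S x y hxy h
  have h2 := S.le_s y x h hxy.symm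
  have h2' : min (S.s y h) (bb S x y) - S.δ ≤ S.s x h := by
    rw [bb_comm]; exact h2
  have h3 : min (S.s y h) (bb S x y) = bb S x y := min_eq_right (by linarith)
  rw [h3] at h2'
  rw [abs_le]
  constructor
  · linarith
  · rcases le_total (S.s x h) (S.s y h) with h4 | h4
    · rw [min_eq_left h4] at h1; linarith
    · rw [min_eq_right h4] at h1; linarith

theorem gp_approx (y : Z) (h k : G) (hh : (S.len k : ℝ) ≤ S.s y h) :
    |gpOf S.len h k - S.s y k| ≤ S.δ := by
  have h1 := S.hyp_s1 y h k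
  have h2 := S.hyp_s2 y h k
  have h3 := gp_le_right S h k
  have h4 := S.s_le y k
  rw [min_eq_right (by linarith)] at h1
  rw [min_eq_right (by linarith)] at h2
  rw [abs_le]
  constructor <;> linarith

/-- the cocycle identity for pairs of boundary points -/
theorem bb_smul (x y : Z) (hxy : x ≠ y) (k : G) :
    |bb S (k • x) (k • y) - (bb S x y - S.s x k⁻¹ - S.s y k⁻¹ + S.len k)| ≤ 4 * S.δ := by
  have hδ := S.one_le_δ
  have inj : k • x ≠ k • y := fun h => hxy (MulAction.injective k h)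
  -- choose a far point on the ray to `y`
  set B : ℝ := |bb S x y| + |bb S (k • x) (k • y)| + 4 * S.len k + 10 * S.δ with hB
  obtain ⟨h, hlen, hs⟩ := S.ray y ⌈B⌉₊
  have hs' : B - S.δ ≤ S.s y h := by
    have := Nat.le_ceil B
    linarith
  have hk0 : (0 : ℝ) ≤ S.len k := Nat.cast_nonneg _
  have a1 := abs_nonneg (bb S x y)
  have a2 := abs_nonneg (bb S (k • x) (k • y))
  have a3 := le_abs_self (bb S x y)
  have a4 := le_abs_self (bb S (k • x) (k • y))
  have e1 := ray_approx S x y hxy h (by linarith)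
  have e2 := gp_approx S y h k⁻¹ (by rw [S.len_inv]; linarith)
  have e3 := S.cocycle x h k
  have e4 := S.cocycle y h k
  have hyk := S.s_le y k⁻¹
  rw [S.len_inv] at hyk
  have hgk := gp_le_right S h k⁻¹
  rw [S.len_inv] at hgk
  have e5 : bb S (k • x) (k • y) + S.δ < S.s (k • y) (k * h) := by
    have := (abs_le.mp e4).1
    linarith
  have e6 := ray_approx S (k • x) (k • y) inj (k * h) e5
  rw [abs_le] at *
  constructor <;> linarith [e1.1, e1.2, e2.1, e2.2, e3.1, e3.2, e6.1, e6.2]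

/-- hyperbolicity for three boundary points -/
theorem bb_hyp (x y z : Z) (hxy : x ≠ y) (hyz : y ≠ z) (hxz : x ≠ z) :
    min (bb S x y) (bb S y z) - 3 * S.δ ≤ bb S x z := by
  have hδ := S.one_le_δ
  set B : ℝ := |bb S x y| + |bb S y z| + 2 * S.δ with hB
  obtain ⟨h, hlen, hs⟩ := S.ray y ⌈B⌉₊
  have hs' : B - S.δ ≤ S.s y h := by
    have := Nat.le_ceil B
    linarith
  have a1 := abs_nonneg (bb S x y)
  have a2 := abs_nonneg (bb S y z)
  have a3 := le_abs_self (bb S x y)
  have a4 := le_abs_self (bb S y z)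
  have e1 := S.le_s y x h hxy.symm
  have e2 := S.le_s y z h hyz
  have b1 : bb S y x ≤ S.s y h := by rw [bb_comm]; linarith
  have b2 : bb S y z ≤ S.s y h := by linarith
  have e1' : bb S x y - S.δ ≤ S.s x h := by
    have : min (S.s y h) (-Real.log (dist y x) / S.ε) = bb S y x := min_eq_right b1
    rw [this, bb_comm] at e1; exact e1
  have e2' : bb S y z - S.δ ≤ S.s z h := by
    have : min (S.s y h) (-Real.log (dist y z) / S.ε) = bb S y z := min_eq_right b2
    rw [this] at e2; exact e2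
  have e3 := min_s_le S x z hxz h
  have e4 : min (bb S x y) (bb S y z) - S.δ ≤ min (S.s x h) (S.s z h) :=
    le_min (by linarith [min_le_left (bb S x y) (bb S y z)])
      (by linarith [min_le_right (bb S x y) (bb S y z)])
  linarith

theorem lt_bb_iff (x y : Z) (hxy : x ≠ y) (N : ℝ) :
    N < bb S x y ↔ dist x y < Real.exp (-S.ε * N) := by
  have h2 : 0 < dist x y := dist_pos.mpr hxy
  unfold bb
  rw [lt_div_iff₀ S.ε_pos, ← Real.log_lt_iff_lt_exp h2]
  constructor <;> intro h <;> linarith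

theorem bb_le_iff (x y : Z) (hxy : x ≠ y) (N : ℝ) :
    bb S x y ≤ N ↔ Real.exp (-S.ε * N) ≤ dist x y := by
  rw [← not_lt, lt_bb_iff S x y hxy, not_lt]

/-- the abstract data used in `H4_Core` -/
def toBAct : H4.BAct G Z where
  len := S.len
  bb := fun x y => bb S x y + S.δ
  bg := S.s
  C := 5 * S.δ
  hC := by linarith [S.one_le_δ]
  fin := S.finite_ball
  len_inv := S.len_inv
  bb_comm := fun x y => by rw [bb_comm]
  bb_nonneg := fun x y hxy => by linarith [bb_ge S x y hxy]
  h1 := fun x y z hxy hyz hxz => by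
    have := bb_hyp S x y z hxy hyz hxz
    have hδ := S.one_le_δ
    rw [min_add_add_right]
    linarith
  h2 := fun x y g hxy => by
    have := min_s_le S x y hxy g
    have hδ := S.one_le_δ
    linarith
  h3 := fun x y g hxy => by
    have h := S.le_s y x g hxy.symm
    have hδ := S.one_le_δ
    have h' : min (bb S x y) (S.s y g) - S.δ ≤ S.s x g := by
      rw [min_comm, bb_comm]; exact h
    have h4 : min (bb S x y + S.δ) (S.s y g) ≤ min (bb S x y) (S.s y g) + S.δ := by
      rw [← min_add_add_right]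
      exact min_le_min le_rfl (by linarith)
    linarith
  id := fun x y g hxy => by
    have h := bb_smul S x y hxy g
    rw [abs_le] at h ⊢
    have hδ := S.one_le_δ
    constructor <;> linarith [h.1, h.2]
  ray := fun x n => by
    obtain ⟨g, h1, h2⟩ := S.ray x n
    exact ⟨g, h1, by linarith [S.one_le_δ]⟩
  nhds1 := fun x W hW => by
    obtain ⟨r, hr, hrW⟩ := Metric.mem_nhds_iff.mp hW
    refine ⟨-Real.log r / S.ε + S.δ, fun y hyx h => hrW ?_⟩
    have h1 : -Real.log r / S.ε < bb S x y := by linarith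
    rw [lt_bb_iff S x y hyx.symm] at h1
    rw [Metric.mem_ball, dist_comm]
    refine lt_of_lt_of_le h1 (le_of_eq ?_)
    have : -S.ε * (-Real.log r / S.ε) = Real.log r := by
      have := S.ε_pos.ne'
      field_simp
    rw [this, Real.exp_log hr]
  nhds2 := fun x N => by
    refine ⟨Metric.ball x (Real.exp (-S.ε * N)), Metric.ball_mem_nhds _ (Real.exp_pos _),
      fun y hy hyx => ?_⟩
    have h1 : N < bb S x y := by
      rw [lt_bb_iff S x y hyx.symm]
      rwa [Metric.mem_ball, dist_comm] at hy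
    linarith [S.one_le_δ]

/-- KT1: an infinite set of group elements collapses some pair out of three points -/
theorem KT1 {G Z : Type} [Group G] [MetricSpace Z] [MulAction G Z] (S : Setup G Z) (a b c : Z)
    (hab : a ≠ b) (hbc : b ≠ c) (hac : a ≠ c) (T : Set G) (hT : T.Infinite) (r : ℝ) (hr : 0 < r) :
    ∃ g ∈ T, ∃ x y : Z, (x = a ∨ x = b) ∧ (y = b ∨ y = c) ∧ x ≠ y ∧ dist (g • x) (g • y) ≤ r := by
  obtain ⟨g, hg, h⟩ := (toBAct S).collapse' T hT (-Real.log r / S.ε + S.δ) hab hac hbc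
  have key : ∀ u v : Z, u ≠ v → -Real.log r / S.ε + S.δ < (toBAct S).bb (g • u) (g • v) →
      dist (g • u) (g • v) ≤ r := by
    intro u v huv h
    have hne : g • u ≠ g • v := fun e => huv (MulAction.injective g e)
    have h1 : -Real.log r / S.ε < bb S (g • u) (g • v) := by
      have : (toBAct S).bb (g • u) (g • v) = bb S (g • u) (g • v) + S.δ := rfl
      linarith
    rw [lt_bb_iff S _ _ hne] at h1
    refine (lt_of_lt_of_le h1 (le_of_eq ?_)).le
    have : -S.ε * (-Real.log r / S.ε) = Real.log r := by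
      have := S.ε_pos.ne'
      field_simp
    rw [this, Real.exp_log hr]
  rcases h with h | h | h
  · exact ⟨g, hg, a, b, Or.inl rfl, Or.inl rfl, hab, key a b hab h⟩
  · exact ⟨g, hg, a, c, Or.inl rfl, Or.inr rfl, hac, key a c hac h⟩
  · exact ⟨g, hg, b, c, Or.inr rfl, Or.inr rfl, hbc, key b c hbc h⟩

/-- KT2: every distinct triple can be moved to a uniformly separated one -/
theorem KT2 {G Z : Type} [Group G] [MetricSpace Z] [MulAction G Z] (S : Setup G Z) :
    ∃ c > 0, ∀ x y z : Z, x ≠ y → y ≠ z → x ≠ z → ∃ g : G,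
      c ≤ dist (g • x) (g • y) ∧ c ≤ dist (g • y) (g • z) ∧ c ≤ dist (g • x) (g • z) := by
  refine ⟨Real.exp (-S.ε * (1 + 30 * S.δ)), Real.exp_pos _, ?_⟩
  intro x y z hxy hyz hxz
  obtain ⟨g, e1, e2, e3⟩ := (toBAct S).center hxy hxz hyz
  have key : ∀ u v : Z, u ≠ v → (toBAct S).bb (g • u) (g • v) ≤ 1 + 6 * (toBAct S).C →
      Real.exp (-S.ε * (1 + 30 * S.δ)) ≤ dist (g • u) (g • v) := by
    intro u v huv h
    have hne : g • u ≠ g • v := fun e => huv (MulAction.injective g e)
    rw [← bb_le_iff S _ _ hne]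
    have h1 : (toBAct S).bb (g • u) (g • v) = bb S (g • u) (g • v) + S.δ := rfl
    have h2 : (toBAct S).C = 5 * S.δ := rfl
    have hδ := S.one_le_δ
    rw [h1, h2] at h
    linarith
  exact ⟨g, key x y hxy e1, key y z hyz e3, key x z hxz e2⟩



end Crest.Agent.R193.K_Triples
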