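import Mathlib
import Crest.Agent.R193.Defs
import Crest.Agent.R193.K_Triples

/-! Row 193 (helper96), block GEO: regularised closed shadows and their metric properties, poles of
sequences of group elements, connectedness of the punctured boundary. -/

set_option autoImplicit false

noncomputable section

open Set Filter Topology

namespace Crest.Agent.R193.GEO_Levels

open Crest.Agent.R193 Crest.Agent.R193.K_Triples

variable {G Z : Type} [Group G] [MetricSpace Z] [MulAction G Z]

/-! ### elementary facts -/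

theorem s_one (S : Setup G Z) (x : Z) : S.s x 1 = 0 := by
  have h1 := S.s_nonneg x 1
  have h2 := S.s_le x 1
  rw [S.len_one] at h2
  push_cast at h2
  linarith

theorem gp_one (S : Setup G Z) (k : G) : gpOf S.len 1 k = 0 := by
  unfold gpOf
  rw [S.len_one]
  simp

/-- `(g x | g) = |g| - (x|g⁻¹)` up to `δ` -/
theorem s_smul (S : Setup G Z) (x : Z) (g : G) :
    |S.s (g • x) g - (S.len g - S.s x g⁻¹)| ≤ S.δ := by
  have h := S.cocycle x 1 g
  rw [mul_one, s_one, gp_one] at h
  rw [abs_le] at h ⊢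
  constructor <;> linarith [h.1, h.2]

theorem mem_Sh_of_mem_Gd (S : Setup G Z) {R : ℝ} {g : G} {x : Z} (hx : x ∈ S.Gd R g) :
    g • x ∈ S.Sh (R + S.δ) g := by
  have h := (abs_le.mp (s_smul S x g)).1
  have hx' : S.s x g⁻¹ ≤ R := hx
  show (S.len g : ℝ) - (R + S.δ) ≤ S.s (g • x) g
  linarith

theorem mem_Gd_of_mem_Sh (S : Setup G Z) {R : ℝ} {g : G} {x : Z} (hx : g • x ∈ S.Sh R g) :
    x ∈ S.Gd (R + S.δ) g := by
  have h := (abs_le.mp (s_smul S x g)).2
  have hx' : (S.len g : ℝ) - R ≤ S.s (g • x) g := hx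
  show S.s x g⁻¹ ≤ R + S.δ
  linarith

theorem Sh_mono (S : Setup G Z) {R R' : ℝ} (h : R ≤ R') (g : G) : S.Sh R g ⊆ S.Sh R' g := by
  intro x hx
  have hx' : (S.len g : ℝ) - R ≤ S.s x g := hx
  show (S.len g : ℝ) - R' ≤ S.s x g
  linarith

/-- `s · g` is almost locally constant -/
theorem s_near (S : Setup G Z) (x y : Z) (g : G) (h : dist x y < Real.exp (-S.ε * S.len g)) :
    S.s x g - S.δ ≤ S.s y g := by
  have hδ := S.one_le_δ
  by_cases hxy : x = y
  · subst hxy; linarith
  · have h1 := S.le_s x y g hxy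
    have h2 := (lt_bb_iff S x y hxy (S.len g)).mpr h
    have h3 := S.s_le x g
    have h4 : min (S.s x g) (-Real.log (dist x y) / S.ε) = S.s x g := by
      apply min_eq_left
      unfold bb at h2
      linarith
    rw [h4] at h1
    exact h1

theorem closure_Sh_subset (S : Setup G Z) (R : ℝ) (g : G) :
    closure (S.Sh R g) ⊆ S.Sh (R + S.δ) g := by
  intro x hx
  obtain ⟨y, hy, hxy⟩ := Metric.mem_closure_iff.mp hx _ (Real.exp_pos (-S.ε * S.len g))
  have h := s_near S y x g (by rw [dist_comm]; exact hxy)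
  have hy' : (S.len g : ℝ) - R ≤ S.s y g := hy
  show (S.len g : ℝ) - (R + S.δ) ≤ S.s x g
  linarith

theorem Sh_subset_interior (S : Setup G Z) (R : ℝ) (g : G) :
    S.Sh R g ⊆ interior (S.Sh (R + S.δ) g) := by
  intro x hx
  rw [mem_interior_iff_mem_nhds]
  refine mem_of_superset (Metric.ball_mem_nhds x (Real.exp_pos (-S.ε * S.len g))) fun y hy => ?_
  have h := s_near S x y g (by rw [dist_comm]; exact hy)
  have hx' : (S.len g : ℝ) - R ≤ S.s x g := hx
  show (S.len g : ℝ) - (R + S.δ) ≤ S.s y g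
  linarith

/-! ### regularised closed shadows -/

/-- radius of the `R`-th regularised shadow -/
def rad (S : Setup G Z) (R : ℕ) : ℝ := S.δ + 2 * S.δ * R

/-- regularised (closed) shadows -/
def Shc (S : Setup G Z) (R : ℕ) (g : G) : Set Z := closure (S.Sh (rad S R) g)

theorem isClosed_Shc (S : Setup G Z) (R : ℕ) (g : G) : IsClosed (Shc S R g) := isClosed_closure

theorem rad_succ (S : Setup G Z) (R : ℕ) : rad S (R + 1) = rad S R + S.δ + S.δ := by
  unfold rad; push_cast; ring


theorem le_rad (S : Setup G Z) (R : ℕ) : (R : ℝ) ≤ rad S R := by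
  have hδ := S.one_le_δ
  unfold rad
  have : (0 : ℝ) ≤ R := Nat.cast_nonneg R
  nlinarith

theorem Sh_subset_Shc (S : Setup G Z) (R : ℕ) (g : G) : S.Sh (rad S R) g ⊆ Shc S R g :=
  subset_closure

theorem Shc_subset_Sh (S : Setup G Z) (R : ℕ) (g : G) : Shc S R g ⊆ S.Sh (rad S R + S.δ) g :=
  closure_Sh_subset S _ g

theorem Shc_subset_interior (S : Setup G Z) (R : ℕ) (g : G) :
    Shc S R g ⊆ interior (Shc S (R + 1) g) := by
  refine (Shc_subset_Sh S R g).trans ((Sh_subset_interior S _ g).trans (interior_mono ?_))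
  rw [← rad_succ]
  exact Sh_subset_Shc S (R + 1) g


theorem cover_Shc (S : Setup G Z) (x : Z) (n : ℕ) : ∃ g ∈ S.sph n, x ∈ Shc S 0 g := by
  obtain ⟨g, h1, h2⟩ := S.ray x n
  refine ⟨g, ?_, subset_closure ?_⟩
  · unfold Setup.sph
    rw [Set.Finite.mem_toFinset]
    exact h1
  · show (S.len g : ℝ) - rad S 0 ≤ S.s x g
    rw [h1]
    unfold rad
    push_cast
    linarith

theorem mem_sph (S : Setup G Z) {n : ℕ} {g : G} : g ∈ S.sph n ↔ S.len g = n := by
  unfold Setup.sph
  rw [Set.Finite.mem_toFinset]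
  rfl

/-- two elements of the same length with intersecting shadows are close -/
theorem len_le_of_inter (S : Setup G Z) {a b : ℝ} {g h : G} {x : Z} {n : ℕ} (hg : S.len g = n)
    (hh : S.len h = n) (hxg : x ∈ S.Sh a g) (hxh : x ∈ S.Sh b h) :
    (S.len (g⁻¹ * h) : ℝ) ≤ 2 * (max a b + S.δ) := by
  have h1 := S.hyp_s2 x g h
  have hxg' : (S.len g : ℝ) - a ≤ S.s x g := hxg
  have hxh' : (S.len h : ℝ) - b ≤ S.s x h := hxh
  rw [hg] at hxg'
  rw [hh] at hxh'
  have h2 : (n : ℝ) - max a b ≤ min (S.s x g) (S.s x h) :=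
    le_min (by linarith [le_max_left a b]) (by linarith [le_max_right a b])
  have h3 : gpOf S.len g h = ((n : ℝ) + n - S.len (g⁻¹ * h)) / 2 := by
    unfold gpOf; rw [hg, hh]
  rw [h3] at h1
  linarith

/-- number of elements in a set of `h` with `g⁻¹ h` in a ball -/
theorem card_le_of_close (S : Setup G Z) (g : G) (M : ℕ) (A : Finset G)
    (hA : ∀ h ∈ A, S.len (g⁻¹ * h) ≤ M) : A.card ≤ (S.bal M).card := by
  classical
  have hinj : Set.InjOn (fun h => g⁻¹ * h) (A : Set G) := fun a _ b _ hab => mul_left_cancel hab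
  rw [← Finset.card_image_of_injOn hinj]
  refine Finset.card_le_card fun k hk => ?_
  obtain ⟨h, hh, rfl⟩ := Finset.mem_image.mp hk
  unfold Setup.bal
  rw [Set.Finite.mem_toFinset]
  exact hA h hh

open Classical in
/-- bounded valence of the shadows of one level -/
theorem overlap_Shc (S : Setup G Z) (R : ℕ) : ∃ C : ℕ, ∀ (n : ℕ) (g : G), g ∈ S.sph n →
    ((S.sph n).filter (fun h => (Shc S R g ∩ Shc S R h).Nonempty)).card ≤ C := by
  refine ⟨(S.bal ⌈2 * (rad S R + S.δ + S.δ)⌉₊).card, fun n g hg => ?_⟩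
  refine card_le_of_close S g _ _ fun h hh => ?_
  rw [Finset.mem_filter] at hh
  obtain ⟨hh1, x, hx1, hx2⟩ := hh
  have h1 := len_le_of_inter S ((mem_sph S).mp hg) ((mem_sph S).mp hh1) (Shc_subset_Sh S R g hx1)
    (Shc_subset_Sh S R h hx2)
  rw [max_self] at h1
  exact_mod_cast h1.trans (Nat.le_ceil _)

open Classical in
/-- bounded multiplicity of the cover by shadows of one level -/
theorem mult_Shc (S : Setup G Z) (R : ℕ) : ∃ C : ℕ, ∀ (n : ℕ) (x : Z),
    ((S.sph n).filter (fun g => x ∈ Shc S R g)).card ≤ C := by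
  obtain ⟨C, hC⟩ := overlap_Shc S R
  refine ⟨C, fun n x => ?_⟩
  by_cases hne : ((S.sph n).filter (fun g => x ∈ Shc S R g)).Nonempty
  · obtain ⟨g, hg⟩ := hne
    rw [Finset.mem_filter] at hg
    refine (Finset.card_le_card fun h hh => ?_).trans (hC n g hg.1)
    rw [Finset.mem_filter] at hh ⊢
    exact ⟨hh.1, x, hg.2, hh.2⟩
  · rw [Finset.not_nonempty_iff_eq_empty] at hne
    rw [hne]; simp

/-- diameters of shadows -/
theorem dist_le_of_mem_Shc (S : Setup G Z) (R : ℕ) (g : G) {x y : Z} (hx : x ∈ Shc S R g)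
    (hy : y ∈ Shc S R g) :
    dist x y ≤ Real.exp (-S.ε * (S.len g - (rad S R + 2 * S.δ))) := by
  have hx' : (S.len g : ℝ) - (rad S R + S.δ) ≤ S.s x g := Shc_subset_Sh S R g hx
  have hy' : (S.len g : ℝ) - (rad S R + S.δ) ≤ S.s y g := Shc_subset_Sh S R g hy
  refine (S.dist_le x y g).trans (Real.exp_le_exp.mpr ?_)
  have h : (S.len g : ℝ) - (rad S R + S.δ) ≤ min (S.s x g) (S.s y g) := le_min hx' hy'
  have hε := S.ε_pos
  nlinarith

theorem diam_Shc (S : Setup G Z) (R : ℕ) (η : ℝ) (hη : 0 < η) : ∃ N : ℕ, ∀ g : G, N ≤ S.len g →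
    ∀ x ∈ Shc S R g, ∀ y ∈ Shc S R g, dist x y ≤ η := by
  have hε := S.ε_pos
  obtain ⟨N, hN⟩ := exists_nat_ge (-Real.log η / S.ε + (rad S R + 2 * S.δ))
  refine ⟨N, fun g hg x hx y hy => (dist_le_of_mem_Shc S R g hx hy).trans ?_⟩
  rw [← Real.le_log_iff_exp_le hη]
  have h1 : (N : ℝ) ≤ S.len g := by exact_mod_cast hg
  have h2 : -Real.log η / S.ε ≤ S.len g - (rad S R + 2 * S.δ) := by linarith
  rw [div_le_iff₀ hε] at h2
  linarith

/-! ### poles -/

/-- the limit of the poles of a sequence of group elements: both statements of helper120's interface.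
`l` is any ultrafilter along which the lengths tend to infinity. -/
theorem exists_pole {ι : Type*} [CompactSpace Z] (S : Setup G Z) (l : Ultrafilter ι) (g : ι → G)
    (hg : Tendsto (fun k => S.len (g k)) l atTop) :
    ∃ a : Z, (∀ K : Set Z, IsClosed K → a ∉ K → ∃ R : ℝ, 0 ≤ R ∧ ∀ᶠ k in l, ∀ x ∈ K,
        x ∈ S.Gd R (g k)) ∧
      (∀ R : ℝ, ∃ N ∈ 𝓝 a, ∀ᶠ k in l, ∀ x ∈ N, x ∉ S.Gd R (g k)) := by
  have hδ := S.one_le_δ
  have hε := S.ε_pos
  choose x hx using fun k => S.star (g k)⁻¹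
  have hcpt : ∃ a : Z, Tendsto x l (𝓝 a) := by
    obtain ⟨a, -, ha⟩ := (isCompact_univ (X := Z)).ultrafilter_le_nhds (l.map x) (by simp)
    exact ⟨a, ha⟩
  obtain ⟨a, ha⟩ := hcpt
  have hlen : ∀ B : ℝ, ∀ᶠ k in l, B < S.len (g k)⁻¹ := by
    intro B
    filter_upwards [hg.eventually_gt_atTop ⌈B⌉₊] with k hk
    rw [S.len_inv]
    exact lt_of_le_of_lt (Nat.le_ceil B) (by exact_mod_cast hk)
  refine ⟨a, ?_, ?_⟩
  · intro K hK haK
    obtain ⟨r, hr, hball⟩ := Metric.isOpen_iff.mp hK.isOpen_compl a haK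
    have hr2 : 0 < r / 2 := by linarith
    set ρ : ℝ := -Real.log (r / 2) / S.ε + S.δ with hρ
    refine ⟨max ρ 0, le_max_right _ _, ?_⟩
    filter_upwards [hlen (ρ + S.δ), Metric.tendsto_nhds.mp ha (r / 2) hr2] with k hk1 hk2
    intro y hy
    show S.s y (g k)⁻¹ ≤ max ρ 0
    refine le_trans ?_ (le_max_left _ _)
    have hd : r / 2 ≤ dist y (x k) := by
      by_contra hcon
      push Not at hcon
      have : y ∈ Metric.ball a r := by
        rw [Metric.mem_ball]
        have := dist_triangle y (x k) a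
        linarith
      exact hball this hy
    have hne : y ≠ x k := by
      intro h; rw [h, dist_self] at hd; linarith
    have h1 := min_s_le S y (x k) hne (g k)⁻¹
    have h2 : bb S y (x k) ≤ -Real.log (r / 2) / S.ε := by
      unfold bb
      have := Real.log_le_log hr2 hd
      exact div_le_div_of_nonneg_right (by linarith) hε.le
    have h3 := hx k
    by_contra hcon
    push Not at hcon
    have h4 : ρ < min (S.s y (g k)⁻¹) (S.s (x k) (g k)⁻¹) := lt_min hcon (by linarith)
    linarith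
  · intro R
    set t : ℝ := Real.exp (-S.ε * (R + 2 * S.δ)) with ht
    have htpos : 0 < t := Real.exp_pos _
    refine ⟨Metric.ball a (t / 2), Metric.ball_mem_nhds a (by linarith), ?_⟩
    filter_upwards [hlen (R + 4 * S.δ), Metric.tendsto_nhds.mp ha (t / 2) (by linarith)] with k hk1 hk2
    intro y hy hyG
    have hyG' : S.s y (g k)⁻¹ ≤ R := hyG
    have hd : dist (x k) y < t := by
      have := dist_triangle (x k) a y
      rw [Metric.mem_ball, dist_comm] at hy
      linarith
    have h3 := hx k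
    by_cases hne : x k = y
    · rw [hne] at h3
      linarith
    · have h1 := S.le_s (x k) y (g k)⁻¹ hne
      have h2 := (lt_bb_iff S (x k) y hne (R + 2 * S.δ)).mpr hd
      have h2' : R + 2 * S.δ < -Real.log (dist (x k) y) / S.ε := h2
      have h4 : R + 2 * S.δ < min (S.s (x k) (g k)⁻¹) (-Real.log (dist (x k) y) / S.ε) :=
        lt_min (by linarith) h2'
      linarith

/-- the same in terms of regularised shadows -/
theorem exists_pole_Shc {ι : Type*} [CompactSpace Z] (S : Setup G Z) (l : Ultrafilter ι)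
    (g : ι → G) (hg : Tendsto (fun k => S.len (g k)) l atTop) :
    ∃ a : Z, (∀ K : Set Z, IsClosed K → a ∉ K → ∃ R : ℕ, ∀ᶠ k in l, ∀ x ∈ K,
        g k • x ∈ Shc S R (g k)) ∧
      (∀ R : ℕ, ∃ N ∈ 𝓝 a, ∀ᶠ k in l, ∀ x ∈ N, g k • x ∉ Shc S R (g k)) := by
  obtain ⟨a, h1, h2⟩ := exists_pole S l g hg
  refine ⟨a, fun K hK haK => ?_, fun R => ?_⟩
  · obtain ⟨R, hR, h⟩ := h1 K hK haK
    refine ⟨⌈R + S.δ⌉₊, ?_⟩
    filter_upwards [h] with k hk x hx
    refine Sh_subset_Shc S _ _ (Sh_mono S ?_ _ (mem_Sh_of_mem_Gd S (hk x hx)))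
    exact (Nat.le_ceil _).trans (le_rad S _)
  · obtain ⟨N, hN, h⟩ := h2 (rad S R + S.δ + S.δ)
    refine ⟨N, hN, ?_⟩
    filter_upwards [h] with k hk x hx hmem
    exact hk x hx (mem_Gd_of_mem_Sh S (Shc_subset_Sh S R _ hmem))

/-! ### topology of the boundary sphere -/

theorem compactSpace_of_homeo (Φ : Z ≃ₜ S2) : CompactSpace Z := Φ.symm.compactSpace

/-- the sphere minus a point is connected -/
theorem S2_compl_singleton (p : S2) : IsConnected ({p}ᶜ : Set S2) := by
  have hp : ‖(p : EuclideanSpace ℝ (Fin 3))‖ = 1 := by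
    have := p.2
    rwa [mem_sphere_zero_iff_norm] at this
  have hsrc : (stereographic hp).source = {⟨(p : EuclideanSpace ℝ (Fin 3)), by simp [hp]⟩}ᶜ :=
    stereographic_source hp
  have himg : (stereographic hp).symm '' univ = ({p}ᶜ : Set S2) := by
    rw [← stereographic_target hp, (stereographic hp).symm_image_target_eq_source, hsrc]
  rw [← himg]
  refine IsConnected.image isConnected_univ _ ?_
  have := (stereographic hp).continuousOn_symm
  rwa [stereographic_target] at this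

theorem compl_singleton_connected (Φ : Z ≃ₜ S2) (a : Z) : IsConnected ({a}ᶜ : Set Z) := by
  have h := (S2_compl_singleton (Φ a)).image Φ.symm Φ.symm.continuous.continuousOn
  convert h using 1
  ext x
  constructor
  · intro hx
    exact ⟨Φ x, fun h => hx (Φ.injective h), by simp⟩
  · rintro ⟨y, hy, rfl⟩ h
    apply hy
    rw [mem_singleton_iff] at h ⊢
    rw [← h]; simp

end Crest.Agent.R193.GEO_Levels
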