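import Mathlib
import Crest.Agent.R193.Planar1

/-!
# R193 planar toolkit 4 (helper983): separating sets `Sep`, connected separators, chains of loops
-/

set_option autoImplicit false

open Set Filter Topology Metric

namespace Crest.Agent.R193.Planar

section

variable {X : Type*} [TopologicalSpace X] {ι : Type*}

/-- `σ` separates `D` from `E`: every preconnected set meeting both meets `σ`. -/
def Sep (D E σ : Set X) : Prop :=
  ∀ S : Set X, IsPreconnected S → (S ∩ D).Nonempty → (S ∩ E).Nonempty → (S ∩ σ).Nonempty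

lemma Sep.mono {D E D' E' σ τ : Set X} (h : Sep D E σ) (hD : D' ⊆ D) (hE : E' ⊆ E) (hσ : σ ⊆ τ) :
    Sep D' E' τ := fun S hS h1 h2 =>
  (h S hS (h1.mono (inter_subset_inter_right _ hD)) (h2.mono (inter_subset_inter_right _ hE))).mono
    (inter_subset_inter_right _ hσ)

lemma Sep.symm {D E σ : Set X} (h : Sep D E σ) : Sep E D σ := fun S hS h1 h2 => h S hS h2 h1

/-- images under homeomorphisms -/
lemma Sep.image {Y : Type*} [TopologicalSpace Y] {D E σ : Set X} (h : Sep D E σ) (e : X ≃ₜ Y) :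
    Sep (e '' D) (e '' E) (e '' σ) := by
  intro S hS h1 h2
  have hS' : IsPreconnected (e ⁻¹' S) := by
    have he : e ⁻¹' S = e.symm '' S := by
      ext x
      constructor
      · intro hx
        exact ⟨e x, hx, e.symm_apply_apply x⟩
      · rintro ⟨y, hy, rfl⟩
        show e (e.symm y) ∈ S
        rw [e.apply_symm_apply]
        exact hy
    rw [he]
    exact hS.image _ e.symm.continuous.continuousOn
  have k1 : (e ⁻¹' S ∩ D).Nonempty := by
    obtain ⟨_, hy, x, hx, rfl⟩ := h1
    exact ⟨x, hy, hx⟩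
  have k2 : (e ⁻¹' S ∩ E).Nonempty := by
    obtain ⟨_, hy, x, hx, rfl⟩ := h2
    exact ⟨x, hy, hx⟩
  obtain ⟨x, hx1, hx2⟩ := h _ hS' k1 k2
  exact ⟨e x, hx1, x, hx2, rfl⟩


omit [TopologicalSpace X] in
/-- a graph-connected family is connected by chains -/
theorem FamConn.reflTransGen {U : ι → Set X} {c : Finset ι} (h : FamConn U c) {i j : ι}
    (hi : i ∈ c) (hj : j ∈ c) :
    Relation.ReflTransGen (fun a b => (U a ∩ U b).Nonempty ∧ a ∈ c) i j := by
  classical
  set d := c.filter fun j => Relation.ReflTransGen (fun a b => (U a ∩ U b).Nonempty ∧ a ∈ c) i j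
    with hd
  have hid : i ∈ d := by
    rw [hd, Finset.mem_filter]
    exact ⟨hi, Relation.ReflTransGen.refl⟩
  by_contra hcon
  have hdc : d ≠ c := fun h' => hcon (by
    have : j ∈ d := by rw [h']; exact hj
    rw [hd, Finset.mem_filter] at this
    exact this.2)
  obtain ⟨a, had, b, hb, hbd, hab⟩ := h d (Finset.filter_subset _ _) ⟨i, hid⟩ hdc
  rw [hd, Finset.mem_filter] at had
  exact hbd (by
    rw [hd, Finset.mem_filter]
    exact ⟨hb, had.2.tail ⟨hab, had.1⟩⟩)

/-- a graph-connected family of preconnected sets has preconnected union -/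
theorem FamConn.isPreconnected {U : ι → Set X} {c : Finset ι} (h : FamConn U c)
    (hU : ∀ i ∈ c, IsPreconnected (U i)) : IsPreconnected (⋃ i ∈ c, U i) :=
  IsPreconnected.biUnion_of_reflTransGen (t := (c : Set ι)) hU fun _ hi _ hj =>
    h.reflTransGen hi hj

/-- functional separation gives `Sep` for the points -/
lemma FSep.sep {F : Set X} {x y : X} (h : FSep F x y) : Sep {x} {y} F := by
  intro S hS h1 h2
  obtain ⟨z, hz, hzx⟩ := h1
  obtain ⟨w, hw, hwy⟩ := h2
  rw [mem_singleton_iff] at hzx hwy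
  subst hzx
  subst hwy
  exact h.inter_nonempty hS hz hw

/-- separation of a point of `D` from a point of `E` propagates to `D | E` when `D`, `E` are
connected and miss `F` -/
lemma Sep.of_points {D E F : Set X} (hD : IsPreconnected D) (hE : IsPreconnected E)
    (hDF : Disjoint D F) (hEF : Disjoint E F) {x y : X} (hx : x ∈ D) (hy : y ∈ E)
    (h : Sep {x} {y} F) : Sep D E F := by
  intro S hS h1 h2
  obtain ⟨a, haS, haD⟩ := h1
  obtain ⟨b, hbS, hbE⟩ := h2
  have hc : IsPreconnected (D ∪ S ∪ E) :=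
    (hD.union a haD haS hS).union b (Or.inr hbS) hbE hE
  obtain ⟨z, hz, hzF⟩ := h _ hc ⟨x, Or.inl (Or.inl hx), rfl⟩ ⟨y, Or.inr hy, rfl⟩
  rcases hz with (hz | hz) | hz
  · exact absurd hzF (disjoint_left.1 hDF hz)
  · exact ⟨z, hz, hzF⟩
  · exact absurd hzF (disjoint_left.1 hEF hz)

/-- **P3 for sets.** If a finite union of closed connected sets `U i` (`i ∈ s`) separates the
connected nonempty sets `D`, `E` which it does not meet, then a graph-connected subfamily with
connected union separates them. -/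
theorem Splits.exists_connected_sep [LocallyConnectedSpace X] (hX : Splits X) (U : ι → Set X)
    (hU : ∀ i, IsClosed (U i)) (s : Finset ι) (hUc : ∀ i ∈ s, IsPreconnected (U i)) {D E : Set X}
    (hD : IsPreconnected D) (hE : IsPreconnected E) (hDne : D.Nonempty) (hEne : E.Nonempty)
    (hDF : Disjoint D (⋃ i ∈ s, U i)) (hEF : Disjoint E (⋃ i ∈ s, U i))
    (h : Sep D E (⋃ i ∈ s, U i)) :
    ∃ c ⊆ s, Sep D E (⋃ i ∈ c, U i) ∧ FamConn U c ∧ IsPreconnected (⋃ i ∈ c, U i) := by
  obtain ⟨x, hx⟩ := hDne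
  obtain ⟨y, hy⟩ := hEne
  have hcl : IsClosed (⋃ i ∈ s, U i) := isClosed_biUnion_finset fun i _ => hU i
  have h1 : FSep (⋃ i ∈ s, U i) x y := fsep_of_forall hcl (disjoint_left.1 hDF hx)
    (disjoint_left.1 hEF hy) fun S hS hxS hyS => h S hS ⟨x, hxS, hx⟩ ⟨y, hyS, hy⟩
  obtain ⟨c, hcs, hc, hfam⟩ := hX.exists_famConn U hU s h1
  have hsub : (⋃ i ∈ c, U i) ⊆ ⋃ i ∈ s, U i := biUnion_subset_biUnion_left fun i hi => hcs hi
  refine ⟨c, hcs, Sep.of_points hD hE (hDF.mono_right hsub) (hEF.mono_right hsub) hx hy hc.sep,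
    hfam, hfam.isPreconnected fun i hi => hUc i (hcs hi)⟩


end

/-! ### the sphere -/

instance : LocallyConnectedSpace S2 := ChartedSpace.locallyConnectedSpace (EuclideanSpace ℝ (Fin 2)) S2

lemma S2_connected : ConnectedSpace S2 := by
  have : IsConnected (sphere (0 : EuclideanSpace ℝ (Fin 3)) 1) :=
    isConnected_sphere (by
      rw [← Module.finrank_eq_rank, finrank_euclideanSpace]
      norm_num) 0 zero_le_one
  exact isConnected_iff_connectedSpace.1 this

end Crest.Agent.R193.Planar
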