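import Crest.Agent.R193.Defs

/-!
# R193: basic API on top of `Setup`
-/

set_option autoImplicit false

noncomputable section

open Set Filter Topology

namespace Crest.Agent.R193.S_Basic

variable {G Z : Type} [Group G] [MetricSpace Z] [MulAction G Z] (S : Setup G Z)

/-! ### the Gromov product on the group -/

theorem gp_eq (g h : G) :
    S.gp g h = ((S.len g : ℝ) + (S.len h : ℝ) - (S.len (g⁻¹ * h) : ℝ)) / 2 := rfl

theorem δ_pos : 0 < S.δ := lt_of_lt_of_le one_pos S.one_le_δ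

theorem len_inv_mul_comm (g h : G) : S.len (g⁻¹ * h) = S.len (h⁻¹ * g) := by
  rw [← S.len_inv (g⁻¹ * h)]
  congr 1
  group

theorem len_inv_mul_le (g h : G) : (S.len (g⁻¹ * h) : ℝ) ≤ S.len g + S.len h := by
  have := S.len_mul g⁻¹ h
  rw [S.len_inv] at this
  exact_mod_cast this

theorem len_le_add_right (g h : G) : (S.len h : ℝ) ≤ S.len g + S.len (g⁻¹ * h) := by
  have := S.len_mul g (g⁻¹ * h)
  rw [mul_inv_cancel_left] at this
  exact_mod_cast this


theorem gp_symm (g h : G) : S.gp g h = S.gp h g := by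
  rw [gp_eq, gp_eq, len_inv_mul_comm]
  ring

theorem gp_nonneg (g h : G) : 0 ≤ S.gp g h := by
  rw [gp_eq]
  have := len_inv_mul_le S g h
  linarith

theorem gp_le_left (g h : G) : S.gp g h ≤ S.len g := by
  rw [gp_eq]
  have := len_le_add_right S g h
  linarith

theorem gp_le_right (g h : G) : S.gp g h ≤ S.len h := by
  rw [gp_symm]
  exact gp_le_left S h g

theorem gp_one_left (h : G) : S.gp 1 h = 0 := by
  apply le_antisymm
  · have := gp_le_left S 1 h
    rw [S.len_one] at this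
    simpa using this
  · exact gp_nonneg S 1 h



theorem len_inv_mul_eq (g h : G) :
    (S.len (g⁻¹ * h) : ℝ) = S.len g + S.len h - 2 * S.gp g h := by
  rw [gp_eq]
  ring



theorem hyp (g h k : G) : min (S.gp g h) (S.gp h k) - S.δ ≤ S.gp g k := S.hyp g h k

/-! ### products of a boundary point and a group element -/

theorem s_one (x : Z) : S.s x 1 = 0 := by
  apply le_antisymm
  · have := S.s_le x 1
    rw [S.len_one] at this
    simpa using this
  · exact S.s_nonneg x 1

theorem hyp_s1 (x : Z) (g h : G) : min (S.s x g) (S.gp g h) - S.δ ≤ S.s x h := S.hyp_s1 x g h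

theorem hyp_s2 (x : Z) (g h : G) : min (S.s x g) (S.s x h) - S.δ ≤ S.gp g h := S.hyp_s2 x g h

theorem cocycle (x : Z) (g k : G) :
    |S.s (k • x) (k * g) - (S.s x g - S.s x k⁻¹ - S.gp g k⁻¹ + S.len k)| ≤ S.δ :=
  S.cocycle x g k

/-- lower cocycle bound -/
theorem cocycle_lb (x : Z) (g k : G) :
    S.s x g - S.s x k⁻¹ - S.gp g k⁻¹ + S.len k - S.δ ≤ S.s (k • x) (k * g) := by
  have := (abs_le.1 (cocycle S x g k)).1
  linarith


theorem s_smul_self (x : Z) (g : G) : |S.s (g • x) g - (S.len g - S.s x g⁻¹)| ≤ S.δ := by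
  have h := cocycle S x 1 g
  rw [s_one, gp_one_left, mul_one] at h
  convert h using 2
  ring

theorem s_smul_self_lb (x : Z) (g : G) : S.len g - S.s x g⁻¹ - S.δ ≤ S.s (g • x) g := by
  have := (abs_le.1 (s_smul_self S x g)).1
  linarith

theorem s_smul_self_ub (x : Z) (g : G) : S.s (g • x) g ≤ S.len g - S.s x g⁻¹ + S.δ := by
  have := (abs_le.1 (s_smul_self S x g)).2
  linarith

/-! ### `Gd` and `Sh` -/

theorem mem_Gd {R : ℝ} {g : G} {x : Z} : x ∈ S.Gd R g ↔ S.s x g⁻¹ ≤ R := Iff.rfl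

theorem mem_Sh {R : ℝ} {g : G} {x : Z} : x ∈ S.Sh R g ↔ (S.len g : ℝ) - R ≤ S.s x g := Iff.rfl

theorem Gd_mono {R R' : ℝ} (h : R ≤ R') (g : G) : S.Gd R g ⊆ S.Gd R' g :=
  fun _ hx => le_trans hx h

theorem Sh_mono {R R' : ℝ} (h : R ≤ R') (g : G) : S.Sh R g ⊆ S.Sh R' g := by
  intro x hx
  rw [mem_Sh] at hx ⊢
  linarith

theorem smul_mem_Sh {R : ℝ} {g : G} {x : Z} (hx : x ∈ S.Gd R g) : g • x ∈ S.Sh (R + S.δ) g := by
  rw [mem_Gd] at hx
  rw [mem_Sh]
  have := s_smul_self_lb S x g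
  linarith

theorem inv_smul_mem_Gd {R : ℝ} {g : G} {y : Z} (hy : y ∈ S.Sh R g) :
    g⁻¹ • y ∈ S.Gd (R + S.δ) g := by
  rw [mem_Sh] at hy
  rw [mem_Gd]
  have := s_smul_self_ub S (g⁻¹ • y) g
  rw [smul_inv_smul] at this
  linarith




/-! ### the metric -/

/-- the Gromov product of two boundary points, read off from the metric -/
def bb (x y : Z) : ℝ := -Real.log (dist x y) / S.ε


theorem dist_eq_exp {x y : Z} (h : x ≠ y) : dist x y = Real.exp (-S.ε * bb S x y) := by
  have hd : 0 < dist x y := dist_pos.2 h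
  have : -S.ε * bb S x y = Real.log (dist x y) := by
    unfold bb
    field_simp [S.ε_pos.ne']
  rw [this, Real.exp_log hd]


theorem le_bb_iff {x y : Z} (h : x ≠ y) (t : ℝ) :
    t ≤ bb S x y ↔ dist x y ≤ Real.exp (-S.ε * t) := by
  rw [dist_eq_exp S h, Real.exp_le_exp]
  constructor
  · intro hh
    nlinarith [S.ε_pos]
  · intro hh
    by_contra hc
    push Not at hc
    nlinarith [S.ε_pos]

theorem min_s_le_bb {x y : Z} (h : x ≠ y) (g : G) : min (S.s x g) (S.s y g) - S.δ ≤ bb S x y :=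
  (le_bb_iff S h _).2 (S.dist_le x y g)

theorem le_s {x y : Z} (h : x ≠ y) (g : G) : min (S.s x g) (bb S x y) - S.δ ≤ S.s y g :=
  S.le_s x y g h

/-- `dist x y ≤ exp (-ε t)` implies `min (s x g) t - δ ≤ s y g` (also for `x = y`). -/
theorem s_ge_of_dist_le {x y : Z} {t : ℝ} (h : dist x y ≤ Real.exp (-S.ε * t)) (g : G) :
    min (S.s x g) t - S.δ ≤ S.s y g := by
  by_cases hxy : x = y
  · subst hxy
    have := min_le_left (S.s x g) t
    have := δ_pos S
    linarith
  · have h1 := (le_bb_iff S hxy t).2 h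
    have h2 := le_s S hxy g
    have : min (S.s x g) t ≤ min (S.s x g) (bb S x y) := min_le_min le_rfl h1
    linarith

/-- `(x|y)` is realised by group elements. -/
theorem exists_min_s_ge {x y : Z} (h : x ≠ y) :
    ∃ g : G, bb S x y - 1 - 2 * S.δ ≤ min (S.s x g) (S.s y g) ∧
      (S.len g : ℝ) ≤ max (bb S x y) 0 := by
  obtain ⟨g, hg, hs⟩ := S.ray x ⌊bb S x y⌋₊
  refine ⟨g, ?_, ?_⟩
  · have hfl : bb S x y - 1 ≤ (⌊bb S x y⌋₊ : ℝ) := by
      have := Nat.lt_floor_add_one (bb S x y)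
      linarith
    have h2 := le_s S h g
    have hδ := δ_pos S
    have h1 : bb S x y - 1 - S.δ ≤ S.s x g := by linarith
    refine le_min (by linarith) ?_
    have h3 : bb S x y - 1 - S.δ ≤ min (S.s x g) (bb S x y) := le_min h1 (by linarith)
    linarith
  · rw [hg]
    by_cases h0 : 0 ≤ bb S x y
    · exact le_trans (Nat.floor_le h0) (le_max_left _ _)
    · push Not at h0
      rw [Nat.floor_of_nonpos h0.le]
      simp

/-! ### distortion -/

/-- `(x|y) ≥ (gx|gy) - |g| - C`. -/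
theorem bb_ge_of_smul {x y : Z} (h : x ≠ y) (g : G) :
    bb S (g • x) (g • y) - S.len g - 1 - 4 * S.δ ≤ bb S x y := by
  have h' : g • x ≠ g • y := fun hh => h ((smul_left_cancel_iff g).1 hh)
  obtain ⟨k, hk, -⟩ := exists_min_s_ge S h'
  have key : ∀ z : Z, S.s (g • z) k - S.len g - S.δ ≤ S.s z (g⁻¹ * k) := by
    intro z
    have h1 := cocycle_lb S (g • z) k g⁻¹
    rw [inv_smul_smul, inv_inv, S.len_inv] at h1
    have h2 := S.s_le (g • z) g
    have h3 := gp_le_right S k g
    linarith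
  have hx := key x
  have hy := key y
  have h4 := min_s_le_bb S h (g⁻¹ * k)
  have h5 : min (S.s (g • x) k) (S.s (g • y) k) - S.len g - S.δ ≤
      min (S.s x (g⁻¹ * k)) (S.s y (g⁻¹ * k)) := by
    refine le_min ?_ ?_
    · have := min_le_left (S.s (g • x) k) (S.s (g • y) k)
      linarith
    · have := min_le_right (S.s (g • x) k) (S.s (g • y) k)
      linarith
  linarith


/-- expansion is at most `exp (ε |g|)` -/
theorem dist_le_smul (x y : Z) (g : G) :
    dist x y ≤ Real.exp (S.ε * (1 + 4 * S.δ)) * Real.exp (S.ε * S.len g) *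
      dist (g • x) (g • y) := by
  by_cases h : x = y
  · subst h
    simp
  · have h' : g • x ≠ g • y := fun hh => h ((smul_left_cancel_iff g).1 hh)
    have h1 := bb_ge_of_smul S h g
    rw [dist_eq_exp S h, dist_eq_exp S h', ← Real.exp_add, ← Real.exp_add, Real.exp_le_exp]
    nlinarith [S.ε_pos]


/-- any group element expands at most by `exp (ε |g|)` -/
theorem dist_smul_le (x y : Z) (g : G) :
    dist (g • x) (g • y) ≤ Real.exp (S.ε * (1 + 4 * S.δ)) * Real.exp (S.ε * S.len g) *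
      dist x y := by
  have := dist_le_smul S (g • x) (g • y) g⁻¹
  rwa [inv_smul_smul, inv_smul_smul, S.len_inv] at this


/-! ### shadows and balls -/

theorem dist_le_of_mem_Sh {R : ℝ} {g : G} {x y : Z} (hx : x ∈ S.Sh R g) (hy : y ∈ S.Sh R g) :
    dist x y ≤ Real.exp (-S.ε * (S.len g - R - S.δ)) := by
  refine (S.dist_le x y g).trans (Real.exp_le_exp.2 ?_)
  rw [mem_Sh] at hx hy
  have : (S.len g : ℝ) - R ≤ min (S.s x g) (S.s y g) := le_min hx hy
  nlinarith [S.ε_pos]


theorem closedBall_subset_Sh {R : ℝ} {g : G} {x : Z} (hx : x ∈ S.Sh R g) :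
    Metric.closedBall x (Real.exp (-S.ε * (S.len g - R))) ⊆ S.Sh (R + S.δ) g := by
  intro y hy
  rw [Metric.mem_closedBall, dist_comm] at hy
  rw [mem_Sh] at hx ⊢
  have := s_ge_of_dist_le S hy g
  rw [min_eq_right hx] at this
  linarith









/-! ### distances in the group from common points of shadows -/

theorem gp_ge_of_mem_Sh {R R' : ℝ} {g h : G} {x : Z} (hg : x ∈ S.Sh R g) (hh : x ∈ S.Sh R' h) :
    min ((S.len g : ℝ) - R) (S.len h - R') - S.δ ≤ S.gp g h := by
  have h1 := hyp_s2 S x g h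
  have h2 : min ((S.len g : ℝ) - R) (S.len h - R') ≤ min (S.s x g) (S.s x h) :=
    min_le_min hg hh
  linarith

theorem len_le_of_mem_Sh {R R' : ℝ} {g h : G} {x : Z} (hg : x ∈ S.Sh R g) (hh : x ∈ S.Sh R' h) :
    (S.len (g⁻¹ * h) : ℝ) ≤ |(S.len g : ℝ) - S.len h| + 2 * max R R' + 2 * S.δ := by
  have h1 := gp_ge_of_mem_Sh S hg hh
  rw [len_inv_mul_eq]
  have h2 := le_max_left R R'
  have h3 := le_max_right R R'
  rcases le_total (S.len g : ℝ) (S.len h) with h4 | h4
  · rw [abs_of_nonpos (by linarith)]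
    have : (S.len g : ℝ) - max R R' ≤ min ((S.len g : ℝ) - R) (S.len h - R') :=
      le_min (by linarith) (by linarith)
    linarith
  · rw [abs_of_nonneg (by linarith)]
    have : (S.len h : ℝ) - max R R' ≤ min ((S.len g : ℝ) - R) (S.len h - R') :=
      le_min (by linarith) (by linarith)
    linarith

theorem len_le_of_mem_Sh_of_eq {R : ℝ} {g h : G} {x : Z} (hl : S.len g = S.len h)
    (hg : x ∈ S.Sh R g) (hh : x ∈ S.Sh R h) :
    (S.len (g⁻¹ * h) : ℝ) ≤ 2 * R + 2 * S.δ := by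
  have := len_le_of_mem_Sh S hg hh
  rw [hl, sub_self, abs_zero, max_self] at this
  linarith





theorem mem_sph {n : ℕ} {g : G} : g ∈ S.sph n ↔ S.len g = n := by
  unfold Setup.sph
  rw [Set.Finite.mem_toFinset]
  rfl






end Crest.Agent.R193.S_Basic
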