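import Mathlib
import Crest.Agent.R193.CPDefs
import Crest.Agent.R193.P_Comp
import Crest.Agent.R193.Planar4
import Crest.Agent.R193.OSC
import Crest.Agent.R193.S_Basic
import Crest.Agent.R193.GEO_Levels

-- ▼ part R193/CPb1
section

/-!
# R193, block D7 (C4)-(C6), part 1 (helper990): disc neighbourhoods, cells, push-forward algebra
-/

set_option autoImplicit false

noncomputable section

open Set Filter Topology MeasureTheory Metric

namespace Crest.Agent.R193.CPb1

open Crest.Agent.R193 Crest.Agent.R193.P_Comp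

/-! ### disc neighbourhoods in a topological sphere -/

section Disc

variable {Z : Type} [TopologicalSpace Z]

/-- every point of an open set of a topological sphere has an open neighbourhood with closure in
the set, with connected complement; the complement contains two points -/
theorem exists_disc_nhds (Φ : Z ≃ₜ Crest.Agent.R193.S2) {O : Set Z} (hO : IsOpen O) {z : Z}
    (hz : z ∈ O) :
    ∃ N : Set Z, IsOpen N ∧ IsPreconnected N ∧ z ∈ N ∧ closure N ⊆ O ∧ IsPreconnected Nᶜ ∧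
      Nᶜ.Nontrivial := by
  have hS2 : ConnectedSpace Crest.Agent.R193.S2 := Planar.S2_connected
  have hZT2 : T2Space Z := Φ.isEmbedding.t2Space
  have hZc : PreconnectedSpace Z := by
    refine ⟨?_⟩
    have := (isPreconnected_univ (α := Crest.Agent.R193.S2)).image Φ.symm Φ.symm.continuous.continuousOn
    rwa [image_univ, Φ.symm.surjective.range_eq] at this
  -- the chart centred at the antipode of `Φ z`
  set p : Crest.Agent.R193.S2 := -(Φ z) with hp
  have hpz : Φ z ≠ p := by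
    intro h
    have h1 : (Φ z : EuclideanSpace ℝ (Fin 3)) = -(Φ z : EuclideanSpace ℝ (Fin 3)) := by
      conv_lhs => rw [h]
      rfl
    have h2 : (Φ z : EuclideanSpace ℝ (Fin 3)) = 0 := by
      have h4 : (2 : ℝ) • (Φ z : EuclideanSpace ℝ (Fin 3)) = 0 := by
        rw [two_smul]
        exact eq_neg_iff_add_eq_zero.1 h1
      exact (smul_eq_zero.1 h4).resolve_left two_ne_zero
    have h3 : ‖(Φ z : EuclideanSpace ℝ (Fin 3))‖ = 1 := by
      have := (Φ z).2
      rwa [mem_sphere_zero_iff_norm] at this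
    rw [h2, norm_zero] at h3
    exact zero_ne_one h3
  set e := stereographic' 2 p with he
  have hsrc : e.source = {p}ᶜ := stereographic'_source p
  have htgt : e.target = univ := stereographic'_target p
  have hsymm : Continuous e.symm := by
    have := e.continuousOn_symm
    rw [htgt] at this
    exact continuousOn_univ.1 this
  set ι : EuclideanSpace ℝ (Fin 2) → Z := fun w => Φ.symm (e.symm w) with hι
  have hιc : Continuous ι := Φ.symm.continuous.comp hsymm
  have hinj : Function.Injective ι := by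
    intro a b hab
    have h1 : e.symm a = e.symm b := Φ.symm.injective hab
    have ha : e (e.symm a) = a := e.right_inv (by rw [htgt]; trivial)
    have hb : e (e.symm b) = b := e.right_inv (by rw [htgt]; trivial)
    rw [← ha, ← hb, h1]
  have hopen : ∀ V : Set (EuclideanSpace ℝ (Fin 2)), IsOpen V → IsOpen (ι '' V) := by
    intro V hV
    have h1 : IsOpen (e.symm '' V) := by
      have := e.symm.isOpen_image_of_subset_source (s := V) hV (by
        rw [e.symm_source, htgt]
        exact subset_univ _)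
      exact this
    have h2 : ι '' V = Φ.symm '' (e.symm '' V) := by rw [← image_comp]; rfl
    rw [h2]
    exact Φ.symm.isOpen_image.2 h1
  set x0 := e (Φ z) with hx0
  have hιx0 : ι x0 = z := by
    show Φ.symm (e.symm (e (Φ z))) = z
    rw [e.left_inv (by rw [hsrc]; exact hpz), Φ.symm_apply_apply]
  obtain ⟨r, hr, hrO⟩ : ∃ r > 0, closedBall x0 r ⊆ ι ⁻¹' O :=
    nhds_basis_closedBall.mem_iff.1 (hιc.continuousAt.preimage_mem_nhds (by
      rw [hιx0]
      exact hO.mem_nhds hz))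
  have hcl : closure (ι '' ball x0 r) = ι '' closedBall x0 r := by
    apply subset_antisymm
    · refine closure_minimal (image_mono ball_subset_closedBall) ?_
      exact ((isCompact_closedBall x0 r).image hιc).isClosed
    · rw [← closure_ball x0 hr.ne']
      exact image_closure_subset_closure_image hιc
  have hrank : 1 < Module.rank ℝ (EuclideanSpace ℝ (Fin 2)) := by
    rw [← Module.finrank_eq_rank, finrank_euclideanSpace]
    norm_num
  refine ⟨ι '' ball x0 r, hopen _ isOpen_ball,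
    (convex_ball x0 r).isPreconnected.image ι hιc.continuousOn,
    ⟨x0, mem_ball_self hr, hιx0⟩, ?_, ?_, ?_⟩
  · rw [hcl]
    rintro _ ⟨w, hw, rfl⟩
    exact hrO hw
  · refine isPreconnected_compl_of_frontier (hopen _ isOpen_ball) ?_
    rw [(hopen _ isOpen_ball).frontier_eq, hcl, ← image_sdiff hinj, closedBall_sdiff_ball]
    exact (isPreconnected_sphere hrank x0 r).image ι hιc.continuousOn
  · obtain ⟨v, hv⟩ := exists_ne (0 : EuclideanSpace ℝ (Fin 2))
    have hvn : 0 < ‖v‖ := norm_pos_iff.2 hv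
    have hns : ∀ t : ℝ, r ≤ |t| * ‖v‖ → ι (x0 + t • v) ∈ (ι '' ball x0 r)ᶜ := by
      rintro t ht ⟨w, hw, hwe⟩
      have h1 : w = x0 + t • v := hinj hwe
      rw [h1, mem_ball, dist_eq_norm, add_sub_cancel_left, norm_smul, Real.norm_eq_abs] at hw
      linarith
    refine ⟨ι (x0 + (r / ‖v‖) • v), hns _ ?_, ι (x0 + (2 * r / ‖v‖) • v), hns _ ?_, ?_⟩
    · rw [abs_of_pos (div_pos hr hvn), div_mul_cancel₀ _ hvn.ne']
    · rw [abs_of_pos (div_pos (by linarith) hvn), div_mul_cancel₀ _ hvn.ne']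
      linarith
    · intro h
      have h1 := hinj h
      have h2 : (r / ‖v‖) • v = (2 * r / ‖v‖) • v := add_left_cancel h1
      have h3 : (r / ‖v‖ - 2 * r / ‖v‖) • v = 0 := by rw [sub_smul, h2, sub_self]
      rcases smul_eq_zero.1 h3 with h4 | h4
      · have h5 : r / ‖v‖ - 2 * r / ‖v‖ = -(r / ‖v‖) := by ring
        rw [h5] at h4
        have : 0 < r / ‖v‖ := div_pos hr hvn
        linarith
      · exact hv h4

end Disc

/-! ### cells -/

section Cells

variable {Z : Type} [MetricSpace Z]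

/-- the map `Z → ℝ × ℝ` of a pair of functions -/
def Fm (U V : C(Z, ℝ)) : Z → ℝ × ℝ := fun x => (U x, V x)

lemma continuous_Fm (U V : C(Z, ℝ)) : Continuous (Fm U V) := U.continuous.prodMk V.continuous

/-- the component of `{F ∈ ball (F z) ρ}` containing `z` -/
def cell (U V : C(Z, ℝ)) (z : Z) (ρ : ℝ) : Set Z :=
  connectedComponentIn (Fm U V ⁻¹' ball (Fm U V z) ρ) z

variable {U V : C(Z, ℝ)} {z y : Z} {ρ ρ' : ℝ}

lemma mem_cell (hρ : 0 < ρ) : z ∈ cell U V z ρ :=
  mem_connectedComponentIn (mem_ball_self hρ)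

lemma isPreconnected_cell : IsPreconnected (cell U V z ρ) := isPreconnected_connectedComponentIn

lemma cell_subset : cell U V z ρ ⊆ Fm U V ⁻¹' ball (Fm U V z) ρ := connectedComponentIn_subset _ _

lemma isOpen_cell [LocallyConnectedSpace Z] : IsOpen (cell U V z ρ) :=
  (isOpen_ball.preimage (continuous_Fm U V)).connectedComponentIn

lemma frontier_cell [LocallyConnectedSpace Z] {x : Z} (hx : x ∈ frontier (cell U V z ρ)) :
    Fm U V x ∈ sphere (Fm U V z) ρ :=
  frontier_ball_subset_sphere ((continuous_Fm U V).frontier_preimage_subset _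
    (frontier_comp_subset (isOpen_ball.preimage (continuous_Fm U V)) z hx))

/-- a cell of a point `y` of a cell, with smaller square, is inside -/
lemma cell_subset_cell (hρ' : 0 < ρ') (hy : y ∈ cell U V z ρ)
    (hb : ball (Fm U V y) ρ' ⊆ ball (Fm U V z) ρ) : cell U V y ρ' ⊆ cell U V z ρ :=
  subset_comp_of_inter isPreconnected_cell (cell_subset.trans (preimage_mono hb))
    ⟨y, mem_cell hρ', hy⟩

/-- **(C4)** If `F` is not constant on any nontrivial connected subset of the open set `O ∋ z` then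
the cells of `z` shrink to `z`. -/
theorem cell_small [CompactSpace Z] {O : Set Z} (hO : IsOpen O) (hz : z ∈ O)
    (hC3 : ∀ E : Set Z, E ⊆ O → IsPreconnected E → E.Nontrivial →
      ¬ ∀ x ∈ E, Fm U V x = Fm U V z)
    {N : Set Z} (hN : IsOpen N) (hzN : z ∈ N) :
    ∃ ρ0 > 0, ∀ ρ, ρ ≤ ρ0 → closure (cell U V z ρ) ⊆ N := by
  set K : {r : ℝ // 0 < r} → Set Z := fun r =>
    connectedComponentIn (Fm U V ⁻¹' closedBall (Fm U V z) r) z with hK
  have hcl : ∀ r : {r : ℝ // 0 < r}, IsClosed (Fm U V ⁻¹' closedBall (Fm U V z) (r : ℝ)) :=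
    fun r => isClosed_closedBall.preimage (continuous_Fm U V)
  have hzK : ∀ r, z ∈ K r := fun r => mem_connectedComponentIn (mem_closedBall_self r.2.le)
  have hKc : ∀ r, IsCompact (K r) := fun r => (isClosed_comp (hcl r) z).isCompact
  have hmono : ∀ r r' : {r : ℝ // 0 < r}, (r : ℝ) ≤ r' → K r ⊆ K r' := fun r r' h =>
    connectedComponentIn_mono z (preimage_mono (closedBall_subset_closedBall h))
  have hdir : Directed (· ⊇ ·) K := by
    intro r r'
    refine ⟨⟨min r r', lt_min r.2 r'.2⟩, hmono _ _ (min_le_left _ _), hmono _ _ (min_le_right _ _)⟩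
  have : Nonempty {r : ℝ // 0 < r} := ⟨⟨1, one_pos⟩⟩
  have hK0c : IsPreconnected (⋂ r, K r) :=
    isPreconnected_iInter_of_directed hdir hKc fun r => isPreconnected_connectedComponentIn
  have hK0cpt : IsCompact (⋂ r, K r) :=
    (isClosed_iInter fun r => (hKc r).isClosed).isCompact
  have hFK0 : ∀ x ∈ ⋂ r, K r, Fm U V x = Fm U V z := by
    intro x hx
    by_contra hne
    have h1 : 0 < dist (Fm U V x) (Fm U V z) := dist_pos.2 hne
    have h2 := mem_iInter.1 hx ⟨dist (Fm U V x) (Fm U V z) / 2, half_pos h1⟩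
    have h3' : x ∈ Fm U V ⁻¹' closedBall (Fm U V z) (dist (Fm U V x) (Fm U V z) / 2) :=
      connectedComponentIn_subset _ _ h2
    have h3 : Fm U V x ∈ closedBall (Fm U V z) (dist (Fm U V x) (Fm U V z) / 2) := h3'
    rw [mem_closedBall] at h3
    linarith
  have hsingle : (⋂ r, K r) ⊆ {z} := by
    intro x hx
    by_contra hne
    have hxz : x ≠ z := hne
    -- a small neighbourhood
    obtain ⟨N', hN'o, hzN', hN'⟩ : ∃ N', IsOpen N' ∧ z ∈ N' ∧ closure N' ⊆ O ∩ {x}ᶜ := by
      have hnh : O ∩ {x}ᶜ ∈ 𝓝 z := (hO.inter isOpen_compl_singleton).mem_nhds ⟨hz, hxz.symm⟩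
      obtain ⟨t, ht, htc, hts⟩ := exists_mem_nhds_isClosed_subset hnh
      refine ⟨interior t, isOpen_interior, mem_interior_iff_mem_nhds.2 ht, ?_⟩
      exact (closure_minimal interior_subset htc).trans hts
    have hzK0 : z ∈ ⋂ r, K r := mem_iInter.2 hzK
    obtain ⟨w, hw1, hw2⟩ := boundary_bumping hK0cpt hK0c hN'o hzK0 hzN'
      (fun h => (hN' (subset_closure (h hx))).2 rfl)
    set E := connectedComponentIn ((⋂ r, K r) ∩ closure N') z with hE
    have hEsub : E ⊆ (⋂ r, K r) ∩ closure N' := connectedComponentIn_subset _ _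
    have hzE : z ∈ E := mem_connectedComponentIn ⟨hzK0, subset_closure hzN'⟩
    have hwz : w ≠ z := by
      rintro rfl
      rw [hN'o.frontier_eq] at hw2
      exact hw2.2 hzN'
    exact hC3 E (hEsub.trans (inter_subset_right.trans (hN'.trans inter_subset_left)))
      isPreconnected_connectedComponentIn ⟨w, hw1, z, hzE, hwz⟩ fun y hy => hFK0 y (hEsub hy).1
  obtain ⟨r, hr⟩ := exists_subset_nhds_of_isCompact hdir hKc (U := N) (fun x hx => by
    have : x = z := hsingle hx
    rw [this]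
    exact hN.mem_nhds hzN)
  refine ⟨r, r.2, fun ρ hρ => ?_⟩
  refine Subset.trans ?_ hr
  refine closure_minimal ?_ (hKc r).isClosed
  exact connectedComponentIn_mono z (preimage_mono
    (ball_subset_closedBall.trans (closedBall_subset_closedBall hρ)))

/-- the function equal to `ψ ∘ F` on `W` and `0` elsewhere -/
lemma exists_cut {W : Set Z} {ψ : ℝ × ℝ → ℝ} (hψ : Continuous ψ)
    (hs : ∀ x ∈ frontier W, ψ (Fm U V x) = 0) :
    ∃ φ : C(Z, ℝ), (∀ x ∈ W, φ x = ψ (Fm U V x)) ∧ (∀ x, x ∉ W → φ x = 0) := by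
  classical
  have hc : Continuous (W.indicator fun x => ψ (Fm U V x)) :=
    continuous_indicator hs (hψ.comp (continuous_Fm U V)).continuousOn
  refine ⟨⟨W.indicator fun x => ψ (Fm U V x), hc⟩, fun x hx => ?_, fun x hx => ?_⟩
  · show W.indicator (fun x => ψ (Fm U V x)) x = _
    exact indicator_of_mem hx _
  · show W.indicator (fun x => ψ (Fm U V x)) x = _
    exact indicator_of_notMem hx _

end Cells

/-! ### the push-forward constant -/

section Push

variable {G Z : Type} [Group G] [MetricSpace Z] [MulAction G Z] {S : Setup G Z} {Q : DForm S}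
  {U V : C(Z, ℝ)}

lemma gamma_mono {u : C(Z, ℝ)} (hu : u ∈ Q.Dom) {φ φ' : C(Z, ℝ)} (h : ∀ x, φ x ≤ φ' x) :
    Q.Γ u u φ ≤ Q.Γ u u φ' := by
  have h1 : Q.Γ u u (φ + (φ' + (-1 : ℝ) • φ)) = Q.Γ u u φ + (Q.Γ u u φ' + (-1) * Q.Γ u u φ) := by
    rw [Q.add_test u hu u hu, Q.add_test u hu u hu, Q.smul_test (-1) u hu u hu]
  have h2 : 0 ≤ Q.Γ u u (φ' + (-1 : ℝ) • φ) := Q.nonneg u hu _ fun x => by
    have h3 : (φ' + (-1 : ℝ) • φ) x = φ' x - φ x := by
      simp [sub_eq_add_neg]
    rw [h3]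
    linarith [h x]
  rw [Q.add_test u hu u hu, Q.smul_test (-1) u hu u hu] at h2
  linarith

lemma gamma_zero {u v : C(Z, ℝ)} (hu : u ∈ Q.Dom) (hv : v ∈ Q.Dom) : Q.Γ u v 0 = 0 := by
  have := Q.smul_test 0 u hu v hv 0
  rwa [zero_smul, zero_mul] at this

/-- a bump function on the plane -/
lemma exists_bump (q : ℝ × ℝ) {r R : ℝ} (hr : 0 < r) (hrR : r < R) :
    ∃ ψ : ℝ × ℝ → ℝ, Continuous ψ ∧ ContDiff ℝ 2 ψ ∧ HasCompactSupport ψ ∧ (∀ y, 0 ≤ ψ y) ∧
      (∀ y, ψ y ≤ 1) ∧
      (∀ y ∈ closedBall q r, ψ y = 1) ∧ tsupport ψ ⊆ closedBall q R ∧ 0 < ∫ y, ψ y := by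
  let f : ContDiffBump q := ⟨r, R, hr, hrR⟩
  refine ⟨f, f.continuous, f.contDiff, f.hasCompactSupport, fun y => f.nonneg, fun y => f.le_one,
    fun y hy => f.one_of_mem_closedBall hy, ?_, f.integral_pos⟩
  rw [f.tsupport_eq]

lemma integral_bump_le {ψ : ℝ × ℝ → ℝ} (h1 : ∀ y, ψ y ≤ 1) (h0 : ∀ y, 0 ≤ ψ y) {q : ℝ × ℝ} {R : ℝ}
    (hR : 0 ≤ R) (hs : ∀ y, y ∉ closedBall q R → ψ y = 0) : ∫ y, ψ y ≤ (2 * R) ^ 2 := by
  have hvol : volume (closedBall q R) = ENNReal.ofReal ((2 * R) ^ 2) := by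
    obtain ⟨a, b⟩ := q
    rw [← closedBall_prod_same, Measure.volume_eq_prod, Measure.prod_prod, Real.volume_closedBall,
      Real.volume_closedBall, ← ENNReal.ofReal_mul (by linarith), sq]
  calc ∫ y, ψ y ≤ ∫ y, (closedBall q R).indicator (fun _ => (1 : ℝ)) y := by
        refine integral_mono_of_nonneg (Eventually.of_forall h0) ?_ (Eventually.of_forall ?_)
        · exact (integrable_indicator_iff measurableSet_closedBall).2
            ((integrableOn_const_iff).2 (Or.inr (by
              rw [hvol]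
              exact ENNReal.ofReal_lt_top)))
        · intro y
          by_cases hy : y ∈ closedBall q R
          · simp only [indicator_of_mem hy]
            exact h1 y
          · simp only [indicator_of_notMem hy]
            exact (hs y hy).le
    _ = (2 * R) ^ 2 := by
        rw [integral_indicator measurableSet_closedBall, setIntegral_const, smul_eq_mul, mul_one,
          Measure.real, hvol, ENNReal.toReal_ofReal (by positivity)]

/-- monotonicity and superadditivity of the push-forward constants -/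
theorem pushC_add_le (hU : U ∈ Q.Dom) {W W₁ W₂ : Set Z} (h1 : W₁ ⊆ W) (h2 : W₂ ⊆ W)
    (hd : Disjoint W₁ W₂) {p q : ℝ × ℝ} {ρ ρ' c c₁ c₂ : ℝ} (hρ' : 0 < ρ')
    (hb : ball q ρ' ⊆ ball p ρ) (hf : ∀ x ∈ frontier W, Fm U V x ∉ ball p ρ)
    (hf1 : ∀ x ∈ frontier W₁, Fm U V x ∉ ball q ρ') (hf2 : ∀ x ∈ frontier W₂, Fm U V x ∉ ball q ρ')
    (hc : PushC Q U V W p ρ c) (hc1 : PushC Q U V W₁ q ρ' c₁) (hc2 : PushC Q U V W₂ q ρ' c₂) :
    c₁ + c₂ ≤ c := by
  obtain ⟨ψ, hψc, -, -, hψ0, hψ1, -, hψs, hψi⟩ := exists_bump q (r := ρ' / 4) (R := ρ' / 2)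
    (by linarith) (by linarith)
  have hs : tsupport ψ ⊆ ball q ρ' := hψs.trans (closedBall_subset_ball (by linarith))
  have hz : ∀ y, y ∉ ball q ρ' → ψ y = 0 := fun y hy => by
    by_contra h
    exact hy (hs (subset_tsupport ψ h))
  obtain ⟨φ, hφ, hφ0⟩ := exists_cut (U := U) (V := V) (W := W) hψc
    (fun x hx => hz _ fun h => hf x hx (hb h))
  obtain ⟨φ₁, hφ1, hφ10⟩ := exists_cut (U := U) (V := V) (W := W₁) hψc
    (fun x hx => hz _ (hf1 x hx))
  obtain ⟨φ₂, hφ2, hφ20⟩ := exists_cut (U := U) (V := V) (W := W₂) hψc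
    (fun x hx => hz _ (hf2 x hx))
  have e := hc ψ hψc (hs.trans hb) φ hφ hφ0
  have e1 := hc1 ψ hψc hs φ₁ hφ1 hφ10
  have e2 := hc2 ψ hψc hs φ₂ hφ2 hφ20
  have hle : ∀ x, (φ₁ + φ₂) x ≤ φ x := by
    intro x
    rw [ContinuousMap.add_apply]
    by_cases hx1 : x ∈ W₁
    · have hx2 : x ∉ W₂ := fun h => disjoint_left.1 hd hx1 h
      rw [hφ1 x hx1, hφ20 x hx2, hφ x (h1 hx1), add_zero]
    · by_cases hx2 : x ∈ W₂
      · rw [hφ10 x hx1, hφ2 x hx2, hφ x (h2 hx2), zero_add]
      · rw [hφ10 x hx1, hφ20 x hx2, add_zero]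
        by_cases hx : x ∈ W
        · rw [hφ x hx]
          exact hψ0 _
        · rw [hφ0 x hx]
  have h3 := gamma_mono hU hle
  rw [Q.add_test U hU U hU, e1, e2, e, ← add_mul] at h3
  exact le_of_mul_le_mul_right h3 hψi

/-- the image of `W` is the whole square if the constant is positive -/
theorem pushC_surj [CompactSpace Z] (hU : U ∈ Q.Dom) {W : Set Z} {p : ℝ × ℝ} {ρ c : ℝ}
    (hf : ∀ x ∈ frontier W, Fm U V x ∉ ball p ρ) (hcp : 0 < c) (hc : PushC Q U V W p ρ c)
    {q : ℝ × ℝ} (hq : q ∈ ball p ρ) : ∃ x ∈ W, Fm U V x = q := by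
  by_contra hcon
  push Not at hcon
  have hqc : q ∉ Fm U V '' closure W := by
    rintro ⟨x, hx, hxq⟩
    by_cases hxW : x ∈ W
    · exact hcon x hxW hxq
    · have : x ∈ frontier W := ⟨hx, fun h => hxW (interior_subset h)⟩
      exact hf x this (hxq ▸ hq)
  have hcl : IsClosed (Fm U V '' closure W) :=
    (isClosed_closure.isCompact.image (continuous_Fm U V)).isClosed
  obtain ⟨r, hr, hrs⟩ := Metric.isOpen_iff.1 (hcl.isOpen_compl.inter isOpen_ball) q ⟨hqc, hq⟩
  obtain ⟨ψ, hψc, -, -, hψ0, hψ1, -, hψs, hψi⟩ := exists_bump q (r := r / 4) (R := r / 2)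
    (by linarith) (by linarith)
  have hs : tsupport ψ ⊆ ball q r := hψs.trans (closedBall_subset_ball (by linarith))
  have e := hc ψ hψc (hs.trans (hrs.trans inter_subset_right)) 0 (fun x hx => by
    rw [ContinuousMap.zero_apply]
    by_contra h
    have h1 : (U x, V x) ∈ tsupport ψ := subset_tsupport ψ (Ne.symm h)
    exact (hrs (hs h1)).1 ⟨x, subset_closure hx, rfl⟩) (fun x _ => rfl)
  rw [gamma_zero hU hU] at e
  have := mul_pos hcp hψi
  linarith

end Push

end Crest.Agent.R193.CPb1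
end
end

-- ▼ part R193/CPb2
section

/-!
# R193, block D7 (C5) (helper990): the push-forward constant is bounded below

Area argument (helper558): the square of side `ρ` is covered by the images of small balls, whose
areas are controlled by the energy (Courant-Lebesgue + maximum principle); bounded overlap of the
shadows of one level.  No Loewner inequality is used.
-/

set_option autoImplicit false

noncomputable section

open Set Filter Topology MeasureTheory Metric

namespace Crest.Agent.R193.CPb2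

open Crest.Agent.R193 Crest.Agent.R193.P_Comp Crest.Agent.R193.CPb1

variable {G Z : Type} [Group G] [MetricSpace Z] [MulAction G Z] {S : Setup G Z}

open Classical in
/-- covers by small balls of bounded overlap, at arbitrarily small scales -/
theorem exists_cover (S : Setup G Z) {lam : ℝ} (hlam : 1 < lam) :
    ∃ N : ℕ, ∀ r0 : ℝ, 0 < r0 → ∃ r : ℝ, 0 < r ∧ r ≤ r0 ∧ ∃ (I : Finset G) (c : G → Z),
      (∀ x : Z, ∃ g ∈ I, dist x (c g) ≤ r) ∧
      ∀ x : Z, (I.filter (fun g => dist x (c g) ≤ 2 * lam * r)).card ≤ N := by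
  have hε := S.ε_pos
  have hδ := S.one_le_δ
  set R : ℝ := 2 * S.δ + Real.log (2 * lam) / S.ε with hR
  have hlog : 0 < Real.log (2 * lam) := Real.log_pos (by linarith)
  have hRδ : S.δ ≤ R := by
    have : 0 < Real.log (2 * lam) / S.ε := div_pos hlog hε
    linarith
  obtain ⟨C, hC⟩ := GEO_Levels.mult_Shc S ⌈R + S.δ⌉₊
  refine ⟨C, fun r0 hr0 => ?_⟩
  -- the level
  obtain ⟨n, hn⟩ : ∃ n : ℕ, Real.exp (-S.ε * ((n : ℝ) - 2 * S.δ)) ≤ r0 := by
    obtain ⟨n, hn⟩ := exists_nat_ge (-Real.log r0 / S.ε + 2 * S.δ)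
    refine ⟨n, ?_⟩
    rw [← Real.le_log_iff_exp_le hr0]
    have h2 : -Real.log r0 / S.ε ≤ n - 2 * S.δ := by linarith
    rw [div_le_iff₀ hε] at h2
    linarith
  set r := Real.exp (-S.ε * ((n : ℝ) - 2 * S.δ)) with hr
  have hcov : ∀ x : Z, ∃ g ∈ S.sph n, x ∈ S.Sh S.δ g := by
    intro x
    obtain ⟨g, h1, h2⟩ := S.ray x n
    refine ⟨g, (GEO_Levels.mem_sph S).2 h1, ?_⟩
    show (S.len g : ℝ) - S.δ ≤ S.s x g
    rw [h1]
    exact h2
  have hZ : Nonempty Z := ⟨(S.star 1).choose⟩
  have hch : ∀ g : G, ∃ c : Z, (S.Sh S.δ g).Nonempty → c ∈ S.Sh S.δ g := by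
    intro g
    by_cases h : (S.Sh S.δ g).Nonempty
    · obtain ⟨c, hc⟩ := h
      exact ⟨c, fun _ => hc⟩
    · exact ⟨hZ.some, fun h' => (h h').elim⟩
  choose c hc using hch
  refine ⟨r, Real.exp_pos _, hn, (S.sph n).filter (fun g => (S.Sh S.δ g).Nonempty), c, ?_, ?_⟩
  · intro x
    obtain ⟨g, hg, hx⟩ := hcov x
    refine ⟨g, Finset.mem_filter.2 ⟨hg, ⟨x, hx⟩⟩, ?_⟩
    have h1 := S_Basic.dist_le_of_mem_Sh S hx (hc g ⟨x, hx⟩)
    rw [(GEO_Levels.mem_sph S).1 hg] at h1
    refine h1.trans (le_of_eq ?_)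
    rw [hr]
    congr 1
    ring
  · intro x
    refine le_trans (Finset.card_le_card ?_) (hC n x)
    intro g hg
    rw [Finset.mem_filter, Finset.mem_filter] at hg
    obtain ⟨⟨hg1, hg2⟩, hg3⟩ := hg
    rw [Finset.mem_filter]
    refine ⟨hg1, ?_⟩
    have h1 : c g ∈ S.Sh R g := S_Basic.Sh_mono S hRδ g (hc g hg2)
    have h2 := S_Basic.closedBall_subset_Sh S h1 (a := x) (by
      rw [mem_closedBall]
      refine hg3.trans (le_of_eq ?_)
      rw [(GEO_Levels.mem_sph S).1 hg1, hr]
      have h3 : Real.exp (-S.ε * ((n : ℝ) - R)) =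
          Real.exp (Real.log (2 * lam)) * Real.exp (-S.ε * ((n : ℝ) - 2 * S.δ)) := by
        rw [← Real.exp_add]
        congr 1
        rw [hR]
        field_simp
        ring
      rw [h3, Real.exp_log (by linarith)])
    exact GEO_Levels.Sh_subset_Shc S _ g
      (S_Basic.Sh_mono S ((Nat.le_ceil _).trans (GEO_Levels.le_rad S _)) g h2)

/-- tent function around a point -/
def tent (a : Z) (s : ℝ) : C(Z, ℝ) :=
  ⟨fun y => max 0 (min 1 (2 - dist y a / s)), by fun_prop⟩

lemma tent_apply (a : Z) (s : ℝ) (y : Z) : tent a s y = max 0 (min 1 (2 - dist y a / s)) := rfl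

lemma tent_nonneg (a : Z) (s : ℝ) (y : Z) : 0 ≤ tent a s y := le_max_left _ _

lemma tent_le_one (a : Z) (s : ℝ) (y : Z) : tent a s y ≤ 1 :=
  max_le zero_le_one (min_le_left _ _)

lemma one_le_tent {a : Z} {s : ℝ} (hs : 0 < s) {y : Z} (h : dist y a ≤ s) : 1 ≤ tent a s y := by
  refine le_max_of_le_right (le_min le_rfl ?_)
  have : dist y a / s ≤ 1 := (div_le_one hs).2 h
  linarith

lemma dist_le_of_tent_ne {a : Z} {s : ℝ} (hs : 0 < s) {y : Z} (h : tent a s y ≠ 0) :
    dist y a ≤ 2 * s := by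
  by_contra hc
  push Not at hc
  apply h
  rw [tent_apply]
  apply max_eq_left
  refine (min_le_right _ _).trans ?_
  have : 2 ≤ dist y a / s := (le_div_iff₀ hs).2 hc.le
  linarith

lemma tsupport_tent {a : Z} {s : ℝ} (hs : 0 < s) : tsupport (tent a s) ⊆ closedBall a (2 * s) := by
  refine closure_minimal (fun y hy => ?_) isClosed_closedBall
  exact dist_le_of_tent_ne hs hy

/-- volume of a closed square -/
lemma volume_square (q : ℝ × ℝ) {R : ℝ} (hR : 0 ≤ R) :
    volume (closedBall q R) = ENNReal.ofReal ((2 * R) ^ 2) := by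
  obtain ⟨a, b⟩ := q
  rw [← closedBall_prod_same, Measure.volume_eq_prod, Measure.prod_prod, Real.volume_closedBall,
    Real.volume_closedBall, ← ENNReal.ofReal_mul (by linarith), sq]

/-- on a small ball the pair `F` is controlled by the energy -/
lemma dist_Fm_le (Q : DForm S) [LocallyConnectedSpace Z] (hMax : InMax Q) {O : Set Z}
    (hO : IsOpen O) (hOu : O ≠ univ) {U V : C(Z, ℝ)} (hc : ConfOn Q O U V) {x : Z} {r : ℝ} (hr : 0 < r)
    (hr0 : r ≤ Q.ρ0) (hsub : closedBall x (Q.lam * r) ⊆ O) {φ : C(Z, ℝ)} (hφ : ∀ y, 0 ≤ φ y)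
    (hφ1 : ∀ y, r ≤ dist y x → dist y x ≤ Q.lam * r → 1 ≤ φ y) (hφs : tsupport φ ⊆ O) {y : Z}
    (hy : dist y x ≤ r) : dist (Fm U V y) (Fm U V x) ≤ Q.C0 * Real.sqrt (Q.Γ U U φ) := by
  have h1 := OSC.osc_annulus Q hr hr0 hc.1 hsub (hMax O U hO hOu hc.harm_left) hφ hφ1 hy
    (z := x) (by rw [dist_self]; exact hr.le)
  have h2 := OSC.osc_annulus Q hr hr0 hc.2.1 hsub (hMax O V hO hOu hc.harm_right) hφ hφ1 hy
    (z := x) (by rw [dist_self]; exact hr.le)
  rw [← (hc.2.2.2 φ hφs).2] at h2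
  exact max_le h1 h2

/-- **(C5)** lower bound for the push-forward constant (it only depends on the form) -/
theorem lower_bound (Q : DForm S) [CompactSpace Z] [LocallyConnectedSpace Z] (hMax : InMax Q) :
    ∃ c0 : ℝ, 0 < c0 ∧ ∀ (O W : Set Z) (U V : C(Z, ℝ)), IsOpen O → O ≠ univ → ConfOn Q O U V →
      IsOpen W →
      closure W ⊆ O → ∀ (p : ℝ × ℝ) (ρ c : ℝ), 0 < ρ → (∀ x ∈ frontier W, Fm U V x ∉ ball p ρ) →
      0 < c → PushC Q U V W p ρ c → c0 ≤ c := by
  classical
  have hlam := Q.one_lt_lam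
  have hlam0 : 0 < Q.lam := by linarith
  have hC0 := Q.C0_pos
  obtain ⟨N, hN⟩ := exists_cover S hlam
  refine ⟨1 / (16 * Q.C0 ^ 2 * (N + 1)), by positivity, ?_⟩
  intro O W U V hO hOu hc hW hWO p ρ c hρ hfr hcp hpush
  have hUD := hc.1
  set K : Set Z := closure W ∩ Fm U V ⁻¹' closedBall p (ρ / 2) with hK
  have hKc : IsCompact K :=
    (isClosed_closure.inter (isClosed_closedBall.preimage (continuous_Fm U V))).isCompact
  set W' : Set Z := W ∩ Fm U V ⁻¹' ball p (3 * ρ / 4) with hW'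
  have hW'o : IsOpen W' := hW.inter (isOpen_ball.preimage (continuous_Fm U V))
  have hKW' : K ⊆ W' := by
    rintro x ⟨hx1, hx2⟩
    have hx3 : Fm U V x ∈ closedBall p (ρ / 2) := hx2
    refine ⟨?_, closedBall_subset_ball (by linarith) hx3⟩
    by_contra hxW
    exact hfr x ⟨hx1, fun h => hxW (interior_subset h)⟩
      (closedBall_subset_ball (by linarith) hx3)
  obtain ⟨t, ht, htW⟩ := hKc.exists_thickening_subset_open hW'o hKW'
  obtain ⟨r, hr, hr0, I, ce, hcov, hcard⟩ := hN (min Q.ρ0 (t / (4 * Q.lam)))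
    (lt_min Q.ρ0_pos (by positivity))
  have hrρ : r ≤ Q.ρ0 := hr0.trans (min_le_left _ _)
  have hrt : 4 * Q.lam * r ≤ t := by
    have := hr0.trans (min_le_right _ _)
    rw [le_div_iff₀ (by positivity)] at this
    linarith
  have hlr : 0 < Q.lam * r := mul_pos hlam0 hr
  have hrlr : r < Q.lam * r := by nlinarith
  set J : Finset G := I.filter (fun g => ∃ k ∈ K, dist k (ce g) ≤ r) with hJ
  have hJW : ∀ g ∈ J, closedBall (ce g) (2 * (Q.lam * r)) ⊆ W' := by
    intro g hg y hy
    obtain ⟨-, k, hk, hkd⟩ := Finset.mem_filter.1 hg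
    apply htW
    rw [mem_thickening_iff]
    refine ⟨k, hk, ?_⟩
    rw [mem_closedBall] at hy
    calc dist y k ≤ dist y (ce g) + dist k (ce g) := dist_triangle_right _ _ _
      _ < t := by nlinarith
  have hJO : ∀ g ∈ J, closedBall (ce g) (2 * (Q.lam * r)) ⊆ O := fun g hg =>
    (hJW g hg).trans (inter_subset_left.trans (subset_closure.trans hWO))
  set φ : G → C(Z, ℝ) := fun g => tent (ce g) (Q.lam * r) with hφ
  set e : G → ℝ := fun g => Q.C0 * Real.sqrt (Q.Γ U U (φ g)) with he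
  have he0 : ∀ g, 0 ≤ e g := fun g => mul_nonneg hC0.le (Real.sqrt_nonneg _)
  have hball : ∀ g ∈ J, ∀ y, dist y (ce g) ≤ r → Fm U V y ∈ closedBall (Fm U V (ce g)) (e g) := by
    intro g hg y hy
    rw [mem_closedBall]
    refine dist_Fm_le Q hMax hO hOu hc hr hrρ ?_ (fun y => tent_nonneg _ _ _) (fun y _ h2 => ?_) ?_ hy
    · exact (closedBall_subset_closedBall (by linarith)).trans (hJO g hg)
    · exact one_le_tent hlr h2
    · exact (tsupport_tent hlr).trans (hJO g hg)
  have hcover : closedBall p (ρ / 2) ⊆ ⋃ g ∈ J, closedBall (Fm U V (ce g)) (e g) := by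
    intro q hq
    obtain ⟨x, hxW, hxq⟩ := pushC_surj hUD hfr hcp hpush
      (closedBall_subset_ball (by linarith : ρ / 2 < ρ) hq)
    have hxK : x ∈ K := ⟨subset_closure hxW, by
      show Fm U V x ∈ closedBall p (ρ / 2)
      rw [hxq]
      exact hq⟩
    obtain ⟨g, hg, hgd⟩ := hcov x
    have hgJ : g ∈ J := Finset.mem_filter.2 ⟨hg, x, hxK, hgd⟩
    refine mem_iUnion₂.2 ⟨g, hgJ, ?_⟩
    rw [← hxq]
    exact hball g hgJ x hgd
  have harea : ρ ^ 2 ≤ ∑ g ∈ J, (2 * e g) ^ 2 := by
    have h1 : volume (closedBall p (ρ / 2)) ≤ ∑ g ∈ J, volume (closedBall (Fm U V (ce g)) (e g)) :=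
      (measure_mono hcover).trans (measure_biUnion_finset_le _ _)
    rw [volume_square p (by linarith)] at h1
    simp only [volume_square _ (he0 _)] at h1
    rw [← ENNReal.ofReal_sum_of_nonneg (fun g _ => sq_nonneg _),
      ENNReal.ofReal_le_ofReal_iff (Finset.sum_nonneg fun g _ => sq_nonneg _)] at h1
    have h2 : (2 * (ρ / 2)) ^ 2 = ρ ^ 2 := by ring
    rwa [h2] at h1
  have hΓ0 : ∀ g, 0 ≤ Q.Γ U U (φ g) := fun g => Q.nonneg U hUD _ fun y => tent_nonneg _ _ _
  have hsum : ∑ g ∈ J, (2 * e g) ^ 2 = 4 * Q.C0 ^ 2 * Q.Γ U U (∑ g ∈ J, φ g) := by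
    rw [OSC.Γ_sum_test Q hUD hUD, Finset.mul_sum]
    refine Finset.sum_congr rfl fun g _ => ?_
    rw [he]
    simp only
    rw [mul_pow, mul_pow, Real.sq_sqrt (hΓ0 g)]
    ring
  -- the comparison function
  obtain ⟨ψ, hψc, -, -, hψ0, hψ1, hψone, hψs, hψi⟩ := exists_bump p (r := 3 * ρ / 4)
    (R := 7 * ρ / 8) (by linarith) (by linarith)
  have hψsb : tsupport ψ ⊆ ball p ρ := hψs.trans (closedBall_subset_ball (by linarith))
  have hψz : ∀ y, y ∉ closedBall p (7 * ρ / 8) → ψ y = 0 := fun y hy => by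
    by_contra h
    exact hy (hψs (subset_tsupport ψ h))
  obtain ⟨χ, hχ, hχ0⟩ := exists_cut (U := U) (V := V) (W := W) hψc (fun x hx => hψz _ fun h =>
    hfr x hx (closedBall_subset_ball (by linarith) h))
  have hle : ∀ x, (∑ g ∈ J, φ g) x ≤ ((N : ℝ) • χ) x := by
    intro x
    rw [ContinuousMap.coe_sum, Finset.sum_apply, ContinuousMap.smul_apply, smul_eq_mul]
    by_cases hx : ∃ g ∈ J, φ g x ≠ 0
    · obtain ⟨g, hg, hgx⟩ := hx
      have hxW' : x ∈ W' := hJW g hg (mem_closedBall.2 (dist_le_of_tent_ne hlr hgx))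
      have hχx : χ x = 1 := by
        rw [hχ x hxW'.1]
        exact hψone _ (ball_subset_closedBall hxW'.2)
      rw [hχx, mul_one]
      calc ∑ g ∈ J, φ g x = ∑ g ∈ J.filter (fun g => φ g x ≠ 0), φ g x := by
            rw [Finset.sum_filter_ne_zero]
        _ ≤ ∑ g ∈ J.filter (fun g => φ g x ≠ 0), (1 : ℝ) :=
            Finset.sum_le_sum fun g _ => tent_le_one _ _ _
        _ = ((J.filter (fun g => φ g x ≠ 0)).card : ℝ) := by simp
        _ ≤ N := by
            refine le_trans ?_ (Nat.cast_le.2 (hcard x))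
            refine Nat.cast_le.2 (Finset.card_le_card fun g hg => ?_)
            rw [Finset.mem_filter, hJ, Finset.mem_filter] at hg
            rw [Finset.mem_filter]
            refine ⟨hg.1.1, ?_⟩
            have := dist_le_of_tent_ne hlr hg.2
            linarith
    · push Not at hx
      rw [Finset.sum_eq_zero hx]
      refine mul_nonneg (Nat.cast_nonneg _) ?_
      by_cases hxW : x ∈ W
      · rw [hχ x hxW]
        exact hψ0 _
      · rw [hχ0 x hxW]
  have h3 : Q.Γ U U (∑ g ∈ J, φ g) ≤ N * (c * ∫ y, ψ y) := by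
    have h4 := gamma_mono hUD hle
    rwa [Q.smul_test _ U hUD U hUD, hpush ψ hψc hψsb χ hχ hχ0] at h4
  have h5 : ∫ y, ψ y ≤ (2 * (7 * ρ / 8)) ^ 2 := integral_bump_le hψ1 hψ0 (by linarith) hψz
  have h6 : ∫ y, ψ y ≤ 4 * ρ ^ 2 := by nlinarith [sq_nonneg ρ]
  have hN0 : (0 : ℝ) ≤ N := Nat.cast_nonneg N
  have h7 : ρ ^ 2 ≤ 4 * Q.C0 ^ 2 * (N * (c * (4 * ρ ^ 2))) := by
    calc ρ ^ 2 ≤ 4 * Q.C0 ^ 2 * Q.Γ U U (∑ g ∈ J, φ g) := by rw [← hsum]; exact harea
      _ ≤ 4 * Q.C0 ^ 2 * (N * (c * ∫ y, ψ y)) := by gcongr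
      _ ≤ 4 * Q.C0 ^ 2 * (N * (c * (4 * ρ ^ 2))) := by gcongr
  have hρ2 : 0 < ρ ^ 2 := by positivity
  have h8 : 1 ≤ 16 * Q.C0 ^ 2 * N * c := by
    have : ρ ^ 2 * 1 ≤ ρ ^ 2 * (16 * Q.C0 ^ 2 * N * c) := by
      rw [mul_one]
      calc ρ ^ 2 ≤ 4 * Q.C0 ^ 2 * (N * (c * (4 * ρ ^ 2))) := h7
        _ = ρ ^ 2 * (16 * Q.C0 ^ 2 * N * c) := by ring
    exact le_of_mul_le_mul_left this hρ2
  rw [div_le_iff₀ (by positivity)]
  nlinarith [mul_pos (mul_pos (by norm_num : (0 : ℝ) < 16) (pow_pos hC0 2)) hcp]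

end Crest.Agent.R193.CPb2
end
end

-- ▼ part R193/CPb3

/-!
# R193, block D7 (C6) (helper990): a non-constant conformal pair is locally a homeomorphism onto a
square somewhere in every open set.

`out_C6 : InMax Q → InC2 Q → InC3 Q → OutC6 Q`.
-/

set_option autoImplicit false

noncomputable section

open Set Filter Topology MeasureTheory Metric

namespace Crest.Agent.R193.CPb3

open Crest.Agent.R193 Crest.Agent.R193.P_Comp Crest.Agent.R193.CPb1 Crest.Agent.R193.CPb2

variable {G Z : Type} [Group G] [MetricSpace Z] [MulAction G Z] {S : Setup G Z}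

/-- if the push-forward constant of a neighbourhood `W` of `z` vanishes then `F` is constant on a
nontrivial connected set -/
theorem const_of_zero (Q : DForm S) [CompactSpace Z] [LocallyConnectedSpace Z] [PreconnectedSpace Z]
    (hMax : InMax Q) {O W : Set Z} {U V : C(Z, ℝ)} (hO : IsOpen O) (hOu : O ≠ univ)
    (hc : ConfOn Q O U V)
    (hW : IsOpen W) (hWO : closure W ⊆ O) (hWne : Wᶜ.Nonempty) {z : Z} (hzW : z ∈ W) {ρ : ℝ}
    (hρ : 0 < ρ) (hfr : ∀ x ∈ frontier W, Fm U V x ∉ ball (Fm U V z) ρ)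
    (hpush : PushC Q U V W (Fm U V z) ρ 0) :
    ∃ E : Set Z, E ⊆ O ∧ IsPreconnected E ∧ E.Nontrivial ∧ z ∈ E ∧
      ∀ x ∈ E, Fm U V x = Fm U V z := by
  have hlam := Q.one_lt_lam
  have hlam0 : 0 < Q.lam := by linarith
  have hUD := hc.1
  set p := Fm U V z with hp
  have hnh : W ∩ Fm U V ⁻¹' ball p (3 * ρ / 4) ∈ 𝓝 z :=
    (hW.inter (isOpen_ball.preimage (continuous_Fm U V))).mem_nhds
      ⟨hzW, mem_ball_self (by linarith)⟩
  obtain ⟨t, ht, htW⟩ := Metric.nhds_basis_closedBall.mem_iff.1 hnh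
  set r := min Q.ρ0 (t / Q.lam) with hr
  have hr0 : 0 < r := lt_min Q.ρ0_pos (div_pos ht hlam0)
  have hrt : Q.lam * r ≤ t := by
    have : r ≤ t / Q.lam := min_le_right _ _
    rw [le_div_iff₀ hlam0] at this
    linarith
  obtain ⟨ψ, hψc, -, -, hψ0, hψ1, hψone, hψs, hψi⟩ := exists_bump p (r := 3 * ρ / 4)
    (R := 7 * ρ / 8) (by linarith) (by linarith)
  have hψsb : tsupport ψ ⊆ ball p ρ := hψs.trans (closedBall_subset_ball (by linarith))
  have hψz : ∀ y, y ∉ closedBall p (7 * ρ / 8) → ψ y = 0 := fun y hy => by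
    by_contra h
    exact hy (hψs (subset_tsupport ψ h))
  obtain ⟨χ, hχ, hχ0⟩ := exists_cut (U := U) (V := V) (W := W) hψc (fun x hx => hψz _ fun h =>
    hfr x hx (closedBall_subset_ball (by linarith) h))
  have hΓ : Q.Γ U U χ = 0 := by
    rw [hpush ψ hψc hψsb χ hχ hχ0, zero_mul]
  have hχnn : ∀ y, 0 ≤ χ y := by
    intro y
    by_cases hy : y ∈ W
    · rw [hχ y hy]
      exact hψ0 _
    · rw [hχ0 y hy]
  have hχs : tsupport χ ⊆ O := by
    refine Subset.trans (closure_mono fun y hy => ?_) hWO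
    by_contra h
    exact hy (hχ0 y h)
  have hin : closedBall z (Q.lam * r) ⊆ W ∩ Fm U V ⁻¹' ball p (3 * ρ / 4) :=
    (closedBall_subset_closedBall hrt).trans htW
  have hconst : ∀ y, dist y z ≤ r → Fm U V y = p := by
    intro y hy
    have h1 := dist_Fm_le Q hMax hO hOu hc hr0 (min_le_left _ _)
      (hin.trans (inter_subset_left.trans (subset_closure.trans hWO))) hχnn
      (fun y _ h2 => by
        have h3 := hin (mem_closedBall.2 h2)
        rw [hχ y h3.1, hψone _ (ball_subset_closedBall h3.2)]) hχs hy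
    rw [hΓ, Real.sqrt_zero, mul_zero] at h1
    exact dist_le_zero.1 h1
  have hzr : z ∈ closedBall z r := mem_closedBall_self hr0.le
  have hne : ¬ (univ : Set Z) ⊆ ball z r := by
    obtain ⟨w, hw⟩ := hWne
    intro h
    have h1 : w ∈ ball z r := h (mem_univ w)
    have h2 : w ∈ closedBall z (Q.lam * r) := by
      rw [mem_ball] at h1
      rw [mem_closedBall]
      nlinarith
    exact hw (hin h2).1
  obtain ⟨y, hy, hyd⟩ := exists_mem_comp_dist_eq (K := (univ : Set Z)) isCompact_univ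
    isPreconnected_univ hr0 (mem_univ z) hne
  rw [univ_inter] at hy
  refine ⟨connectedComponentIn (closedBall z r) z, ?_, isPreconnected_connectedComponentIn, ?_,
    mem_connectedComponentIn hzr,
    fun x hx => hconst x (mem_closedBall.1 (connectedComponentIn_subset _ _ hx))⟩
  · refine (connectedComponentIn_subset _ _).trans ?_
    refine (closedBall_subset_closedBall (by nlinarith : r ≤ Q.lam * r)).trans ?_
    exact hin.trans (inter_subset_left.trans (subset_closure.trans hWO))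
  · refine ⟨y, hy, z, mem_connectedComponentIn hzr, ?_⟩
    rintro rfl
    rw [dist_self] at hyd
    linarith

/-- a homeomorphic (onto an open square, frontier going to the boundary of the square) open set in
a compact connected space has connected complement -/
theorem isPreconnected_compl_of_square [CompactSpace Z] [PreconnectedSpace Z] {U V : C(Z, ℝ)}
    {W : Set Z} (hW : IsOpen W) {p : ℝ × ℝ} {ρ : ℝ} (hρ : 0 < ρ)
    (hinj : InjOn (Fm U V) W) (himg : Fm U V '' W = ball p ρ)
    (hfr : ∀ x ∈ frontier W, Fm U V x ∉ ball p ρ) : IsPreconnected Wᶜ := by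
  have hF := continuous_Fm U V
  -- the smaller sets
  set Wr : {r : ℝ // 0 < r ∧ r < ρ} → Set Z := fun r => W ∩ Fm U V ⁻¹' ball p r with hWr
  have hWro : ∀ r, IsOpen (Wr r) := fun r => hW.inter (isOpen_ball.preimage hF)
  have hcl : ∀ r : {r : ℝ // 0 < r ∧ r < ρ}, IsClosed (W ∩ Fm U V ⁻¹' closedBall p (r : ℝ)) := by
    intro r
    have h1 : W ∩ Fm U V ⁻¹' closedBall p (r : ℝ) = closure W ∩ Fm U V ⁻¹' closedBall p (r : ℝ) := by
      ext x
      constructor
      · rintro ⟨h1, h2⟩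
        exact ⟨subset_closure h1, h2⟩
      · rintro ⟨h1, h2⟩
        refine ⟨?_, h2⟩
        by_contra h
        exact hfr x ⟨h1, fun h' => h (interior_subset h')⟩ (closedBall_subset_ball r.2.2 h2)
    rw [h1]
    exact isClosed_closure.inter (isClosed_closedBall.preimage hF)
  -- the inverse map is continuous on closed squares
  have hfron : ∀ r, IsPreconnected (frontier (Wr r)) := by
    intro r
    have hr0 := r.2.1
    -- the set `W ∩ F⁻¹ (sphere p r)`
    have hSc : IsCompact (W ∩ Fm U V ⁻¹' closedBall p (r : ℝ)) := (hcl r).isCompact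
    -- homeomorphism onto the closed square
    have hsub : sphere p (r : ℝ) ⊆ Fm U V '' W := by
      rw [himg]
      exact sphere_subset_closedBall.trans (closedBall_subset_ball r.2.2)
    set T : Set Z := W ∩ Fm U V ⁻¹' sphere p (r : ℝ) with hT
    have hTcl : IsClosed T := by
      have : T = (W ∩ Fm U V ⁻¹' closedBall p (r : ℝ)) ∩ Fm U V ⁻¹' sphere p (r : ℝ) := by
        ext x
        constructor
        · rintro ⟨h1, h2⟩
          exact ⟨⟨h1, sphere_subset_closedBall h2⟩, h2⟩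
        · rintro ⟨⟨h1, -⟩, h2⟩
          exact ⟨h1, h2⟩
      rw [this]
      exact (hcl r).inter (isClosed_sphere.preimage hF)
    have hTpre : IsPreconnected T := by
      have hrank : 1 < Module.rank ℝ (ℝ × ℝ) := by
        rw [← Module.finrank_eq_rank, Module.finrank_prod, Module.finrank_self]
        norm_num
      have hsph : IsPreconnected (sphere p (r : ℝ)) := isPreconnected_sphere hrank p r
      rw [isPreconnected_iff_subset_of_fully_disjoint_closed hTcl]
      intro A B hA hB hAB hd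
      have hA' : IsClosed (Fm U V '' (T ∩ A)) := ((hTcl.inter hA).isCompact.image hF).isClosed
      have hB' : IsClosed (Fm U V '' (T ∩ B)) := ((hTcl.inter hB).isCompact.image hF).isClosed
      have hcov : sphere p (r : ℝ) ⊆ Fm U V '' (T ∩ A) ∪ Fm U V '' (T ∩ B) := by
        intro q hq
        obtain ⟨x, hx, hxq⟩ := hsub hq
        have hxT : x ∈ T := ⟨hx, by rw [← hxq] at hq; exact hq⟩
        rcases hAB hxT with h | h
        · exact Or.inl ⟨x, ⟨hxT, h⟩, hxq⟩
        · exact Or.inr ⟨x, ⟨hxT, h⟩, hxq⟩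
      have hdis : Disjoint (Fm U V '' (T ∩ A)) (Fm U V '' (T ∩ B)) := by
        rw [disjoint_left]
        rintro _ ⟨x, ⟨hxT, hxA⟩, rfl⟩ ⟨y, ⟨hyT, hyB⟩, hxy⟩
        have := hinj hyT.1 hxT.1 hxy
        rw [this] at hyB
        exact disjoint_left.1 hd hxA hyB
      rcases (isPreconnected_iff_subset_of_fully_disjoint_closed isClosed_sphere).1 hsph _ _ hA' hB'
        hcov hdis with h | h
      · left
        intro x hx
        obtain ⟨y, ⟨hyT, hyA⟩, hyx⟩ := h hx.2
        rwa [hinj hyT.1 hx.1 hyx] at hyA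
      · right
        intro x hx
        obtain ⟨y, ⟨hyT, hyB⟩, hyx⟩ := h hx.2
        rwa [hinj hyT.1 hx.1 hyx] at hyB
    have hfeq : frontier (Wr r) = T := by
      apply subset_antisymm
      · intro x hx
        rw [(hWro r).frontier_eq] at hx
        have h1 : x ∈ W ∩ Fm U V ⁻¹' closedBall p (r : ℝ) :=
          closure_minimal (inter_subset_inter_right _ (preimage_mono ball_subset_closedBall))
            (hcl r) hx.1
        refine ⟨h1.1, ?_⟩
        have h2 : Fm U V x ∈ closedBall p (r : ℝ) := h1.2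
        have h3 : Fm U V x ∉ ball p (r : ℝ) := fun h => hx.2 ⟨h1.1, h⟩
        rw [mem_closedBall] at h2
        rw [mem_ball, not_lt] at h3
        exact le_antisymm h2 h3
      · intro x hx
        rw [(hWro r).frontier_eq]
        refine ⟨?_, fun h => ?_⟩
        · by_contra hxc
          -- a neighbourhood of `x` in `W` misses `F⁻¹ ball`
          set K1 : Set Z := closure (Wr r) with hK1
          have hK1sub : K1 ⊆ W ∩ Fm U V ⁻¹' closedBall p (r : ℝ) :=
            closure_minimal (inter_subset_inter_right _ (preimage_mono ball_subset_closedBall))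
              (hcl r)
          have himgcl : IsClosed (Fm U V '' K1) :=
            (isClosed_closure.isCompact.image hF).isClosed
          have hballsub : ball p (r : ℝ) ⊆ Fm U V '' K1 := by
            intro q hq
            have : q ∈ Fm U V '' W := by
              rw [himg]
              exact ball_subset_ball r.2.2.le hq
            obtain ⟨y, hy, hyq⟩ := this
            exact ⟨y, subset_closure ⟨hy, by rw [← hyq] at hq; exact hq⟩, hyq⟩
          have hcb : closedBall p (r : ℝ) ⊆ Fm U V '' K1 := by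
            rw [← closure_ball p hr0.ne']
            exact closure_minimal hballsub himgcl
          obtain ⟨y, hy, hyx⟩ := hcb (sphere_subset_closedBall hx.2)
          have hyW := (hK1sub hy).1
          rw [hinj hyW hx.1 hyx] at hy
          exact hxc hy
        · have h1 : Fm U V x ∈ ball p (r : ℝ) := h.2
          have h2 : Fm U V x ∈ sphere p (r : ℝ) := hx.2
          rw [mem_ball] at h1
          rw [mem_sphere] at h2
          linarith
    rw [hfeq]
    exact hTpre
  have hWc : Wᶜ = ⋂ r, (Wr r)ᶜ := by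
    ext x
    rw [mem_iInter]
    constructor
    · intro hx r h
      exact hx h.1
    · intro hx hxW
      have h1 : Fm U V x ∈ ball p ρ := by
        rw [← himg]
        exact ⟨x, hxW, rfl⟩
      rw [mem_ball] at h1
      obtain ⟨s, hs1, hs2⟩ := exists_between (max_lt h1 hρ)
      refine hx ⟨s, (le_max_right _ _).trans_lt hs1, hs2⟩ ⟨hxW, ?_⟩
      exact (le_max_left _ _).trans_lt hs1
  rw [hWc]
  have : Nonempty {r : ℝ // 0 < r ∧ r < ρ} := ⟨⟨ρ / 2, by linarith, by linarith⟩⟩
  refine isPreconnected_iInter_of_directed ?_ (fun r => (hWro r).isClosed_compl.isCompact)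
    fun r => isPreconnected_compl_of_frontier (hWro r) (hfron r)
  intro r r'
  refine ⟨⟨max r r', lt_max_of_lt_left r.2.1, max_lt r.2.2 r'.2.2⟩, ?_, ?_⟩
  · exact compl_subset_compl.2 (inter_subset_inter_right _ (preimage_mono
      (ball_subset_ball (le_max_left _ _))))
  · exact compl_subset_compl.2 (inter_subset_inter_right _ (preimage_mono
      (ball_subset_ball (le_max_right _ _))))

/-- **(C6)** -/
theorem out_C6 (Q : DForm S) (Φ : Z ≃ₜ Crest.Agent.R193.S2) (hMax : InMax Q) (hC2 : InC2 Q)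
    (hC3 : InC3 Q) : OutC6 Q := by
  have hS2 : ConnectedSpace Crest.Agent.R193.S2 := Planar.S2_connected
  have hZcpt : CompactSpace Z := Φ.symm.compactSpace
  have hZlc : LocallyConnectedSpace Z := OSC.locConn Φ
  have hZc : PreconnectedSpace Z := by
    refine ⟨?_⟩
    have := (isPreconnected_univ (α := Crest.Agent.R193.S2)).image Φ.symm Φ.symm.continuous.continuousOn
    rwa [image_univ, Φ.symm.surjective.range_eq] at this
  intro O U V hO hOc hc hnc O' hO' hne hO'O
  obtain ⟨c0, hc0, hlow⟩ := lower_bound Q hMax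
  obtain ⟨z0, hz0⟩ := hne
  obtain ⟨N, hN, hNc, hz0N, hNO', hNcc, hNt⟩ := exists_disc_nhds Φ hO' hz0
  have hNO : closure N ⊆ O := hNO'.trans hO'O
  have hNu : N ≠ univ := by
    rintro rfl
    obtain ⟨x, hx⟩ := hNt.nonempty
    exact hx (mem_univ x)
  have hcN : ConfOn Q N U V := hc.mono (subset_closure.trans hNO)
  have hF := continuous_Fm U V
  -- nonconstancy
  have hnE : ∀ z ∈ O, ∀ E : Set Z, E ⊆ O → IsPreconnected E → E.Nontrivial →
      ¬ ∀ x ∈ E, Fm U V x = Fm U V z := by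
    intro z _ E hE hEp hEt hcon
    exact hnc ⟨Fm U V z, hC3 O U V hO hOc hc E hE hEp hEt _ hcon⟩
  -- cells inside `N`
  have hcellfr : ∀ z ρ, ∀ x ∈ frontier (cell U V z ρ), Fm U V x ∉ ball (Fm U V z) ρ := by
    intro z ρ x hx h
    have h1 := frontier_cell hx
    rw [mem_sphere] at h1
    rw [mem_ball] at h
    linarith
  have hpushex : ∀ z ρ, 0 < ρ → closure (cell U V z ρ) ⊆ N →
      ∃ c, c0 ≤ c ∧ PushC Q U V (cell U V z ρ) (Fm U V z) ρ c := by
    intro z ρ hρ hcl
    have hclO : closure (cell U V z ρ) ⊆ O := hcl.trans (subset_closure.trans hNO)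
    obtain ⟨c, hc', hp⟩ := hC2 N U V hN hcN (cell U V z ρ) isOpen_cell hcl (Fm U V z) ρ hρ
      (hcellfr z ρ)
    rcases hc'.lt_or_eq with h | h
    · exact ⟨c, hlow N _ U V hN hNu hcN isOpen_cell hcl _ ρ c hρ (hcellfr z ρ) h hp, hp⟩
    · exfalso
      rw [← h] at hp
      have hzO : z ∈ O := hclO (subset_closure (mem_cell hρ))
      obtain ⟨E, hE, hEp, hEt, -, hEc⟩ := const_of_zero Q hMax hN hNu hcN isOpen_cell hcl
        (hNt.nonempty.mono (compl_subset_compl.2 (subset_closure.trans hcl))) (mem_cell hρ) hρ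
        (hcellfr z ρ) hp
      exact hnE z hzO E (hE.trans (subset_closure.trans hNO)) hEp hEt hEc
  -- the infimum
  set A : Set ℝ := {c | ∃ z ρ, 0 < ρ ∧ closure (cell U V z ρ) ⊆ N ∧
    PushC Q U V (cell U V z ρ) (Fm U V z) ρ c} with hA
  have hAne : A.Nonempty := by
    obtain ⟨ρ0, hρ0, h⟩ := cell_small hO (hO'O hz0) (hnE z0 (hO'O hz0)) hN hz0N
    obtain ⟨c, -, hp⟩ := hpushex z0 ρ0 hρ0 (h ρ0 le_rfl)
    exact ⟨c, z0, ρ0, hρ0, h ρ0 le_rfl, hp⟩
  have huniq : ∀ z ρ c, 0 < ρ → closure (cell U V z ρ) ⊆ N →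
      PushC Q U V (cell U V z ρ) (Fm U V z) ρ c → c0 ≤ c := by
    intro z ρ c hρ hcl hp
    obtain ⟨c', hc', hp'⟩ := hpushex z ρ hρ hcl
    -- uniqueness of the constant, by superadditivity with an empty second set
    have h1 : c' + 0 ≤ c := pushC_add_le (W := cell U V z ρ) (W₁ := cell U V z ρ) (W₂ := ∅) hc.1
      subset_rfl (empty_subset _) (disjoint_empty _) hρ subset_rfl (hcellfr z ρ) (hcellfr z ρ)
      (by simp) hp hp' (by
        intro ψ _ _ φ _ hφ
        have : φ = 0 := by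
          ext x
          exact hφ x (notMem_empty x)
        rw [this, gamma_zero hc.1 hc.1, zero_mul])
    linarith
  have hbdd : BddBelow A := ⟨c0, by
    rintro c ⟨z, ρ, hρ, hcl, hp⟩
    exact huniq z ρ c hρ hcl hp⟩
  set m := sInf A with hm
  have hm0 : c0 ≤ m := le_csInf hAne (by
    rintro c ⟨z, ρ, hρ, hcl, hp⟩
    exact huniq z ρ c hρ hcl hp)
  obtain ⟨c, ⟨z, ρ, hρ, hcl, hp⟩, hcm⟩ := exists_lt_of_csInf_lt hAne
    (show sInf A < 2 * m by rw [← hm]; linarith)
  have hcp : 0 < c := lt_of_lt_of_le hc0 (huniq z ρ c hρ hcl hp)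
  set W := cell U V z ρ with hW
  have hWN : W ⊆ N := subset_closure.trans hcl
  have hzO' : z ∈ O' := hNO' (subset_closure (hWN (mem_cell hρ)))
  have hNO2 : N ⊆ O := subset_closure.trans hNO
  -- injectivity
  have hinj : InjOn (Fm U V) W := by
    intro y hy y' hy' hyy
    by_contra hne
    have hq : Fm U V y ∈ ball (Fm U V z) ρ := cell_subset hy
    have hyO : y ∈ O := hNO2 (hWN hy)
    have hy'O : y' ∈ O := hNO2 (hWN hy')
    obtain ⟨B1, B2, hB1, hB2, hyB1, hyB2, hBd⟩ := t2_separation hne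
    obtain ⟨ρ1, hρ1, h1⟩ := cell_small hO hyO (hnE y hyO) (hB1.inter hN) ⟨hyB1, hWN hy⟩
    obtain ⟨ρ2, hρ2, h2⟩ := cell_small hO hy'O (hnE y' hy'O) (hB2.inter hN) ⟨hyB2, hWN hy'⟩
    obtain ⟨ρ3, hρ3, h3⟩ := Metric.isOpen_iff.1 isOpen_ball _ hq
    set s := min ρ1 (min ρ2 ρ3) with hs
    have hs0 : 0 < s := lt_min hρ1 (lt_min hρ2 hρ3)
    have hs1 : s ≤ ρ1 := min_le_left _ _
    have hs2 : s ≤ ρ2 := (min_le_right _ _).trans (min_le_left _ _)
    have hs3 : s ≤ ρ3 := (min_le_right _ _).trans (min_le_right _ _)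
    have hb1 : ball (Fm U V y) s ⊆ ball (Fm U V z) ρ := (ball_subset_ball hs3).trans h3
    have hb2 : ball (Fm U V y') s ⊆ ball (Fm U V z) ρ := by rw [← hyy]; exact hb1
    have hcl1 := h1 s hs1
    have hcl2 := h2 s hs2
    obtain ⟨c1, -, hp1⟩ := hpushex y s hs0 (hcl1.trans inter_subset_right)
    obtain ⟨c2, -, hp2⟩ := hpushex y' s hs0 (hcl2.trans inter_subset_right)
    have hm1 : m ≤ c1 := csInf_le hbdd ⟨y, s, hs0, hcl1.trans inter_subset_right, hp1⟩
    have hm2 : m ≤ c2 := csInf_le hbdd ⟨y', s, hs0, hcl2.trans inter_subset_right, hp2⟩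
    have hd : Disjoint (cell U V y s) (cell U V y' s) :=
      hBd.mono ((subset_closure.trans hcl1).trans inter_subset_left)
        ((subset_closure.trans hcl2).trans inter_subset_left)
    have h4 : c1 + c2 ≤ c := pushC_add_le hc.1 (cell_subset_cell hs0 hy hb1)
      (cell_subset_cell hs0 hy' hb2) hd hs0 hb1 (hcellfr z ρ) (hcellfr y s)
      (by rw [hyy]; exact hcellfr y' s) hp hp1 (by rw [hyy]; exact hp2)
    linarith
  have himg : Fm U V '' W = ball (Fm U V z) ρ := by
    apply subset_antisymm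
    · rintro _ ⟨x, hx, rfl⟩
      exact cell_subset hx
    · intro q hq
      exact pushC_surj hc.1 (hcellfr z ρ) hcp hp hq
  have hWcc : IsConnected Wᶜ := ⟨hNt.nonempty.mono (compl_subset_compl.2 hWN),
    isPreconnected_compl_of_square isOpen_cell hρ hinj himg (hcellfr z ρ)⟩
  exact ⟨c, hcp, z, hzO', ρ, hρ, W, isOpen_cell, ⟨⟨z, mem_cell hρ⟩, isPreconnected_cell⟩,
    mem_cell hρ, hcl.trans (subset_closure.trans hNO'), hWcc, hinj, himg,
    fun x hx => frontier_cell hx, hp⟩

end Crest.Agent.R193.CPb3
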