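import Crest.Agent.R193.Defs

/-!
# R193, block D3b: calculus over a `DForm` (helper666), part 1

Algebra, chain rules, Cauchy-Schwarz, product bounds, filter-free WEAK / CLOSED, lower
semicontinuity, cut-off functions for compact sets, density of the domain, locality.
-/

set_option autoImplicit false
set_option linter.unusedSectionVars false

open Set Filter Topology

namespace Crest.Agent.R193.D3b1

open Crest.Agent.R193

variable {G Z : Type} [Group G] [MetricSpace Z] [MulAction G Z] {S : Setup G Z}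
variable (Q : DForm S) {u v w u' v' : C(Z, ℝ)}

/-! ### algebra of the domain -/

lemma zero_mem : (0 : C(Z, ℝ)) ∈ Q.Dom := Q.const_mem 0


variable {Q}

lemma add_mem (hu : u ∈ Q.Dom) (hv : v ∈ Q.Dom) : u + v ∈ Q.Dom := Q.add_mem u hu v hv

lemma smul_mem (c : ℝ) (hu : u ∈ Q.Dom) : c • u ∈ Q.Dom := Q.smul_mem c u hu

lemma mul_mem (hu : u ∈ Q.Dom) (hv : v ∈ Q.Dom) : u * v ∈ Q.Dom := Q.mul_mem u hu v hv

lemma neg_mem (hu : u ∈ Q.Dom) : -u ∈ Q.Dom := by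
  have := smul_mem (-1) hu
  rwa [neg_smul, one_smul] at this

lemma sub_mem (hu : u ∈ Q.Dom) (hv : v ∈ Q.Dom) : u - v ∈ Q.Dom := by
  rw [sub_eq_add_neg]; exact add_mem hu (neg_mem hv)




/-- the one-variable chain rule -/
lemma chain1 {ψ : ℝ → ℝ} (hψ : ContDiff ℝ 2 ψ) (hu : u ∈ Q.Dom) {w' d : C(Z, ℝ)}
    (hw' : ∀ x, w' x = ψ (u x)) (hd : ∀ x, d x = deriv ψ (u x)) :
    w' ∈ Q.Dom ∧ ∀ w ∈ Q.Dom, ∀ φ : C(Z, ℝ), Q.Γ w' w φ = Q.Γ u w (φ * d) := by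
  have hψ2 : ContDiff ℝ 2 (fun p : ℝ × ℝ => ψ p.1) := hψ.comp contDiff_fst
  have hfd : ∀ (p : ℝ × ℝ) (e : ℝ × ℝ), fderiv ℝ (fun p : ℝ × ℝ => ψ p.1) p e
      = deriv ψ p.1 * e.1 := by
    intro p e
    have h1 : HasDerivAt ψ (deriv ψ p.1) p.1 :=
      (hψ.differentiable two_ne_zero p.1).hasDerivAt
    have h2 : HasFDerivAt (fun p : ℝ × ℝ => ψ p.1)
        ((ContinuousLinearMap.toSpanSingleton ℝ (deriv ψ p.1)).comp (ContinuousLinearMap.fst ℝ ℝ ℝ)) p :=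
      h1.hasFDerivAt.comp p hasFDerivAt_fst
    rw [h2.fderiv]
    simp [mul_comm]
  have key := Q.chain (fun p : ℝ × ℝ => ψ p.1) hψ2 u hu u hu w' d 0 hw'
    (fun x => by rw [hfd]; simp [hd]) (fun x => by rw [hfd]; simp)
  refine ⟨key.1, fun w hw φ => ?_⟩
  rw [key.2 w hw φ, mul_zero]
  have h0 : Q.Γ u w 0 = 0 := by
    have := Q.smul_test 0 u hu w hw 0
    simpa using this
  rw [h0, add_zero]

/-! ### bilinearity -/

lemma add_right (hu : u ∈ Q.Dom) (hu' : u' ∈ Q.Dom) (hv : v ∈ Q.Dom) (φ : C(Z, ℝ)) :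
    Q.Γ v (u + u') φ = Q.Γ v u φ + Q.Γ v u' φ := by
  rw [Q.symm v hv _ (add_mem hu hu'), Q.add_left u hu u' hu' v hv, Q.symm u hu v hv,
    Q.symm u' hu' v hv]

lemma smul_right (c : ℝ) (hu : u ∈ Q.Dom) (hv : v ∈ Q.Dom) (φ : C(Z, ℝ)) :
    Q.Γ v (c • u) φ = c * Q.Γ v u φ := by
  rw [Q.symm v hv _ (smul_mem c hu), Q.smul_left c u hu v hv, Q.symm u hu v hv]

lemma neg_left (hu : u ∈ Q.Dom) (hv : v ∈ Q.Dom) (φ : C(Z, ℝ)) : Q.Γ (-u) v φ = - Q.Γ u v φ := by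
  have := Q.smul_left (-1) u hu v hv φ
  rwa [neg_smul, one_smul, neg_one_mul] at this


lemma sub_left (hu : u ∈ Q.Dom) (hu' : u' ∈ Q.Dom) (hv : v ∈ Q.Dom) (φ : C(Z, ℝ)) :
    Q.Γ (u - u') v φ = Q.Γ u v φ - Q.Γ u' v φ := by
  rw [sub_eq_add_neg, Q.add_left u hu _ (neg_mem hu') v hv, neg_left hu' hv, sub_eq_add_neg]


lemma const_left (c : ℝ) (hv : v ∈ Q.Dom) (φ : C(Z, ℝ)) :
    Q.Γ (ContinuousMap.const Z c) v φ = 0 := by
  have h := chain1 (Q := Q) (ψ := fun _ => c) contDiff_const (zero_mem Q)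
    (w' := ContinuousMap.const Z c) (d := 0) (fun x => rfl) (fun x => by simp)
  rw [h.2 v hv φ, mul_zero]
  have := Q.smul_test 0 0 (zero_mem Q) v hv 0
  simpa using this




lemma zero_left (hv : v ∈ Q.Dom) (φ : C(Z, ℝ)) : Q.Γ 0 v φ = 0 := const_left 0 hv φ




/-! ### test functions -/

lemma zero_test (hu : u ∈ Q.Dom) (hv : v ∈ Q.Dom) : Q.Γ u v 0 = 0 := by
  have := Q.smul_test 0 u hu v hv 0
  simpa using this

lemma neg_test (hu : u ∈ Q.Dom) (hv : v ∈ Q.Dom) (φ : C(Z, ℝ)) : Q.Γ u v (-φ) = - Q.Γ u v φ := by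
  have := Q.smul_test (-1) u hu v hv φ
  rwa [neg_smul, one_smul, neg_one_mul] at this

lemma sub_test (hu : u ∈ Q.Dom) (hv : v ∈ Q.Dom) (φ φ' : C(Z, ℝ)) :
    Q.Γ u v (φ - φ') = Q.Γ u v φ - Q.Γ u v φ' := by
  rw [sub_eq_add_neg, Q.add_test u hu v hv, neg_test hu hv, sub_eq_add_neg]


lemma mono_test (hu : u ∈ Q.Dom) {φ φ' : C(Z, ℝ)} (h : ∀ x, φ x ≤ φ' x) :
    Q.Γ u u φ ≤ Q.Γ u u φ' := by
  have := Q.nonneg u hu (φ' - φ) (fun x => by simpa using h x)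
  rw [sub_test hu hu] at this
  linarith

lemma energy_nonneg (hu : u ∈ Q.Dom) : 0 ≤ Q.Γ u u 1 := Q.nonneg u hu 1 (fun _ => zero_le_one)

/-! ### Leibniz rule -/





/-! ### quadratic identities and Cauchy-Schwarz -/

lemma Γ_add_add (hu : u ∈ Q.Dom) (hv : v ∈ Q.Dom) (φ : C(Z, ℝ)) :
    Q.Γ (u + v) (u + v) φ = Q.Γ u u φ + 2 * Q.Γ u v φ + Q.Γ v v φ := by
  rw [Q.add_left u hu v hv _ (add_mem hu hv), add_right hu hv hu, add_right hu hv hv,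
    Q.symm v hv u hu]
  ring


lemma Γ_smul_smul (c : ℝ) (hu : u ∈ Q.Dom) (φ : C(Z, ℝ)) :
    Q.Γ (c • u) (c • u) φ = c ^ 2 * Q.Γ u u φ := by
  rw [Q.smul_left c u hu _ (smul_mem c hu), smul_right c hu hu]; ring


/-- Cauchy-Schwarz, squared. -/
lemma cauchy_schwarz_sq (hu : u ∈ Q.Dom) (hv : v ∈ Q.Dom) {φ : C(Z, ℝ)} (hφ : ∀ x, 0 ≤ φ x) :
    (Q.Γ u v φ) ^ 2 ≤ Q.Γ u u φ * Q.Γ v v φ := by
  have key : ∀ t : ℝ, 0 ≤ Q.Γ v v φ * (t * t) + (2 * Q.Γ u v φ) * t + Q.Γ u u φ := by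
    intro t
    have h := Q.nonneg _ (add_mem hu (smul_mem t hv)) φ hφ
    rw [Γ_add_add hu (smul_mem t hv), smul_right t hv hu, Γ_smul_smul t hv] at h
    nlinarith [h]
  have := discrim_le_zero key
  rw [discrim] at this
  nlinarith [this]



/-- positive and negative parts of a test function -/
lemma exists_pos_neg {φ η : C(Z, ℝ)} (h : ∀ z, |φ z| ≤ η z) :
    ∃ φp φm : C(Z, ℝ), (∀ x, 0 ≤ φp x) ∧ (∀ x, 0 ≤ φm x) ∧ φ = φp - φm ∧
      ∀ x, (φp + φm) x ≤ η x := by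
  refine ⟨φ ⊔ 0, (-φ) ⊔ 0, fun x => ?_, fun x => ?_, ?_, fun z => ?_⟩
  · simp
  · simp
  · ext z
    simp only [ContinuousMap.sub_apply, ContinuousMap.sup_apply, ContinuousMap.zero_apply,
      ContinuousMap.neg_apply]
    rcases le_total (φ z) 0 with hz | hz
    · rw [sup_of_le_right hz, sup_of_le_left (by linarith)]; ring
    · rw [sup_of_le_left hz, sup_of_le_right (by linarith)]; ring
  · have := h z
    simp only [ContinuousMap.add_apply, ContinuousMap.sup_apply, ContinuousMap.zero_apply,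
      ContinuousMap.neg_apply]
    rcases le_total (φ z) 0 with hz | hz
    · rw [sup_of_le_right hz, sup_of_le_left (by linarith)]
      rw [abs_of_nonpos hz] at this; linarith
    · rw [sup_of_le_left hz, sup_of_le_right (by linarith)]
      rw [abs_of_nonneg hz] at this; linarith

/-- `|Γ(u,v)(φ)|² ≤ Γ(u,u)(η) Γ(v,v)(η)` if `|φ| ≤ η` -/
lemma cauchy_schwarz_abs_sq (hu : u ∈ Q.Dom) (hv : v ∈ Q.Dom) {φ η : C(Z, ℝ)}
    (h : ∀ z, |φ z| ≤ η z) : (Q.Γ u v φ) ^ 2 ≤ Q.Γ u u η * Q.Γ v v η := by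
  obtain ⟨φp, φm, hp0, hm0, hdec, hsum⟩ := exists_pos_neg h
  have huu := mono_test hu hsum
  have hvv := mono_test hv hsum
  rw [Q.add_test u hu u hu] at huu
  rw [Q.add_test v hv v hv] at hvv
  have a0 := Q.nonneg u hu φp hp0
  have a1 := Q.nonneg u hu φm hm0
  have b0 := Q.nonneg v hv φp hp0
  have b1 := Q.nonneg v hv φm hm0
  have c0 := cauchy_schwarz_sq hu hv hp0
  have c1 := cauchy_schwarz_sq hu hv hm0
  have h1 : |Q.Γ u v φ| ≤ |Q.Γ u v φp| + |Q.Γ u v φm| := by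
    conv_lhs => rw [hdec, sub_test hu hv]
    exact abs_sub _ _
  have h2 : (|Q.Γ u v φp| + |Q.Γ u v φm|) ^ 2 ≤
      (Q.Γ u u φp + Q.Γ u u φm) * (Q.Γ v v φp + Q.Γ v v φm) := by
    have e0 := abs_nonneg (Q.Γ u v φp)
    have e1 := abs_nonneg (Q.Γ u v φm)
    have d0 : |Q.Γ u v φp| ^ 2 ≤ Q.Γ u u φp * Q.Γ v v φp := by rwa [sq_abs]
    have d1 : |Q.Γ u v φm| ^ 2 ≤ Q.Γ u u φm * Q.Γ v v φm := by rwa [sq_abs]
    have cross : 2 * (|Q.Γ u v φp| * |Q.Γ u v φm|) ≤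
        Q.Γ u u φp * Q.Γ v v φm + Q.Γ u u φm * Q.Γ v v φp := by
      have hsq : (2 * (|Q.Γ u v φp| * |Q.Γ u v φm|)) ^ 2 ≤
          (Q.Γ u u φp * Q.Γ v v φm + Q.Γ u u φm * Q.Γ v v φp) ^ 2 := by
        have m : (|Q.Γ u v φp| * |Q.Γ u v φm|) ^ 2 ≤
            (Q.Γ u u φp * Q.Γ v v φp) * (Q.Γ u u φm * Q.Γ v v φm) := by
          rw [mul_pow]
          exact mul_le_mul d0 d1 (sq_nonneg _) (mul_nonneg a0 b0)
        nlinarith [sq_nonneg (Q.Γ u u φp * Q.Γ v v φm - Q.Γ u u φm * Q.Γ v v φp)]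
      exact le_of_sq_le_sq hsq (by positivity)
    nlinarith
  calc (Q.Γ u v φ) ^ 2 = |Q.Γ u v φ| ^ 2 := (sq_abs _).symm
    _ ≤ (|Q.Γ u v φp| + |Q.Γ u v φm|) ^ 2 := by gcongr
    _ ≤ _ := h2
    _ ≤ _ := mul_le_mul huu hvv (by positivity) (by linarith)











section compact

variable [CompactSpace Z]




/-! ### filter-free WEAK and CLOSED -/


/-- weak continuity, filter free -/
lemma weak (hu : u ∈ Q.Dom) (φ : C(Z, ℝ)) (C : ℝ) {ε : ℝ} (hε : 0 < ε) :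
    ∃ d > 0, ∀ w ∈ Q.Dom, ‖w‖ ≤ d → Q.Γ w w 1 ≤ C → |Q.Γ u w φ| ≤ ε := by
  by_contra hcon
  push Not at hcon
  have hpos : ∀ n : ℕ, (0 : ℝ) < 1 / ((n : ℝ) + 1) := fun n => Nat.one_div_pos_of_nat
  choose! f hf using hcon
  have hlim : Tendsto (fun n : ℕ => f (1 / ((n : ℝ) + 1))) atTop (𝓝 0) := by
    rw [tendsto_zero_iff_norm_tendsto_zero]
    exact squeeze_zero (fun n => norm_nonneg _) (fun n => (hf _ (hpos n)).2.1)
      tendsto_one_div_add_atTop_nhds_zero_nat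
  have h := (Q.closed _ 0 C (fun n => (hf _ (hpos n)).1) hlim
    (fun n => (hf _ (hpos n)).2.2.1)).2 u hu φ
  rw [zero_left hu] at h
  have h1 : ∀ᶠ n : ℕ in atTop, |Q.Γ (f (1 / ((n : ℝ) + 1))) u φ| < ε := by
    have := (Metric.tendsto_nhds.1 h) ε hε
    filter_upwards [this] with n hn
    simpa [Real.dist_eq] using hn
  obtain ⟨n, hn⟩ := h1.exists
  have h2 := (hf _ (hpos n)).2.2.2
  rw [Q.symm u hu _ (hf _ (hpos n)).1] at h2
  linarith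




end compact

end Crest.Agent.R193.D3b1
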