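import Crest.Agent.R193.Defs
import Mathlib
import Crest.Agent.R193.CPDefs
import Crest.Agent.R193.D_Defs

-- ▼ part R193/D56_Basic
section

/-!
# R193, block D5+D6: basic calculus of a `DForm` used by the blow-up argument
-/

set_option autoImplicit false

noncomputable section

open Set Filter Topology

namespace Crest.Agent.R193.D56_Basic

open Crest.Agent.R193

variable {G Z : Type} [Group G] [MetricSpace Z] [MulAction G Z] {S : Setup G Z} (Q : DForm S)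

section alg
variable {Q}

theorem zero_mem : (0 : C(Z, ℝ)) ∈ Q.Dom := Q.const_mem 0

theorem one_mem : (1 : C(Z, ℝ)) ∈ Q.Dom := Q.const_mem 1

theorem neg_mem {u : C(Z, ℝ)} (hu : u ∈ Q.Dom) : -u ∈ Q.Dom := by
  have := Q.smul_mem (-1) u hu
  simpa using this

theorem sub_mem {u v : C(Z, ℝ)} (hu : u ∈ Q.Dom) (hv : v ∈ Q.Dom) : u - v ∈ Q.Dom := by
  rw [sub_eq_add_neg]; exact Q.add_mem _ hu _ (neg_mem hv)

theorem add_right {u v v' : C(Z, ℝ)} (hu : u ∈ Q.Dom) (hv : v ∈ Q.Dom) (hv' : v' ∈ Q.Dom)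
    (φ : C(Z, ℝ)) : Q.Γ u (v + v') φ = Q.Γ u v φ + Q.Γ u v' φ := by
  rw [Q.symm _ hu _ (Q.add_mem _ hv _ hv'), Q.add_left _ hv _ hv' _ hu, Q.symm _ hv _ hu,
    Q.symm _ hv' _ hu]

theorem smul_right {u v : C(Z, ℝ)} (hu : u ∈ Q.Dom) (hv : v ∈ Q.Dom) (c : ℝ)
    (φ : C(Z, ℝ)) : Q.Γ u (c • v) φ = c * Q.Γ u v φ := by
  rw [Q.symm _ hu _ (Q.smul_mem _ _ hv), Q.smul_left _ _ hv _ hu, Q.symm _ hv _ hu]

theorem neg_left {u v : C(Z, ℝ)} (hu : u ∈ Q.Dom) (hv : v ∈ Q.Dom)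
    (φ : C(Z, ℝ)) : Q.Γ (-u) v φ = - Q.Γ u v φ := by
  have := Q.smul_left (-1) u hu v hv φ
  simpa using this

theorem neg_right {u v : C(Z, ℝ)} (hu : u ∈ Q.Dom) (hv : v ∈ Q.Dom)
    (φ : C(Z, ℝ)) : Q.Γ u (-v) φ = - Q.Γ u v φ := by
  have := smul_right (Q := Q) hu hv (-1) φ
  simpa using this

theorem sub_left {u u' v : C(Z, ℝ)} (hu : u ∈ Q.Dom) (hu' : u' ∈ Q.Dom) (hv : v ∈ Q.Dom)
    (φ : C(Z, ℝ)) : Q.Γ (u - u') v φ = Q.Γ u v φ - Q.Γ u' v φ := by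
  rw [sub_eq_add_neg, Q.add_left _ hu _ (neg_mem hu') _ hv, neg_left hu' hv]; ring

theorem sub_right {u v v' : C(Z, ℝ)} (hu : u ∈ Q.Dom) (hv : v ∈ Q.Dom) (hv' : v' ∈ Q.Dom)
    (φ : C(Z, ℝ)) : Q.Γ u (v - v') φ = Q.Γ u v φ - Q.Γ u v' φ := by
  rw [sub_eq_add_neg, add_right hu hv (neg_mem hv'), neg_right hu hv']; ring

theorem zero_test {u v : C(Z, ℝ)} (hu : u ∈ Q.Dom) (hv : v ∈ Q.Dom) : Q.Γ u v 0 = 0 := by
  have := Q.smul_test 0 u hu v hv 0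
  simpa using this

theorem neg_test {u v : C(Z, ℝ)} (hu : u ∈ Q.Dom) (hv : v ∈ Q.Dom) (φ : C(Z, ℝ)) :
    Q.Γ u v (-φ) = - Q.Γ u v φ := by
  have := Q.smul_test (-1) u hu v hv φ
  simpa using this

theorem sub_test {u v : C(Z, ℝ)} (hu : u ∈ Q.Dom) (hv : v ∈ Q.Dom) (φ φ' : C(Z, ℝ)) :
    Q.Γ u v (φ - φ') = Q.Γ u v φ - Q.Γ u v φ' := by
  rw [sub_eq_add_neg, Q.add_test _ hu _ hv, neg_test hu hv]; ring

theorem sum_mem {ι : Type*} (s : Finset ι) (w : ι → C(Z, ℝ)) (hw : ∀ i ∈ s, w i ∈ Q.Dom) :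
    ∑ i ∈ s, w i ∈ Q.Dom := by
  classical
  induction s using Finset.induction_on with
  | empty => simpa using (zero_mem (Q := Q))
  | insert i s hi ih =>
    rw [Finset.sum_insert hi]
    exact Q.add_mem _ (hw i (Finset.mem_insert_self i s)) _
      (ih fun j hj => hw j (Finset.mem_insert_of_mem hj))

theorem zero_left {v : C(Z, ℝ)} (hv : v ∈ Q.Dom) (φ : C(Z, ℝ)) : Q.Γ 0 v φ = 0 := by
  have := Q.smul_left 0 0 (zero_mem (Q := Q)) v hv φ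
  simpa using this


theorem sum_left {ι : Type*} (s : Finset ι) (w : ι → C(Z, ℝ)) (hw : ∀ i ∈ s, w i ∈ Q.Dom)
    {v : C(Z, ℝ)} (hv : v ∈ Q.Dom) (φ : C(Z, ℝ)) :
    Q.Γ (∑ i ∈ s, w i) v φ = ∑ i ∈ s, Q.Γ (w i) v φ := by
  classical
  induction s using Finset.induction_on with
  | empty => simpa using zero_left hv φ
  | insert i s hi ih =>
    rw [Finset.sum_insert hi, Finset.sum_insert hi,
      Q.add_left _ (hw i (Finset.mem_insert_self i s)) _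
        (sum_mem s w fun j hj => hw j (Finset.mem_insert_of_mem hj)) _ hv,
      ih fun j hj => hw j (Finset.mem_insert_of_mem hj)]

theorem sum_right {ι : Type*} (s : Finset ι) (w : ι → C(Z, ℝ)) (hw : ∀ i ∈ s, w i ∈ Q.Dom)
    {u : C(Z, ℝ)} (hu : u ∈ Q.Dom) (φ : C(Z, ℝ)) :
    Q.Γ u (∑ i ∈ s, w i) φ = ∑ i ∈ s, Q.Γ u (w i) φ := by
  rw [Q.symm _ hu _ (sum_mem s w hw), sum_left s w hw hu]
  exact Finset.sum_congr rfl fun i hi => Q.symm _ (hw i hi) _ hu φ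


/-- Leibniz rule -/
theorem leibniz {u v w : C(Z, ℝ)} (hu : u ∈ Q.Dom) (hv : v ∈ Q.Dom) (hw : w ∈ Q.Dom)
    (φ : C(Z, ℝ)) : Q.Γ (u * v) w φ = Q.Γ u w (φ * v) + Q.Γ v w (φ * u) := by
  have hψ : ContDiff ℝ 2 (fun p : ℝ × ℝ => p.1 * p.2) := contDiff_fst.mul contDiff_snd
  have hfd : ∀ a b c d : ℝ, fderiv ℝ (fun p : ℝ × ℝ => p.1 * p.2) (a, b) (c, d) = a * d + b * c := by
    intro a b c d
    have h : HasFDerivAt (fun p : ℝ × ℝ => p.1 * p.2)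
        ((a : ℝ) • (ContinuousLinearMap.snd ℝ ℝ ℝ) + (b : ℝ) • (ContinuousLinearMap.fst ℝ ℝ ℝ))
        (a, b) := by
      exact (hasFDerivAt_fst (𝕜 := ℝ) (p := ((a, b) : ℝ × ℝ))).mul
        (hasFDerivAt_snd (𝕜 := ℝ) (p := ((a, b) : ℝ × ℝ)))
    rw [h.fderiv]
    simp
  obtain ⟨-, h⟩ := Q.chain (fun p : ℝ × ℝ => p.1 * p.2) hψ u hu v hv (u * v) v u
    (fun x => rfl) (fun x => by rw [hfd]; simp) (fun x => by rw [hfd]; simp)
  exact h w hw φ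

theorem const_left {v : C(Z, ℝ)} (hv : v ∈ Q.Dom) (c : ℝ) (φ : C(Z, ℝ)) :
    Q.Γ (ContinuousMap.const Z c) v φ = 0 := by
  have h1 : Q.Γ (1 : C(Z, ℝ)) v φ = 0 := by
    have h := leibniz (Q := Q) (one_mem (Q := Q)) (one_mem (Q := Q)) hv φ
    simp only [mul_one] at h
    linarith
  have h2 : ContinuousMap.const Z c = c • (1 : C(Z, ℝ)) := by ext x; simp
  rw [h2, Q.smul_left _ _ (one_mem (Q := Q)) _ hv, h1, mul_zero]

theorem const_right {u : C(Z, ℝ)} (hu : u ∈ Q.Dom) (c : ℝ) (φ : C(Z, ℝ)) :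
    Q.Γ u (ContinuousMap.const Z c) φ = 0 := by
  rw [Q.symm _ hu _ (Q.const_mem c), const_left hu]

theorem add_const_left {u v : C(Z, ℝ)} (hu : u ∈ Q.Dom) (hv : v ∈ Q.Dom) (c : ℝ) (φ : C(Z, ℝ)) :
    Q.Γ (u + ContinuousMap.const Z c) v φ = Q.Γ u v φ := by
  rw [Q.add_left _ hu _ (Q.const_mem c) _ hv, const_left hv, add_zero]

theorem add_const_right {u v : C(Z, ℝ)} (hu : u ∈ Q.Dom) (hv : v ∈ Q.Dom) (c : ℝ) (φ : C(Z, ℝ)) :
    Q.Γ u (v + ContinuousMap.const Z c) φ = Q.Γ u v φ := by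
  rw [add_right hu hv (Q.const_mem c), const_right hu, add_zero]

theorem mono {u : C(Z, ℝ)} (hu : u ∈ Q.Dom) {φ ψ : C(Z, ℝ)} (h : ∀ x, φ x ≤ ψ x) :
    Q.Γ u u φ ≤ Q.Γ u u ψ := by
  have h1 := Q.nonneg u hu (ψ - φ) (fun x => by simpa using h x)
  rw [sub_test hu hu] at h1
  linarith

theorem absC_apply (φ : C(Z, ℝ)) (x : Z) : (|φ| : C(Z, ℝ)) x = |φ x| := rfl

/-- additive Cauchy-Schwarz for nonnegative test functions -/
theorem cs_nonneg {u v : C(Z, ℝ)} (hu : u ∈ Q.Dom) (hv : v ∈ Q.Dom) {φ : C(Z, ℝ)}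
    (hφ : ∀ x, 0 ≤ φ x) : 2 * |Q.Γ u v φ| ≤ Q.Γ u u φ + Q.Γ v v φ := by
  have h1 := Q.nonneg (u + v) (Q.add_mem _ hu _ hv) φ hφ
  have h2 := Q.nonneg (u - v) (sub_mem hu hv) φ hφ
  rw [Q.add_left _ hu _ hv _ (Q.add_mem _ hu _ hv), add_right hu hu hv, add_right hv hu hv,
    Q.symm _ hv _ hu] at h1
  rw [sub_left hu hv (sub_mem hu hv), sub_right hu hu hv, sub_right hv hu hv,
    Q.symm _ hv _ hu] at h2
  have := abs_le.2 (⟨by linarith, by linarith⟩ :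
    -((Q.Γ u u φ + Q.Γ v v φ) / 2) ≤ Q.Γ u v φ ∧ Q.Γ u v φ ≤ (Q.Γ u u φ + Q.Γ v v φ) / 2)
  linarith

/-- positive and negative part of a test function -/
theorem cs {u v : C(Z, ℝ)} (hu : u ∈ Q.Dom) (hv : v ∈ Q.Dom) (φ : C(Z, ℝ)) :
    2 * |Q.Γ u v φ| ≤ Q.Γ u u |φ| + Q.Γ v v |φ| := by
  let p : C(Z, ℝ) := (1 / 2 : ℝ) • (|φ| + φ)
  let q : C(Z, ℝ) := (1 / 2 : ℝ) • (|φ| - φ)
  have hp : ∀ x, 0 ≤ p x := fun x => by
    have := neg_abs_le (φ x)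
    simp only [p, ContinuousMap.smul_apply, ContinuousMap.add_apply, absC_apply, smul_eq_mul]
    linarith
  have hq : ∀ x, 0 ≤ q x := fun x => by
    have := le_abs_self (φ x)
    simp only [q, ContinuousMap.smul_apply, ContinuousMap.sub_apply, absC_apply, smul_eq_mul]
    linarith
  have h1 : φ = p - q := by
    ext x
    simp only [p, q, ContinuousMap.smul_apply, ContinuousMap.add_apply, ContinuousMap.sub_apply,
      absC_apply, smul_eq_mul]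
    ring
  have h2 : |φ| = p + q := by
    ext x
    simp only [p, q, ContinuousMap.smul_apply, ContinuousMap.add_apply, ContinuousMap.sub_apply,
      absC_apply, smul_eq_mul]
    ring
  have e1 := cs_nonneg hu hv hp
  have e2 := cs_nonneg hu hv hq
  rw [h2, Q.add_test _ hu _ hu, Q.add_test _ hv _ hv]
  have e3 : |Q.Γ u v φ| ≤ |Q.Γ u v p| + |Q.Γ u v q| := by
    rw [h1, sub_test hu hv]
    exact abs_sub _ _
  linarith

theorem le_of_abs_le {u : C(Z, ℝ)} (hu : u ∈ Q.Dom) {φ : C(Z, ℝ)} {M : ℝ} (h : ∀ x, φ x ≤ M) :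
    Q.Γ u u φ ≤ M * Q.Γ u u 1 := by
  rw [← Q.smul_test M u hu u hu 1]
  exact mono hu (fun x => by simpa using h x)

/-- `|Γ(u,v)(φ)| ≤ M (E u + E v) / 2` if `|φ| ≤ M` -/
theorem abs_le_energy {u v : C(Z, ℝ)} (hu : u ∈ Q.Dom) (hv : v ∈ Q.Dom) {φ : C(Z, ℝ)} {M : ℝ}
    (h : ∀ x, |φ x| ≤ M) : 2 * |Q.Γ u v φ| ≤ M * (Q.Γ u u 1 + Q.Γ v v 1) := by
  have h1 := cs hu hv φ
  have h2 := le_of_abs_le (Q := Q) hu (φ := |φ|) (M := M) h
  have h3 := le_of_abs_le (Q := Q) hv (φ := |φ|) (M := M) h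
  linarith

/-- energy of a product -/
theorem energy_mul {u v : C(Z, ℝ)} (hu : u ∈ Q.Dom) (hv : v ∈ Q.Dom) (φ : C(Z, ℝ)) :
    Q.Γ (u * v) (u * v) φ =
      Q.Γ u u (φ * v * v) + 2 * Q.Γ u v (φ * u * v) + Q.Γ v v (φ * u * u) := by
  have huv := Q.mul_mem _ hu _ hv
  rw [leibniz hu hv huv, Q.symm _ hu _ huv, Q.symm _ hv _ huv, leibniz hu hv hu, leibniz hu hv hv,
    Q.symm _ hv _ hu]
  have e : φ * u * v = φ * v * u := by ring
  rw [e]; ring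

end alg

section loc
variable {Q}

theorem cut_KO [CompactSpace Z] {K O : Set Z} (hK : IsClosed K) (hO : IsOpen O) (hKO : K ⊆ O) :
    ∃ χ ∈ Q.Dom, (∀ y, 0 ≤ χ y ∧ χ y ≤ 1) ∧ (∀ y ∈ K, χ y = 1) ∧ tsupport χ ⊆ O := by
  have hKc := hK.isCompact
  refine hKc.induction_on (p := fun K => ∃ χ ∈ Q.Dom, (∀ y, 0 ≤ χ y ∧ χ y ≤ 1) ∧
    (∀ y ∈ K, χ y = 1) ∧ tsupport χ ⊆ O) ?_ ?_ ?_ ?_
  · refine ⟨0, zero_mem, fun y => by simp, fun y hy => absurd hy (Set.notMem_empty y), ?_⟩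
    simp [tsupport, Function.support]
  · rintro s t hst ⟨χ, h1, h2, h3, h4⟩
    exact ⟨χ, h1, h2, fun y hy => h3 y (hst hy), h4⟩
  · rintro s t ⟨χ, h1, h2, h3, h4⟩ ⟨χ', h1', h2', h3', h4'⟩
    refine ⟨χ + χ' - χ * χ', sub_mem (Q.add_mem _ h1 _ h1') (Q.mul_mem _ h1 _ h1'), ?_, ?_, ?_⟩
    · intro y
      have a := h2 y
      have b := h2' y
      simp only [ContinuousMap.sub_apply, ContinuousMap.add_apply, ContinuousMap.mul_apply]
      constructor <;> nlinarith [mul_nonneg (sub_nonneg.2 a.2) (sub_nonneg.2 b.2),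
        mul_nonneg a.1 (sub_nonneg.2 b.2)]
    · rintro y (hy | hy)
      · simp [h3 y hy]
      · simp [h3' y hy]
    · have hsub : Function.support ⇑(χ + χ' - χ * χ') ⊆ Function.support ⇑χ ∪ Function.support ⇑χ' := by
        intro y hy
        by_contra hc
        simp only [Set.mem_union, Function.mem_support, not_or, not_not] at hc
        exact hy (by simp [hc.1, hc.2])
      calc tsupport ⇑(χ + χ' - χ * χ') ⊆ closure (Function.support ⇑χ ∪ Function.support ⇑χ') :=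
            closure_mono hsub
        _ = tsupport ⇑χ ∪ tsupport ⇑χ' := closure_union
        _ ⊆ O := union_subset h4 h4'
  · intro x hx
    obtain ⟨r, hr, hrO⟩ := Metric.isOpen_iff.1 hO x (hKO hx)
    have hlam := Q.one_lt_lam
    have hlam0 : 0 < Q.lam := by linarith
    set ρ := min Q.ρ0 (r / (2 * Q.lam)) with hρ
    have hρ0 : 0 < ρ := lt_min Q.ρ0_pos (by positivity)
    obtain ⟨χ, h1, h2, h3, h4, -⟩ := Q.cutoff x ρ hρ0 (min_le_left _ _)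
    refine ⟨Metric.closedBall x ρ, mem_nhdsWithin_of_mem_nhds (Metric.closedBall_mem_nhds x hρ0),
      χ, h1, h2, fun y hy => h3 y (Metric.mem_closedBall.1 hy), ?_⟩
    have hs : tsupport ⇑χ ⊆ Metric.closedBall x (Q.lam * ρ) := by
      refine closure_minimal ?_ Metric.isClosed_closedBall
      intro y hy
      by_contra hc
      simp only [Metric.mem_closedBall, not_le] at hc
      exact hy (h4 y hc.le)
    refine hs.trans ((Metric.closedBall_subset_ball ?_).trans hrO)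
    have : ρ ≤ r / (2 * Q.lam) := min_le_right _ _
    calc Q.lam * ρ ≤ Q.lam * (r / (2 * Q.lam)) := by gcongr
      _ = r / 2 := by field_simp
      _ < r := by linarith

/-- cut-off equal to one in a neighbourhood -/
theorem cut_nhds [CompactSpace Z] {K O : Set Z} (hK : IsClosed K) (hO : IsOpen O) (hKO : K ⊆ O) :
    ∃ χ ∈ Q.Dom, ∃ W : Set Z, (∀ y, 0 ≤ χ y ∧ χ y ≤ 1) ∧ IsOpen W ∧ K ⊆ W ∧ (∀ y ∈ W, χ y = 1) ∧
      tsupport χ ⊆ O := by
  obtain ⟨W, hW, hKW, hWO⟩ := normal_exists_closure_subset hK hO hKO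
  obtain ⟨χ, h1, h2, h3, h4⟩ := cut_KO (Q := Q) isClosed_closure hO hWO
  exact ⟨χ, h1, W, h2, hW, hKW, fun y hy => h3 y (subset_closure hy), h4⟩

/-- locality -/
theorem local_const [CompactSpace Z] {u v : C(Z, ℝ)} (hu : u ∈ Q.Dom) (hv : v ∈ Q.Dom) {W : Set Z}
    (hW : IsOpen W) {c : ℝ} (hc : ∀ x ∈ W, u x = c) {φ : C(Z, ℝ)} (hφ : tsupport φ ⊆ W) :
    Q.Γ u v φ = 0 := by
  obtain ⟨χ, h1, h2, h3, h4⟩ := cut_KO (Q := Q) (isClosed_tsupport ⇑φ) hW hφ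
  have hu' : u - ContinuousMap.const Z c ∈ Q.Dom := sub_mem hu (Q.const_mem c)
  have e0 : (u - ContinuousMap.const Z c) * χ = 0 := by
    ext x
    by_cases hx : x ∈ W
    · simp [hc x hx]
    · have : χ x = 0 := by
        by_contra hne
        exact hx (h4 (subset_tsupport _ hne))
      simp [this]
  have e1 := leibniz (Q := Q) hu' h1 hv φ
  rw [e0, zero_left hv] at e1
  have e2 : φ * χ = φ := by
    ext x
    by_cases hx : x ∈ tsupport ⇑φ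
    · simp [h3 x hx]
    · have : φ x = 0 := by
        by_contra hne
        exact hx (subset_tsupport _ hne)
      simp [this]
  have e3 : φ * (u - ContinuousMap.const Z c) = 0 := by
    ext x
    by_cases hx : φ x = 0
    · simp [hx]
    · have hxW : x ∈ W := hφ (subset_tsupport _ hx)
      simp [hc x hxW]
  rw [e2, e3, zero_test h1 hv, sub_left hu (Q.const_mem c) hv, const_left hv] at e1
  linarith

theorem local_congr [CompactSpace Z] {u u' v : C(Z, ℝ)} (hu : u ∈ Q.Dom) (hu' : u' ∈ Q.Dom)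
    (hv : v ∈ Q.Dom) {W : Set Z} (hW : IsOpen W) (hc : ∀ x ∈ W, u x = u' x) {φ : C(Z, ℝ)}
    (hφ : tsupport φ ⊆ W) : Q.Γ u v φ = Q.Γ u' v φ := by
  have := local_const (Q := Q) (sub_mem hu hu') hv hW (c := 0) (fun x hx => by simp [hc x hx]) hφ
  rw [sub_left hu hu' hv] at this
  linarith

theorem local_congr_right [CompactSpace Z] {u v v' : C(Z, ℝ)} (hu : u ∈ Q.Dom) (hv : v ∈ Q.Dom)
    (hv' : v' ∈ Q.Dom) {W : Set Z} (hW : IsOpen W) (hc : ∀ x ∈ W, v x = v' x) {φ : C(Z, ℝ)}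
    (hφ : tsupport φ ⊆ W) : Q.Γ u v φ = Q.Γ u v' φ := by
  rw [Q.symm _ hu _ hv, Q.symm _ hu _ hv', local_congr hv hv' hu hW hc hφ]

/-- if `u` vanishes off a closed set, test functions may be changed off a neighbourhood -/
theorem test_congr [CompactSpace Z] {u v : C(Z, ℝ)} (hu : u ∈ Q.Dom) (hv : v ∈ Q.Dom) {W : Set Z}
    (hW : IsOpen W) (hsupp : tsupport u ⊆ W) {φ ψ : C(Z, ℝ)} (h : ∀ x ∈ W, φ x = ψ x) :
    Q.Γ u v φ = Q.Γ u v ψ := by
  have h1 : tsupport ⇑(φ - ψ) ⊆ (tsupport ⇑u)ᶜ := by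
    have : tsupport ⇑(φ - ψ) ⊆ Wᶜ := by
      refine closure_minimal ?_ hW.isClosed_compl
      intro x hx hxW
      exact hx (by simp [h x hxW])
    exact this.trans (compl_subset_compl.2 hsupp)
  have h2 := local_const (Q := Q) hu hv (isClosed_tsupport ⇑u).isOpen_compl (c := 0)
    (fun x hx => by
      by_contra hne
      exact hx (subset_tsupport _ hne)) h1
  rw [sub_test hu hv] at h2
  linarith

/-- two functions with disjoint supports are orthogonal -/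
theorem disjoint_supp [CompactSpace Z] {u v : C(Z, ℝ)} (hu : u ∈ Q.Dom) (hv : v ∈ Q.Dom)
    (h : Disjoint (tsupport u) (tsupport v)) (φ : C(Z, ℝ)) : Q.Γ u v φ = 0 := by
  obtain ⟨W, hW, hKW, hWO⟩ := normal_exists_closure_subset (isClosed_tsupport ⇑u)
    (isClosed_tsupport ⇑v).isOpen_compl (disjoint_left.1 h)
  obtain ⟨χ, h1, h2, h3, h4⟩ := cut_KO (Q := Q) (isClosed_closure (s := W))
    (isClosed_tsupport ⇑v).isOpen_compl hWO
  rw [test_congr hu hv hW hKW (ψ := φ * χ) (fun x hx => by simp [h3 x (subset_closure hx)])]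
  rw [Q.symm _ hu _ hv]
  refine local_const (Q := Q) hv hu (isClosed_tsupport ⇑v).isOpen_compl (c := 0)
    (fun x hx => by
      by_contra hne
      exact hx (subset_tsupport _ hne)) ?_
  refine (closure_mono ?_).trans h4
  intro x hx hc
  exact hx (by simp [hc])

end loc

section weak
variable {Q}
variable [CompactSpace Z]

/-- filter-free (WEAK) -/
theorem weak {v : C(Z, ℝ)} (hv : v ∈ Q.Dom) (C : ℝ) {ε : ℝ} (hε : 0 < ε) :
    ∃ δ > 0, ∀ w ∈ Q.Dom, (∀ x, |w x| ≤ δ) → Q.Γ w w 1 ≤ C → |Q.Γ w v 1| ≤ ε := by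
  by_contra hcon
  push Not at hcon
  have hpos : ∀ n : ℕ, (0 : ℝ) < 1 / ((n : ℝ) + 1) := fun n => by positivity
  choose w hw1 hw2 hw3 hw4 using fun n : ℕ => hcon _ (hpos n)
  have hlim : Tendsto w atTop (𝓝 0) := by
    rw [tendsto_iff_norm_sub_tendsto_zero]
    refine squeeze_zero (fun n => norm_nonneg _) (fun n => ?_) tendsto_one_div_add_atTop_nhds_zero_nat
    rw [sub_zero]
    exact (ContinuousMap.norm_le _ (hpos n).le).2 (fun x => hw2 n x)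
  have h := (Q.closed w 0 C hw1 hlim hw3).2 v hv 1
  rw [zero_left hv] at h
  have h2 := (h.abs)
  rw [abs_zero] at h2
  obtain ⟨n, hn⟩ := (h2.eventually (gt_mem_nhds hε)).exists
  exact absurd hn (not_lt.2 (hw4 n).le)

/-- filter-free (CLOSED) -/
theorem closed_mem {u : C(Z, ℝ)} {C : ℝ} (h : ∀ ε > 0, ∃ v ∈ Q.Dom, (∀ x, |v x - u x| ≤ ε) ∧
    Q.Γ v v 1 ≤ C) : u ∈ Q.Dom := by
  have hpos : ∀ n : ℕ, (0 : ℝ) < 1 / ((n : ℝ) + 1) := fun n => by positivity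
  choose w hw1 hw2 hw3 using fun n : ℕ => h _ (hpos n)
  have hlim : Tendsto w atTop (𝓝 u) := by
    rw [tendsto_iff_norm_sub_tendsto_zero]
    refine squeeze_zero (fun n => norm_nonneg _) (fun n => ?_) tendsto_one_div_add_atTop_nhds_zero_nat
    exact (ContinuousMap.norm_le _ (hpos n).le).2 (fun x => hw2 n x)
  exact (Q.closed w u C hw1 hlim hw3).1

end weak

end Crest.Agent.R193.D56_Basic
end
end

-- ▼ part R193/D56_Atom
section

/-!
# R193, block D5: energy measures have no atoms (uniformly)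
-/

set_option autoImplicit false

noncomputable section

open Set Filter Topology

namespace Crest.Agent.R193.D56_Atom

open Crest.Agent.R193 Crest.Agent.R193.D56_Basic

variable {G Z : Type} [Group G] [MetricSpace Z] [MulAction G Z] {S : Setup G Z} {Q : DForm S}
variable [CompactSpace Z]

/-- clipping a continuous function -/
def clip (o : ℝ) (v : C(Z, ℝ)) : C(Z, ℝ) := ⟨fun x => max (min (v x) o) (-o), by fun_prop⟩

theorem clip_apply (o : ℝ) (v : C(Z, ℝ)) (x : Z) : clip o v x = max (min (v x) o) (-o) := rfl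

theorem abs_clip_le {o : ℝ} (ho : 0 ≤ o) (v : C(Z, ℝ)) (x : Z) : |clip o v x| ≤ o := by
  rw [clip_apply, abs_le]
  exact ⟨le_max_right _ _, max_le (min_le_right _ _) (by linarith)⟩

theorem clip_eq {o : ℝ} (v : C(Z, ℝ)) {x : Z} (h : |v x| ≤ o) : clip o v x = v x := by
  rw [clip_apply]
  obtain ⟨h1, h2⟩ := abs_le.1 h
  rw [min_eq_left h2, max_eq_left h1]

/-- energy bound for a cut-off function times a locally small function -/
theorem energy_cut {χ v : C(Z, ℝ)} (hχ : χ ∈ Q.Dom) (hv : v ∈ Q.Dom)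
    (h01 : ∀ y, 0 ≤ χ y ∧ χ y ≤ 1) {W : Set Z} (hW : IsOpen W) (hsupp : tsupport χ ⊆ W) {o : ℝ}
    (ho : 0 ≤ o) (hv' : ∀ x ∈ W, |v x| ≤ o) (ψ : C(Z, ℝ)) (hψ : ∀ y, χ y ≤ ψ y)  :
    Q.Γ (χ * v) (χ * v) 1 ≤ (o ^ 2 + o) * Q.Γ χ χ 1 + (1 + o) * Q.Γ v v ψ := by
  rw [energy_mul hχ hv]
  have hcl : ∀ x ∈ W, clip o v x = v x := fun x hx => clip_eq v (hv' x hx)
  have e1 : Q.Γ χ χ (1 * v * v) ≤ o ^ 2 * Q.Γ χ χ 1 := by
    rw [test_congr hχ hχ hW hsupp (ψ := clip o v * clip o v) (fun x hx => by simp [hcl x hx])]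
    refine le_of_abs_le hχ (fun x => ?_)
    have := abs_clip_le ho v x
    have h2 := abs_le.1 this
    simp only [ContinuousMap.mul_apply]
    nlinarith
  have e2 : 2 * Q.Γ χ v (1 * χ * v) ≤ o * Q.Γ χ χ 1 + o * Q.Γ v v ψ := by
    have h1 := cs hχ hv (1 * χ * v)
    have hb : ∀ x, (|1 * χ * v| : C(Z, ℝ)) x ≤ (o • χ) x := by
      intro x
      simp only [absC_apply, one_mul, ContinuousMap.mul_apply, ContinuousMap.smul_apply,
        smul_eq_mul, abs_mul, abs_of_nonneg (h01 x).1]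
      by_cases hx : χ x = 0
      · simp [hx]
      · have := hv' x (hsupp (subset_tsupport _ hx))
        nlinarith [(h01 x).1]
    have h2 : Q.Γ χ χ |1 * χ * v| ≤ o * Q.Γ χ χ 1 := by
      refine le_of_abs_le hχ (fun x => ?_)
      have := hb x
      simp only [ContinuousMap.smul_apply, smul_eq_mul] at this
      nlinarith [(h01 x).2]
    have h3 : Q.Γ v v |1 * χ * v| ≤ o * Q.Γ v v ψ := by
      calc Q.Γ v v |1 * χ * v| ≤ Q.Γ v v (o • χ) := mono hv hb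
        _ = o * Q.Γ v v χ := Q.smul_test _ _ hv _ hv _
        _ ≤ o * Q.Γ v v ψ := mul_le_mul_of_nonneg_left (mono hv hψ) ho
    have h4 := le_abs_self (Q.Γ χ v (1 * χ * v))
    linarith
  have e3 : Q.Γ v v (1 * χ * χ) ≤ Q.Γ v v ψ := by
    refine mono hv (fun x => ?_)
    have h1 := h01 x
    have h2 := hψ x
    simp only [one_mul, ContinuousMap.mul_apply]
    nlinarith
  linarith

theorem no_atom {u : C(Z, ℝ)} (hu : u ∈ Q.Dom) (x : Z) {ε : ℝ} (hε : 0 < ε) :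
    ∃ ρ > 0, ∀ φ : C(Z, ℝ), (∀ y, 0 ≤ φ y ∧ φ y ≤ 1) → (∀ y, ρ ≤ dist y x → φ y = 0) →
      Q.Γ u u φ ≤ ε := by
  set E := Q.Γ u u 1 with hE
  have hE0 : 0 ≤ E := Q.nonneg u hu 1 (fun x => zero_le_one)
  have hC0 := Q.C0_pos
  obtain ⟨δ, hδ, hweak⟩ := weak (Q := Q) hu (2 * Q.C0 + 2 * E) (half_pos hε)
  set o := min (min 1 δ) (ε / (Q.C0 + E + 1)) with ho
  have ho0 : 0 < o := lt_min (lt_min one_pos hδ) (by positivity)
  have ho1 : o ≤ 1 := (min_le_left _ _).trans (min_le_left _ _)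
  have hoδ : o ≤ δ := (min_le_left _ _).trans (min_le_right _ _)
  have hoε : o * (Q.C0 + E) ≤ ε := by
    have : o ≤ ε / (Q.C0 + E + 1) := min_le_right _ _
    rw [le_div_iff₀ (by positivity)] at this
    nlinarith
  obtain ⟨r, hr, hcont⟩ := Metric.continuous_iff.1 u.continuous x o ho0
  have hlam := Q.one_lt_lam
  have hlam0 : 0 < Q.lam := by linarith
  set ρ := min Q.ρ0 (r / (2 * Q.lam)) with hρ
  have hρ0 : 0 < ρ := lt_min Q.ρ0_pos (by positivity)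
  have hρr : Q.lam * ρ < r := by
    have : ρ ≤ r / (2 * Q.lam) := min_le_right _ _
    calc Q.lam * ρ ≤ Q.lam * (r / (2 * Q.lam)) := by gcongr
      _ = r / 2 := by field_simp
      _ < r := by linarith
  obtain ⟨χ, h1, h2, h3, h4, h5⟩ := Q.cutoff x ρ hρ0 (min_le_left _ _)
  refine ⟨ρ, hρ0, fun φ hφ01 hφ0 => ?_⟩
  set v : C(Z, ℝ) := u + ContinuousMap.const Z (-(u x)) with hv
  have hvD : v ∈ Q.Dom := Q.add_mem _ hu _ (Q.const_mem _)
  have hvv : ∀ ψ, Q.Γ v v ψ = Q.Γ u u ψ := fun ψ => by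
    rw [hv, add_const_left hu hvD, hv, add_const_right hu hu]
  set W : Set Z := Metric.ball x r
  have hsupp : tsupport ⇑χ ⊆ W := by
    have hs : tsupport ⇑χ ⊆ Metric.closedBall x (Q.lam * ρ) := by
      refine closure_minimal ?_ Metric.isClosed_closedBall
      intro y hy
      by_contra hc
      simp only [Metric.mem_closedBall, not_le] at hc
      exact hy (h4 y hc.le)
    exact hs.trans (Metric.closedBall_subset_ball hρr)
  have hvW : ∀ y ∈ W, |v y| ≤ o := fun y hy => by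
    have := hcont y hy
    rw [Real.dist_eq] at this
    simpa [hv, sub_eq_add_neg] using this.le
  have hcl : ∀ y ∈ W, clip o v y = v y := fun y hy => clip_eq v (hvW y hy)
  -- the function w = χ v
  have hw : χ * v ∈ Q.Dom := Q.mul_mem _ h1 _ hvD
  have hwo : ∀ y, |(χ * v) y| ≤ o := by
    intro y
    simp only [ContinuousMap.mul_apply, abs_mul, abs_of_nonneg (h2 y).1]
    by_cases hy : χ y = 0
    · simp [hy, ho0.le]
    · have := hvW y (hsupp (subset_tsupport _ hy))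
      nlinarith [(h2 y).1, (h2 y).2, abs_nonneg (v y)]
  have hwE : Q.Γ (χ * v) (χ * v) 1 ≤ 2 * Q.C0 + 2 * E := by
    have h6 := energy_cut h1 hvD h2 Metric.isOpen_ball hsupp ho0.le hvW 1 (fun y => (h2 y).2)
    rw [hvv, ← hE] at h6
    have h7 : (o ^ 2 + o) * Q.Γ χ χ 1 ≤ 2 * Q.C0 := by
      have h8 : 0 ≤ Q.Γ χ χ 1 := Q.nonneg χ h1 1 (fun x => zero_le_one)
      have h9 : o ^ 2 + o ≤ 2 := by nlinarith
      nlinarith
    have h8 : (1 + o) * E ≤ 2 * E := by nlinarith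
    linarith
  have h6 := hweak _ hw (fun y => (hwo y).trans hoδ) hwE
  -- Γ(u,u)(φ) ≤ Γ(u,u)(χ)
  have h7 : Q.Γ u u φ ≤ Q.Γ u u χ := by
    refine mono hu (fun y => ?_)
    rcases le_or_gt (dist y x) ρ with hy | hy
    · rw [h3 y hy]; exact (hφ01 y).2
    · rw [hφ0 y hy.le]; exact (h2 y).1
  have h8 : Q.Γ (χ * v) u 1 = Q.Γ χ u (1 * v) + Q.Γ u u χ := by
    rw [leibniz h1 hvD hu, one_mul, one_mul, hv, add_const_left hu hu]
  have h9 : 2 * |Q.Γ χ u (1 * v)| ≤ o * (Q.C0 + E) := by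
    rw [test_congr h1 hu Metric.isOpen_ball hsupp (ψ := clip o v) (fun y hy => by simp [hcl y hy])]
    have := abs_le_energy h1 hu (fun y => abs_clip_le ho0.le v y)
    refine this.trans ?_
    rw [← hE]
    nlinarith
  have h10 := abs_le.1 h6
  have h11 := neg_abs_le (Q.Γ χ u (1 * v))
  linarith

theorem no_atom_unif {u : C(Z, ℝ)} (hu : u ∈ Q.Dom) {ε : ℝ} (hε : 0 < ε) :
    ∃ ρ > 0, ∀ x : Z, ∀ φ : C(Z, ℝ), (∀ y, 0 ≤ φ y ∧ φ y ≤ 1) → (∀ y, ρ ≤ dist y x → φ y = 0) →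
      Q.Γ u u φ ≤ ε := by
  choose ρ hρ h using fun x => no_atom (Q := Q) hu x hε
  obtain ⟨δ, hδ, hL⟩ := lebesgue_number_lemma_of_metric (s := (Set.univ : Set Z))
    isCompact_univ (c := fun x => Metric.ball x (ρ x)) (fun x => Metric.isOpen_ball)
    (fun x _ => Set.mem_iUnion.2 ⟨x, Metric.mem_ball_self (hρ x)⟩)
  refine ⟨δ, hδ, fun x φ h1 h2 => ?_⟩
  obtain ⟨i, hi⟩ := hL x (Set.mem_univ x)
  refine h i φ h1 (fun y hy => h2 y ?_)
  by_contra hc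
  push Not at hc
  exact absurd (Metric.mem_ball.1 (hi (Metric.mem_ball.2 hc))) (not_lt.2 hy)

end Crest.Agent.R193.D56_Atom
end
end

-- ▼ part R193/D56_Dens
section

/-!
# R193, block D5: approximation of a dominated functional by a continuous density
(an elementary pre-Hilbert space argument, no measures)
-/

set_option autoImplicit false

noncomputable section

open Set Filter Topology

namespace Crest.Agent.R193.D56_Dens

variable {Z : Type*} [TopologicalSpace Z] [CompactSpace Z]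

theorem discr {X Y η : ℝ} (hη : 0 < η) (hY : 0 ≤ Y) (h : ∀ s : ℝ, 2 * s * X ≤ η + s ^ 2 * Y) :
    X ^ 2 ≤ η * Y := by
  rcases hY.eq_or_lt with h0 | h0
  · rcases eq_or_ne X 0 with hX | hX
    · rw [hX, ← h0]; simp
    · exfalso
      have := h (η / X)
      rw [← h0] at this
      have e : 2 * (η / X) * X = 2 * η := by field_simp
      rw [e] at this
      linarith
  · have := h (X / Y)
    have e1 : 2 * (X / Y) * X = 2 * (X ^ 2 / Y) := by ring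
    have e2 : (X / Y) ^ 2 * Y = X ^ 2 / Y := by field_simp
    rw [e1, e2] at this
    have h3 : X ^ 2 / Y ≤ η := by linarith
    rwa [div_le_iff₀ h0] at h3

theorem dens (ν ℓ : C(Z, ℝ) →ₗ[ℝ] ℝ) (hν : ∀ φ : C(Z, ℝ), 0 ≤ ν (φ * φ)) {L : ℝ}
    (h : ∀ φ : C(Z, ℝ), (ℓ φ) ^ 2 ≤ L * ν (φ * φ)) {ε : ℝ} (hε : 0 < ε) :
    ∃ b : C(Z, ℝ), ∀ φ : C(Z, ℝ), (ℓ φ - ν (b * φ)) ^ 2 ≤ ε * ν (φ * φ) := by
  set A : Set ℝ := {t | ∃ φ : C(Z, ℝ), ν (φ * φ) ≤ 1 ∧ t = (ℓ φ) ^ 2} with hA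
  have hbdd : BddAbove A := by
    refine ⟨|L|, ?_⟩
    rintro t ⟨φ, h1, rfl⟩
    calc (ℓ φ) ^ 2 ≤ L * ν (φ * φ) := h φ
      _ ≤ |L| * ν (φ * φ) := mul_le_mul_of_nonneg_right (le_abs_self L) (hν φ)
      _ ≤ |L| * 1 := mul_le_mul_of_nonneg_left h1 (abs_nonneg L)
      _ = |L| := mul_one _
  have hne : A.Nonempty := ⟨0, 0, by simp, by simp⟩
  set s := sSup A with hs
  have hs0 : 0 ≤ s := le_csSup hbdd ⟨0, by simp, by simp⟩
  have hom : ∀ φ : C(Z, ℝ), (ℓ φ) ^ 2 ≤ s * ν (φ * φ) := by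
    intro φ
    rcases (hν φ).eq_or_lt with h0 | h0
    · have := h φ
      rw [← h0] at this ⊢
      simpa using this
    · set c := 1 / Real.sqrt (ν (φ * φ)) with hc
      have hsq : 0 < Real.sqrt (ν (φ * φ)) := Real.sqrt_pos.2 h0
      have hc2 : c ^ 2 * ν (φ * φ) = 1 := by
        rw [hc, div_pow, one_pow, Real.sq_sqrt h0.le]
        field_simp
      have e1 : ν ((c • φ) * (c • φ)) = 1 := by
        have : (c • φ) * (c • φ) = (c ^ 2) • (φ * φ) := by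
          ext x; simp; ring
        rw [this, map_smul, smul_eq_mul, hc2]
      have e2 : (ℓ (c • φ)) ^ 2 ≤ s := le_csSup hbdd ⟨c • φ, e1.le, rfl⟩
      rw [map_smul, smul_eq_mul, mul_pow] at e2
      have hcpos : 0 < c ^ 2 := by positivity
      have : c ^ 2 * (ℓ φ) ^ 2 ≤ c ^ 2 * (s * ν (φ * φ)) := by
        calc c ^ 2 * (ℓ φ) ^ 2 ≤ s := e2
          _ = c ^ 2 * (s * ν (φ * φ)) := by rw [mul_left_comm, hc2, mul_one]
      exact le_of_mul_le_mul_left this hcpos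
  rcases hs0.eq_or_lt with h0 | h0
  · refine ⟨0, fun φ => ?_⟩
    have h1 := hom φ
    rw [← h0, zero_mul] at h1
    have h2 : ℓ φ = 0 := by
      have := sq_nonneg (ℓ φ)
      exact pow_eq_zero_iff (two_ne_zero) |>.1 (le_antisymm h1 this)
    rw [h2, zero_mul, map_zero, sub_zero]
    have := mul_nonneg hε.le (hν φ)
    simpa using this
  · set η := min (s / 2) (ε / 2) with hη
    have hη0 : 0 < η := lt_min (by positivity) (by positivity)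
    obtain ⟨t, ⟨φ0, h1, rfl⟩, h2⟩ := exists_lt_of_lt_csSup hne (show s - η < s by linarith)
    have hη1 : η ≤ s / 2 := min_le_left _ _
    have hη2 : η ≤ ε / 2 := min_le_right _ _
    have hl0 : 0 < (ℓ φ0) ^ 2 := by linarith
    have hl : ℓ φ0 ≠ 0 := by
      intro h; rw [h] at hl0; simp at hl0
    refine ⟨(s / ℓ φ0) • φ0, fun φ => ?_⟩
    set X := ℓ φ0 * ℓ φ - s * ν (φ0 * φ) with hX
    set Y := s * ν (φ * φ) - (ℓ φ) ^ 2 with hY
    have hY0 : 0 ≤ Y := by have := hom φ; simp only [hY]; linarith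
    have hXY : X ^ 2 ≤ η * Y := by
      refine discr hη0 hY0 (fun t => ?_)
      have h3 := hom (φ0 + t • φ)
      have e1 : ℓ (φ0 + t • φ) = ℓ φ0 + t * ℓ φ := by simp
      have e2 : ν ((φ0 + t • φ) * (φ0 + t • φ)) =
          ν (φ0 * φ0) + 2 * t * ν (φ0 * φ) + t ^ 2 * ν (φ * φ) := by
        have : (φ0 + t • φ) * (φ0 + t • φ) = φ0 * φ0 + (2 * t) • (φ0 * φ) + (t ^ 2) • (φ * φ) := by
          ext x; simp; ring
        rw [this, map_add, map_add, map_smul, map_smul, smul_eq_mul, smul_eq_mul]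
      rw [e1, e2] at h3
      have h4 : s * ν (φ0 * φ0) ≤ s := by
        have := mul_le_mul_of_nonneg_left h1 h0.le
        simpa using this
      simp only [hX, hY]
      nlinarith
    have e3 : ℓ φ - ν ((s / ℓ φ0) • φ0 * φ) = X / ℓ φ0 := by
      rw [smul_mul_assoc, map_smul, smul_eq_mul, hX]
      field_simp
    rw [e3, div_pow, div_le_iff₀ hl0]
    have hνφ := hν φ
    have h5 : Y ≤ s * ν (φ * φ) := by
      have := sq_nonneg (ℓ φ)
      simp only [hY]; linarith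
    calc X ^ 2 ≤ η * Y := hXY
      _ ≤ η * (s * ν (φ * φ)) := mul_le_mul_of_nonneg_left h5 hη0.le
      _ ≤ ε * ν (φ * φ) * (ℓ φ0) ^ 2 := by
        have h6 : s / 2 ≤ (ℓ φ0) ^ 2 := by linarith
        have h7 : η * s ≤ ε * (ℓ φ0) ^ 2 := by
          calc η * s ≤ (ε / 2) * s := mul_le_mul_of_nonneg_right hη2 h0.le
            _ = ε * (s / 2) := by ring
            _ ≤ ε * (ℓ φ0) ^ 2 := mul_le_mul_of_nonneg_left h6 hε.le
        nlinarith [mul_le_mul_of_nonneg_right h7 hνφ]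

/-- Cauchy-Schwarz for a positive functional -/
theorem cs_pos (ν : C(Z, ℝ) →ₗ[ℝ] ℝ) (hν : ∀ φ : C(Z, ℝ), 0 ≤ ν (φ * φ)) (f g : C(Z, ℝ)) :
    (ν (f * g)) ^ 2 ≤ ν (f * f) * ν (g * g) := by
  by_contra hcon
  push Not at hcon
  -- quadratic form in two variables
  have key : ∀ s t : ℝ, 0 ≤ s ^ 2 * ν (f * f) + 2 * s * t * ν (f * g) + t ^ 2 * ν (g * g) := by
    intro s t
    have := hν (s • f + t • g)
    have e : (s • f + t • g) * (s • f + t • g) =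
        (s ^ 2) • (f * f) + (2 * s * t) • (f * g) + (t ^ 2) • (g * g) := by
      ext x; simp; ring
    rwa [e, map_add, map_add, map_smul, map_smul, map_smul, smul_eq_mul, smul_eq_mul,
      smul_eq_mul] at this
  have hf := hν f
  have hg := hν g
  rcases hg.eq_or_lt with h0 | h0
  · -- ν(gg)=0
    rw [← h0] at key hcon
    rw [mul_zero] at hcon
    have hne : ν (f * g) ≠ 0 := by
      intro h; rw [h] at hcon; simp at hcon
    have := key 1 (-(ν (f * f) + 1) / (2 * ν (f * g)))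
    have e : 2 * 1 * (-(ν (f * f) + 1) / (2 * ν (f * g))) * ν (f * g) = -(ν (f * f) + 1) := by
      field_simp
    rw [e] at this
    linarith
  · have := key (ν (g * g)) (-(ν (f * g)))
    nlinarith

end Crest.Agent.R193.D56_Dens
end
end

-- ▼ part R193/D56_Geo
section

/-!
# R193, block D5: abstract geometry, overlap, and the two Chebyshev lemmas
-/

set_option autoImplicit false

noncomputable section

open Set Filter Topology

namespace Crest.Agent.R193.D56_Geo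

open Crest.Agent.R193 Crest.Agent.R193.D56_Basic Crest.Agent.R193.D56_Atom
  Crest.Agent.R193.D56_Dens

open scoped Classical in
/-- the geometric input of the blow-up argument -/
structure Geo (G Z : Type) [Group G] [MetricSpace Z] [MulAction G Z] where
  lev : ℕ → Finset G
  Sh : ℕ → G → Set Z
  isClosed : ∀ R g, IsClosed (Sh R g)
  sub : ∀ R g, Sh R g ⊆ interior (Sh (R + 1) g)
  cover : ∀ n x, ∃ g ∈ lev n, x ∈ Sh 0 g
  val : ℕ → ℕ
  card_le : ∀ R n, ∀ g ∈ lev n, ((lev n).filter (fun h => (Sh R h ∩ Sh R g).Nonempty)).card ≤ val R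
  small : ∀ R, ∀ ε > (0 : ℝ), ∃ n0, ∀ n ≥ n0, ∀ g ∈ lev n, ∀ x ∈ Sh R g, ∀ y ∈ Sh R g,
    dist x y ≤ ε
  pole : ∀ (ω : Ultrafilter ℕ) (g : ℕ → G) (n : ℕ → ℕ), Tendsto n ω atTop →
    (∀ k, g k ∈ lev (n k)) → ∃ a : Z,
      (∀ K : Set Z, IsCompact K → a ∉ K → ∃ R, ∀ᶠ k in (ω : Filter ℕ), ∀ x ∈ K, g k • x ∈ Sh R (g k)) ∧
      (∀ R, ∃ N ∈ 𝓝 a, ∀ᶠ k in (ω : Filter ℕ), ∀ x ∈ N, g k • x ∉ Sh R (g k))
  conn : ∀ a : Z, IsPreconnected ({a}ᶜ : Set Z)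

variable {G Z : Type} [Group G] [MetricSpace Z] [MulAction G Z] {S : Setup G Z} {Q : DForm S}
variable (𝒢 : Geo G Z)

/-- pointwise overlap bound -/
theorem overlap {R n : ℕ} {A : Finset G} (hA : A ⊆ 𝒢.lev n) (f : G → Z → ℝ) {M : ℝ} (hM : 0 ≤ M)
    (hf : ∀ g ∈ A, ∀ x, |f g x| ≤ M) (hf0 : ∀ g ∈ A, ∀ x, x ∉ 𝒢.Sh R g → f g x = 0) (x : Z) :
    |∑ g ∈ A, f g x| ≤ 𝒢.val R * M := by
  classical
  by_cases hne : ∃ g ∈ A, x ∈ 𝒢.Sh R g
  · obtain ⟨g0, hg0, hx0⟩ := hne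
    have h1 : ∑ g ∈ A, f g x = ∑ g ∈ A.filter (fun g => x ∈ 𝒢.Sh R g), f g x := by
      rw [Finset.sum_filter]
      refine Finset.sum_congr rfl (fun g hg => ?_)
      split_ifs with h
      · rfl
      · exact hf0 g hg x h
    rw [h1]
    calc |∑ g ∈ A.filter (fun g => x ∈ 𝒢.Sh R g), f g x|
        ≤ ∑ g ∈ A.filter (fun g => x ∈ 𝒢.Sh R g), |f g x| := Finset.abs_sum_le_sum_abs _ _
      _ ≤ ∑ g ∈ A.filter (fun g => x ∈ 𝒢.Sh R g), M :=
          Finset.sum_le_sum (fun g hg => hf g (Finset.mem_filter.1 hg).1 x)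
      _ = (A.filter (fun g => x ∈ 𝒢.Sh R g)).card * M := by rw [Finset.sum_const, nsmul_eq_mul]
      _ ≤ 𝒢.val R * M := by
          refine mul_le_mul_of_nonneg_right ?_ hM
          have : (A.filter (fun g => x ∈ 𝒢.Sh R g)).card ≤ 𝒢.val R := by
            refine le_trans (Finset.card_le_card ?_) (𝒢.card_le R n g0 (hA hg0))
            intro g hg
            rw [Finset.mem_filter] at hg ⊢
            exact ⟨hA hg.1, ⟨x, hg.2, hx0⟩⟩
          exact_mod_cast this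
  · push Not at hne
    rw [Finset.sum_eq_zero (fun g hg => hf0 g hg x (hne g hg)), abs_zero]
    positivity

section bump
variable [CompactSpace Z]

/-- a bump function: one on `Sh R g`, zero off `Sh (R+1) g` -/
def bump (R : ℕ) (g : G) : C(Z, ℝ) :=
  Classical.choose (exists_continuous_zero_one_of_isClosed
    (s := (interior (𝒢.Sh (R + 1) g))ᶜ) (t := 𝒢.Sh R g) isOpen_interior.isClosed_compl
    (𝒢.isClosed R g) (disjoint_left.2 fun _ hx hx' => hx (𝒢.sub R g hx')))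

theorem bump_spec (R : ℕ) (g : G) :
    EqOn (bump 𝒢 R g) 0 (interior (𝒢.Sh (R + 1) g))ᶜ ∧ EqOn (bump 𝒢 R g) 1 (𝒢.Sh R g) ∧
      ∀ x, bump 𝒢 R g x ∈ Icc (0 : ℝ) 1 :=
  Classical.choose_spec (exists_continuous_zero_one_of_isClosed
    (s := (interior (𝒢.Sh (R + 1) g))ᶜ) (t := 𝒢.Sh R g) isOpen_interior.isClosed_compl
    (𝒢.isClosed R g) (disjoint_left.2 fun _ hx hx' => hx (𝒢.sub R g hx')))

theorem bump_nonneg (R : ℕ) (g : G) (x : Z) : 0 ≤ bump 𝒢 R g x := ((bump_spec 𝒢 R g).2.2 x).1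
theorem bump_le_one (R : ℕ) (g : G) (x : Z) : bump 𝒢 R g x ≤ 1 := ((bump_spec 𝒢 R g).2.2 x).2
theorem bump_one {R : ℕ} {g : G} {x : Z} (hx : x ∈ 𝒢.Sh R g) : bump 𝒢 R g x = 1 :=
  (bump_spec 𝒢 R g).2.1 hx
theorem bump_zero {R : ℕ} {g : G} {x : Z} (hx : x ∉ 𝒢.Sh (R + 1) g) : bump 𝒢 R g x = 0 :=
  (bump_spec 𝒢 R g).1 (fun h => hx (interior_subset h))

end bump

section cheb
variable [CompactSpace Z]

/-- total mass of the bumps at one level -/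
theorem sum_mass (ν : C(Z, ℝ) →ₗ[ℝ] ℝ) (hν : ∀ φ : C(Z, ℝ), (∀ x, 0 ≤ φ x) → 0 ≤ ν φ)
    (R n : ℕ) : ∑ g ∈ 𝒢.lev n, ν (bump 𝒢 R g) ≤ 𝒢.val (R + 1) * ν 1 := by
  rw [← map_sum]
  have h := hν ((𝒢.val (R + 1) : ℝ) • (1 : C(Z, ℝ)) - ∑ g ∈ 𝒢.lev n, bump 𝒢 R g) (fun x => by
    have := overlap 𝒢 (R := R + 1) (Finset.Subset.refl (𝒢.lev n)) (fun g x => bump 𝒢 R g x)
      (M := 1) zero_le_one (fun g _ x => by
        rw [abs_of_nonneg (bump_nonneg 𝒢 R g x)]; exact bump_le_one 𝒢 R g x)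
      (fun g _ x hx => bump_zero 𝒢 hx) x
    have h2 := (le_abs_self _).trans this
    simp only [ContinuousMap.sub_apply, ContinuousMap.smul_apply, ContinuousMap.one_apply,
      smul_eq_mul, ContinuousMap.coe_sum, Finset.sum_apply]
    linarith)
  rw [map_sub, map_smul, smul_eq_mul] at h
  linarith

/-- first Chebyshev lemma: dominated functionals have locally constant density on most tiles -/
theorem badc (ν ℓ : C(Z, ℝ) →ₗ[ℝ] ℝ) (hν : ∀ φ : C(Z, ℝ), (∀ x, 0 ≤ φ x) → 0 ≤ ν φ)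
    (hℓ : ∀ φ : C(Z, ℝ), |ℓ φ| ≤ ν |φ|) (m : ℕ → G → ℝ) (R : ℕ) (xx : G → Z)
    (hxx : ∀ g, (𝒢.Sh R g).Nonempty → xx g ∈ 𝒢.Sh R g) {δ η : ℝ} (hδ : 0 < δ) (hη : 0 < η) :
    ∃ (b : C(Z, ℝ)) (n0 : ℕ), ∀ n ≥ n0, ∀ A : Finset G, A ⊆ 𝒢.lev n →
      (∀ g ∈ A, ∃ φ : C(Z, ℝ), (∀ y, |φ y| ≤ 1) ∧ (∀ y, y ∉ 𝒢.Sh R g → φ y = 0) ∧
        δ * m n g < |ℓ φ - b (xx g) * ν φ|) → ∑ g ∈ A, m n g ≤ η := by
  classical
  have hν2 : ∀ φ : C(Z, ℝ), 0 ≤ ν (φ * φ) := fun φ => hν _ (fun x => by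
    simp only [ContinuousMap.mul_apply]; exact mul_self_nonneg _)
  have hν1 : 0 ≤ ν 1 := hν 1 (fun x => zero_le_one)
  have hL : ∀ φ : C(Z, ℝ), (ℓ φ) ^ 2 ≤ ν 1 * ν (φ * φ) := by
    intro φ
    have h1 := hℓ φ
    have h2 := cs_pos ν hν2 1 |φ|
    have e : |φ| * |φ| = φ * φ := by ext x; simp
    rw [one_mul, one_mul, e] at h2
    have h3 : (ℓ φ) ^ 2 ≤ (ν |φ|) ^ 2 := by
      rw [← sq_abs (ℓ φ)]
      exact pow_le_pow_left₀ (abs_nonneg _) h1 2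
    linarith
  set κ : ℝ := δ * η / (2 * (𝒢.val R + 1)) with hκ
  have hvR : (0 : ℝ) ≤ 𝒢.val R := Nat.cast_nonneg _
  have hκ0 : 0 < κ := by positivity
  -- density with small L2 error
  obtain ⟨b, hb⟩ := dens ν ℓ hν2 hL (ε := κ ^ 2 / (ν 1 + 1)) (by positivity)
  have hb1 : ∀ φ : C(Z, ℝ), ∀ M : ℝ, 0 ≤ M → (∀ x, |φ x| ≤ M) → |ℓ φ - ν (b * φ)| ≤ M * κ := by
    intro φ M hM hφ
    have h1 := hb φ
    have h2 : ν (φ * φ) ≤ M ^ 2 * ν 1 := by
      have := hν (M ^ 2 • (1 : C(Z, ℝ)) - φ * φ) (fun x => by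
        have := abs_le.1 (hφ x)
        simp only [ContinuousMap.sub_apply, ContinuousMap.smul_apply, ContinuousMap.one_apply,
          smul_eq_mul, ContinuousMap.mul_apply]
        nlinarith)
      rw [map_sub, map_smul, smul_eq_mul] at this
      linarith
    have h3 : (ℓ φ - ν (b * φ)) ^ 2 ≤ (M * κ) ^ 2 := by
      calc (ℓ φ - ν (b * φ)) ^ 2 ≤ κ ^ 2 / (ν 1 + 1) * ν (φ * φ) := h1
        _ ≤ κ ^ 2 / (ν 1 + 1) * (M ^ 2 * ν 1) := by gcongr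
        _ = (M * κ) ^ 2 * (ν 1 / (ν 1 + 1)) := by ring
        _ ≤ (M * κ) ^ 2 * 1 := by
            gcongr
            rw [div_le_one (by linarith)]
            linarith
        _ = (M * κ) ^ 2 := mul_one _
    exact abs_le_of_sq_le_sq h3 (by positivity)
  -- uniform continuity of b
  have hbu : UniformContinuous b := CompactSpace.uniformContinuous_of_continuous b.continuous
  obtain ⟨r, hr, hbr⟩ := Metric.uniformContinuous_iff.1 hbu (κ / (ν 1 + 1)) (by positivity)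
  obtain ⟨n0, hn0⟩ := 𝒢.small R (r / 2) (by positivity)
  refine ⟨b, n0, fun n hn A hA hbad => ?_⟩
  choose! φ hφ1 hφ0 hφ using hbad
  -- sign-adjusted
  set σ : G → ℝ := fun g => if 0 ≤ ℓ (φ g) - b (xx g) * ν (φ g) then 1 else -1 with hσ
  set ψ : G → C(Z, ℝ) := fun g => σ g • φ g with hψ
  have hσ1 : ∀ g, |σ g| = 1 := fun g => by simp only [hσ]; split_ifs <;> simp
  have hψ1 : ∀ g ∈ A, ∀ y, |ψ g y| ≤ 1 := fun g hg y => by
    simp only [hψ, ContinuousMap.smul_apply, smul_eq_mul, abs_mul, hσ1, one_mul]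
    exact hφ1 g hg y
  have hψ0 : ∀ g ∈ A, ∀ y, y ∉ 𝒢.Sh R g → ψ g y = 0 := fun g hg y hy => by
    simp only [hψ, ContinuousMap.smul_apply, smul_eq_mul, hφ0 g hg y hy, mul_zero]
  have hψ2 : ∀ g ∈ A, δ * m n g ≤ ℓ (ψ g) - b (xx g) * ν (ψ g) := fun g hg => by
    have h1 := hφ g hg
    simp only [hψ, map_smul, smul_eq_mul]
    have : σ g * ℓ (φ g) - b (xx g) * (σ g * ν (φ g)) = |ℓ (φ g) - b (xx g) * ν (φ g)| := by
      simp only [hσ]
      split_ifs with h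
      · rw [abs_of_nonneg h]; ring
      · rw [abs_of_neg (not_le.1 h)]; ring
    rw [this]; exact h1.le
  -- first error
  have h1 : ℓ (∑ g ∈ A, ψ g) - ν (b * ∑ g ∈ A, ψ g) ≤ 𝒢.val R * κ := by
    refine (le_abs_self _).trans (hb1 _ (𝒢.val R) hvR (fun x => ?_))
    have := overlap 𝒢 (R := R) hA (fun g x => ψ g x) (M := 1) zero_le_one hψ1 hψ0 x
    simpa using this
  -- second error
  have h2 : ∀ g ∈ A, ν (b * ψ g) - b (xx g) * ν (ψ g) ≤ κ / (ν 1 + 1) * ν |ψ g| := by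
    intro g hg
    have := hν ((κ / (ν 1 + 1)) • |ψ g| - (b * ψ g - b (xx g) • ψ g)) (fun x => by
      simp only [ContinuousMap.sub_apply, ContinuousMap.smul_apply, smul_eq_mul,
        ContinuousMap.mul_apply, absC_apply]
      by_cases hx : x ∈ 𝒢.Sh R g
      · have h3 : |b x - b (xx g)| ≤ κ / (ν 1 + 1) := by
          have h4 := hn0 n hn g (hA hg) x hx (xx g) (hxx g ⟨x, hx⟩)
          have := hbr (lt_of_le_of_lt h4 (by linarith))
          rw [Real.dist_eq] at this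
          exact this.le
        have h5 : (b x - b (xx g)) * ψ g x ≤ κ / (ν 1 + 1) * |ψ g x| := by
          calc (b x - b (xx g)) * ψ g x ≤ |(b x - b (xx g)) * ψ g x| := le_abs_self _
            _ = |b x - b (xx g)| * |ψ g x| := abs_mul _ _
            _ ≤ κ / (ν 1 + 1) * |ψ g x| := mul_le_mul_of_nonneg_right h3 (abs_nonneg _)
        linarith
      · rw [hψ0 g hg x hx]; simp)
    rw [map_sub, map_sub, map_smul, map_smul, smul_eq_mul, smul_eq_mul] at this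
    linarith
  have h3 : ∑ g ∈ A, ν |ψ g| ≤ 𝒢.val R * ν 1 := by
    rw [← map_sum]
    have h := hν ((𝒢.val R : ℝ) • (1 : C(Z, ℝ)) - ∑ g ∈ A, |ψ g|) (fun x => by
      have := overlap 𝒢 (R := R) hA (fun g x => |ψ g x|) (M := 1) zero_le_one
        (fun g hg x => by rw [abs_abs]; exact hψ1 g hg x)
        (fun g hg x hx => by rw [hψ0 g hg x hx, abs_zero]) x
      have h2 := (le_abs_self _).trans this
      simp only [ContinuousMap.sub_apply, ContinuousMap.smul_apply, ContinuousMap.one_apply,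
        smul_eq_mul, ContinuousMap.coe_sum, Finset.sum_apply, absC_apply]
      linarith)
    rw [map_sub, map_smul, smul_eq_mul] at h
    linarith
  have h4 : δ * ∑ g ∈ A, m n g ≤ δ * η := by
    calc δ * ∑ g ∈ A, m n g = ∑ g ∈ A, δ * m n g := Finset.mul_sum _ _ _
      _ ≤ ∑ g ∈ A, (ℓ (ψ g) - b (xx g) * ν (ψ g)) := Finset.sum_le_sum hψ2
      _ = (∑ g ∈ A, (ℓ (ψ g) - ν (b * ψ g))) + ∑ g ∈ A, (ν (b * ψ g) - b (xx g) * ν (ψ g)) := by
          rw [← Finset.sum_add_distrib]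
          exact Finset.sum_congr rfl (fun g _ => by ring)
      _ = (ℓ (∑ g ∈ A, ψ g) - ν (b * ∑ g ∈ A, ψ g)) +
            ∑ g ∈ A, (ν (b * ψ g) - b (xx g) * ν (ψ g)) := by
          rw [Finset.sum_sub_distrib, Finset.mul_sum, map_sum, map_sum]
      _ ≤ 𝒢.val R * κ + ∑ g ∈ A, κ / (ν 1 + 1) * ν |ψ g| :=
          add_le_add h1 (Finset.sum_le_sum h2)
      _ = 𝒢.val R * κ + κ / (ν 1 + 1) * ∑ g ∈ A, ν |ψ g| := by rw [Finset.mul_sum]
      _ ≤ 𝒢.val R * κ + κ / (ν 1 + 1) * (𝒢.val R * ν 1) := by gcongr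
      _ ≤ 𝒢.val R * κ + 𝒢.val R * κ := by
          have : κ / (ν 1 + 1) * (𝒢.val R * ν 1) = 𝒢.val R * κ * (ν 1 / (ν 1 + 1)) := by ring
          rw [this]
          have h5 : ν 1 / (ν 1 + 1) ≤ 1 := by
            rw [div_le_one (by linarith)]; linarith
          have h6 : 0 ≤ (𝒢.val R : ℝ) * κ := by positivity
          nlinarith
      _ = δ * η * (𝒢.val R / (𝒢.val R + 1)) := by rw [hκ]; field_simp; ring
      _ ≤ δ * η * 1 := by
          gcongr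
          rw [div_le_one (by linarith)]
          linarith
      _ = δ * η := mul_one _
  exact le_of_mul_le_mul_left h4 hδ

/-- second Chebyshev lemma: a function of the domain is almost harmonic on most tiles -/
theorem badd {u : C(Z, ℝ)} (hu : u ∈ Q.Dom) (m : ℕ → G → ℝ) (hm : ∀ n g, 0 ≤ m n g) {T : ℝ}
    (hT : ∀ n, ∑ g ∈ 𝒢.lev n, m n g ≤ T)
    (hsm : ∀ ε > 0, ∃ n0, ∀ n ≥ n0, ∀ g ∈ 𝒢.lev n, m n g ≤ ε) (R : ℕ) {K δ η : ℝ}
    (hK : 0 ≤ K) (hδ : 0 < δ) (hη : 0 < η) :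
    ∃ n0 : ℕ, ∀ n ≥ n0, ∀ A : Finset G, A ⊆ 𝒢.lev n →
      (∀ g ∈ A, ∃ w ∈ Q.Dom, (∀ y, y ∉ 𝒢.Sh R g → w y = 0) ∧ (∀ y, (w y) ^ 2 ≤ K * m n g) ∧
        Q.Γ w w 1 ≤ K * m n g ∧ δ * m n g < |Q.Γ w u 1|) → ∑ g ∈ A, m n g ≤ η := by
  classical
  have hvR : (0 : ℝ) ≤ 𝒢.val R := Nat.cast_nonneg _
  obtain ⟨τ, hτ, hweak⟩ := weak (Q := Q) hu (𝒢.val R * (K * T)) (mul_pos hδ hη)
  set e : ℝ := (τ / (𝒢.val R + 1)) ^ 2 / (K + 1) with he
  have he0 : 0 < e := by positivity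
  obtain ⟨n0, hn0⟩ := hsm e he0
  refine ⟨n0, fun n hn A hA hbad => ?_⟩
  choose! w hwD hw0 hw1 hwE hw using hbad
  set σ : G → ℝ := fun g => if 0 ≤ Q.Γ (w g) u 1 then 1 else -1 with hσ
  have hσ1 : ∀ g, |σ g| = 1 := fun g => by simp only [hσ]; split_ifs <;> simp
  have hσ2 : ∀ g, σ g * σ g = 1 := fun g => by simp only [hσ]; split_ifs <;> simp
  set ψ : G → C(Z, ℝ) := fun g => σ g • w g with hψ
  have hψD : ∀ g ∈ A, ψ g ∈ Q.Dom := fun g hg => Q.smul_mem _ _ (hwD g hg)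
  have hψ0 : ∀ g ∈ A, ∀ y, y ∉ 𝒢.Sh R g → ψ g y = 0 := fun g hg y hy => by
    simp only [hψ, ContinuousMap.smul_apply, smul_eq_mul, hw0 g hg y hy, mul_zero]
  have hψ1 : ∀ g ∈ A, ∀ y, |ψ g y| ≤ τ / (𝒢.val R + 1) := fun g hg y => by
    simp only [hψ, ContinuousMap.smul_apply, smul_eq_mul, abs_mul, hσ1, one_mul]
    refine abs_le_of_sq_le_sq (?_ : (w g y) ^ 2 ≤ (τ / (𝒢.val R + 1)) ^ 2) (by positivity)
    calc (w g y) ^ 2 ≤ K * m n g := hw1 g hg y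
      _ ≤ K * e := mul_le_mul_of_nonneg_left (hn0 n hn g (hA hg)) hK
      _ = (τ / (𝒢.val R + 1)) ^ 2 * (K / (K + 1)) := by rw [he]; ring
      _ ≤ (τ / (𝒢.val R + 1)) ^ 2 * 1 := by
          gcongr
          rw [div_le_one (by linarith)]; linarith
      _ = _ := mul_one _
  have hψE : ∀ g ∈ A, Q.Γ (ψ g) (ψ g) 1 ≤ K * m n g := fun g hg => by
    simp only [hψ]
    rw [Q.smul_left _ _ (hwD g hg) _ (Q.smul_mem _ _ (hwD g hg)),
      smul_right (hwD g hg) (hwD g hg), ← mul_assoc, hσ2, one_mul]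
    exact hwE g hg
  have hψu : ∀ g ∈ A, δ * m n g ≤ Q.Γ (ψ g) u 1 := fun g hg => by
    have h1 := hw g hg
    simp only [hψ]
    rw [Q.smul_left _ _ (hwD g hg) _ hu]
    have : σ g * Q.Γ (w g) u 1 = |Q.Γ (w g) u 1| := by
      simp only [hσ]
      split_ifs with h
      · rw [abs_of_nonneg h]; ring
      · rw [abs_of_neg (not_le.1 h)]; ring
    rw [this]; exact h1.le
  have hWD := sum_mem A ψ hψD
  have hW1 : ∀ x, |(∑ g ∈ A, ψ g) x| ≤ τ := by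
    intro x
    have := overlap 𝒢 (R := R) hA (fun g x => ψ g x) (M := τ / (𝒢.val R + 1)) (by positivity)
      hψ1 hψ0 x
    rw [ContinuousMap.coe_sum, Finset.sum_apply]
    refine this.trans ?_
    rw [← mul_div_assoc, div_le_iff₀ (by linarith)]
    nlinarith
  have hdisj : ∀ g ∈ A, ∀ h ∈ A, ¬ (𝒢.Sh R h ∩ 𝒢.Sh R g).Nonempty → Q.Γ (ψ g) (ψ h) 1 = 0 := by
    intro g hg h hh hne
    refine disjoint_supp (hψD g hg) (hψD h hh) ?_ 1
    have e1 : tsupport ⇑(ψ g) ⊆ 𝒢.Sh R g := closure_minimal (fun y hy => by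
      by_contra hc; exact hy (hψ0 g hg y hc)) (𝒢.isClosed R g)
    have e2 : tsupport ⇑(ψ h) ⊆ 𝒢.Sh R h := closure_minimal (fun y hy => by
      by_contra hc; exact hy (hψ0 h hh y hc)) (𝒢.isClosed R h)
    refine disjoint_left.2 (fun y hy hy' => hne ⟨y, e2 hy', e1 hy⟩)
  have hWE : Q.Γ (∑ g ∈ A, ψ g) (∑ g ∈ A, ψ g) 1 ≤ 𝒢.val R * (K * T) := by
    rw [sum_left A ψ hψD hWD]
    have h1 : ∀ g ∈ A, Q.Γ (ψ g) (∑ h ∈ A, ψ h) 1 ≤
        ∑ h ∈ A, if (𝒢.Sh R h ∩ 𝒢.Sh R g).Nonempty then (K * m n g + K * m n h) / 2 else 0 := by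
      intro g hg
      rw [sum_right A ψ hψD (hψD g hg)]
      refine Finset.sum_le_sum (fun h hh => ?_)
      split_ifs with hne
      · have h2 := cs_nonneg (Q := Q) (hψD g hg) (hψD h hh) (φ := 1) (fun x => zero_le_one)
        have h3 := hψE g hg
        have h4 := hψE h hh
        have h5 := le_abs_self (Q.Γ (ψ g) (ψ h) 1)
        linarith
      · rw [hdisj g hg h hh hne]
    refine (Finset.sum_le_sum h1).trans ?_
    have h2 : ∑ g ∈ A, ∑ h ∈ A, (if (𝒢.Sh R h ∩ 𝒢.Sh R g).Nonempty then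
        (K * m n g + K * m n h) / 2 else 0) =
        ∑ g ∈ A, ∑ h ∈ A, (if (𝒢.Sh R h ∩ 𝒢.Sh R g).Nonempty then K * m n g else 0) := by
      have e1 : ∀ g h : G, (if (𝒢.Sh R h ∩ 𝒢.Sh R g).Nonempty then
          (K * m n g + K * m n h) / 2 else 0) =
          (if (𝒢.Sh R h ∩ 𝒢.Sh R g).Nonempty then K * m n g else 0) / 2 +
          (if (𝒢.Sh R h ∩ 𝒢.Sh R g).Nonempty then K * m n h else 0) / 2 := fun g h => by
        split_ifs <;> ring
      simp only [e1, Finset.sum_add_distrib]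
      have e2 : ∑ g ∈ A, ∑ h ∈ A,
          (if (𝒢.Sh R h ∩ 𝒢.Sh R g).Nonempty then K * m n h else 0) / 2 =
          ∑ g ∈ A, ∑ h ∈ A,
          (if (𝒢.Sh R h ∩ 𝒢.Sh R g).Nonempty then K * m n g else 0) / 2 := by
        rw [Finset.sum_comm]
        refine Finset.sum_congr rfl (fun g _ => Finset.sum_congr rfl (fun h _ => ?_))
        rw [Set.inter_comm]
      rw [e2, ← Finset.sum_add_distrib]
      refine Finset.sum_congr rfl (fun g _ => ?_)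
      rw [← Finset.sum_add_distrib]
      exact Finset.sum_congr rfl (fun h _ => by ring)
    rw [h2]
    have h3 : ∀ g ∈ A, ∑ h ∈ A, (if (𝒢.Sh R h ∩ 𝒢.Sh R g).Nonempty then K * m n g else 0) ≤
        𝒢.val R * (K * m n g) := by
      intro g hg
      rw [← Finset.sum_filter, Finset.sum_const, nsmul_eq_mul]
      refine mul_le_mul_of_nonneg_right ?_ (mul_nonneg hK (hm n g))
      have : (A.filter (fun h => (𝒢.Sh R h ∩ 𝒢.Sh R g).Nonempty)).card ≤ 𝒢.val R := by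
        refine le_trans (Finset.card_le_card ?_) (𝒢.card_le R n g (hA hg))
        intro h hh
        rw [Finset.mem_filter] at hh ⊢
        exact ⟨hA hh.1, hh.2⟩
      exact_mod_cast this
    refine (Finset.sum_le_sum h3).trans ?_
    rw [← Finset.mul_sum, ← Finset.mul_sum]
    refine mul_le_mul_of_nonneg_left (mul_le_mul_of_nonneg_left ?_ hK) hvR
    exact (Finset.sum_le_sum_of_subset_of_nonneg hA (fun g _ _ => hm n g)).trans (hT n)
  have h1 := hweak _ hWD hW1 hWE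
  rw [sum_left A ψ hψD hu] at h1
  have h2 : δ * ∑ g ∈ A, m n g ≤ δ * η := by
    rw [Finset.mul_sum]
    exact (Finset.sum_le_sum hψu).trans ((le_abs_self _).trans h1)
  exact le_of_mul_le_mul_left h2 hδ

end cheb

end Crest.Agent.R193.D56_Geo
end
end

-- ▼ part R193/D56_Area
section

/-!
# R193, block D5: area of the image of a tile
-/

set_option autoImplicit false

noncomputable section

open Set Filter Topology MeasureTheory

namespace Crest.Agent.R193.D56_Area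

theorem strip (s α a β b : ℝ) :
    volume {p : ℝ × ℝ | p.1 ∈ Icc α (α + a) ∧ p.2 - s * p.1 ∈ Icc β (β + b)} ≤
      ENNReal.ofReal a * ENNReal.ofReal b := by
  have hm : MeasurableSet {p : ℝ × ℝ | p.1 ∈ Icc α (α + a) ∧ p.2 - s * p.1 ∈ Icc β (β + b)} := by
    apply IsClosed.measurableSet
    apply IsClosed.inter
    · exact isClosed_Icc.preimage continuous_fst
    · exact isClosed_Icc.preimage (by fun_prop : Continuous fun p : ℝ × ℝ => p.2 - s * p.1)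
  rw [Measure.volume_eq_prod, Measure.prod_apply hm]
  calc ∫⁻ x, volume (Prod.mk x ⁻¹'
        {p : ℝ × ℝ | p.1 ∈ Icc α (α + a) ∧ p.2 - s * p.1 ∈ Icc β (β + b)})
      ≤ ∫⁻ x, (Icc α (α + a)).indicator (fun _ => ENNReal.ofReal b) x := by
        refine lintegral_mono (fun x => ?_)
        by_cases hx : x ∈ Icc α (α + a)
        · rw [indicator_of_mem hx]
          calc volume (Prod.mk x ⁻¹'
              {p : ℝ × ℝ | p.1 ∈ Icc α (α + a) ∧ p.2 - s * p.1 ∈ Icc β (β + b)})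
              ≤ volume (Icc (β + s * x) (β + b + s * x)) := by
                refine measure_mono (fun y hy => ?_)
                obtain ⟨-, h1, h2⟩ := hy
                exact ⟨by linarith, by linarith⟩
            _ = ENNReal.ofReal b := by
                rw [Real.volume_Icc]; congr 1; ring
        · rw [indicator_of_notMem hx]
          have : Prod.mk x ⁻¹'
              {p : ℝ × ℝ | p.1 ∈ Icc α (α + a) ∧ p.2 - s * p.1 ∈ Icc β (β + b)} = ∅ := by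
            ext y
            simp only [mem_preimage, mem_setOf_eq, mem_empty_iff_false, iff_false, not_and]
            intro h; exact absurd h hx
          rw [this, measure_empty]
    _ = ENNReal.ofReal a * ENNReal.ofReal b := by
        rw [lintegral_indicator measurableSet_Icc, lintegral_const, Measure.restrict_apply_univ,
          Real.volume_Icc, mul_comm]
        congr 2
        ring

theorem image_le {Z : Type*} (u1 u2 : Z → ℝ) (A : Set Z) (s a b : ℝ)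
    (h1 : ∀ y ∈ A, ∀ z ∈ A, |u1 y - u1 z| ≤ a)
    (h2 : ∀ y ∈ A, ∀ z ∈ A, |(u2 y - s * u1 y) - (u2 z - s * u1 z)| ≤ b) :
    volume ((fun x => (u1 x, u2 x)) '' A) ≤ ENNReal.ofReal (2 * a) * ENNReal.ofReal (2 * b) := by
  rcases A.eq_empty_or_nonempty with rfl | ⟨z0, hz0⟩
  · simp
  · refine le_trans (measure_mono ?_) (strip s (u1 z0 - a) (2 * a) (u2 z0 - s * u1 z0 - b) (2 * b))
    rintro p ⟨y, hy, rfl⟩
    have e1 := abs_le.1 (h1 y hy z0 hz0)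
    have e2 := abs_le.1 (h2 y hy z0 hz0)
    exact ⟨⟨by linarith, by linarith⟩, ⟨by linarith, by linarith⟩⟩

theorem tile {Z : Type*} (u1 u2 : Z → ℝ) (A : Set Z) {C M11 M12 M22 : ℝ} (hC : 0 ≤ C)
    (h11 : 0 ≤ M11) (hdet : 0 ≤ M11 * M22 - M12 ^ 2)
    (h : ∀ α β : ℝ, ∀ y ∈ A, ∀ z ∈ A,
      ((α * u1 y + β * u2 y) - (α * u1 z + β * u2 z)) ^ 2 ≤
        C * (α ^ 2 * M11 + 2 * α * β * M12 + β ^ 2 * M22)) :
    volume ((fun x => (u1 x, u2 x)) '' A) ≤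
      ENNReal.ofReal (4 * C * Real.sqrt (M11 * M22 - M12 ^ 2)) := by
  rcases h11.eq_or_lt with h0 | h0
  · -- u1 constant on A, then the image has area zero
    have e1 : ∀ y ∈ A, ∀ z ∈ A, |u1 y - u1 z| ≤ 0 := by
      intro y hy z hz
      have := h 1 0 y hy z hz
      rw [← h0] at this
      have h2 : (u1 y - u1 z) ^ 2 ≤ 0 := by
        calc (u1 y - u1 z) ^ 2 = ((1 * u1 y + 0 * u2 y) - (1 * u1 z + 0 * u2 z)) ^ 2 := by ring
          _ ≤ _ := this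
          _ = 0 := by ring
      have h3 : u1 y - u1 z = 0 := by
        have := sq_nonneg (u1 y - u1 z)
        exact pow_eq_zero_iff (two_ne_zero) |>.1 (le_antisymm h2 this)
      rw [h3, abs_zero]
    have e2 : ∀ y ∈ A, ∀ z ∈ A, |(u2 y - 0 * u1 y) - (u2 z - 0 * u1 z)| ≤ Real.sqrt (C * M22) := by
      intro y hy z hz
      have := h 0 1 y hy z hz
      refine Real.abs_le_sqrt ?_
      calc ((u2 y - 0 * u1 y) - (u2 z - 0 * u1 z)) ^ 2
          = ((0 * u1 y + 1 * u2 y) - (0 * u1 z + 1 * u2 z)) ^ 2 := by ring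
        _ ≤ _ := this
        _ = C * M22 := by ring
    have := image_le u1 u2 A 0 0 _ e1 e2
    simp only [mul_zero, ENNReal.ofReal_zero, zero_mul] at this
    exact this.trans zero_le
  · set s := M12 / M11 with hs
    have e1 : ∀ y ∈ A, ∀ z ∈ A, |u1 y - u1 z| ≤ Real.sqrt (C * M11) := by
      intro y hy z hz
      have := h 1 0 y hy z hz
      refine Real.abs_le_sqrt ?_
      calc (u1 y - u1 z) ^ 2
          = ((1 * u1 y + 0 * u2 y) - (1 * u1 z + 0 * u2 z)) ^ 2 := by ring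
        _ ≤ _ := this
        _ = C * M11 := by ring
    have e2 : ∀ y ∈ A, ∀ z ∈ A, |(u2 y - s * u1 y) - (u2 z - s * u1 z)| ≤
        Real.sqrt (C * ((M11 * M22 - M12 ^ 2) / M11)) := by
      intro y hy z hz
      have := h (-s) 1 y hy z hz
      refine Real.abs_le_sqrt ?_
      calc ((u2 y - s * u1 y) - (u2 z - s * u1 z)) ^ 2
          = ((-s * u1 y + 1 * u2 y) - (-s * u1 z + 1 * u2 z)) ^ 2 := by ring
        _ ≤ _ := this
        _ = C * ((M11 * M22 - M12 ^ 2) / M11) := by rw [hs]; field_simp; ring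
    refine (image_le u1 u2 A s _ _ e1 e2).trans ?_
    rw [← ENNReal.ofReal_mul (by positivity)]
    refine ENNReal.ofReal_le_ofReal ?_
    have e3 : Real.sqrt (C * M11) * Real.sqrt (C * ((M11 * M22 - M12 ^ 2) / M11)) =
        C * Real.sqrt (M11 * M22 - M12 ^ 2) := by
      rw [← Real.sqrt_mul (by positivity)]
      have : C * M11 * (C * ((M11 * M22 - M12 ^ 2) / M11)) = C ^ 2 * (M11 * M22 - M12 ^ 2) := by
        field_simp
      rw [this, Real.sqrt_mul (by positivity), Real.sqrt_sq hC]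
    nlinarith [e3]

end Crest.Agent.R193.D56_Area
end
end

-- ▼ part R193/D56_Sel
section

/-!
# R193, block D5: selection of a typical tile
-/

set_option autoImplicit false

noncomputable section

open Set Filter Topology MeasureTheory

namespace Crest.Agent.R193.D56_Sel

open Crest.Agent.R193 Crest.Agent.R193.D56_Basic Crest.Agent.R193.D56_Atom
  Crest.Agent.R193.D56_Dens Crest.Agent.R193.D56_Geo

variable {G Z : Type} [Group G] [MetricSpace Z] [MulAction G Z] {S : Setup G Z} (Q : DForm S)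
variable (𝒢 : Geo G Z)

/-- scale invariant oscillation estimate on tiles -/
def OscGlob : Prop :=
  ∃ (C : ℝ) (R1 n0 : ℕ), 0 < C ∧ ∀ n ≥ n0, ∀ g ∈ 𝒢.lev n, ∀ u ∈ Q.Dom, MonoOn u (𝒢.Sh R1 g) →
    ∀ φ : C(Z, ℝ), (∀ y, 0 ≤ φ y) → (∀ y ∈ 𝒢.Sh R1 g, φ y = 1) →
      ∀ y ∈ 𝒢.Sh 0 g, ∀ z ∈ 𝒢.Sh 0 g, (u y - u z) ^ 2 ≤ C * Q.Γ u u φ

theorem MonoOn.mono {u : Z → ℝ} {O O' : Set Z} (h : MonoOn u O) (hO : O' ⊆ O) : MonoOn u O' :=
  fun D h1 h2 h3 => h D h1 h2 (h3.trans hO)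

variable {Q 𝒢}

/-- the functional `φ ↦ Γ(u,v)(φ)` -/
def lin (u v : C(Z, ℝ)) (hu : u ∈ Q.Dom) (hv : v ∈ Q.Dom) : C(Z, ℝ) →ₗ[ℝ] ℝ where
  toFun := Q.Γ u v
  map_add' := Q.add_test u hu v hv
  map_smul' := fun c φ => by simpa using Q.smul_test c u hu v hv φ

@[simp] theorem lin_apply {u v : C(Z, ℝ)} (hu : u ∈ Q.Dom) (hv : v ∈ Q.Dom) (φ : C(Z, ℝ)) :
    lin u v hu hv φ = Q.Γ u v φ := rfl

theorem gram_det {u v : C(Z, ℝ)} (hu : u ∈ Q.Dom) (hv : v ∈ Q.Dom) {φ : C(Z, ℝ)}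
    (hφ : ∀ x, 0 ≤ φ x) : 0 ≤ Q.Γ u u φ * Q.Γ v v φ - (Q.Γ u v φ) ^ 2 := by
  have key : ∀ s t : ℝ, 0 ≤ s ^ 2 * Q.Γ u u φ + 2 * s * t * Q.Γ u v φ + t ^ 2 * Q.Γ v v φ := by
    intro s t
    have hsu := Q.smul_mem s _ hu
    have htv := Q.smul_mem t _ hv
    have := Q.nonneg _ (Q.add_mem _ hsu _ htv) φ hφ
    rw [Q.add_left _ hsu _ htv _ (Q.add_mem _ hsu _ htv), add_right hsu hsu htv,
      add_right htv hsu htv, Q.smul_left _ _ hu _ hsu, Q.smul_left _ _ hu _ htv,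
      Q.smul_left _ _ hv _ hsu, Q.smul_left _ _ hv _ htv, smul_right hu hu, smul_right hu hv,
      smul_right hv hu, smul_right hv hv, Q.symm _ hv _ hu] at this
    linarith
  have hf := Q.nonneg u hu φ hφ
  have hg := Q.nonneg v hv φ hφ
  by_contra hcon
  push Not at hcon
  rcases hg.eq_or_lt with h0 | h0
  · rw [← h0] at key hcon
    rw [mul_zero, zero_sub] at hcon
    have hne : Q.Γ u v φ ≠ 0 := by
      intro h; rw [h] at hcon; simp at hcon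
    have := key 1 (-(Q.Γ u u φ + 1) / (2 * Q.Γ u v φ))
    have e : 2 * 1 * (-(Q.Γ u u φ + 1) / (2 * Q.Γ u v φ)) * Q.Γ u v φ = -(Q.Γ u u φ + 1) := by
      field_simp
    rw [e] at this
    linarith
  · have := key (Q.Γ v v φ) (-(Q.Γ u v φ))
    nlinarith

theorem quad {u v : C(Z, ℝ)} (hu : u ∈ Q.Dom) (hv : v ∈ Q.Dom) (s t : ℝ) (φ : C(Z, ℝ)) :
    Q.Γ (s • u + t • v) (s • u + t • v) φ =
      s ^ 2 * Q.Γ u u φ + 2 * s * t * Q.Γ u v φ + t ^ 2 * Q.Γ v v φ := by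
  have hsu := Q.smul_mem s _ hu
  have htv := Q.smul_mem t _ hv
  rw [Q.add_left _ hsu _ htv _ (Q.add_mem _ hsu _ htv), add_right hsu hsu htv,
    add_right htv hsu htv, Q.smul_left _ _ hu _ hsu, Q.smul_left _ _ hu _ htv,
    Q.smul_left _ _ hv _ hsu, Q.smul_left _ _ hv _ htv, smul_right hu hu, smul_right hu hv,
    smul_right hv hu, smul_right hv hv, Q.symm _ hv _ hu]
  ring

variable [CompactSpace Z]

/-- what we want of a typical tile -/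
structure Typical (Q : DForm S) (𝒢 : Geo G Z) (u1 u2 : C(Z, ℝ)) (O : Set Z) (R1 : ℕ) (θ : ℝ)
    (K : ℕ → ℝ) (k : ℕ) (g : G) (m b11 b12 b22 : ℝ) : Prop where
  sub : 𝒢.Sh k g ⊆ O
  pos : 0 < m
  mass : m = Q.Γ u1 u1 (bump 𝒢 R1 g) + Q.Γ u2 u2 (bump 𝒢 R1 g)
  det : (θ * m) ^ 2 ≤ Q.Γ u1 u1 (bump 𝒢 R1 g) * Q.Γ u2 u2 (bump 𝒢 R1 g) -
    (Q.Γ u1 u2 (bump 𝒢 R1 g)) ^ 2
  dbl : ∀ R ≤ k, Q.Γ u1 u1 (bump 𝒢 R g) + Q.Γ u2 u2 (bump 𝒢 R g) ≤ K R * m
  dens : ∀ φ : C(Z, ℝ), (∀ y, |φ y| ≤ 1) → (∀ y, y ∉ 𝒢.Sh k g → φ y = 0) →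
    |Q.Γ u1 u1 φ - b11 * (Q.Γ u1 u1 φ + Q.Γ u2 u2 φ)| ≤ m / (k + 1) ∧
    |Q.Γ u1 u2 φ - b12 * (Q.Γ u1 u1 φ + Q.Γ u2 u2 φ)| ≤ m / (k + 1) ∧
    |Q.Γ u2 u2 φ - b22 * (Q.Γ u1 u1 φ + Q.Γ u2 u2 φ)| ≤ m / (k + 1)
  harm : ∀ w ∈ Q.Dom, (∀ y, y ∉ 𝒢.Sh k g → w y = 0) → (∀ y, (w y) ^ 2 ≤ k * m) →
    Q.Γ w w 1 ≤ k * m → |Q.Γ w u1 1| ≤ m / (k + 1) ∧ |Q.Γ w u2 1| ≤ m / (k + 1)

theorem sh_mono {R R' : ℕ} (h : R ≤ R') (g : G) : 𝒢.Sh R g ⊆ 𝒢.Sh R' g := by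
  induction h with
  | refl => exact Subset.rfl
  | step _ ih => exact ih.trans ((𝒢.sub _ g).trans interior_subset)

omit [CompactSpace Z] [MetricSpace Z] [MulAction G Z] [Group G] in
theorem sum_biUnion_le [DecidableEq G] (f : G → ℝ) (hf : ∀ g, 0 ≤ f g) (s : Finset ℕ)
    (t : ℕ → Finset G) : ∑ g ∈ s.biUnion t, f g ≤ ∑ i ∈ s, ∑ g ∈ t i, f g := by
  induction s using Finset.induction_on with
  | empty => simp
  | insert i s hi ih =>
    rw [Finset.biUnion_insert, Finset.sum_insert hi]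
    have h1 := Finset.sum_union_inter (s₁ := t i) (s₂ := s.biUnion t) (f := f)
    have h3 : 0 ≤ ∑ g ∈ t i ∩ s.biUnion t, f g := Finset.sum_nonneg (fun g _ => hf g)
    linarith

theorem select (hosc : OscGlob Q 𝒢) {u1 u2 : C(Z, ℝ)} (h1 : u1 ∈ Q.Dom) (h2 : u2 ∈ Q.Dom)
    {O X : Set Z} (hO : IsOpen O) (hX : IsCompact X) (hXO : X ⊆ O)
    (hmono : ∀ a b : ℝ, MonoOn (fun x => a * u1 x + b * u2 x) O)
    (hvol : volume ((fun x => (u1 x, u2 x)) '' X) ≠ 0) :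
    ∃ (R1 : ℕ) (θ : ℝ) (K : ℕ → ℝ), 0 < θ ∧ ∀ k : ℕ, ∃ n ≥ k, ∃ g ∈ 𝒢.lev n, ∃ m b11 b12 b22 : ℝ,
      Typical Q 𝒢 u1 u2 O R1 θ K k g m b11 b12 b22 := by
  classical
  obtain ⟨C, R1, nO, hC, hosc⟩ := hosc
  set ν : C(Z, ℝ) →ₗ[ℝ] ℝ := lin u1 u1 h1 h1 + lin u2 u2 h2 h2 with hν
  have hνa : ∀ φ, ν φ = Q.Γ u1 u1 φ + Q.Γ u2 u2 φ := fun φ => rfl
  have hνp : ∀ φ : C(Z, ℝ), (∀ x, 0 ≤ φ x) → 0 ≤ ν φ := fun φ hφ =>
    add_nonneg (Q.nonneg u1 h1 φ hφ) (Q.nonneg u2 h2 φ hφ)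
  set M : ℕ → G → ℝ := fun _ g => ν (bump 𝒢 R1 g) with hM
  have hM0 : ∀ n g, 0 ≤ M n g := fun n g => hνp _ (bump_nonneg 𝒢 R1 g)
  set T : ℝ := 𝒢.val (R1 + 1) * ν 1 with hT
  have hTn : ∀ n, ∑ g ∈ 𝒢.lev n, M n g ≤ T := fun n => sum_mass 𝒢 ν hνp R1 n
  have hν1 : 0 ≤ ν 1 := hνp 1 (fun x => zero_le_one)
  have hT0 : 0 ≤ T := mul_nonneg (Nat.cast_nonneg _) hν1
  -- the constant c1
  set V := volume ((fun x => (u1 x, u2 x)) '' X) with hV
  obtain ⟨c1, hc1, hc1V⟩ : ∃ c1 > 0, ENNReal.ofReal (4 * C * c1) ≤ V := by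
    have hmin : min V 1 ≠ ⊤ := ne_of_lt (lt_of_le_of_lt (min_le_right _ _) ENNReal.one_lt_top)
    have hmin0 : min V 1 ≠ 0 := by
      intro h
      rcases min_choice V 1 with h' | h'
      · exact hvol (h' ▸ h)
      · rw [h'] at h; exact one_ne_zero h
    have hpos : 0 < (min V 1).toReal := ENNReal.toReal_pos hmin0 hmin
    refine ⟨(min V 1).toReal / (4 * C), by positivity, ?_⟩
    have : 4 * C * ((min V 1).toReal / (4 * C)) = (min V 1).toReal := by field_simp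
    rw [this, ENNReal.ofReal_toReal hmin]
    exact min_le_left _ _
  set θ : ℝ := c1 / (2 * T + 1) with hθ
  have hθ0 : 0 < θ := by positivity
  have hθT : θ * T ≤ c1 / 2 := by
    rw [hθ, div_mul_eq_mul_div, div_le_iff₀ (by positivity)]
    nlinarith
  set TR : ℕ → ℝ := fun R => 𝒢.val (R + 1) * ν 1 with hTR
  have hTR0 : ∀ R, 0 ≤ TR R := fun R => mul_nonneg (Nat.cast_nonneg _) hν1
  set K : ℕ → ℝ := fun R => 2 ^ (R + 3) * (TR R + 1) / c1 with hK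
  have hK0 : ∀ R, 0 < K R := fun R => by
    have := hTR0 R
    simp only [hK]; positivity
  refine ⟨R1, θ, K, hθ0, fun k => ?_⟩
  -- thickening: tiles meeting X have their k-shadows inside O
  obtain ⟨r, hr, hrO⟩ := hX.exists_thickening_subset_open hO hXO
  set R2 := max k R1 with hR2
  obtain ⟨n1, hn1⟩ := 𝒢.small R2 (r / 2) (by positivity)
  -- small masses
  have hsm : ∀ ε > 0, ∃ n0, ∀ n ≥ n0, ∀ g ∈ 𝒢.lev n, M n g ≤ ε := by
    intro ε hε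
    obtain ⟨ρ1, hρ1, ha1⟩ := no_atom_unif (Q := Q) h1 (half_pos hε)
    obtain ⟨ρ2, hρ2, ha2⟩ := no_atom_unif (Q := Q) h2 (half_pos hε)
    obtain ⟨n0, hn0⟩ := 𝒢.small (R1 + 1) (min ρ1 ρ2 / 2) (by positivity)
    refine ⟨n0, fun n hn g hg => ?_⟩
    have hmin : 0 < min ρ1 ρ2 := lt_min hρ1 hρ2
    rcases (𝒢.Sh (R1 + 1) g).eq_empty_or_nonempty with he | ⟨x0, hx0⟩
    · have : bump 𝒢 R1 g = 0 := by
        ext y; exact bump_zero 𝒢 (by rw [he]; exact Set.notMem_empty y)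
      simp only [hM, this, map_zero]; exact hε.le
    · have e1 := ha1 x0 (bump 𝒢 R1 g) (fun y => ⟨bump_nonneg 𝒢 R1 g y, bump_le_one 𝒢 R1 g y⟩)
        (fun y hy => bump_zero 𝒢 (fun hc => by
          have := hn0 n hn g hg y hc x0 hx0
          have := min_le_left ρ1 ρ2
          linarith))
      have e2 := ha2 x0 (bump 𝒢 R1 g) (fun y => ⟨bump_nonneg 𝒢 R1 g y, bump_le_one 𝒢 R1 g y⟩)
        (fun y hy => bump_zero 𝒢 (fun hc => by
          have := hn0 n hn g hg y hc x0 hx0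
          have := min_le_right ρ1 ρ2
          linarith))
      simp only [hM, hνa]
      linarith
  -- base points
  obtain ⟨xx, hxx⟩ : ∃ xx : G → Z, ∀ g, (𝒢.Sh k g).Nonempty → xx g ∈ 𝒢.Sh k g := by
    have hne : Nonempty Z := by
      by_contra hc
      rw [not_nonempty_iff] at hc
      apply hvol
      rw [hV, show X = ∅ from Set.eq_empty_of_isEmpty X]
      simp
    refine ⟨fun g => if h : (𝒢.Sh k g).Nonempty then h.some else hne.some, fun g h => ?_⟩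
    simp only [h, dif_pos]
    exact h.some_mem
  -- constant densities
  have hℓ : ∀ {v w : C(Z, ℝ)} (hv : v ∈ Q.Dom) (hw : w ∈ Q.Dom), (v = u1 ∨ v = u2) →
      (w = u1 ∨ w = u2) → ∀ φ, |lin v w hv hw φ| ≤ ν |φ| := by
    intro v w hv hw hv' hw' φ
    have h3 := cs hv hw φ
    have hp : ∀ x, 0 ≤ (|φ| : C(Z, ℝ)) x := fun x => abs_nonneg _
    have e1 := Q.nonneg u1 h1 |φ| hp
    have e2 := Q.nonneg u2 h2 |φ| hp
    rw [lin_apply, hνa]
    rcases hv' with rfl | rfl <;> rcases hw' with rfl | rfl <;> linarith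
  have hδ : (0 : ℝ) < 1 / (k + 1) := by positivity
  obtain ⟨b11, na, hna⟩ := badc 𝒢 ν (lin u1 u1 h1 h1) hνp (hℓ h1 h1 (Or.inl rfl) (Or.inl rfl)) M k xx
    hxx hδ (show 0 < c1 / 16 by positivity)
  obtain ⟨b12, nb, hnb⟩ := badc 𝒢 ν (lin u1 u2 h1 h2) hνp (hℓ h1 h2 (Or.inl rfl) (Or.inr rfl)) M k xx
    hxx hδ (show 0 < c1 / 16 by positivity)
  obtain ⟨b22, nc, hnc⟩ := badc 𝒢 ν (lin u2 u2 h2 h2) hνp (hℓ h2 h2 (Or.inr rfl) (Or.inr rfl)) M k xx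
    hxx hδ (show 0 < c1 / 16 by positivity)
  obtain ⟨nd, hnd⟩ := badd (Q := Q) 𝒢 h1 M hM0 hTn hsm k (Nat.cast_nonneg k) hδ
    (show 0 < c1 / 16 by positivity)
  obtain ⟨ne, hne⟩ := badd (Q := Q) 𝒢 h2 M hM0 hTn hsm k (Nat.cast_nonneg k) hδ
    (show 0 < c1 / 16 by positivity)
  set n := max k (max nO (max n1 (max na (max nb (max nc (max nd ne)))))) with hn
  have hnk : n ≥ k := le_max_left _ _
  have hnO : n ≥ nO := by omega
  have hnn1 : n ≥ n1 := by omega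
  have hnna : n ≥ na := by omega
  have hnnb : n ≥ nb := by omega
  have hnnc : n ≥ nc := by omega
  have hnnd : n ≥ nd := by omega
  have hnne : n ≥ ne := by omega
  refine ⟨n, hnk, ?_⟩
  -- tiles meeting X
  set A : Finset G := (𝒢.lev n).filter (fun g => (𝒢.Sh 0 g ∩ X).Nonempty) with hA
  have hAl : A ⊆ 𝒢.lev n := Finset.filter_subset _ _
  have hAO : ∀ g ∈ A, 𝒢.Sh R2 g ⊆ O := by
    intro g hg y hy
    obtain ⟨hg1, x, hx1, hx2⟩ := Finset.mem_filter.1 hg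
    refine hrO (Metric.mem_thickening_iff.2 ⟨x, hx2, ?_⟩)
    have := hn1 n hnn1 g hg1 y hy x (sh_mono (Nat.zero_le _) g hx1)
    linarith
  set D : G → ℝ := fun g => Q.Γ u1 u1 (bump 𝒢 R1 g) * Q.Γ u2 u2 (bump 𝒢 R1 g) -
    (Q.Γ u1 u2 (bump 𝒢 R1 g)) ^ 2 with hD
  have hD0 : ∀ g, 0 ≤ D g := fun g => gram_det h1 h2 (bump_nonneg 𝒢 R1 g)
  -- area of tiles
  have htile : ∀ g ∈ A, volume ((fun x => (u1 x, u2 x)) '' 𝒢.Sh 0 g) ≤
      ENNReal.ofReal (4 * C * Real.sqrt (D g)) := by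
    intro g hg
    refine D56_Area.tile u1 u2 (𝒢.Sh 0 g) hC.le (Q.nonneg u1 h1 _ (bump_nonneg 𝒢 R1 g)) (hD0 g)
      (fun α β y hy z hz => ?_)
    have hu : α • u1 + β • u2 ∈ Q.Dom := Q.add_mem _ (Q.smul_mem _ _ h1) _ (Q.smul_mem _ _ h2)
    have hmo : MonoOn (⇑(α • u1 + β • u2)) (𝒢.Sh R1 g) :=
      MonoOn.mono (hmono α β) ((sh_mono (le_max_right k R1) g).trans (hAO g hg))
    have := hosc n hnO g (hAl hg) _ hu hmo (bump 𝒢 R1 g) (bump_nonneg 𝒢 R1 g)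
      (fun y hy => bump_one 𝒢 hy) y hy z hz
    rw [quad h1 h2] at this
    simpa using this
  have hcov : (fun x => (u1 x, u2 x)) '' X ⊆ ⋃ g ∈ A, (fun x => (u1 x, u2 x)) '' 𝒢.Sh 0 g := by
    rintro p ⟨x, hx, rfl⟩
    obtain ⟨g, hg, hxg⟩ := 𝒢.cover n x
    simp only [mem_iUnion]
    exact ⟨g, Finset.mem_filter.2 ⟨hg, ⟨x, hxg, hx⟩⟩, ⟨x, hxg, rfl⟩⟩
  have hsum : c1 ≤ ∑ g ∈ A, Real.sqrt (D g) := by
    have e1 : V ≤ ENNReal.ofReal (4 * C * ∑ g ∈ A, Real.sqrt (D g)) := by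
      calc V ≤ volume (⋃ g ∈ A, (fun x => (u1 x, u2 x)) '' 𝒢.Sh 0 g) := measure_mono hcov
        _ ≤ ∑ g ∈ A, volume ((fun x => (u1 x, u2 x)) '' 𝒢.Sh 0 g) := measure_biUnion_finset_le _ _
        _ ≤ ∑ g ∈ A, ENNReal.ofReal (4 * C * Real.sqrt (D g)) := Finset.sum_le_sum htile
        _ = ENNReal.ofReal (∑ g ∈ A, 4 * C * Real.sqrt (D g)) :=
            (ENNReal.ofReal_sum_of_nonneg (fun g _ => by positivity)).symm
        _ = _ := by rw [Finset.mul_sum]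
    have e2 := hc1V.trans e1
    have e3 : 0 ≤ 4 * C * ∑ g ∈ A, Real.sqrt (D g) :=
      mul_nonneg (by positivity) (Finset.sum_nonneg fun g _ => Real.sqrt_nonneg _)
    have e4 := (ENNReal.ofReal_le_ofReal_iff e3).1 e2
    exact le_of_mul_le_mul_left e4 (by positivity)
  -- good determinant
  set B : Finset G := A.filter (fun g => θ * M n g < Real.sqrt (D g)) with hB
  have hBm : c1 ≤ ∑ g ∈ B, M n g := by
    have e1 : ∑ g ∈ A, Real.sqrt (D g) =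
        ∑ g ∈ B, Real.sqrt (D g) + ∑ g ∈ A.filter (fun g => ¬ θ * M n g < Real.sqrt (D g)),
          Real.sqrt (D g) := (Finset.sum_filter_add_sum_filter_not A _ _).symm
    have e2 : ∑ g ∈ B, Real.sqrt (D g) ≤ ∑ g ∈ B, M n g / 2 := by
      refine Finset.sum_le_sum (fun g _ => ?_)
      have h3 : D g ≤ (M n g / 2) ^ 2 := by
        simp only [hD, hM, hνa]
        nlinarith [sq_nonneg (Q.Γ u1 u1 (bump 𝒢 R1 g) - Q.Γ u2 u2 (bump 𝒢 R1 g)),
          sq_nonneg (Q.Γ u1 u2 (bump 𝒢 R1 g))]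
      rw [← Real.sqrt_sq (show 0 ≤ M n g / 2 by have := hM0 n g; positivity)]
      exact Real.sqrt_le_sqrt h3
    have e3 : ∑ g ∈ A.filter (fun g => ¬ θ * M n g < Real.sqrt (D g)), Real.sqrt (D g) ≤
        θ * T := by
      calc ∑ g ∈ A.filter (fun g => ¬ θ * M n g < Real.sqrt (D g)), Real.sqrt (D g)
          ≤ ∑ g ∈ A.filter (fun g => ¬ θ * M n g < Real.sqrt (D g)), θ * M n g :=
            Finset.sum_le_sum (fun g hg => not_lt.1 (Finset.mem_filter.1 hg).2)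
        _ ≤ ∑ g ∈ 𝒢.lev n, θ * M n g := Finset.sum_le_sum_of_subset_of_nonneg
            ((Finset.filter_subset _ _).trans hAl) (fun g _ _ => mul_nonneg hθ0.le (hM0 n g))
        _ = θ * ∑ g ∈ 𝒢.lev n, M n g := (Finset.mul_sum _ _ _).symm
        _ ≤ θ * T := mul_le_mul_of_nonneg_left (hTn n) hθ0.le
    rw [← Finset.sum_div] at e2
    linarith
  -- bad sets
  set B1 : ℕ → Finset G := fun R => B.filter (fun g => K R * M n g < ν (bump 𝒢 R g)) with hB1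
  have hB1m : ∀ R, ∑ g ∈ B1 R, M n g ≤ c1 / 2 ^ (R + 3) := by
    intro R
    have e1 : K R * ∑ g ∈ B1 R, M n g ≤ TR R := by
      calc K R * ∑ g ∈ B1 R, M n g = ∑ g ∈ B1 R, K R * M n g := Finset.mul_sum _ _ _
        _ ≤ ∑ g ∈ B1 R, ν (bump 𝒢 R g) :=
            Finset.sum_le_sum (fun g hg => (Finset.mem_filter.1 hg).2.le)
        _ ≤ ∑ g ∈ 𝒢.lev n, ν (bump 𝒢 R g) := Finset.sum_le_sum_of_subset_of_nonneg
            (((Finset.filter_subset _ _).trans (Finset.filter_subset _ _)).trans hAl)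
            (fun g _ _ => hνp _ (bump_nonneg 𝒢 R g))
        _ ≤ TR R := sum_mass 𝒢 ν hνp R n
    have e2 := hTR0 R
    rw [le_div_iff₀ (by positivity)]
    have e3 : K R * c1 = 2 ^ (R + 3) * (TR R + 1) := by simp only [hK]; field_simp
    by_contra hcon
    push Not at hcon
    have hs0 : 0 ≤ ∑ g ∈ B1 R, M n g := Finset.sum_nonneg (fun g _ => hM0 n g)
    have e4 : K R * c1 < K R * ((∑ g ∈ B1 R, M n g) * 2 ^ (R + 3)) :=
      mul_lt_mul_of_pos_left hcon (hK0 R)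
    rw [e3] at e4
    have e5 : K R * ((∑ g ∈ B1 R, M n g) * 2 ^ (R + 3)) ≤ 2 ^ (R + 3) * TR R := by
      calc K R * ((∑ g ∈ B1 R, M n g) * 2 ^ (R + 3))
          = 2 ^ (R + 3) * (K R * ∑ g ∈ B1 R, M n g) := by ring
        _ ≤ 2 ^ (R + 3) * TR R := mul_le_mul_of_nonneg_left e1 (by positivity)
    have e6 : (0 : ℝ) < 2 ^ (R + 3) := by positivity
    nlinarith
  set Ba : Finset G := B.filter (fun g => ∃ φ : C(Z, ℝ), (∀ y, |φ y| ≤ 1) ∧
    (∀ y, y ∉ 𝒢.Sh k g → φ y = 0) ∧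
    1 / (k + 1) * M n g < |lin u1 u1 h1 h1 φ - b11 (xx g) * ν φ|) with hBa
  set Bb : Finset G := B.filter (fun g => ∃ φ : C(Z, ℝ), (∀ y, |φ y| ≤ 1) ∧
    (∀ y, y ∉ 𝒢.Sh k g → φ y = 0) ∧
    1 / (k + 1) * M n g < |lin u1 u2 h1 h2 φ - b12 (xx g) * ν φ|) with hBb
  set Bc : Finset G := B.filter (fun g => ∃ φ : C(Z, ℝ), (∀ y, |φ y| ≤ 1) ∧
    (∀ y, y ∉ 𝒢.Sh k g → φ y = 0) ∧
    1 / (k + 1) * M n g < |lin u2 u2 h2 h2 φ - b22 (xx g) * ν φ|) with hBc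
  set Bd : Finset G := B.filter (fun g => ∃ w ∈ Q.Dom, (∀ y, y ∉ 𝒢.Sh k g → w y = 0) ∧
    (∀ y, (w y) ^ 2 ≤ k * M n g) ∧ Q.Γ w w 1 ≤ k * M n g ∧
    1 / (k + 1) * M n g < |Q.Γ w u1 1|) with hBd
  set Be : Finset G := B.filter (fun g => ∃ w ∈ Q.Dom, (∀ y, y ∉ 𝒢.Sh k g → w y = 0) ∧
    (∀ y, (w y) ^ 2 ≤ k * M n g) ∧ Q.Γ w w 1 ≤ k * M n g ∧
    1 / (k + 1) * M n g < |Q.Γ w u2 1|) with hBe
  have hBl : B ⊆ 𝒢.lev n := (Finset.filter_subset _ _).trans hAl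
  have hBam : ∑ g ∈ Ba, M n g ≤ c1 / 16 := hna n hnna Ba ((Finset.filter_subset _ _).trans hBl)
    (fun g hg => (Finset.mem_filter.1 hg).2)
  have hBbm : ∑ g ∈ Bb, M n g ≤ c1 / 16 := hnb n hnnb Bb ((Finset.filter_subset _ _).trans hBl)
    (fun g hg => (Finset.mem_filter.1 hg).2)
  have hBcm : ∑ g ∈ Bc, M n g ≤ c1 / 16 := hnc n hnnc Bc ((Finset.filter_subset _ _).trans hBl)
    (fun g hg => (Finset.mem_filter.1 hg).2)
  have hBdm : ∑ g ∈ Bd, M n g ≤ c1 / 16 := hnd n hnnd Bd ((Finset.filter_subset _ _).trans hBl)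
    (fun g hg => (Finset.mem_filter.1 hg).2)
  have hBem : ∑ g ∈ Be, M n g ≤ c1 / 16 := hne n hnne Be ((Finset.filter_subset _ _).trans hBl)
    (fun g hg => (Finset.mem_filter.1 hg).2)
  set B0 : Finset G := (Finset.range (k + 1)).biUnion B1 with hB0
  have hB0m : ∑ g ∈ B0, M n g ≤ c1 / 4 := by
    calc ∑ g ∈ B0, M n g ≤ ∑ R ∈ Finset.range (k + 1), ∑ g ∈ B1 R, M n g :=
          sum_biUnion_le (M n) (hM0 n) _ _
      _ ≤ ∑ R ∈ Finset.range (k + 1), c1 / 2 ^ (R + 3) := Finset.sum_le_sum (fun R _ => hB1m R)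
      _ = c1 / 8 * ∑ R ∈ Finset.range (k + 1), (1 / 2 : ℝ) ^ R := by
          rw [Finset.mul_sum]
          refine Finset.sum_congr rfl (fun R _ => ?_)
          rw [pow_add, one_div, inv_pow]
          field_simp
          norm_num
      _ ≤ c1 / 8 * 2 := by
          refine mul_le_mul_of_nonneg_left ?_ (by positivity)
          exact sum_geometric_two_le (k + 1)
      _ = c1 / 4 := by ring
  -- existence of a good tile
  have hex : ∃ g ∈ B, g ∉ B0 ∧ g ∉ Ba ∧ g ∉ Bb ∧ g ∉ Bc ∧ g ∉ Bd ∧ g ∉ Be := by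
    by_contra hcon
    push Not at hcon
    have hsub : B ⊆ B0 ∪ (Ba ∪ (Bb ∪ (Bc ∪ (Bd ∪ Be)))) := by
      intro g hg
      simp only [Finset.mem_union]
      by_contra hc
      push Not at hc
      exact hc.2.2.2.2.2 (hcon g hg hc.1 hc.2.1 hc.2.2.1 hc.2.2.2.1 hc.2.2.2.2.1)
    have hun : ∀ s t : Finset G, ∑ g ∈ s ∪ t, M n g ≤ ∑ g ∈ s, M n g + ∑ g ∈ t, M n g := by
      intro s t
      have := Finset.sum_union_inter (s₁ := s) (s₂ := t) (f := M n)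
      have h3 : 0 ≤ ∑ g ∈ s ∩ t, M n g := Finset.sum_nonneg (fun g _ => hM0 n g)
      linarith
    have h3 : ∑ g ∈ B, M n g ≤ ∑ g ∈ B0 ∪ (Ba ∪ (Bb ∪ (Bc ∪ (Bd ∪ Be)))), M n g :=
      Finset.sum_le_sum_of_subset_of_nonneg hsub (fun g _ _ => hM0 n g)
    have i1 := hun B0 (Ba ∪ (Bb ∪ (Bc ∪ (Bd ∪ Be))))
    have i2 := hun Ba (Bb ∪ (Bc ∪ (Bd ∪ Be)))
    have i3 := hun Bb (Bc ∪ (Bd ∪ Be))
    have i4 := hun Bc (Bd ∪ Be)
    have i5 := hun Bd Be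
    linarith
  obtain ⟨g, hgB, hg0, hga, hgb, hgc, hgd, hge⟩ := hex
  have hgA : g ∈ A := (Finset.mem_filter.1 hgB).1
  have hgdet : θ * M n g < Real.sqrt (D g) := (Finset.mem_filter.1 hgB).2
  have hmpos : 0 < M n g := by
    rcases (hM0 n g).eq_or_lt with h0 | h0
    · exfalso
      have e1 : D g ≤ 0 := by
        have h3 : D g ≤ (M n g / 2) ^ 2 := by
          simp only [hD, hM, hνa]
          nlinarith [sq_nonneg (Q.Γ u1 u1 (bump 𝒢 R1 g) - Q.Γ u2 u2 (bump 𝒢 R1 g)),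
            sq_nonneg (Q.Γ u1 u2 (bump 𝒢 R1 g))]
        rw [← h0] at h3
        simpa using h3
      rw [← h0, Real.sqrt_eq_zero_of_nonpos e1] at hgdet
      simp at hgdet
    · exact h0
  have hk1 : (0 : ℝ) < (k : ℝ) + 1 := by positivity
  refine ⟨g, hAl hgA, M n g, b11 (xx g), b12 (xx g), b22 (xx g), ?_⟩
  refine ⟨(sh_mono (le_max_left k R1) g).trans (hAO g hgA), hmpos, rfl, ?_, ?_, ?_, ?_⟩
  · have h3 : 0 ≤ θ * M n g := by positivity
    have h4 := pow_le_pow_left₀ h3 hgdet.le 2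
    rwa [Real.sq_sqrt (hD0 g)] at h4
  · intro R hR
    by_contra hcon
    push Not at hcon
    refine hg0 (Finset.mem_biUnion.2 ⟨R, Finset.mem_range.2 (by omega), ?_⟩)
    exact Finset.mem_filter.2 ⟨hgB, hcon⟩
  · intro φ hφ1 hφ0
    refine ⟨?_, ?_, ?_⟩
    · by_contra hcon
      push Not at hcon
      refine hga (Finset.mem_filter.2 ⟨hgB, φ, hφ1, hφ0, ?_⟩)
      rw [one_div, inv_mul_eq_div]; exact hcon
    · by_contra hcon
      push Not at hcon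
      refine hgb (Finset.mem_filter.2 ⟨hgB, φ, hφ1, hφ0, ?_⟩)
      rw [one_div, inv_mul_eq_div]; exact hcon
    · by_contra hcon
      push Not at hcon
      refine hgc (Finset.mem_filter.2 ⟨hgB, φ, hφ1, hφ0, ?_⟩)
      rw [one_div, inv_mul_eq_div]; exact hcon
  · intro w hwD hw0 hw1 hwE
    refine ⟨?_, ?_⟩
    · by_contra hcon
      push Not at hcon
      refine hgd (Finset.mem_filter.2 ⟨hgB, w, hwD, hw0, hw1, hwE, ?_⟩)
      rw [one_div, inv_mul_eq_div]; exact hcon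
    · by_contra hcon
      push Not at hcon
      refine hge (Finset.mem_filter.2 ⟨hgB, w, hwD, hw0, hw1, hwE, ?_⟩)
      rw [one_div, inv_mul_eq_div]; exact hcon

end Crest.Agent.R193.D56_Sel
end
end

-- ▼ part R193/D56_Blow
section

/-!
# R193, block D6: blow-up at a typical tile
-/

set_option autoImplicit false

noncomputable section

open Set Filter Topology MeasureTheory

namespace Crest.Agent.R193.D56_Blow

open Crest.Agent.R193 Crest.Agent.R193.D56_Basic Crest.Agent.R193.D56_Atom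
  Crest.Agent.R193.D56_Dens Crest.Agent.R193.D56_Geo Crest.Agent.R193.D56_Sel

variable {G Z : Type} [Group G] [MetricSpace Z] [MulAction G Z] {S : Setup G Z}

/-- composition with a group element -/
def tr (S : Setup G Z) (g : G) (u : C(Z, ℝ)) : C(Z, ℝ) :=
  ⟨fun x => u (g • x), u.continuous.comp (S.cont g)⟩

@[simp] theorem tr_apply (g : G) (u : C(Z, ℝ)) (x : Z) : tr S g u x = u (g • x) := rfl

theorem tr_tr_inv (g : G) (u : C(Z, ℝ)) : tr S g (tr S g⁻¹ u) = u := by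
  ext x; simp

theorem tr_inv_tr (g : G) (u : C(Z, ℝ)) : tr S g⁻¹ (tr S g u) = u := by
  ext x; simp

theorem tr_one (g : G) : tr S g (1 : C(Z, ℝ)) = 1 := by ext x; simp

section inv
variable {Q : DForm S}

theorem tr_mem (g : G) {u : C(Z, ℝ)} (hu : u ∈ Q.Dom) : tr S g u ∈ Q.Dom :=
  (Q.inv g u u 1 (tr S g u) (tr S g u) (tr S g 1) hu hu (fun _ => rfl) (fun _ => rfl)
    (fun _ => rfl)).1

theorem tr_Γ (g : G) {u v : C(Z, ℝ)} (hu : u ∈ Q.Dom) (hv : v ∈ Q.Dom) (φ : C(Z, ℝ)) :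
    Q.Γ (tr S g u) (tr S g v) (tr S g φ) = Q.Γ u v φ :=
  (Q.inv g u v φ (tr S g u) (tr S g v) (tr S g φ) hu hv (fun _ => rfl) (fun _ => rfl)
    (fun _ => rfl)).2

theorem tr_Γ' (g : G) {u v : C(Z, ℝ)} (hu : u ∈ Q.Dom) (hv : v ∈ Q.Dom) (φ : C(Z, ℝ)) :
    Q.Γ (tr S g u) (tr S g v) φ = Q.Γ u v (tr S g⁻¹ φ) := by
  rw [← tr_Γ g hu hv, tr_tr_inv]

/-- moving the group element to the other side -/
theorem tr_Γ_left (g : G) {u w : C(Z, ℝ)} (hu : u ∈ Q.Dom) (hw : w ∈ Q.Dom) :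
    Q.Γ w (tr S g u) 1 = Q.Γ (tr S g⁻¹ w) u 1 := by
  have h := tr_Γ (Q := Q) g⁻¹ hw (tr_mem (Q := Q) g hu) 1
  rw [tr_inv_tr, tr_one] at h
  exact h.symm
end inv

/-- local oscillation estimate -/
def OscLoc (Q : DForm S) : Prop :=
  ∀ (x : Z) (O : Set Z), O ∈ 𝓝 x → ∀ ε > (0 : ℝ), ∃ N ∈ 𝓝 x, ∀ u ∈ Q.Dom, MonoOn u O →
    ∀ φ : C(Z, ℝ), (∀ y, 0 ≤ φ y) → (∀ y ∈ O, φ y = 1) →
      ∀ y ∈ N, ∀ z ∈ N, (u y - u z) ^ 2 ≤ ε * Q.Γ u u φ

/-- the fixed ultrafilter -/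
abbrev om : Ultrafilter ℕ := hyperfilter ℕ

theorem om_le : (om : Filter ℕ) ≤ atTop := Nat.hyperfilter_le_atTop

theorem MonoOn_affine {u : Z → ℝ} {O : Set Z} (h : MonoOn u O) {s : ℝ} (hs : 0 < s) (c : ℝ) :
    MonoOn (fun x => s * u x + c) O := by
  intro D hD hne hcl x hx
  obtain ⟨⟨y, hy, h1⟩, ⟨y', hy', h2⟩⟩ := h D hD hne hcl x hx
  exact ⟨⟨y, hy, by nlinarith⟩, ⟨y', hy', by nlinarith⟩⟩

theorem MonoOn_comp (S : Setup G Z) {u : Z → ℝ} {O : Set Z} (h : MonoOn u O) (g : G) :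
    MonoOn (fun x => u (g • x)) ((fun x => g • x) ⁻¹' O) := by
  let e : Z ≃ₜ Z :=
    { toFun := fun x => g • x
      invFun := fun x => g⁻¹ • x
      left_inv := fun x => by simp
      right_inv := fun x => by simp
      continuous_toFun := S.cont g
      continuous_invFun := S.cont g⁻¹ }
  intro D hD hne hcl x hx
  have h1 : IsOpen (e '' D) := e.isOpenMap D hD
  have h2 : closure (e '' D) ⊆ O := by
    rw [← e.image_closure]
    rintro _ ⟨y, hy, rfl⟩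
    exact hcl hy
  have h3 : frontier (e '' D) = e '' frontier D := (e.image_frontier D).symm
  obtain ⟨⟨y, hy, h4⟩, ⟨y', hy', h5⟩⟩ := h (e '' D) h1 (hne.image e) h2 (e x) ⟨x, hx, rfl⟩
  rw [h3] at hy hy'
  obtain ⟨z, hz, rfl⟩ := hy
  obtain ⟨z', hz', rfl⟩ := hy'
  exact ⟨⟨z, hz, h4⟩, ⟨z', hz', h5⟩⟩

variable [CompactSpace Z]

/-- the blow-up data -/
structure BU (Q : DForm S) (𝒢 : Geo G Z) (u1 u2 : C(Z, ℝ)) (O : Set Z) where
  R1 : ℕ
  θ : ℝ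
  K : ℕ → ℝ
  θ_pos : 0 < θ
  h1 : u1 ∈ Q.Dom
  h2 : u2 ∈ Q.Dom
  mono : ∀ a b : ℝ, MonoOn (fun x => a * u1 x + b * u2 x) O
  osc : OscLoc Q
  n : ℕ → ℕ
  g : ℕ → G
  m : ℕ → ℝ
  b11 : ℕ → ℝ
  b12 : ℕ → ℝ
  b22 : ℕ → ℝ
  typ : ∀ k, Typical Q 𝒢 u1 u2 O R1 θ K k (g k) (m k) (b11 k) (b12 k) (b22 k)
  a : Z
  pole1 : ∀ K : Set Z, IsCompact K → a ∉ K → ∃ R, ∀ᶠ k in (om : Filter ℕ), ∀ x ∈ K,
    g k • x ∈ 𝒢.Sh R (g k)
  pole2 : ∀ R, ∃ N ∈ 𝓝 a, ∀ᶠ k in (om : Filter ℕ), ∀ x ∈ N, g k • x ∉ 𝒢.Sh R (g k)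
  x0 : Z
  hx0 : x0 ≠ a

namespace BU

variable {Q : DForm S} {𝒢 : Geo G Z} {u1 u2 : C(Z, ℝ)} {O : Set Z} (B : BU Q 𝒢 u1 u2 O)

/-- scale factor -/
def s (k : ℕ) : ℝ := (Real.sqrt (B.m k))⁻¹

theorem s_pos (k : ℕ) : 0 < B.s k := inv_pos.2 (Real.sqrt_pos.2 (B.typ k).pos)

theorem s_sq (k : ℕ) : B.s k * B.s k = (B.m k)⁻¹ := by
  unfold s
  rw [← mul_inv, Real.mul_self_sqrt (B.typ k).pos.le]

/-- the rescaled function of `u` -/
def bl (u : C(Z, ℝ)) (k : ℕ) : C(Z, ℝ) :=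
  B.s k • tr S (B.g k) u + ContinuousMap.const Z (-(B.s k * u (B.g k • B.x0)))

theorem bl_apply (u : C(Z, ℝ)) (k : ℕ) (x : Z) :
    B.bl u k x = B.s k * (u (B.g k • x) - u (B.g k • B.x0)) := by
  simp [bl]; ring

theorem bl_mem {u : C(Z, ℝ)} (hu : u ∈ Q.Dom) (k : ℕ) : B.bl u k ∈ Q.Dom :=
  Q.add_mem _ (Q.smul_mem _ _ (tr_mem _ hu)) _ (Q.const_mem _)

theorem bl_Γ {u v : C(Z, ℝ)} (hu : u ∈ Q.Dom) (hv : v ∈ Q.Dom) (k : ℕ) (φ : C(Z, ℝ)) :
    Q.Γ (B.bl u k) (B.bl v k) φ = (B.m k)⁻¹ * Q.Γ u v (tr S (B.g k)⁻¹ φ) := by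
  have hu' := tr_mem (Q := Q) (B.g k) hu
  have hv' := tr_mem (Q := Q) (B.g k) hv
  have e1 : Q.Γ (B.bl u k) (B.bl v k) φ = Q.Γ (B.s k • tr S (B.g k) u) (B.bl v k) φ :=
    add_const_left (Q.smul_mem _ _ hu') (B.bl_mem hv k) _ φ
  have e2 : Q.Γ (B.s k • tr S (B.g k) u) (B.bl v k) φ =
      Q.Γ (B.s k • tr S (B.g k) u) (B.s k • tr S (B.g k) v) φ :=
    add_const_right (Q.smul_mem _ _ hu') (Q.smul_mem _ _ hv') _ φ
  rw [e1, e2,
    Q.smul_left _ _ hu' _ (Q.smul_mem _ _ hv'), smul_right hu' hv', tr_Γ' _ hu hv, ← mul_assoc,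
    s_sq]

theorem bl_Γ_w {u w : C(Z, ℝ)} (hu : u ∈ Q.Dom) (hw : w ∈ Q.Dom) (k : ℕ) :
    Q.Γ w (B.bl u k) 1 = B.s k * Q.Γ (tr S (B.g k)⁻¹ w) u 1 := by
  have hu' := tr_mem (Q := Q) (B.g k) hu
  unfold bl
  rw [add_const_right hw (Q.smul_mem _ _ hu'), smul_right hw hu', tr_Γ_left _ hu hw]

/-- the transported bump -/
def ψ (R k : ℕ) : C(Z, ℝ) := tr S (B.g k) (bump 𝒢 R (B.g k))

theorem ψ_nonneg (R k : ℕ) (x : Z) : 0 ≤ B.ψ R k x := bump_nonneg 𝒢 _ _ _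
theorem ψ_le_one (R k : ℕ) (x : Z) : B.ψ R k x ≤ 1 := bump_le_one 𝒢 _ _ _
theorem ψ_one {R k : ℕ} {x : Z} (h : B.g k • x ∈ 𝒢.Sh R (B.g k)) : B.ψ R k x = 1 := bump_one 𝒢 h
theorem ψ_zero {R k : ℕ} {x : Z} (h : B.g k • x ∉ 𝒢.Sh (R + 1) (B.g k)) : B.ψ R k x = 0 :=
  bump_zero 𝒢 h

theorem energy_ψ (R k : ℕ) (hR : R ≤ k) :
    Q.Γ (B.bl u1 k) (B.bl u1 k) (B.ψ R k) + Q.Γ (B.bl u2 k) (B.bl u2 k) (B.ψ R k) ≤ B.K R := by
  rw [B.bl_Γ B.h1 B.h1, B.bl_Γ B.h2 B.h2]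
  unfold ψ
  rw [tr_inv_tr, ← mul_add, inv_mul_le_iff₀ (B.typ k).pos, mul_comm (B.m k)]
  exact (B.typ k).dbl R hR

theorem energy_ψ1 (R k : ℕ) (hR : R ≤ k) : Q.Γ (B.bl u1 k) (B.bl u1 k) (B.ψ R k) ≤ B.K R := by
  have h1 := B.energy_ψ R k hR
  have h2 := Q.nonneg _ (B.bl_mem B.h2 k) _ (B.ψ_nonneg R k)
  linarith

theorem energy_ψ2 (R k : ℕ) (hR : R ≤ k) : Q.Γ (B.bl u2 k) (B.bl u2 k) (B.ψ R k) ≤ B.K R := by
  have h1 := B.energy_ψ R k hR
  have h2 := Q.nonneg _ (B.bl_mem B.h1 k) _ (B.ψ_nonneg R k)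
  linarith

/-- `u` is one of the two functions -/
def Is (_ : BU Q 𝒢 u1 u2 O) (u : C(Z, ℝ)) : Prop := u = u1 ∨ u = u2

theorem Is.mem {B : BU Q 𝒢 u1 u2 O} {u : C(Z, ℝ)} (h : B.Is u) : u ∈ Q.Dom := by
  rcases h with rfl | rfl
  · exact B.h1
  · exact B.h2

theorem Is.energy {B : BU Q 𝒢 u1 u2 O} {u : C(Z, ℝ)} (h : B.Is u) (R k : ℕ) (hR : R ≤ k) :
    Q.Γ (B.bl u k) (B.bl u k) (B.ψ R k) ≤ B.K R := by
  rcases h with rfl | rfl
  · exact B.energy_ψ1 R k hR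
  · exact B.energy_ψ2 R k hR

theorem Is.mono {B : BU Q 𝒢 u1 u2 O} {u : C(Z, ℝ)} (h : B.Is u) : MonoOn u O := by
  rcases h with rfl | rfl
  · simpa using B.mono 1 0
  · simpa using B.mono 0 1

theorem ev_ge (R : ℕ) : ∀ᶠ k in (om : Filter ℕ), R ≤ k := om_le (eventually_ge_atTop R)

/-- eventually a compact set missing the pole is zoomed into `O` -/
theorem ev_sub (R : ℕ) : ∀ᶠ k in (om : Filter ℕ), 𝒢.Sh R (B.g k) ⊆ O := by
  filter_upwards [ev_ge R] with k hk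
  exact (sh_mono hk (B.g k)).trans (B.typ k).sub

theorem equi {u : C(Z, ℝ)} (hu : B.Is u) {x : Z} (hx : x ≠ B.a) {ε : ℝ} (hε : 0 < ε) :
    ∃ N ∈ 𝓝 x, ∀ᶠ k in (om : Filter ℕ), ∀ y ∈ N, ∀ z ∈ N, |B.bl u k y - B.bl u k z| ≤ ε := by
  have hd : 0 < dist x B.a := dist_pos.2 hx
  set W : Set Z := Metric.closedBall x (dist x B.a / 2) with hW
  have haW : B.a ∉ W := by
    rw [hW, Metric.mem_closedBall, dist_comm, not_le]; linarith
  obtain ⟨R, hR⟩ := B.pole1 W Metric.isClosed_closedBall.isCompact haW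
  set ε' := ε ^ 2 / (|B.K R| + 1) with hε'
  have hε'0 : 0 < ε' := by positivity
  obtain ⟨N, hN, hosc⟩ := B.osc x W (Metric.closedBall_mem_nhds x (by positivity)) ε' hε'0
  refine ⟨N, hN, ?_⟩
  filter_upwards [hR, B.ev_sub R, ev_ge R] with k h1 h2 h3 y hy z hz
  have hm : MonoOn (B.bl u k) W := by
    have e1 := MonoOn_comp S hu.mono (B.g k)
    have e2 := MonoOn_affine e1 (B.s_pos k) (-(B.s k * u (B.g k • B.x0)))
    have e3 : (fun x => B.s k * u (B.g k • x) + -(B.s k * u (B.g k • B.x0))) = ⇑(B.bl u k) := by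
      ext x; simp [bl]
    rw [e3] at e2
    exact MonoOn.mono e2 (fun x hx => h2 (h1 x hx))
  have h4 := hosc (B.bl u k) (B.bl_mem hu.mem k) hm (B.ψ R k) (B.ψ_nonneg R k)
    (fun y hy => B.ψ_one (h1 y hy)) y hy z hz
  have h5 := hu.energy R k h3
  refine abs_le_of_sq_le_sq (h4.trans ?_) hε.le
  calc ε' * Q.Γ (B.bl u k) (B.bl u k) (B.ψ R k) ≤ ε' * |B.K R| :=
        mul_le_mul_of_nonneg_left (h5.trans (le_abs_self _)) hε'0.le
    _ = ε ^ 2 * (|B.K R| / (|B.K R| + 1)) := by rw [hε']; ring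
    _ ≤ ε ^ 2 * 1 := by
        gcongr
        rw [div_le_one (by positivity)]
        linarith
    _ = ε ^ 2 := mul_one _

theorem bdd {u : C(Z, ℝ)} (hu : B.Is u) {x : Z} (hx : x ≠ B.a) :
    ∃ C : ℝ, ∀ᶠ k in (om : Filter ℕ), |B.bl u k x| ≤ C := by
  set A : Set Z := {x | x ≠ B.a ∧ ∃ C : ℝ, ∀ᶠ k in (om : Filter ℕ), |B.bl u k x| ≤ C} with hA
  set A' : Set Z := {x | x ≠ B.a ∧ ¬ ∃ C : ℝ, ∀ᶠ k in (om : Filter ℕ), |B.bl u k x| ≤ C} with hA'
  have hAo : IsOpen A := by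
    rw [isOpen_iff_mem_nhds]
    rintro y ⟨hy, C, hC⟩
    obtain ⟨N, hN, h1⟩ := B.equi hu hy one_pos
    filter_upwards [hN, isOpen_compl_singleton.mem_nhds hy] with z hz hza
    refine ⟨hza, C + 1, ?_⟩
    filter_upwards [hC, h1] with k h2 h3
    have h4 := h3 z hz y (mem_of_mem_nhds hN)
    have := abs_sub_abs_le_abs_sub (B.bl u k z) (B.bl u k y)
    linarith
  have hAo' : IsOpen A' := by
    rw [isOpen_iff_mem_nhds]
    rintro y ⟨hy, hC⟩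
    obtain ⟨N, hN, h1⟩ := B.equi hu hy one_pos
    filter_upwards [hN, isOpen_compl_singleton.mem_nhds hy] with z hz hza
    refine ⟨hza, ?_⟩
    rintro ⟨C, h2⟩
    refine hC ⟨C + 1, ?_⟩
    filter_upwards [h2, h1] with k h2 h3
    have h4 := h3 y (mem_of_mem_nhds hN) z hz
    have := abs_sub_abs_le_abs_sub (B.bl u k y) (B.bl u k z)
    linarith
  by_contra hcon
  obtain ⟨z, -, h1, h2⟩ := 𝒢.conn B.a A A' hAo hAo' (fun y hy => by
    by_cases h : ∃ C : ℝ, ∀ᶠ k in (om : Filter ℕ), |B.bl u k y| ≤ C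
    · exact Or.inl ⟨hy, h⟩
    · exact Or.inr ⟨hy, h⟩) ⟨B.x0, B.hx0, B.hx0, 0, Eventually.of_forall (fun k => by
      rw [B.bl_apply]; simp)⟩ ⟨x, hx, hx, hcon⟩
  exact h2.2 h1.2

theorem exists_lim {u : C(Z, ℝ)} (hu : B.Is u) (x : Z) :
    ∃ y : ℝ, x ≠ B.a → Tendsto (fun k => B.bl u k x) (om : Filter ℕ) (𝓝 y) := by
  by_cases hx : x = B.a
  · exact ⟨0, fun h => absurd hx h⟩
  · obtain ⟨C, hC⟩ := B.bdd hu hx
    have h1 : Icc (-C) C ∈ (om.map (fun k => B.bl u k x)) := by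
      rw [Ultrafilter.mem_map]
      filter_upwards [hC] with k hk
      exact abs_le.1 hk
    obtain ⟨y, -, hy⟩ := isCompact_Icc.ultrafilter_le_nhds _ (le_principal_iff.2 h1)
    exact ⟨y, fun _ => hy⟩

/-- the limit function -/
def lim {u : C(Z, ℝ)} (hu : B.Is u) (x : Z) : ℝ := Classical.choose (B.exists_lim hu x)

theorem tendsto_lim {u : C(Z, ℝ)} (hu : B.Is u) {x : Z} (hx : x ≠ B.a) :
    Tendsto (fun k => B.bl u k x) (om : Filter ℕ) (𝓝 (B.lim hu x)) :=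
  Classical.choose_spec (B.exists_lim hu x) hx

theorem equi_lim {u : C(Z, ℝ)} (hu : B.Is u) {x : Z} (hx : x ≠ B.a) {ε : ℝ} (hε : 0 < ε) :
    ∃ N ∈ 𝓝 x, (∀ y ∈ N, |B.lim hu y - B.lim hu x| ≤ ε) ∧
      ∀ᶠ k in (om : Filter ℕ), ∀ y ∈ N, |B.bl u k y - B.bl u k x| ≤ ε := by
  obtain ⟨N, hN, h1⟩ := B.equi hu hx hε
  refine ⟨N ∩ {B.a}ᶜ, inter_mem hN (isOpen_compl_singleton.mem_nhds hx), ?_, ?_⟩
  · rintro y ⟨hy, hya⟩
    have h2 := (B.tendsto_lim hu hya).sub (B.tendsto_lim hu hx)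
    refine le_of_tendsto h2.abs ?_
    filter_upwards [h1] with k hk
    exact hk y hy x (mem_of_mem_nhds hN)
  · filter_upwards [h1] with k hk y hy
    exact hk y hy.1 x (mem_of_mem_nhds hN)

theorem continuousAt_lim {u : C(Z, ℝ)} (hu : B.Is u) {x : Z} (hx : x ≠ B.a) :
    ContinuousAt (B.lim hu) x := by
  rw [Metric.continuousAt_iff']
  intro ε hε
  obtain ⟨N, hN, h1, -⟩ := B.equi_lim hu hx (half_pos hε)
  filter_upwards [hN] with y hy
  rw [Real.dist_eq]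
  have := h1 y hy
  linarith

theorem unif {u : C(Z, ℝ)} (hu : B.Is u) {K : Set Z} (hK : IsCompact K) (ha : B.a ∉ K) {ε : ℝ}
    (hε : 0 < ε) : ∀ᶠ k in (om : Filter ℕ), ∀ x ∈ K, |B.bl u k x - B.lim hu x| ≤ ε := by
  have hmain : ∃ t : Set Z, K ⊆ t ∧
      ∀ᶠ k in (om : Filter ℕ), ∀ x ∈ t, |B.bl u k x - B.lim hu x| ≤ ε := by
    refine ⟨K, Subset.rfl, ?_⟩
    refine hK.induction_on (p := fun t => ∀ᶠ k in (om : Filter ℕ), ∀ x ∈ t,
      |B.bl u k x - B.lim hu x| ≤ ε) ?_ ?_ ?_ ?_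
    · exact Eventually.of_forall (fun k x hx => absurd hx (Set.notMem_empty x))
    · intro s t hst h
      filter_upwards [h] with k hk x hx
      exact hk x (hst hx)
    · intro s t h h'
      filter_upwards [h, h'] with k hk hk' x hx
      rcases hx with hx | hx
      · exact hk x hx
      · exact hk' x hx
    · intro x hx
      have hxa : x ≠ B.a := fun h => ha (h ▸ hx)
      obtain ⟨N, hN, h1, h2⟩ := B.equi_lim hu hxa (show 0 < ε / 3 by positivity)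
      refine ⟨N, mem_nhdsWithin_of_mem_nhds hN, ?_⟩
      have h3 := (B.tendsto_lim hu hxa).eventually (Metric.ball_mem_nhds _ (show 0 < ε / 3 by positivity))
      filter_upwards [h2, h3] with k h2 h3 y hy
      have e1 := h1 y hy
      have e2 := h2 y hy
      rw [Real.dist_eq] at h3
      have : B.bl u k y - B.lim hu y = (B.bl u k y - B.bl u k x) + (B.bl u k x - B.lim hu x) +
        -(B.lim hu y - B.lim hu x) := by ring
      rw [this]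
      refine (abs_add_three _ _ _).trans ?_
      rw [abs_neg]
      linarith
  obtain ⟨t, ht, h⟩ := hmain
  filter_upwards [h] with k hk x hx
  exact hk x (ht hx)

/-- the cut-off limit function -/
def cl {u : C(Z, ℝ)} (hu : B.Is u) (χ : C(Z, ℝ)) (hχ : B.a ∉ tsupport χ) : C(Z, ℝ) where
  toFun := fun x => χ x * B.lim hu x
  continuous_toFun := by
    rw [continuous_iff_continuousAt]
    intro x
    by_cases hx : x = B.a
    · have h1 : (fun x => χ x * B.lim hu x) =ᶠ[𝓝 x] fun _ => 0 := by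
        have : (tsupport ⇑χ)ᶜ ∈ 𝓝 x := by
          rw [hx]; exact (isClosed_tsupport _).isOpen_compl.mem_nhds hχ
        filter_upwards [this] with y hy
        have : χ y = 0 := by
          by_contra hne
          exact hy (subset_tsupport _ hne)
        rw [this, zero_mul]
      exact (continuousAt_const (y := (0 : ℝ))).congr h1.symm
    · exact χ.continuous.continuousAt.mul (B.continuousAt_lim hu hx)

theorem cl_apply {u : C(Z, ℝ)} (hu : B.Is u) (χ : C(Z, ℝ)) (hχ : B.a ∉ tsupport χ) (x : Z) :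
    B.cl hu χ hχ x = χ x * B.lim hu x := rfl

theorem cl_unif {u : C(Z, ℝ)} (hu : B.Is u) {χ : C(Z, ℝ)} (hχ : B.a ∉ tsupport χ)
    (h01 : ∀ y, 0 ≤ χ y ∧ χ y ≤ 1) {ε : ℝ} (hε : 0 < ε) :
    ∀ᶠ k in (om : Filter ℕ), ∀ x, |(χ * B.bl u k - B.cl hu χ hχ) x| ≤ ε := by
  filter_upwards [B.unif hu (isClosed_tsupport ⇑χ).isCompact hχ hε] with k hk x
  rw [ContinuousMap.sub_apply, ContinuousMap.mul_apply, cl_apply, ← mul_sub, abs_mul,
    abs_of_nonneg (h01 x).1]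
  by_cases hx : χ x = 0
  · rw [hx, zero_mul]; exact hε.le
  · have h1 := hk x (subset_tsupport _ hx)
    have h2 := h01 x
    nlinarith [abs_nonneg (B.bl u k x - B.lim hu x)]

/-- locally bounded energy of the cut-off blow-ups -/
theorem cut_energy {u : C(Z, ℝ)} (hu : B.Is u) {χ : C(Z, ℝ)} (hχD : χ ∈ Q.Dom)
    (hχ : B.a ∉ tsupport χ) (h01 : ∀ y, 0 ≤ χ y ∧ χ y ≤ 1) :
    ∃ C : ℝ, ∀ᶠ k in (om : Filter ℕ), Q.Γ (χ * B.bl u k) (χ * B.bl u k) 1 ≤ C := by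
  obtain ⟨W, hW, hKW, hWa⟩ := normal_exists_closure_subset (isClosed_tsupport ⇑χ)
    (isOpen_compl_singleton (x := B.a)) (fun x hx h => hχ (by
      rw [mem_singleton_iff] at h; exact h ▸ hx))
  have haW : B.a ∉ closure W := fun h => hWa h rfl
  obtain ⟨R, hR⟩ := B.pole1 (closure W) isClosed_closure.isCompact haW
  -- bound for the limit on the compact closure of W
  obtain ⟨M, hM⟩ : ∃ M : ℝ, ∀ x ∈ closure W, |B.lim hu x| ≤ M := by
    have hc : ContinuousOn (B.lim hu) (closure W) := fun x hx =>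
      (B.continuousAt_lim hu (fun h => haW (h ▸ hx))).continuousWithinAt
    obtain ⟨M, hM⟩ := isClosed_closure.isCompact.exists_bound_of_continuousOn hc
    exact ⟨M, fun x hx => by simpa using hM x hx⟩
  set o := max M 0 + 1 with ho
  have ho0 : 0 ≤ o := by positivity
  refine ⟨(o ^ 2 + o) * Q.Γ χ χ 1 + (1 + o) * |B.K R|, ?_⟩
  filter_upwards [hR, B.unif hu isClosed_closure.isCompact haW one_pos, ev_ge R] with k h1 h2 h3
  have h4 : ∀ x ∈ W, |B.bl u k x| ≤ o := fun x hx => by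
    have e1 := h2 x (subset_closure hx)
    have e2 := hM x (subset_closure hx)
    have e3 := abs_sub_abs_le_abs_sub (B.bl u k x) (B.lim hu x)
    have e4 := le_max_left M 0
    linarith
  have h5 : ∀ y, χ y ≤ B.ψ R k y := fun y => by
    by_cases hy : χ y = 0
    · rw [hy]; exact B.ψ_nonneg R k y
    · rw [B.ψ_one (h1 y (subset_closure (hKW (subset_tsupport _ hy))))]
      exact (h01 y).2
  refine (energy_cut hχD (B.bl_mem hu.mem k) h01 hW hKW ho0 h4 (B.ψ R k) h5).trans ?_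
  have h6 := hu.energy R k h3
  have h7 := le_abs_self (B.K R)
  have h8 : (1 + o) * Q.Γ (B.bl u k) (B.bl u k) (B.ψ R k) ≤ (1 + o) * |B.K R| :=
    mul_le_mul_of_nonneg_left (h6.trans h7) (by positivity)
  linarith

theorem cl_mem {u : C(Z, ℝ)} (hu : B.Is u) {χ : C(Z, ℝ)} (hχD : χ ∈ Q.Dom)
    (hχ : B.a ∉ tsupport χ) (h01 : ∀ y, 0 ≤ χ y ∧ χ y ≤ 1) : B.cl hu χ hχ ∈ Q.Dom := by
  obtain ⟨C, hC⟩ := B.cut_energy hu hχD hχ h01
  refine closed_mem (Q := Q) (C := C) (fun ε hε => ?_)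
  obtain ⟨k, h1, h2⟩ := (hC.and (B.cl_unif hu hχ h01 hε)).exists
  exact ⟨_, Q.mul_mem _ hχD _ (B.bl_mem hu.mem k), fun x => by simpa using h2 x, h1⟩

/-- almost harmonicity of the blow-ups -/
theorem harm_ev {u : C(Z, ℝ)} (hu : B.Is u) {K : Set Z} (hK : IsCompact K) (ha : B.a ∉ K) (C : ℝ) :
    ∀ᶠ k in (om : Filter ℕ), ∀ w ∈ Q.Dom, (∀ x, x ∉ K → w x = 0) → (∀ x, |w x| ≤ C) →
      Q.Γ w w 1 ≤ C → |Q.Γ w (B.bl u k) 1| ≤ 1 / (k + 1) := by
  obtain ⟨R, hR⟩ := B.pole1 K hK ha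
  obtain ⟨N, hN⟩ := exists_nat_ge (max C (C ^ 2))
  filter_upwards [hR, ev_ge R, ev_ge N] with k h1 h2 h3 w hw hw0 hwC hwE
  have hm := (B.typ k).pos
  have hNk : (N : ℝ) ≤ k := by exact_mod_cast h3
  have hCk : C ≤ k := (le_max_left _ _).trans (hN.trans hNk)
  have hC2k : C ^ 2 ≤ k := (le_max_right _ _).trans (hN.trans hNk)
  set w' : C(Z, ℝ) := Real.sqrt (B.m k) • tr S (B.g k)⁻¹ w with hw'
  have hD : tr S (B.g k)⁻¹ w ∈ Q.Dom := tr_mem _ hw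
  have hD' : w' ∈ Q.Dom := Q.smul_mem _ _ hD
  have e1 : ∀ y, y ∉ 𝒢.Sh k (B.g k) → w' y = 0 := by
    intro y hy
    have : (B.g k)⁻¹ • y ∉ K := by
      intro hc
      have := h1 _ hc
      rw [smul_inv_smul] at this
      exact hy (sh_mono h2 _ this)
    simp [hw', hw0 _ this]
  have e2 : ∀ y, (w' y) ^ 2 ≤ k * B.m k := by
    intro y
    have h4 := hwC ((B.g k)⁻¹ • y)
    have h5 : (w ((B.g k)⁻¹ • y)) ^ 2 ≤ C ^ 2 := by
      rw [← sq_abs (w _)]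
      exact pow_le_pow_left₀ (abs_nonneg _) h4 2
    simp only [hw', ContinuousMap.smul_apply, tr_apply, smul_eq_mul, mul_pow,
      Real.sq_sqrt hm.le]
    nlinarith
  have e3 : Q.Γ w' w' 1 = B.m k * Q.Γ w w 1 := by
    rw [hw', Q.smul_left _ _ hD _ hD', smul_right hD hD, ← mul_assoc,
      Real.mul_self_sqrt hm.le, tr_Γ' _ hw hw, tr_one]
  have e4 : Q.Γ w' w' 1 ≤ k * B.m k := by
    rw [e3]; nlinarith
  have e5 : Q.Γ w (B.bl u k) 1 = (B.m k)⁻¹ * Q.Γ w' u 1 := by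
    rw [B.bl_Γ_w hu.mem hw, hw', Q.smul_left _ _ hD _ hu.mem, ← mul_assoc]
    congr 1
    unfold s
    have h6 : Real.sqrt (B.m k) ≠ 0 := (Real.sqrt_pos.2 hm).ne'
    have h7 : (B.m k)⁻¹ = (Real.sqrt (B.m k))⁻¹ * (Real.sqrt (B.m k))⁻¹ := by
      rw [← mul_inv, Real.mul_self_sqrt hm.le]
    rw [h7]
    field_simp
  have e6 : |Q.Γ w' u 1| ≤ B.m k / (k + 1) := by
    obtain ⟨h8, h9⟩ := (B.typ k).harm w' hD' e1 e2 e4
    rcases hu with rfl | rfl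
    · exact h8
    · exact h9
  rw [e5, abs_mul, abs_of_pos (inv_pos.2 hm), inv_mul_le_iff₀ hm]
  calc |Q.Γ w' u 1| ≤ B.m k / (k + 1) := e6
    _ = B.m k * (1 / (k + 1)) := by ring

end BU

end Crest.Agent.R193.D56_Blow
end
end

-- ▼ part R193/D56_Lim
section

/-!
# R193, block D6: strong convergence of the blow-ups, the limit is a conformal pair
-/

set_option autoImplicit false

noncomputable section

open Set Filter Topology MeasureTheory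

namespace Crest.Agent.R193.D56_Lim

open Crest.Agent.R193 Crest.Agent.R193.D56_Basic Crest.Agent.R193.D56_Atom
  Crest.Agent.R193.D56_Dens Crest.Agent.R193.D56_Geo Crest.Agent.R193.D56_Sel
  Crest.Agent.R193.D56_Blow

variable {G Z : Type} [Group G] [MetricSpace Z] [MulAction G Z] {S : Setup G Z}

section gen
variable {Q : DForm S}

/-- Cauchy-Schwarz, product form -/
theorem cs_sq {u v : C(Z, ℝ)} (hu : u ∈ Q.Dom) (hv : v ∈ Q.Dom) (φ : C(Z, ℝ)) :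
    (Q.Γ u v φ) ^ 2 ≤ Q.Γ u u |φ| * Q.Γ v v |φ| := by
  have habs : ∀ x, 0 ≤ (|φ| : C(Z, ℝ)) x := fun x => abs_nonneg (φ x)
  have hA := Q.nonneg u hu _ habs
  have hB := Q.nonneg v hv _ habs
  have key : ∀ ε > 0, (Q.Γ u v φ) ^ 2 ≤ (Q.Γ u u |φ| + ε) * Q.Γ v v |φ| := by
    intro ε hε
    refine discr (by positivity) hB (fun s => ?_)
    have h1 := cs hu (Q.smul_mem s v hv) φ
    rw [smul_right hu hv, Q.smul_left _ _ hv _ (Q.smul_mem s v hv), smul_right hv hv] at h1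
    have h2 := le_abs_self (s * Q.Γ u v φ)
    nlinarith
  refine le_of_forall_pos_le_add (fun ε hε => ?_)
  have h1 := key (ε / (Q.Γ v v |φ| + 1)) (by positivity)
  have h2 : ε / (Q.Γ v v |φ| + 1) * Q.Γ v v |φ| ≤ ε := by
    rw [div_mul_eq_mul_div, div_le_iff₀ (by positivity)]
    nlinarith
  nlinarith

/-- Cauchy-Schwarz with a dominating test function -/
theorem cs_dom {u v : C(Z, ℝ)} (hu : u ∈ Q.Dom) (hv : v ∈ Q.Dom) {φ χ : C(Z, ℝ)} {M : ℝ}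
    (hM : ∀ x, |φ x| ≤ M * χ x) : (Q.Γ u v φ) ^ 2 ≤ M * Q.Γ u u χ * (M * Q.Γ v v χ) := by
  have habs : ∀ x, 0 ≤ (|φ| : C(Z, ℝ)) x := fun x => abs_nonneg (φ x)
  have h1 : Q.Γ u u |φ| ≤ M * Q.Γ u u χ := by
    rw [← Q.smul_test M u hu u hu χ]
    exact mono hu (fun x => by simpa using hM x)
  have h2 : Q.Γ v v |φ| ≤ M * Q.Γ v v χ := by
    rw [← Q.smul_test M v hv v hv χ]
    exact mono hv (fun x => by simpa using hM x)
  exact (cs_sq hu hv φ).trans (mul_le_mul h1 h2 (Q.nonneg v hv _ habs)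
    ((Q.nonneg u hu _ habs).trans h1))

theorem energy_sub_le {u v : C(Z, ℝ)} (hu : u ∈ Q.Dom) (hv : v ∈ Q.Dom) {φ : C(Z, ℝ)}
    (hφ : ∀ x, 0 ≤ φ x) : Q.Γ (u - v) (u - v) φ ≤ 2 * Q.Γ u u φ + 2 * Q.Γ v v φ := by
  have h1 := Q.nonneg (u + v) (Q.add_mem _ hu _ hv) φ hφ
  rw [Q.add_left _ hu _ hv _ (Q.add_mem _ hu _ hv), add_right hu hu hv, add_right hv hu hv,
    Q.symm _ hv _ hu] at h1
  rw [sub_left hu hv (sub_mem hu hv), sub_right hu hu hv, sub_right hv hu hv,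
    Q.symm _ hv _ hu]
  linarith

theorem energy_add_le {u v : C(Z, ℝ)} (hu : u ∈ Q.Dom) (hv : v ∈ Q.Dom) {φ : C(Z, ℝ)}
    (hφ : ∀ x, 0 ≤ φ x) : Q.Γ (u + v) (u + v) φ ≤ 2 * Q.Γ u u φ + 2 * Q.Γ v v φ := by
  have h1 := Q.nonneg (u - v) (sub_mem hu hv) φ hφ
  rw [sub_left hu hv (sub_mem hu hv), sub_right hu hu hv, sub_right hv hu hv,
    Q.symm _ hv _ hu] at h1
  rw [Q.add_left _ hu _ hv _ (Q.add_mem _ hu _ hv), add_right hu hu hv, add_right hv hu hv,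
    Q.symm _ hv _ hu]
  linarith

theorem tsupport_mul_left (χ w : C(Z, ℝ)) : tsupport ⇑(χ * w) ⊆ tsupport ⇑χ := by
  refine closure_mono (fun x hx => ?_)
  intro h
  exact hx (by simp [h])

end gen

variable [CompactSpace Z]

namespace BU

variable {Q : DForm S} {𝒢 : Geo G Z} {u1 u2 : C(Z, ℝ)} {O : Set Z} (B : BU Q 𝒢 u1 u2 O)

/-- two nested cut-offs around a compact set missing the pole -/
structure Cuts (B : BU Q 𝒢 u1 u2 O) (K : Set Z) where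
  χ0 : C(Z, ℝ)
  χ1 : C(Z, ℝ)
  W0 : Set Z
  W1 : Set Z
  hχ0 : χ0 ∈ Q.Dom
  hχ1 : χ1 ∈ Q.Dom
  h0 : ∀ y, 0 ≤ χ0 y ∧ χ0 y ≤ 1
  h1 : ∀ y, 0 ≤ χ1 y ∧ χ1 y ≤ 1
  o0 : IsOpen W0
  o1 : IsOpen W1
  sub : K ⊆ W0
  one0 : ∀ y ∈ W0, χ0 y = 1
  supp0 : tsupport χ0 ⊆ W1
  one1 : ∀ y ∈ W1, χ1 y = 1
  supp1 : B.a ∉ tsupport χ1

theorem exists_cuts {K : Set Z} (hK : IsCompact K) (ha : B.a ∉ K) : Nonempty (Cuts B K) := by
  obtain ⟨χ1, h1, W1, h2, h3, h4, h5, h6⟩ := cut_nhds (Q := Q) hK.isClosed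
    (isOpen_compl_singleton (x := B.a)) (fun x hx h => ha (by
      rw [mem_singleton_iff] at h; exact h ▸ hx))
  obtain ⟨χ0, g1, W0, g2, g3, g4, g5, g6⟩ := cut_nhds (Q := Q) hK.isClosed h3 h4
  exact ⟨⟨χ0, χ1, W0, W1, g1, h1, g2, h2, g3, h3, g4, g5, g6, h5, fun h => h6 h rfl⟩⟩

namespace Cuts
variable {B} {K : Set Z} (C : Cuts B K)

theorem W0_sub : C.W0 ⊆ C.W1 := fun x hx => C.supp0 (subset_tsupport _ (by
  rw [Function.mem_support, C.one0 x hx]; exact one_ne_zero))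


theorem a_W1 : B.a ∉ C.W1 := fun h => C.supp1 (subset_tsupport _ (by
  rw [Function.mem_support, C.one1 _ h]; exact one_ne_zero))

/-- the limit -/
def U {u : C(Z, ℝ)} (hu : B.Is u) : C(Z, ℝ) := B.cl hu C.χ1 C.supp1

/-- the cut-off blow-up -/
def V (u : C(Z, ℝ)) (k : ℕ) : C(Z, ℝ) := C.χ1 * B.bl u k

/-- the difference -/
def D {u : C(Z, ℝ)} (hu : B.Is u) (k : ℕ) : C(Z, ℝ) := C.V u k - C.U hu

theorem U_mem {u : C(Z, ℝ)} (hu : B.Is u) : C.U hu ∈ Q.Dom := B.cl_mem hu C.hχ1 C.supp1 C.h1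

theorem V_mem {u : C(Z, ℝ)} (hu : B.Is u) (k : ℕ) : C.V u k ∈ Q.Dom :=
  Q.mul_mem _ C.hχ1 _ (B.bl_mem hu.mem k)

theorem D_mem {u : C(Z, ℝ)} (hu : B.Is u) (k : ℕ) : C.D hu k ∈ Q.Dom :=
  sub_mem (C.V_mem hu k) (C.U_mem hu)

theorem V_eq {u : C(Z, ℝ)} (k : ℕ) {x : Z} (hx : x ∈ C.W1) : C.V u k x = B.bl u k x := by
  simp [V, C.one1 x hx]

theorem U_eq {u : C(Z, ℝ)} (hu : B.Is u) {x : Z} (hx : x ∈ C.W1) : C.U hu x = B.lim hu x := by
  rw [U, B.cl_apply, C.one1 x hx, one_mul]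

theorem V_energy {u : C(Z, ℝ)} (hu : B.Is u) :
    ∃ M : ℝ, ∀ᶠ k in (om : Filter ℕ), Q.Γ (C.V u k) (C.V u k) 1 ≤ M :=
  B.cut_energy hu C.hχ1 C.supp1 C.h1

theorem D_small {u : C(Z, ℝ)} (hu : B.Is u) {ε : ℝ} (hε : 0 < ε) :
    ∀ᶠ k in (om : Filter ℕ), ∀ x, |C.D hu k x| ≤ ε := B.cl_unif hu C.supp1 C.h1 hε

theorem D_energy {u : C(Z, ℝ)} (hu : B.Is u) :
    ∃ M : ℝ, ∀ᶠ k in (om : Filter ℕ), Q.Γ (C.D hu k) (C.D hu k) 1 ≤ M := by
  obtain ⟨M, hM⟩ := C.V_energy hu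
  refine ⟨2 * M + 2 * Q.Γ (C.U hu) (C.U hu) 1, ?_⟩
  filter_upwards [hM] with k hk
  have := energy_sub_le (C.V_mem hu k) (C.U_mem hu) (φ := 1) (fun x => zero_le_one)
  unfold D
  linarith

theorem tends_abs {f : ℕ → ℝ} (h : ∀ ε > 0, ∀ᶠ k in (om : Filter ℕ), |f k| ≤ ε) :
    Tendsto f (om : Filter ℕ) (𝓝 0) := by
  rw [Metric.tendsto_nhds]
  intro ε hε
  filter_upwards [h (ε / 2) (half_pos hε)] with k hk
  rw [Real.dist_eq, sub_zero]
  linarith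

theorem tends_one_div : Tendsto (fun k : ℕ => 1 / ((k : ℝ) + 1)) (om : Filter ℕ) (𝓝 0) :=
  tendsto_one_div_add_atTop_nhds_zero_nat.mono_left om_le

/-- the key lemma: `Γ(w, V) = Γ(w, bl)` is small for `w` supported in `W1` -/
theorem V_harm {u : C(Z, ℝ)} (hu : B.Is u) {K' : Set Z} (hK' : IsCompact K') (hKW : K' ⊆ C.W1)
    (M : ℝ) : ∀ᶠ k in (om : Filter ℕ), ∀ w ∈ Q.Dom, tsupport ⇑w ⊆ K' → (∀ x, |w x| ≤ M) →
      Q.Γ w w 1 ≤ M → |Q.Γ w (C.V u k) 1| ≤ 1 / (k + 1) := by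
  filter_upwards [B.harm_ev hu hK' (fun h => C.a_W1 (hKW h)) M] with k hk w hw h1 h2 h3
  have h4 := hk w hw (fun x hx => by
    by_contra hne
    exact hx (h1 (subset_tsupport _ hne))) h2 h3
  have h5 : Q.Γ w (C.V u k - B.bl u k) 1 = 0 := by
    refine disjoint_supp hw (sub_mem (C.V_mem hu k) (B.bl_mem hu.mem k)) ?_ 1
    refine disjoint_left.2 (fun x hx hx' => ?_)
    have h6 : tsupport ⇑(C.V u k - B.bl u k) ⊆ C.W1ᶜ := by
      refine closure_minimal ?_ C.o1.isClosed_compl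
      intro y hy hyW
      exact hy (by simp [C.V_eq k hyW])
    exact h6 hx' (hKW (h1 hx))
  rw [sub_right hw (C.V_mem hu k) (B.bl_mem hu.mem k)] at h5
  rw [show Q.Γ w (C.V u k) 1 = Q.Γ w (B.bl u k) 1 by linarith]
  exact h4

theorem cutD_energy {u : C(Z, ℝ)} (hu : B.Is u) :
    ∃ M : ℝ, ∀ᶠ k in (om : Filter ℕ), Q.Γ (C.χ0 * C.D hu k) (C.χ0 * C.D hu k) 1 ≤ M := by
  obtain ⟨M, hM⟩ := C.D_energy hu
  refine ⟨2 * Q.Γ C.χ0 C.χ0 1 + 2 * M, ?_⟩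
  filter_upwards [hM, C.D_small hu one_pos] with k h1 h2
  have h3 := energy_cut C.hχ0 (C.D_mem hu k) C.h0 isOpen_univ (subset_univ _) zero_le_one
    (fun x _ => h2 x) 1 (fun y => (C.h0 y).2)
  linarith

/-- strong convergence -/
theorem strong {u : C(Z, ℝ)} (hu : B.Is u) :
    Tendsto (fun k => Q.Γ (C.D hu k) (C.D hu k) C.χ0) (om : Filter ℕ) (𝓝 0) := by
  obtain ⟨M, hM⟩ := C.cutD_energy hu
  obtain ⟨M', hM'⟩ := C.D_energy hu
  set N : ℝ := max M 1 with hN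
  -- first term
  have t1 : Tendsto (fun k => Q.Γ (C.χ0 * C.D hu k) (C.U hu) 1) (om : Filter ℕ) (𝓝 0) := by
    refine tends_abs (fun ε hε => ?_)
    obtain ⟨δ, hδ, hw⟩ := weak (C.U_mem hu) M hε
    filter_upwards [hM, C.D_small hu hδ] with k h1 h2
    refine hw _ (Q.mul_mem _ C.hχ0 _ (C.D_mem hu k)) (fun x => ?_) h1
    rw [ContinuousMap.mul_apply, abs_mul, abs_of_nonneg (C.h0 x).1]
    have := h2 x
    have h3 := (C.h0 x).2
    nlinarith [abs_nonneg (C.D hu k x)]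
  have t2 : Tendsto (fun k => Q.Γ (C.χ0 * C.D hu k) (C.V u k) 1) (om : Filter ℕ) (𝓝 0) := by
    refine squeeze_zero_norm' ?_ tends_one_div
    filter_upwards [hM, C.D_small hu one_pos,
      C.V_harm hu (isClosed_tsupport ⇑C.χ0).isCompact C.supp0 N] with k h1 h2 h3
    rw [Real.norm_eq_abs]
    refine h3 _ (Q.mul_mem _ C.hχ0 _ (C.D_mem hu k)) (tsupport_mul_left _ _) (fun x => ?_)
      (h1.trans (le_max_left _ _))
    rw [ContinuousMap.mul_apply, abs_mul, abs_of_nonneg (C.h0 x).1]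
    have := h2 x
    have h4 := (C.h0 x).2
    have h5 := le_max_right M 1
    nlinarith [abs_nonneg (C.D hu k x)]
  have t3 : Tendsto (fun k => Q.Γ C.χ0 (C.D hu k) (C.D hu k)) (om : Filter ℕ) (𝓝 0) := by
    refine tends_abs (fun ε hε => ?_)
    set E : ℝ := |Q.Γ C.χ0 C.χ0 1 + M'| + 1 with hE
    have hE0 : 0 < E := by positivity
    filter_upwards [hM', C.D_small hu (div_pos hε hE0)] with k h1 h2
    have h3 := abs_le_energy C.hχ0 (C.D_mem hu k) h2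
    have h4 : Q.Γ C.χ0 C.χ0 1 + Q.Γ (C.D hu k) (C.D hu k) 1 ≤ E := by
      have := le_abs_self (Q.Γ C.χ0 C.χ0 1 + M')
      linarith
    have h5 : ε / E * (Q.Γ C.χ0 C.χ0 1 + Q.Γ (C.D hu k) (C.D hu k) 1) ≤ ε / E * E :=
      mul_le_mul_of_nonneg_left h4 (by positivity)
    rw [div_mul_cancel₀ _ hE0.ne'] at h5
    have := abs_nonneg (Q.Γ C.χ0 (C.D hu k) (C.D hu k))
    linarith
  have e : ∀ k, Q.Γ (C.D hu k) (C.D hu k) C.χ0 = Q.Γ (C.χ0 * C.D hu k) (C.V u k) 1 -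
      Q.Γ (C.χ0 * C.D hu k) (C.U hu) 1 - Q.Γ C.χ0 (C.D hu k) (C.D hu k) := by
    intro k
    have h1 := leibniz C.hχ0 (C.D_mem hu k) (C.D_mem hu k) 1
    rw [one_mul, one_mul] at h1
    have h2 := sub_right (Q := Q) (Q.mul_mem _ C.hχ0 _ (C.D_mem hu k)) (C.V_mem hu k) (C.U_mem hu) 1
    have h3 : Q.Γ (C.χ0 * C.D hu k) (C.D hu k) 1 =
      Q.Γ (C.χ0 * C.D hu k) (C.V u k) 1 - Q.Γ (C.χ0 * C.D hu k) (C.U hu) 1 := h2
    linarith
  simp_rw [e]
  simpa using (t2.sub t1).sub t3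

/-- passing to the limit in `Γ(D_k, v_k)(φ)` -/
theorem tends_D {u : C(Z, ℝ)} (hu : B.Is u) (v : ℕ → C(Z, ℝ)) (hv : ∀ k, v k ∈ Q.Dom) {M : ℝ}
    (hM : ∀ᶠ k in (om : Filter ℕ), Q.Γ (v k) (v k) 1 ≤ M) {φ : C(Z, ℝ)} {A : ℝ} (hA : 0 ≤ A)
    (hφ : ∀ x, |φ x| ≤ A * C.χ0 x) :
    Tendsto (fun k => Q.Γ (C.D hu k) (v k) φ) (om : Filter ℕ) (𝓝 0) := by
  have h1 : Tendsto (fun k => A * Q.Γ (C.D hu k) (C.D hu k) C.χ0 * (A * M)) (om : Filter ℕ)
      (𝓝 0) := by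
    simpa using ((C.strong hu).const_mul A).mul_const (A * M)
  have h2 : Tendsto (fun k => (Q.Γ (C.D hu k) (v k) φ) ^ 2) (om : Filter ℕ) (𝓝 0) := by
    refine squeeze_zero' (Eventually.of_forall (fun k => sq_nonneg _)) ?_ h1
    filter_upwards [hM] with k hk
    refine (cs_dom (C.D_mem hu k) (hv k) hφ).trans ?_
    have h3 : Q.Γ (v k) (v k) C.χ0 ≤ M :=
      (mono (hv k) (fun x => (C.h0 x).2)).trans hk
    have h4 := Q.nonneg _ (C.D_mem hu k) C.χ0 (fun x => (C.h0 x).1)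
    gcongr
  have h3 := h2.sqrt
  rw [Real.sqrt_zero] at h3
  simp_rw [Real.sqrt_sq_eq_abs] at h3
  exact tendsto_zero_iff_abs_tendsto_zero _ |>.2 h3

/-- convergence of the energy densities -/
theorem tends_Γ {u v : C(Z, ℝ)} (hu : B.Is u) (hv : B.Is v) {φ : C(Z, ℝ)}
    {A : ℝ} (hA : 0 ≤ A) (hφ : ∀ x, |φ x| ≤ A * C.χ0 x) :
    Tendsto (fun k => Q.Γ (C.V u k) (C.V v k) φ) (om : Filter ℕ)
      (𝓝 (Q.Γ (C.U hu) (C.U hv) φ)) := by
  obtain ⟨M, hM⟩ := C.V_energy hv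
  have h1 := C.tends_D hu (fun k => C.V v k) (fun k => C.V_mem hv k) hM hA hφ
  have h2 := C.tends_D hv (fun _ => C.U hu) (fun _ => C.U_mem hu)
    (M := Q.Γ (C.U hu) (C.U hu) 1) (Eventually.of_forall (fun _ => le_rfl)) hA hφ
  have e : ∀ k, Q.Γ (C.V u k) (C.V v k) φ = Q.Γ (C.D hu k) (C.V v k) φ +
      Q.Γ (C.D hv k) (C.U hu) φ + Q.Γ (C.U hu) (C.U hv) φ := by
    intro k
    have e1 : Q.Γ (C.D hu k) (C.V v k) φ = Q.Γ (C.V u k) (C.V v k) φ - Q.Γ (C.U hu) (C.V v k) φ :=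
      sub_left (C.V_mem hu k) (C.U_mem hu) (C.V_mem hv k) φ
    have e2 : Q.Γ (C.D hv k) (C.U hu) φ = Q.Γ (C.V v k) (C.U hu) φ - Q.Γ (C.U hv) (C.U hu) φ :=
      sub_left (C.V_mem hv k) (C.U_mem hv) (C.U_mem hu) φ
    rw [e1, e2, Q.symm _ (C.V_mem hv k) _ (C.U_mem hu), Q.symm _ (C.U_mem hv) _ (C.U_mem hu)]
    ring
  simp_rw [e]
  simpa using (h1.add h2).add_const (Q.Γ (C.U hu) (C.U hv) φ)

theorem dom_of_supp {φ : C(Z, ℝ)} (hφ : tsupport φ ⊆ C.W0) : ∃ A : ℝ, 0 ≤ A ∧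
    ∀ x, |φ x| ≤ A * C.χ0 x := by
  refine ⟨‖φ‖, norm_nonneg _, fun x => ?_⟩
  by_cases hx : φ x = 0
  · rw [hx, abs_zero]; exact mul_nonneg (norm_nonneg _) (C.h0 x).1
  · rw [C.one0 x (hφ (subset_tsupport _ hx)), mul_one]
    exact φ.norm_coe_le_norm x

/-- the limit is harmonic -/
theorem harm {u : C(Z, ℝ)} (hu : B.Is u) {w : C(Z, ℝ)} (hw : w ∈ Q.Dom) (hs : tsupport w ⊆ C.W0) :
    Q.Γ (C.U hu) w 1 = 0 := by
  have h1 := C.tends_D hu (fun _ => w) (fun _ => hw) (M := Q.Γ w w 1)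
    (Eventually.of_forall (fun _ => le_rfl)) (φ := C.χ0) zero_le_one
    (fun x => by rw [abs_of_nonneg (C.h0 x).1, one_mul])
  have h2 : Tendsto (fun k => Q.Γ w (C.V u k) 1) (om : Filter ℕ) (𝓝 0) := by
    refine squeeze_zero_norm' ?_ tends_one_div
    filter_upwards [C.V_harm hu (isClosed_tsupport ⇑w).isCompact (hs.trans C.W0_sub)
      (max ‖w‖ (Q.Γ w w 1))] with k hk
    rw [Real.norm_eq_abs]
    exact hk w hw Subset.rfl (fun x => (w.norm_coe_le_norm x).trans (le_max_left _ _))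
      (le_max_right _ _)
  have e : ∀ k, Q.Γ (C.U hu) w 1 = Q.Γ w (C.V u k) 1 - Q.Γ (C.D hu k) w C.χ0 := by
    intro k
    have e1 : Q.Γ w (C.D hu k) 1 = Q.Γ w (C.V u k) 1 - Q.Γ w (C.U hu) 1 :=
      sub_right hw (C.V_mem hu k) (C.U_mem hu) 1
    have e2 : Q.Γ w (C.D hu k) 1 = Q.Γ w (C.D hu k) C.χ0 :=
      test_congr hw (C.D_mem hu k) C.o0 hs (fun x hx => by simp [C.one0 x hx])
    rw [Q.symm _ (C.D_mem hu k) _ hw, Q.symm _ (C.U_mem hu) _ hw]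
    linarith
  have h3 : Tendsto (fun _ : ℕ => Q.Γ (C.U hu) w 1) (om : Filter ℕ) (𝓝 (0 - 0)) := by
    refine (h2.sub h1).congr (fun k => ?_)
    rw [← e k]
  rw [sub_zero] at h3
  exact tendsto_nhds_unique tendsto_const_nhds h3

end Cuts

end BU

end Crest.Agent.R193.D56_Lim
end
end

-- ▼ part R193/D56_Gram
section

/-!
# R193, block D6: the Gram matrix of the limit, the conformal pair
-/

set_option autoImplicit false

noncomputable section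

open Set Filter Topology MeasureTheory

namespace Crest.Agent.R193.D56_Gram

open Crest.Agent.R193 Crest.Agent.R193.D56_Basic Crest.Agent.R193.D56_Atom
  Crest.Agent.R193.D56_Dens Crest.Agent.R193.D56_Geo Crest.Agent.R193.D56_Sel
  Crest.Agent.R193.D56_Blow Crest.Agent.R193.D56_Lim Crest.Agent.R193.D56_Lim.BU
  Crest.Agent.R193.D56_Lim.BU.Cuts

variable {G Z : Type} [Group G] [MetricSpace Z] [MulAction G Z] {S : Setup G Z}
variable [CompactSpace Z]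
variable {Q : DForm S} {𝒢 : Geo G Z} {u1 u2 : C(Z, ℝ)} {O : Set Z} (B : BU Q 𝒢 u1 u2 O)

/-- normalised Gram matrix on the bump -/
def M (u v : C(Z, ℝ)) (k : ℕ) : ℝ := Q.Γ u v (bump 𝒢 B.R1 (B.g k)) / B.m k

theorem M_sum (k : ℕ) : M B u1 u1 k + M B u2 u2 k = 1 := by
  have h1 := (B.typ k).mass
  have h2 := (B.typ k).pos
  unfold M
  rw [← add_div, ← h1, div_self h2.ne']

theorem M_nonneg {u : C(Z, ℝ)} (hu : B.Is u) (k : ℕ) : 0 ≤ M B u u k :=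
  div_nonneg (Q.nonneg u hu.mem _ (bump_nonneg 𝒢 _ _)) (B.typ k).pos.le

theorem M_det (k : ℕ) : B.θ ^ 2 ≤ M B u1 u1 k * M B u2 u2 k - (M B u1 u2 k) ^ 2 := by
  have h1 := (B.typ k).det
  have h2 := (B.typ k).pos
  unfold M
  rw [div_mul_div_comm, div_pow, ← pow_two, ← sub_div, le_div_iff₀ (by positivity)]
  rw [mul_pow] at h1
  exact h1

theorem M_near : ∀ᶠ k in (om : Filter ℕ), |M B u1 u1 k - B.b11 k| ≤ 1 / (k + 1) ∧
    |M B u1 u2 k - B.b12 k| ≤ 1 / (k + 1) ∧ |M B u2 u2 k - B.b22 k| ≤ 1 / (k + 1) := by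
  filter_upwards [D56_Blow.BU.ev_ge (B.R1 + 1)] with k hk
  have hm := (B.typ k).pos
  obtain ⟨h1, h2, h3⟩ := (B.typ k).dens (bump 𝒢 B.R1 (B.g k)) (fun y => by
    rw [abs_of_nonneg (bump_nonneg 𝒢 _ _ _)]; exact bump_le_one 𝒢 _ _ _) (fun y hy =>
    bump_zero 𝒢 (fun h => hy (sh_mono hk _ h)))
  rw [← (B.typ k).mass] at h1 h2 h3
  have key : ∀ X b : ℝ, |X - b * B.m k| ≤ B.m k / (k + 1) → |X / B.m k - b| ≤ 1 / (k + 1) := by
    intro X b h
    have e : X / B.m k - b = (X - b * B.m k) / B.m k := by field_simp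
    rw [e, abs_div, abs_of_pos hm, div_le_iff₀ hm]
    calc |X - b * B.m k| ≤ B.m k / (k + 1) := h
      _ = 1 / (k + 1) * B.m k := by ring
  exact ⟨key _ _ h1, key _ _ h2, key _ _ h3⟩

theorem exists_lim_of_bdd {f : ℕ → ℝ} {C : ℝ} (h : ∀ᶠ k in (om : Filter ℕ), |f k| ≤ C) :
    ∃ y : ℝ, Tendsto f (om : Filter ℕ) (𝓝 y) := by
  have h1 : Icc (-C) C ∈ (om.map f) := by
    rw [Ultrafilter.mem_map]
    filter_upwards [h] with k hk
    exact abs_le.1 hk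
  obtain ⟨y, -, hy⟩ := isCompact_Icc.ultrafilter_le_nhds _ (le_principal_iff.2 h1)
  exact ⟨y, hy⟩

theorem M_bdd (k : ℕ) : |M B u1 u1 k| ≤ 1 ∧ |M B u1 u2 k| ≤ 1 ∧ |M B u2 u2 k| ≤ 1 := by
  have h1 := M_sum B k
  have h2 := M_nonneg B (Or.inl rfl : B.Is u1) k
  have h3 := M_nonneg B (Or.inr rfl : B.Is u2) k
  have h4 := M_det B k
  refine ⟨abs_le.2 ⟨by linarith, by linarith⟩, ?_, abs_le.2 ⟨by linarith, by linarith⟩⟩
  refine abs_le_of_sq_le_sq ?_ zero_le_one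
  nlinarith [sq_nonneg B.θ]

/-- the limit Gram matrix -/
theorem gram_lim : ∃ β11 β12 β22 : ℝ, Tendsto B.b11 (om : Filter ℕ) (𝓝 β11) ∧
    Tendsto B.b12 (om : Filter ℕ) (𝓝 β12) ∧ Tendsto B.b22 (om : Filter ℕ) (𝓝 β22) ∧
    β11 + β22 = 1 ∧ 0 ≤ β11 ∧ 0 ≤ β22 ∧ B.θ ^ 2 ≤ β11 * β22 - β12 ^ 2 := by
  obtain ⟨β11, h11⟩ := exists_lim_of_bdd (Eventually.of_forall (fun k => (M_bdd B k).1))
  obtain ⟨β12, h12⟩ := exists_lim_of_bdd (Eventually.of_forall (fun k => (M_bdd B k).2.1))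
  obtain ⟨β22, h22⟩ := exists_lim_of_bdd (Eventually.of_forall (fun k => (M_bdd B k).2.2))
  have key : ∀ (f b : ℕ → ℝ) (β : ℝ), Tendsto f (om : Filter ℕ) (𝓝 β) →
      (∀ᶠ k in (om : Filter ℕ), |f k - b k| ≤ 1 / (k + 1)) → Tendsto b (om : Filter ℕ) (𝓝 β) := by
    intro f b β h1 h2
    have h3 : Tendsto (fun k => f k - b k) (om : Filter ℕ) (𝓝 0) :=
      squeeze_zero_norm' (by simpa only [Real.norm_eq_abs] using h2) tends_one_div
    have h4 := h1.sub h3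
    rw [sub_zero] at h4
    refine h4.congr (fun k => by ring)
  refine ⟨β11, β12, β22, key _ _ _ h11 ((M_near B).mono fun k h => h.1),
    key _ _ _ h12 ((M_near B).mono fun k h => h.2.1),
    key _ _ _ h22 ((M_near B).mono fun k h => h.2.2), ?_, ?_, ?_, ?_⟩
  · have h1 := h11.add h22
    simp_rw [M_sum B] at h1
    exact (tendsto_nhds_unique h1 tendsto_const_nhds)
  · exact ge_of_tendsto h11 (Eventually.of_forall fun k => M_nonneg B (Or.inl rfl) k)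
  · exact ge_of_tendsto h22 (Eventually.of_forall fun k => M_nonneg B (Or.inr rfl) k)
  · exact ge_of_tendsto ((h11.mul h22).sub (h12.pow 2)) (Eventually.of_forall fun k => M_det B k)

/-- transport of a test function into the tile -/
theorem tr_zero {φ : C(Z, ℝ)} (hφ : B.a ∉ tsupport φ) :
    ∀ᶠ k in (om : Filter ℕ), ∀ y, y ∉ 𝒢.Sh k (B.g k) → tr S (B.g k)⁻¹ φ y = 0 := by
  obtain ⟨R, hR⟩ := B.pole1 _ (isClosed_tsupport ⇑φ).isCompact hφ
  filter_upwards [hR, D56_Blow.BU.ev_ge R] with k h1 h2 y hy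
  rw [tr_apply]
  by_contra hne
  have := h1 _ (subset_tsupport _ hne)
  rw [smul_inv_smul] at this
  exact hy (sh_mono h2 _ this)

variable {K : Set Z} (C : Cuts B K)

theorem V_Γ {u v : C(Z, ℝ)} (hu : B.Is u) (hv : B.Is v) (k : ℕ) {φ : C(Z, ℝ)}
    (hφ : tsupport φ ⊆ C.W0) : Q.Γ (C.V u k) (C.V v k) φ =
      (B.m k)⁻¹ * Q.Γ u v (tr S (B.g k)⁻¹ φ) := by
  have h1 : tsupport φ ⊆ C.W1 := hφ.trans C.W0_sub
  rw [local_congr (C.V_mem hu k) (B.bl_mem hu.mem k) (C.V_mem hv k) C.o1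
    (fun x hx => C.V_eq k hx) h1,
    local_congr_right (B.bl_mem hu.mem k) (C.V_mem hv k) (B.bl_mem hv.mem k) C.o1
    (fun x hx => C.V_eq k hx) h1, B.bl_Γ hu.mem hv.mem]

theorem gram_aux {u v : C(Z, ℝ)} (hu : B.Is u) (hv : B.Is v) {b : ℕ → ℝ} {β : ℝ}
    (hb : Tendsto b (om : Filter ℕ) (𝓝 β))
    (hd : ∀ k, ∀ φ : C(Z, ℝ), (∀ y, |φ y| ≤ 1) → (∀ y, y ∉ 𝒢.Sh k (B.g k) → φ y = 0) →
      |Q.Γ u v φ - b k * (Q.Γ u1 u1 φ + Q.Γ u2 u2 φ)| ≤ B.m k / (k + 1))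
    {φ : C(Z, ℝ)} (hφ : tsupport φ ⊆ C.W0) :
    Q.Γ (C.U hu) (C.U hv) φ = β * (Q.Γ (C.U (Or.inl rfl : B.Is u1)) (C.U (Or.inl rfl : B.Is u1)) φ +
      Q.Γ (C.U (Or.inr rfl : B.Is u2)) (C.U (Or.inr rfl : B.Is u2)) φ) := by
  obtain ⟨A, hA, hφA⟩ := C.dom_of_supp hφ
  have hau : B.a ∉ tsupport φ := fun h => C.a_W1 (C.W0_sub (hφ h))
  set s : ℝ := ‖φ‖ + 1 with hs
  have hs0 : 0 < s := by positivity
  have t1 := C.tends_Γ hu hv hA hφA
  have t2 := C.tends_Γ (Or.inl rfl : B.Is u1) (Or.inl rfl : B.Is u1) hA hφA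
  have t3 := C.tends_Γ (Or.inr rfl : B.Is u2) (Or.inr rfl : B.Is u2) hA hφA
  have t4 := t1.sub (hb.mul (t2.add t3))
  have t5 : Tendsto (fun k => Q.Γ (C.V u k) (C.V v k) φ -
      b k * (Q.Γ (C.V u1 k) (C.V u1 k) φ + Q.Γ (C.V u2 k) (C.V u2 k) φ)) (om : Filter ℕ)
      (𝓝 0) := by
    have t6 : Tendsto (fun k : ℕ => s * (1 / ((k : ℝ) + 1))) (om : Filter ℕ) (𝓝 0) := by
      simpa using tends_one_div.const_mul s
    refine squeeze_zero_norm' ?_ t6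
    filter_upwards [tr_zero B hau] with k hk
    have hm := (B.typ k).pos
    have h1 := hd k (s⁻¹ • tr S (B.g k)⁻¹ φ) (fun y => by
      rw [ContinuousMap.smul_apply, smul_eq_mul, abs_mul, abs_of_pos (inv_pos.2 hs0),
        inv_mul_le_iff₀ hs0, mul_one, tr_apply]
      have := φ.norm_coe_le_norm ((B.g k)⁻¹ • y)
      rw [Real.norm_eq_abs] at this
      linarith) (fun y hy => by rw [ContinuousMap.smul_apply, hk y hy, smul_zero])
    rw [Q.smul_test _ _ hu.mem _ hv.mem, Q.smul_test _ _ B.h1 _ B.h1,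
      Q.smul_test _ _ B.h2 _ B.h2] at h1
    rw [Real.norm_eq_abs, V_Γ B C hu hv k hφ, V_Γ B C (Or.inl rfl) (Or.inl rfl) k hφ,
      V_Γ B C (Or.inr rfl) (Or.inr rfl) k hφ]
    set X := Q.Γ u v (tr S (B.g k)⁻¹ φ)
    set X1 := Q.Γ u1 u1 (tr S (B.g k)⁻¹ φ)
    set X2 := Q.Γ u2 u2 (tr S (B.g k)⁻¹ φ)
    have e1 : s⁻¹ * X - b k * (s⁻¹ * X1 + s⁻¹ * X2) = s⁻¹ * (X - b k * (X1 + X2)) := by ring
    rw [e1, abs_mul, abs_of_pos (inv_pos.2 hs0), inv_mul_le_iff₀ hs0] at h1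
    have e2 : (B.m k)⁻¹ * X - b k * ((B.m k)⁻¹ * X1 + (B.m k)⁻¹ * X2) =
      (B.m k)⁻¹ * (X - b k * (X1 + X2)) := by ring
    rw [e2, abs_mul, abs_of_pos (inv_pos.2 hm), inv_mul_le_iff₀ hm]
    calc |X - b k * (X1 + X2)| ≤ s * (B.m k / (k + 1)) := h1
      _ = B.m k * (s * (1 / (k + 1))) := by ring
  have := tendsto_nhds_unique t4 t5
  linarith

end Crest.Agent.R193.D56_Gram
end
end

-- ▼ part R193/D56_Pair

/-!
# R193, block D6: the blow-up limit is a non-constant conformal pair on `Z ∖ {a}`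
-/

set_option autoImplicit false

noncomputable section

open Set Filter Topology MeasureTheory

namespace Crest.Agent.R193.D56_Pair

open Crest.Agent.R193 Crest.Agent.R193.D56_Basic Crest.Agent.R193.D56_Atom
  Crest.Agent.R193.D56_Dens Crest.Agent.R193.D56_Geo Crest.Agent.R193.D56_Sel
  Crest.Agent.R193.D56_Blow Crest.Agent.R193.D56_Lim Crest.Agent.R193.D56_Lim.BU
  Crest.Agent.R193.D56_Lim.BU.Cuts Crest.Agent.R193.D56_Gram

variable {G Z : Type} [Group G] [MetricSpace Z] [MulAction G Z] {S : Setup G Z}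
variable [CompactSpace Z]
variable {Q : DForm S} {𝒢 : Geo G Z} {u1 u2 : C(Z, ℝ)} {O : Set Z} (B : BU Q 𝒢 u1 u2 O)

theorem i1 : B.Is u1 := Or.inl rfl
theorem i2 : B.Is u2 := Or.inr rfl

/-- conformality of the linear combination -/
theorem conf {β11 β12 β22 : ℝ} (hb11 : Tendsto B.b11 (om : Filter ℕ) (𝓝 β11))
    (hb12 : Tendsto B.b12 (om : Filter ℕ) (𝓝 β12)) (hb22 : Tendsto B.b22 (om : Filter ℕ) (𝓝 β22))
    (hdet : 0 < β11 * β22 - β12 ^ 2) {K : Set Z} (C : Cuts B K) :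
    ConfOn Q C.W0 (C.U (i1 B))
      ((β11 / Real.sqrt (β11 * β22 - β12 ^ 2)) • C.U (i2 B) +
        (-β12 / Real.sqrt (β11 * β22 - β12 ^ 2)) • C.U (i1 B)) := by
  set d : ℝ := Real.sqrt (β11 * β22 - β12 ^ 2) with hd
  have hd0 : 0 < d := Real.sqrt_pos.2 hdet
  have hd2 : d * d = β11 * β22 - β12 ^ 2 := Real.mul_self_sqrt hdet.le
  have m1 := C.U_mem (i1 B)
  have m2 := C.U_mem (i2 B)
  have m1' := Q.smul_mem (-β12 / d) _ m1
  have m2' := Q.smul_mem (β11 / d) _ m2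
  have m3 := Q.add_mem _ m2' _ m1'
  refine ⟨m1, m3, fun w hw hs => ⟨C.harm (i1 B) hw hs, ?_⟩, fun φ hφ => ?_⟩
  · rw [Q.add_left _ m2' _ m1' _ hw, Q.smul_left _ _ m2 _ hw, Q.smul_left _ _ m1 _ hw,
      C.harm (i1 B) hw hs, C.harm (i2 B) hw hs]
    ring
  · have g11 := gram_aux B C (i1 B) (i1 B) hb11 (fun k φ h1 h2 => ((B.typ k).dens φ h1 h2).1) hφ
    have g12 := gram_aux B C (i1 B) (i2 B) hb12 (fun k φ h1 h2 => ((B.typ k).dens φ h1 h2).2.1) hφ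
    have g22 := gram_aux B C (i2 B) (i2 B) hb22 (fun k φ h1 h2 => ((B.typ k).dens φ h1 h2).2.2) hφ
    set N := Q.Γ (C.U (Or.inl rfl : B.Is u1)) (C.U (Or.inl rfl : B.Is u1)) φ +
      Q.Γ (C.U (Or.inr rfl : B.Is u2)) (C.U (Or.inr rfl : B.Is u2)) φ with hN
    constructor
    · rw [add_right m1 m2' m1', smul_right m1 m2, smul_right m1 m1, g11, g12]
      field_simp
      ring
    · rw [quad m2 m1, Q.symm _ m2 _ m1, g11, g12, g22]
      have e : (β11 / d) ^ 2 * (β22 * N) + 2 * (β11 / d) * (-β12 / d) * (β12 * N) +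
          (-β12 / d) ^ 2 * (β11 * N) = β11 * N * (β11 * β22 - β12 ^ 2) / (d * d) := by
        field_simp
        ring
      rw [e, hd2, mul_div_assoc, div_self hdet.ne', mul_one]

/-- the limit is not constant -/
theorem nonconst (c1 c2 : ℝ) (h1 : ∀ x, x ≠ B.a → B.lim (i1 B) x = c1)
    (h2 : ∀ x, x ≠ B.a → B.lim (i2 B) x = c2) : False := by
  obtain ⟨N, hN, hNe⟩ := B.pole2 (B.R1 + 1)
  have hKc : IsCompact (interior N)ᶜ := isOpen_interior.isClosed_compl.isCompact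
  have haK : B.a ∉ (interior N)ᶜ := fun h => h (mem_interior_iff_mem_nhds.2 hN)
  obtain ⟨C⟩ := D56_Lim.BU.exists_cuts B hKc haK
  have key : ∀ {u : C(Z, ℝ)} (hu : B.Is u) (c : ℝ), (∀ x, x ≠ B.a → B.lim hu x = c) →
      ∀ φ : C(Z, ℝ), tsupport φ ⊆ C.W0 → Q.Γ (C.U hu) (C.U hu) φ = 0 := by
    intro u hu c hc φ hφ
    refine local_const (C.U_mem hu) (C.U_mem hu) C.o1 (c := c) (fun x hx => ?_)
      (hφ.trans C.W0_sub)
    rw [C.U_eq hu hx]
    exact hc x (fun h => C.a_W1 (h ▸ hx))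
  have s1 := C.strong (i1 B)
  have s2 := C.strong (i2 B)
  have s3 := (s1.const_mul 2).add (s2.const_mul 2)
  rw [mul_zero, add_zero] at s3
  have hev : ∀ᶠ k in (om : Filter ℕ), (1 : ℝ) ≤ 2 * Q.Γ (C.D (i1 B) k) (C.D (i1 B) k) C.χ0 +
      2 * Q.Γ (C.D (i2 B) k) (C.D (i2 B) k) C.χ0 := by
    filter_upwards [hNe] with k hk
    have hm := (B.typ k).pos
    have hz : ∀ x, x ∈ N → B.ψ B.R1 k x = 0 := fun x hx => B.ψ_zero (hk x hx)
    have hsupp : tsupport (B.ψ B.R1 k) ⊆ (interior N)ᶜ := by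
      refine closure_minimal (fun x hx hxN => hx (hz x (interior_subset hxN))) ?_
      exact isOpen_interior.isClosed_compl
    have hsupp' : tsupport (B.ψ B.R1 k) ⊆ C.W0 := hsupp.trans C.sub
    have hle : ∀ x, B.ψ B.R1 k x ≤ C.χ0 x := by
      intro x
      by_cases hx : B.ψ B.R1 k x = 0
      · rw [hx]; exact (C.h0 x).1
      · rw [C.one0 x (hsupp' (subset_tsupport _ hx))]
        exact B.ψ_le_one _ _ _
    have hV : ∀ {u : C(Z, ℝ)} (hu : B.Is u) (c : ℝ), (∀ x, x ≠ B.a → B.lim hu x = c) →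
        (B.m k)⁻¹ * Q.Γ u u (bump 𝒢 B.R1 (B.g k)) ≤ 2 * Q.Γ (C.D hu k) (C.D hu k) C.χ0 := by
      intro u hu c hc
      have e1 := V_Γ B C hu hu k hsupp'
      have e2 : tr S (B.g k)⁻¹ (B.ψ B.R1 k) = bump 𝒢 B.R1 (B.g k) := by
        unfold D56_Blow.BU.ψ
        rw [tr_inv_tr]
      rw [e2] at e1
      rw [← e1]
      have e3 : C.V u k = C.D hu k + C.U hu := by
        simp [D56_Lim.BU.Cuts.D]
      have e4 := energy_add_le (C.D_mem hu k) (C.U_mem hu) (B.ψ_nonneg B.R1 k)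
      rw [← e3, key hu c hc _ hsupp'] at e4
      have e5 := mono (C.D_mem hu k) hle
      linarith
    have g1 := hV (i1 B) c1 h1
    have g2 := hV (i2 B) c2 h2
    have g3 : (B.m k)⁻¹ * Q.Γ u1 u1 (bump 𝒢 B.R1 (B.g k)) +
        (B.m k)⁻¹ * Q.Γ u2 u2 (bump 𝒢 B.R1 (B.g k)) = 1 := by
      rw [← mul_add, ← (B.typ k).mass, inv_mul_cancel₀ hm.ne']
    linarith
  have := ge_of_tendsto s3 hev
  linarith

include B in
/-- **the blow-up theorem** -/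
theorem pair : ∃ (a : Z) (F : Z → ℝ × ℝ),
    (∀ K : Set Z, IsCompact K → a ∉ K → ∃ O' : Set Z, IsOpen O' ∧ K ⊆ O' ∧ ∃ U V : C(Z, ℝ),
      ConfOn Q O' U V ∧ ∀ x ∈ O', F x = (U x, V x)) ∧
    (¬ ∃ c, ∀ x, x ≠ a → F x = c) ∧
    ∃ p q : ℝ, 0 < p ∧ ∀ K : Set Z, IsCompact K → a ∉ K → ∀ ε > 0, ∃ g : G,
      (∀ x ∈ K, g • x ∈ O) ∧ ∃ s c1 c2 : ℝ, 0 < s ∧ ∀ x ∈ K,
        |s * (u1 (g • x) - c1) - (F x).1| ≤ ε ∧
        |p * (s * (u2 (g • x) - c2)) + q * (s * (u1 (g • x) - c1)) - (F x).2| ≤ ε := by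
  obtain ⟨β11, β12, β22, h11, h12, h22, hs, hn1, hn2, hdet⟩ := gram_lim B
  have hθ := B.θ_pos
  have hdet' : 0 < β11 * β22 - β12 ^ 2 := lt_of_lt_of_le (by positivity) hdet
  set d : ℝ := Real.sqrt (β11 * β22 - β12 ^ 2) with hd
  have hd0 : 0 < d := Real.sqrt_pos.2 hdet'
  have hβ : 0 < β11 := by
    rcases hn1.eq_or_lt with h | h
    · rw [← h] at hdet'; nlinarith [sq_nonneg β12]
    · exact h
  have hp : 0 < β11 / d := div_pos hβ hd0
  refine ⟨B.a, fun x => (B.lim (i1 B) x, β11 / d * B.lim (i2 B) x + -β12 / d * B.lim (i1 B) x),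
    ?_, ?_, β11 / d, -β12 / d, hp, ?_⟩
  · intro K hK ha
    obtain ⟨C⟩ := D56_Lim.BU.exists_cuts B hK ha
    refine ⟨C.W0, C.o0, C.sub, _, _, conf B h11 h12 h22 hdet' C, fun x hx => ?_⟩
    have hx1 := C.W0_sub hx
    simp [C.U_eq (i1 B) hx1, C.U_eq (i2 B) hx1, hd]
  · rintro ⟨c, hc⟩
    have e1 : ∀ x, x ≠ B.a → B.lim (i1 B) x = c.1 := fun x hx => by rw [← hc x hx]
    refine nonconst B c.1 ((c.2 - -β12 / d * c.1) / (β11 / d)) e1 (fun x hx => ?_)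
    have e2 : β11 / d * B.lim (i2 B) x + -β12 / d * B.lim (i1 B) x = c.2 := by rw [← hc x hx]
    rw [e1 x hx] at e2
    rw [eq_div_iff hp.ne']
    linarith
  · intro K hK ha ε hε
    obtain ⟨R, hR⟩ := B.pole1 K hK ha
    set T : ℝ := 1 + β11 / d + |(-β12 / d)| with hT
    have hT0 : 0 < T := by positivity
    obtain ⟨k, h1, h2, h3, h4⟩ := (hR.and ((B.ev_sub R).and
      ((B.unif (i1 B) hK ha (div_pos hε hT0)).and (B.unif (i2 B) hK ha (div_pos hε hT0))))).exists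
    refine ⟨B.g k, fun x hx => h2 (h1 x hx), B.s k, u1 (B.g k • B.x0), u2 (B.g k • B.x0),
      B.s_pos k, fun x hx => ?_⟩
    have e1 := h3 x hx
    have e2 := h4 x hx
    rw [B.bl_apply] at e1 e2
    have e3 : ε / T ≤ ε := by
      rw [div_le_iff₀ hT0]
      have : 1 ≤ T := by
        have := abs_nonneg (-β12 / d)
        linarith
      nlinarith
    refine ⟨e1.trans e3, ?_⟩
    have e4 : β11 / d * (B.s k * (u2 (B.g k • x) - u2 (B.g k • B.x0))) +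
        -β12 / d * (B.s k * (u1 (B.g k • x) - u1 (B.g k • B.x0))) -
        (β11 / d * B.lim (i2 B) x + -β12 / d * B.lim (i1 B) x) =
        β11 / d * (B.s k * (u2 (B.g k • x) - u2 (B.g k • B.x0)) - B.lim (i2 B) x) +
        -β12 / d * (B.s k * (u1 (B.g k • x) - u1 (B.g k • B.x0)) - B.lim (i1 B) x) := by ring
    simp only
    rw [e4]
    refine (abs_add_le _ _).trans ?_
    rw [abs_mul, abs_mul, abs_of_pos hp]
    calc β11 / d * _ + |(-β12 / d)| * _ ≤ β11 / d * (ε / T) + |(-β12 / d)| * (ε / T) := by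
          gcongr
      _ ≤ T * (ε / T) := by
          rw [← add_mul]
          refine mul_le_mul_of_nonneg_right (by linarith) (by positivity)
      _ = ε := by field_simp

end Crest.Agent.R193.D56_Pair
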