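import Crest.Agent.R193.CPDefs
import Crest.Agent.R193.Defs
import Mathlib
import Crest.Agent.R193.Planar4
import Crest.Agent.R193.P_Comp
import Crest.Agent.R193.D_Defs
import Crest.Agent.R193.S_Basic
import Crest.Agent.R193.GEO_Levels
import Crest.Agent.R193.CPb3

-- ▼ part R193/CPa_Basic
section

/-!
R193, block D7: private algebra layer over `DForm` (Leibniz, one variable chain rule, locality,
cut-offs, Cauchy-Schwarz).
-/

set_option autoImplicit false

noncomputable section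

open Set Filter Topology MeasureTheory Metric

namespace Crest.Agent.R193.CPa_Basic

open Crest.Agent.R193

variable {G Z : Type} [Group G] [MetricSpace Z] [MulAction G Z] {S : Setup G Z} (Q : DForm S)

/-! ### membership -/

theorem zero_mem : (0 : C(Z, ℝ)) ∈ Q.Dom := by
  have := Q.const_mem 0
  convert this using 1
  ext x; simp

theorem one_mem : (1 : C(Z, ℝ)) ∈ Q.Dom := by
  have := Q.const_mem 1
  convert this using 1
  ext x; simp

theorem neg_mem {u : C(Z, ℝ)} (hu : u ∈ Q.Dom) : -u ∈ Q.Dom := by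
  have := Q.smul_mem (-1) u hu
  simpa using this

theorem sub_mem {u v : C(Z, ℝ)} (hu : u ∈ Q.Dom) (hv : v ∈ Q.Dom) : u - v ∈ Q.Dom := by
  rw [sub_eq_add_neg]
  exact Q.add_mem u hu _ (neg_mem Q hv)

/-! ### bilinearity -/

theorem zero_left {v : C(Z, ℝ)} (hv : v ∈ Q.Dom) (φ : C(Z, ℝ)) : Q.Γ 0 v φ = 0 := by
  have := Q.smul_left 0 0 (zero_mem Q) v hv φ
  simpa using this

theorem neg_left {u v : C(Z, ℝ)} (hu : u ∈ Q.Dom) (hv : v ∈ Q.Dom) (φ : C(Z, ℝ)) :
    Q.Γ (-u) v φ = - Q.Γ u v φ := by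
  have := Q.smul_left (-1) u hu v hv φ
  simpa using this

theorem sub_left {u u' v : C(Z, ℝ)} (hu : u ∈ Q.Dom) (hu' : u' ∈ Q.Dom) (hv : v ∈ Q.Dom)
    (φ : C(Z, ℝ)) : Q.Γ (u - u') v φ = Q.Γ u v φ - Q.Γ u' v φ := by
  rw [sub_eq_add_neg, Q.add_left u hu _ (neg_mem Q hu') v hv, neg_left Q hu' hv]
  ring

theorem add_right {u v v' : C(Z, ℝ)} (hu : u ∈ Q.Dom) (hv : v ∈ Q.Dom) (hv' : v' ∈ Q.Dom)
    (φ : C(Z, ℝ)) : Q.Γ u (v + v') φ = Q.Γ u v φ + Q.Γ u v' φ := by
  rw [Q.symm u hu _ (Q.add_mem v hv v' hv'), Q.add_left v hv v' hv' u hu, Q.symm v hv u hu,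
    Q.symm v' hv' u hu]

theorem smul_right {u v : C(Z, ℝ)} (c : ℝ) (hu : u ∈ Q.Dom) (hv : v ∈ Q.Dom)
    (φ : C(Z, ℝ)) : Q.Γ u (c • v) φ = c * Q.Γ u v φ := by
  rw [Q.symm u hu _ (Q.smul_mem c v hv), Q.smul_left c v hv u hu, Q.symm v hv u hu]




theorem zero_test {u v : C(Z, ℝ)} (hu : u ∈ Q.Dom) (hv : v ∈ Q.Dom) : Q.Γ u v 0 = 0 := by
  have := Q.smul_test 0 u hu v hv 0
  simpa using this

theorem neg_test {u v : C(Z, ℝ)} (hu : u ∈ Q.Dom) (hv : v ∈ Q.Dom) (φ : C(Z, ℝ)) :
    Q.Γ u v (-φ) = - Q.Γ u v φ := by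
  have := Q.smul_test (-1) u hu v hv φ
  simpa using this

theorem sub_test {u v : C(Z, ℝ)} (hu : u ∈ Q.Dom) (hv : v ∈ Q.Dom) (φ φ' : C(Z, ℝ)) :
    Q.Γ u v (φ - φ') = Q.Γ u v φ - Q.Γ u v φ' := by
  rw [sub_eq_add_neg, Q.add_test u hu v hv, neg_test Q hu hv]
  ring

theorem sub_test_eq {u v : C(Z, ℝ)} (hu : u ∈ Q.Dom) (hv : v ∈ Q.Dom) {φ φ' φ'' : C(Z, ℝ)} :
    Q.Γ u v (φ + φ' - φ'') = Q.Γ u v φ + Q.Γ u v φ' - Q.Γ u v φ'' := by
  rw [sub_test Q hu hv, Q.add_test u hu v hv]

theorem sum_test {ι : Type} {u v : C(Z, ℝ)} (hu : u ∈ Q.Dom) (hv : v ∈ Q.Dom) (s : Finset ι)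
    (φ : ι → C(Z, ℝ)) : Q.Γ u v (∑ i ∈ s, φ i) = ∑ i ∈ s, Q.Γ u v (φ i) := by
  classical
  induction s using Finset.induction_on with
  | empty => simp [zero_test Q hu hv]
  | insert a s ha ih => rw [Finset.sum_insert ha, Finset.sum_insert ha, Q.add_test u hu v hv, ih]

/-! ### Leibniz and chain rules -/

theorem leib {u v w : C(Z, ℝ)} (hu : u ∈ Q.Dom) (hv : v ∈ Q.Dom) (hw : w ∈ Q.Dom)
    (φ : C(Z, ℝ)) : Q.Γ (u * v) w φ = Q.Γ u w (φ * v) + Q.Γ v w (φ * u) := by
  have hd : ∀ p : ℝ × ℝ, HasFDerivAt (fun q : ℝ × ℝ => q.1 * q.2)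
      (p.1 • ContinuousLinearMap.snd ℝ ℝ ℝ + p.2 • ContinuousLinearMap.fst ℝ ℝ ℝ) p := by
    intro p
    exact (hasFDerivAt_fst).mul (hasFDerivAt_snd)
  have := Q.chain (fun q : ℝ × ℝ => q.1 * q.2) (contDiff_fst.mul contDiff_snd) u hu v hv
    (u * v) v u (fun x => rfl) (fun x => by rw [(hd _).fderiv]; simp)
    (fun x => by rw [(hd _).fderiv]; simp)
  exact this.2 w hw φ

theorem leib_right {u v w : C(Z, ℝ)} (hu : u ∈ Q.Dom) (hv : v ∈ Q.Dom) (hw : w ∈ Q.Dom)
    (φ : C(Z, ℝ)) : Q.Γ w (u * v) φ = Q.Γ w u (φ * v) + Q.Γ w v (φ * u) := by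
  rw [Q.symm w hw _ (Q.mul_mem u hu v hv), leib Q hu hv hw, Q.symm u hu w hw, Q.symm v hv w hw]

theorem chain1 {η : ℝ → ℝ} (hη : ContDiff ℝ 2 η) {u : C(Z, ℝ)} (hu : u ∈ Q.Dom)
    {w' d : C(Z, ℝ)} (hw' : ∀ x, w' x = η (u x)) (hd : ∀ x, d x = deriv η (u x)) :
    w' ∈ Q.Dom ∧ ∀ w ∈ Q.Dom, ∀ φ : C(Z, ℝ), Q.Γ w' w φ = Q.Γ u w (φ * d) := by
  have hdiff : Differentiable ℝ η := hη.differentiable (by norm_num)
  have hfd : ∀ p : ℝ × ℝ, HasFDerivAt (fun q : ℝ × ℝ => η q.1)
      (deriv η p.1 • ContinuousLinearMap.fst ℝ ℝ ℝ) p := by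
    intro p
    have h1 : HasDerivAt η (deriv η p.1) p.1 := (hdiff p.1).hasDerivAt
    exact h1.comp_hasFDerivAt p hasFDerivAt_fst
  have := Q.chain (fun q : ℝ × ℝ => η q.1) (hη.comp contDiff_fst) u hu 0 (zero_mem Q)
    w' d 0 (fun x => by simpa using hw' x)
    (fun x => by rw [(hfd _).fderiv]; simpa using hd x)
    (fun x => by rw [(hfd _).fderiv]; simp)
  refine ⟨this.1, fun w hw φ => ?_⟩
  rw [this.2 w hw φ]
  simp [zero_test Q (zero_mem Q) hw]

theorem one_left {v : C(Z, ℝ)} (hv : v ∈ Q.Dom) (φ : C(Z, ℝ)) : Q.Γ 1 v φ = 0 := by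
  have := leib Q (one_mem Q) (one_mem Q) hv φ
  simp only [mul_one] at this
  linarith

theorem const_left (c : ℝ) {v : C(Z, ℝ)} (hv : v ∈ Q.Dom) (φ : C(Z, ℝ)) :
    Q.Γ (ContinuousMap.const Z c) v φ = 0 := by
  have h : (ContinuousMap.const Z c) = c • (1 : C(Z, ℝ)) := by
    ext x; simp
  rw [h, Q.smul_left c _ (one_mem Q) v hv, one_left Q hv, mul_zero]


/-! ### positivity -/

theorem mono_test {u : C(Z, ℝ)} (hu : u ∈ Q.Dom) {φ φ' : C(Z, ℝ)} (h : ∀ x, φ x ≤ φ' x) :
    Q.Γ u u φ ≤ Q.Γ u u φ' := by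
  have h1 := Q.nonneg u hu (φ' - φ) (fun x => by simpa using h x)
  rw [sub_test Q hu hu] at h1
  linarith

theorem energy_add {u v : C(Z, ℝ)} (hu : u ∈ Q.Dom) (hv : v ∈ Q.Dom) (t : ℝ) (φ : C(Z, ℝ)) :
    Q.Γ (u + t • v) (u + t • v) φ = Q.Γ u u φ + 2 * t * Q.Γ u v φ + t ^ 2 * Q.Γ v v φ := by
  have htv := Q.smul_mem t v hv
  rw [Q.add_left u hu _ htv _ (Q.add_mem u hu _ htv), add_right Q hu hu htv,
    add_right Q htv hu htv, smul_right Q t hu hv, Q.smul_left t v hv u hu,
    Q.smul_left t v hv _ htv, smul_right Q t hv hv, Q.symm v hv u hu]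
  ring

theorem quad_nonneg {a b c : ℝ} (h : ∀ t : ℝ, 0 ≤ a + 2 * t * b + t ^ 2 * c) : b ^ 2 ≤ a * c := by
  have h' : ∀ t : ℝ, 0 ≤ c * (t * t) + (2 * b) * t + a := fun t => by
    have := h t; nlinarith
  have := discrim_le_zero h'
  unfold discrim at this
  nlinarith

theorem cs {u v : C(Z, ℝ)} (hu : u ∈ Q.Dom) (hv : v ∈ Q.Dom) {φ : C(Z, ℝ)}
    (hφ : ∀ x, 0 ≤ φ x) : (Q.Γ u v φ) ^ 2 ≤ Q.Γ u u φ * Q.Γ v v φ := by
  apply quad_nonneg
  intro t
  have htv := Q.smul_mem t v hv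
  have := Q.nonneg (u + t • v) (Q.add_mem u hu _ htv) φ hφ
  rwa [energy_add Q hu hv] at this


theorem abs_energy_le {u : C(Z, ℝ)} (hu : u ∈ Q.Dom) {φ : C(Z, ℝ)} {M : ℝ}
    (hφ : ∀ x, |φ x| ≤ M) : |Q.Γ u u φ| ≤ M * Q.Γ u u 1 := by
  have h1 := mono_test Q hu (φ := φ) (φ' := M • 1) (fun x => by
    simpa using (abs_le.1 (hφ x)).2)
  have h2 := mono_test Q hu (φ := (-M) • 1) (φ' := φ) (fun x => by
    simpa using (abs_le.1 (hφ x)).1)
  rw [Q.smul_test M u hu u hu] at h1
  rw [Q.smul_test (-M) u hu u hu] at h2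
  rw [abs_le]
  constructor <;> linarith

theorem abs_le' {u v : C(Z, ℝ)} (hu : u ∈ Q.Dom) (hv : v ∈ Q.Dom) {φ : C(Z, ℝ)} {M : ℝ}
    (hφ : ∀ x, |φ x| ≤ M) : |Q.Γ u v φ| ≤ M * (Q.Γ u u 1 + Q.Γ v v 1) / 2 := by
  have h1 := energy_add Q hu hv 1 φ
  have h2 := energy_add Q hu hv (-1) φ
  have h1' := energy_add Q hu hv 1 1
  have h2' := energy_add Q hu hv (-1) 1
  have b1 := abs_energy_le Q (Q.add_mem u hu _ (Q.smul_mem 1 v hv)) hφ
  have b2 := abs_energy_le Q (Q.add_mem u hu _ (Q.smul_mem (-1) v hv)) hφ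
  rw [h1, h1'] at b1
  rw [h2, h2'] at b2
  rw [abs_le] at *
  constructor <;> nlinarith [b1.1, b1.2, b2.1, b2.2]

/-- matrix positivity with a continuous coefficient -/
theorem quad_test [CompactSpace Z] {u v : C(Z, ℝ)} (hu : u ∈ Q.Dom) (hv : v ∈ Q.Dom)
    (a : C(Z, ℝ)) : 0 ≤ Q.Γ u u 1 + 2 * Q.Γ u v a + Q.Γ v v (a * a) := by
  set A := Q.Γ u u 1 + 2 * Q.Γ u v a + Q.Γ v v (a * a) with hA
  set B := Q.Γ u u 1 + Q.Γ v v 1 with hB
  have hE0 : 0 ≤ Q.Γ u u 1 := Q.nonneg u hu 1 (fun x => by simp)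
  have hE1 : 0 ≤ Q.Γ v v 1 := Q.nonneg v hv 1 (fun x => by simp)
  obtain ⟨M, hM⟩ : ∃ M : ℝ, ∀ x, |a x| ≤ M := ⟨‖a‖, fun x => a.norm_coe_le_norm x⟩
  by_contra hneg
  push Not at hneg
  -- choose δ
  have key : ∀ δ : ℝ, 0 < δ → -(δ * B + δ * (2 * |M| + δ) * Q.Γ v v 1) ≤ A := by
    intro δ hδ
    let W : Z → Set Z := fun x => {y | |a y - a x| < δ}
    have hWo : ∀ x, IsOpen (W x) := fun x =>
      isOpen_lt (by fun_prop) continuous_const
    have hWm : ∀ x, x ∈ W x := fun x => by simp [W, hδ]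
    obtain ⟨t, ht⟩ := isCompact_univ.elim_finite_subcover W hWo
      (fun x _ => mem_iUnion.2 ⟨x, hWm x⟩)
    let e := t.equivFin
    let s : Fin t.card → Set Z := fun i => W (e.symm i : Z)
    have hs : (univ : Set Z) ⊆ ⋃ i, s i := by
      intro x hx
      obtain ⟨y, hy⟩ := mem_iUnion.1 (ht hx)
      obtain ⟨hyt, hxy⟩ := mem_iUnion.1 hy
      exact mem_iUnion.2 ⟨e ⟨y, hyt⟩, by simpa [s] using hxy⟩
    obtain ⟨f, hf1, hf2, hf3, -⟩ := exists_continuous_sum_one_of_isOpen_isCompact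
      (s := s) (t := univ) (fun i => hWo _) isCompact_univ hs
    let c : Fin t.card → ℝ := fun i => a (e.symm i : Z)
    have hsum : ∀ x, ∑ i, f i x = 1 := fun x => by
      have := hf2 (mem_univ x)
      simpa using this
    have hclose : ∀ i x, f i x * |a x - c i| ≤ f i x * δ := by
      intro i x
      by_cases h0 : f i x = 0
      · simp [h0]
      · have hx : x ∈ s i := hf1 i (subset_tsupport _ h0)
        have : |a x - c i| < δ := hx
        exact mul_le_mul_of_nonneg_left this.le (hf3 i x).1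
    -- sum of nonnegative terms
    have hpos : 0 ≤ ∑ i, Q.Γ (u + c i • v) (u + c i • v) (f i) :=
      Finset.sum_nonneg fun i _ => Q.nonneg _ (Q.add_mem u hu _ (Q.smul_mem _ v hv)) _
        (fun x => (hf3 i x).1)
    have hexp : ∑ i, Q.Γ (u + c i • v) (u + c i • v) (f i)
        = Q.Γ u u (∑ i, f i) + 2 * Q.Γ u v (∑ i, c i • f i) + Q.Γ v v (∑ i, (c i ^ 2) • f i) := by
      rw [sum_test Q hu hu, sum_test Q hu hv, sum_test Q hv hv, Finset.mul_sum,
        ← Finset.sum_add_distrib, ← Finset.sum_add_distrib]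
      refine Finset.sum_congr rfl fun i _ => ?_
      rw [energy_add Q hu hv, Q.smul_test (c i) u hu v hv, Q.smul_test (c i ^ 2) v hv v hv]
      ring
    have h1 : Q.Γ u u (∑ i, f i) = Q.Γ u u 1 := by
      congr 1
      ext x
      simpa using hsum x
    have h2 : |Q.Γ u v ((∑ i, c i • f i) - a)| ≤ δ * (Q.Γ u u 1 + Q.Γ v v 1) / 2 := by
      apply abs_le' Q hu hv
      intro x
      have : ((∑ i, c i • f i) - a) x = ∑ i, f i x * (c i - a x) := by
        simp only [ContinuousMap.sub_apply, ContinuousMap.coe_sum, Finset.sum_apply,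
          ContinuousMap.coe_smul, Pi.smul_apply, smul_eq_mul]
        simp_rw [mul_sub]
        rw [Finset.sum_sub_distrib, ← Finset.sum_mul, hsum x, one_mul]
        congr 1
        exact Finset.sum_congr rfl fun i _ => mul_comm _ _
      rw [this]
      calc |∑ i, f i x * (c i - a x)| ≤ ∑ i, |f i x * (c i - a x)| :=
            Finset.abs_sum_le_sum_abs _ _
        _ ≤ ∑ i, f i x * δ := by
            refine Finset.sum_le_sum fun i _ => ?_
            rw [abs_mul, abs_of_nonneg (hf3 i x).1, abs_sub_comm]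
            exact hclose i x
        _ = δ := by rw [← Finset.sum_mul, hsum x, one_mul]
    have h3 : |Q.Γ v v ((∑ i, (c i ^ 2) • f i) - a * a)| ≤ (δ * (2 * |M| + δ)) * Q.Γ v v 1 := by
      apply abs_energy_le Q hv
      intro x
      have : ((∑ i, (c i ^ 2) • f i) - a * a) x = ∑ i, f i x * (c i ^ 2 - a x ^ 2) := by
        simp only [ContinuousMap.sub_apply, ContinuousMap.coe_sum, Finset.sum_apply,
          ContinuousMap.coe_smul, Pi.smul_apply, smul_eq_mul, ContinuousMap.mul_apply]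
        simp_rw [mul_sub]
        rw [Finset.sum_sub_distrib, ← Finset.sum_mul, hsum x, one_mul]
        congr 1
        · exact Finset.sum_congr rfl fun i _ => mul_comm _ _
        · ring
      rw [this]
      calc |∑ i, f i x * (c i ^ 2 - a x ^ 2)| ≤ ∑ i, |f i x * (c i ^ 2 - a x ^ 2)| :=
            Finset.abs_sum_le_sum_abs _ _
        _ ≤ ∑ i, f i x * (δ * (2 * |M| + δ)) := by
            refine Finset.sum_le_sum fun i _ => ?_
            rw [abs_mul, abs_of_nonneg (hf3 i x).1]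
            by_cases h0 : f i x = 0
            · simp [h0]
            · have hx : x ∈ s i := hf1 i (subset_tsupport _ h0)
              have hlt : |a x - c i| < δ := hx
              refine mul_le_mul_of_nonneg_left ?_ (hf3 i x).1
              have e1 : c i ^ 2 - a x ^ 2 = (c i - a x) * (c i + a x) := by ring
              rw [e1, abs_mul, abs_sub_comm]
              have hax : |a x| ≤ |M| := (hM x).trans (le_abs_self M)
              have e2 : |c i + a x| ≤ 2 * |M| + δ := by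
                have : c i + a x = 2 * a x - (a x - c i) := by ring
                rw [this]
                calc |2 * a x - (a x - c i)| ≤ |2 * a x| + |a x - c i| := abs_sub _ _
                  _ ≤ 2 * |M| + δ := by rw [abs_mul, abs_two]; linarith
              exact mul_le_mul hlt.le e2 (abs_nonneg _) hδ.le
        _ = δ * (2 * |M| + δ) := by rw [← Finset.sum_mul, hsum x, one_mul]
    rw [sub_test Q hu hv] at h2
    rw [sub_test Q hv hv] at h3
    rw [hexp, h1] at hpos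
    have h2' := (abs_le.1 h2).2
    have h3' := (abs_le.1 h3).2
    rw [hA, hB]
    linarith
  -- let δ → 0
  have hlim : Tendsto (fun δ : ℝ => -(δ * B + δ * (2 * |M| + δ) * Q.Γ v v 1)) (𝓝[>] 0)
      (𝓝 0) := by
    have : Tendsto (fun δ : ℝ => -(δ * B + δ * (2 * |M| + δ) * Q.Γ v v 1)) (𝓝 0)
        (𝓝 (-(0 * B + 0 * (2 * |M| + 0) * Q.Γ v v 1))) := by
      apply Continuous.tendsto
      fun_prop
    simp only [zero_mul, add_zero, neg_zero] at this
    exact this.mono_left nhdsWithin_le_nhds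
  have := le_of_tendsto hlim (b := A) (by
    filter_upwards [self_mem_nhdsWithin] with δ hδ using key δ hδ)
  linarith

/-- strong Cauchy-Schwarz -/
theorem cs_strong [CompactSpace Z] {u v : C(Z, ℝ)} (hu : u ∈ Q.Dom) (hv : v ∈ Q.Dom)
    (a : C(Z, ℝ)) : (Q.Γ u v a) ^ 2 ≤ Q.Γ u u 1 * Q.Γ v v (a * a) := by
  apply quad_nonneg
  intro t
  have := quad_test Q hu hv (t • a)
  rw [Q.smul_test t u hu v hv] at this
  have e : (t • a) * (t • a) = (t ^ 2) • (a * a) := by
    ext x; simp; ring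
  rw [e, Q.smul_test (t ^ 2) v hv v hv] at this
  linarith

/-! ### cut-offs -/

theorem one_sub_mem {u : C(Z, ℝ)} (hu : u ∈ Q.Dom) : 1 - u ∈ Q.Dom := sub_mem Q (one_mem Q) hu

/-- cut-off functions for a compact subset of an open set: `χ = 1` near `K`, `tsupport χ ⊆ O` -/
theorem cut_KO [CompactSpace Z] {K O : Set Z} (hK : IsCompact K) (hO : IsOpen O) (hKO : K ⊆ O) :
    ∃ χ ∈ Q.Dom, (∀ x, 0 ≤ χ x ∧ χ x ≤ 1) ∧ (∃ N : Set Z, IsOpen N ∧ K ⊆ N ∧ ∀ x ∈ N, χ x = 1) ∧
      tsupport χ ⊆ O := by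
  classical
  have hlam := Q.one_lt_lam
  have hlam0 : 0 < Q.lam := by linarith
  -- radii
  have hr : ∀ x ∈ K, ∃ ρ : ℝ, 0 < ρ ∧ ρ ≤ Q.ρ0 ∧ closedBall x (Q.lam * ρ) ⊆ O := by
    intro x hx
    obtain ⟨r, hr0, hr⟩ := Metric.isOpen_iff.1 hO x (hKO hx)
    refine ⟨min Q.ρ0 (r / (2 * Q.lam)), lt_min Q.ρ0_pos (by positivity), min_le_left _ _, ?_⟩
    refine (closedBall_subset_ball ?_).trans hr
    have : Q.lam * min Q.ρ0 (r / (2 * Q.lam)) ≤ Q.lam * (r / (2 * Q.lam)) :=
      mul_le_mul_of_nonneg_left (min_le_right _ _) hlam0.le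
    have h2 : Q.lam * (r / (2 * Q.lam)) = r / 2 := by field_simp
    linarith
  choose! ρ hρ0 hρ1 hρO using hr
  obtain ⟨t, htK, ht⟩ := hK.elim_nhds_subcover (fun x => ball x (ρ x))
    (fun x hx => ball_mem_nhds x (hρ0 x hx))
  have hc : ∀ x ∈ K, ∃ χ ∈ Q.Dom, (∀ y, 0 ≤ χ y ∧ χ y ≤ 1) ∧ (∀ y, dist y x ≤ ρ x → χ y = 1) ∧
      (∀ y, Q.lam * ρ x ≤ dist y x → χ y = 0) ∧ Q.Γ χ χ 1 ≤ Q.C0 := fun x hx =>
    Q.cutoff x (ρ x) (hρ0 x hx) (hρ1 x hx)
  choose! χ hχD hχ01 hχ1 hχ0 _hχE using hc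
  -- product of (1 - χ)
  have hprod : ∀ s : Finset Z, (∀ x ∈ s, x ∈ K) → (∏ x ∈ s, (1 - χ x)) ∈ Q.Dom := by
    intro s
    induction s using Finset.induction_on with
    | empty => intro _; simpa using one_mem Q
    | insert a s ha ih =>
      intro h
      rw [Finset.prod_insert ha]
      exact Q.mul_mem _ (one_sub_mem Q (hχD a (h a (Finset.mem_insert_self a s)))) _
        (ih fun x hx => h x (Finset.mem_insert_of_mem hx))
  have hval : ∀ y, (∏ x ∈ t, (1 - χ x)) y = ∏ x ∈ t, (1 - χ x y) := by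
    intro y
    simp [ContinuousMap.coe_prod]
  refine ⟨1 - ∏ x ∈ t, (1 - χ x), one_sub_mem Q (hprod t htK), ?_, ?_, ?_⟩
  · intro y
    have h1 : 0 ≤ ∏ x ∈ t, (1 - χ x y) := Finset.prod_nonneg fun x hx => by
      linarith [(hχ01 x (htK x hx) y).2]
    have h2 : ∏ x ∈ t, (1 - χ x y) ≤ 1 := Finset.prod_le_one
      (fun x hx => by linarith [(hχ01 x (htK x hx) y).2])
      (fun x hx => by linarith [(hχ01 x (htK x hx) y).1])
    rw [ContinuousMap.sub_apply, hval]
    simp only [ContinuousMap.one_apply]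
    constructor <;> linarith
  · refine ⟨⋃ x ∈ t, ball x (ρ x), isOpen_biUnion fun x _ => isOpen_ball, ht, ?_⟩
    intro y hy
    obtain ⟨x, hx, hyx⟩ := mem_iUnion₂.1 hy
    rw [ContinuousMap.sub_apply, hval, Finset.prod_eq_zero hx]
    · simp
    · rw [hχ1 x (htK x hx) y (le_of_lt hyx)]; ring
  · have hcl : IsClosed (⋃ x ∈ t, closedBall x (Q.lam * ρ x)) :=
      t.finite_toSet.isClosed_biUnion (fun x _ => isClosed_closedBall)
    refine (closure_minimal ?_ hcl).trans (iUnion₂_subset fun x hx => hρO x (htK x hx))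
    intro y hy
    by_contra hne
    apply hy
    rw [ContinuousMap.sub_apply, hval, Finset.prod_eq_one]
    · simp
    · intro x hx
      have : y ∉ closedBall x (Q.lam * ρ x) := fun h => hne (mem_iUnion₂.2 ⟨x, hx, h⟩)
      rw [mem_closedBall, not_le] at this
      rw [hχ0 x (htK x hx) y this.le]; ring

/-! ### locality -/

theorem local_zero [CompactSpace Z] {u v φ : C(Z, ℝ)} (hu : u ∈ Q.Dom) (hv : v ∈ Q.Dom)
    {W : Set Z} (hW : IsOpen W) (h0 : ∀ x ∈ W, u x = 0) (hφ : tsupport φ ⊆ W) :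
    Q.Γ u v φ = 0 := by
  obtain ⟨χ, hχ, -, ⟨N, hN, hKN, h1⟩, hsup⟩ :=
    cut_KO Q (isClosed_tsupport φ).isCompact hW hφ
  have e1 : u * χ = 0 := by
    ext x
    by_cases hx : x ∈ W
    · simp [h0 x hx]
    · have : χ x = 0 := by
        by_contra hne
        exact hx (hsup (subset_tsupport _ hne))
      simp [this]
  have e2 : φ * χ = φ := by
    ext x
    by_cases hx : φ x = 0
    · simp [hx]
    · have : χ x = 1 := h1 x (hKN (subset_tsupport _ hx))
      simp [this]
  have e3 : φ * u = 0 := by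
    ext x
    by_cases hx : φ x = 0
    · simp [hx]
    · have : u x = 0 := h0 x (hφ (subset_tsupport _ hx))
      simp [this]
  have := leib Q hu hχ hv φ
  rw [e1, e2, e3, zero_left Q hv, zero_test Q hχ hv] at this
  linarith


/-- `Γ χ v φ = 0` when `χ` is locally `0` or locally `1` near the support of `φ` -/
theorem local_01 [CompactSpace Z] {χ v φ : C(Z, ℝ)} (hχ : χ ∈ Q.Dom) (hv : v ∈ Q.Dom)
    {W : Set Z} (hW : IsOpen W) (h01 : ∀ x ∈ W, χ x = 0 ∨ χ x = 1) (hφ : tsupport φ ⊆ W) :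
    Q.Γ χ v φ = 0 := by
  -- u = χ * χ - χ vanishes on W
  have hu : χ * χ - χ ∈ Q.Dom := sub_mem Q (Q.mul_mem χ hχ χ hχ) hχ
  have h0 : ∀ ψ : C(Z, ℝ), tsupport ψ ⊆ W → Q.Γ (χ * χ - χ) v ψ = 0 := fun ψ hψ =>
    local_zero Q hu hv hW (fun x hx => by
      rcases h01 x hx with h | h <;> simp [h]) hψ
  have h1 : Q.Γ (χ * χ - χ) v (φ * (χ + χ - 1)) = 0 := by
    apply h0
    refine (closure_mono ?_).trans hφ
    intro x hx hx2
    apply hx
    simp [hx2]
  rw [sub_left Q (Q.mul_mem χ hχ χ hχ) hχ hv, leib Q hχ hχ hv, ← sub_test_eq Q hχ hv] at h1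
  have e : φ * (χ + χ - 1) * χ + φ * (χ + χ - 1) * χ - φ * (χ + χ - 1) = φ := by
    ext x
    by_cases hx : φ x = 0
    · simp [hx]
    · rcases h01 x (hφ (subset_tsupport _ hx)) with h | h <;> simp [h]
  rwa [e] at h1

end Crest.Agent.R193.CPa_Basic
end
end

-- ▼ part R193/CPa_Harm
section

/-!
R193, block D7: sub- and superharmonic functions over a `DForm`: maximum principle,
log-Caccioppoli, Harnack loops, strong maximum principle.
-/

set_option autoImplicit false

noncomputable section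

open Set Filter Topology MeasureTheory Metric

namespace Crest.Agent.R193.CPa_Harm

open Crest.Agent.R193 Crest.Agent.R193.CPa_Basic

variable {G Z : Type} [Group G] [MetricSpace Z] [MulAction G Z] {S : Setup G Z} (Q : DForm S)

/-- irreducibility: zero energy implies constant -/
def Irr (Q : DForm S) : Prop := ∀ f ∈ Q.Dom, Q.Γ f f 1 = 0 → ∀ x y, f x = f y

/-- `u` is subharmonic on `O` -/
def SubH (Q : DForm S) (O : Set Z) (u : C(Z, ℝ)) : Prop :=
  u ∈ Q.Dom ∧ ∀ w ∈ Q.Dom, (∀ x, 0 ≤ w x) → tsupport w ⊆ O → Q.Γ u w 1 ≤ 0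

/-- `u` is superharmonic on `O` -/
def SupH (Q : DForm S) (O : Set Z) (u : C(Z, ℝ)) : Prop :=
  u ∈ Q.Dom ∧ ∀ w ∈ Q.Dom, (∀ x, 0 ≤ w x) → tsupport w ⊆ O → 0 ≤ Q.Γ u w 1

theorem SupH.neg {Q : DForm S} {O : Set Z} {u : C(Z, ℝ)} (h : SupH Q O u) : SubH Q O (-u) :=
  ⟨neg_mem Q h.1, fun w hw h0 hs => by rw [neg_left Q h.1 hw]; linarith [h.2 w hw h0 hs]⟩

theorem SubH.neg {Q : DForm S} {O : Set Z} {u : C(Z, ℝ)} (h : SubH Q O u) : SupH Q O (-u) :=
  ⟨neg_mem Q h.1, fun w hw h0 hs => by rw [neg_left Q h.1 hw]; linarith [h.2 w hw h0 hs]⟩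

theorem SupH.mono {Q : DForm S} {O O' : Set Z} {u : C(Z, ℝ)} (h : SupH Q O u) (hO : O' ⊆ O) :
    SupH Q O' u := ⟨h.1, fun w hw h0 hs => h.2 w hw h0 (hs.trans hO)⟩

theorem SubH.mono {Q : DForm S} {O O' : Set Z} {u : C(Z, ℝ)} (h : SubH Q O u) (hO : O' ⊆ O) :
    SubH Q O' u := ⟨h.1, fun w hw h0 hs => h.2 w hw h0 (hs.trans hO)⟩

theorem harm_subH {Q : DForm S} {O : Set Z} {u : C(Z, ℝ)} (h : Harm Q O u) : SubH Q O u :=
  ⟨h.1, fun w hw _ hs => (h.2 w hw hs).le⟩

theorem harm_supH {Q : DForm S} {O : Set Z} {u : C(Z, ℝ)} (h : Harm Q O u) : SupH Q O u :=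
  ⟨h.1, fun w hw _ hs => (h.2 w hw hs).ge⟩


/-! ### a smooth function vanishing on `(-∞, 0]`, increasing on `[0, ∞)` -/

/-- `η t = t³` for `t ≥ 0`, `0` otherwise: a `C²` function -/
def cub (t : ℝ) : ℝ := if 0 ≤ t then t ^ 3 else 0

/-- its derivative -/
def cub' (t : ℝ) : ℝ := if 0 ≤ t then 3 * t ^ 2 else 0

/-- its second derivative -/
def cub'' (t : ℝ) : ℝ := if 0 ≤ t then 6 * t else 0

theorem hasDerivAt_piece {f g : ℝ → ℝ} (hf : ∀ t, HasDerivAt f (g t) t) (hf0 : f 0 = 0)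
    (hg0 : g 0 = 0) (t : ℝ) :
    HasDerivAt (fun t => if 0 ≤ t then f t else 0) (if 0 ≤ t then g t else 0) t := by
  rcases lt_trichotomy t 0 with h | h | h
  · rw [if_neg (not_le.2 h)]
    have : (fun t => if 0 ≤ t then f t else 0) =ᶠ[𝓝 t] fun _ => (0:ℝ) := by
      filter_upwards [Iio_mem_nhds h] with s hs
      rw [if_neg (not_le.2 hs)]
    exact (hasDerivAt_const t (0:ℝ)).congr_of_eventuallyEq this
  · subst h
    rw [if_pos le_rfl, hg0]
    have h1 := hf 0
    rw [hg0] at h1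
    rw [hasDerivAt_iff_isLittleO] at h1 ⊢
    simp only [hf0, sub_zero, smul_zero, if_pos le_rfl] at h1 ⊢
    refine Asymptotics.IsLittleO.congr' ?_ EventuallyEq.rfl EventuallyEq.rfl (f₁ := fun x => if 0 ≤ x then f x else 0)
    refine (Asymptotics.IsBigO.of_bound 1 (Eventually.of_forall fun x => ?_)).trans_isLittleO h1
    split_ifs <;> simp
  · rw [if_pos h.le]
    have : (fun t => if 0 ≤ t then f t else 0) =ᶠ[𝓝 t] f := by
      filter_upwards [Ioi_mem_nhds h] with s hs
      rw [if_pos (le_of_lt hs)]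
    exact (hf t).congr_of_eventuallyEq this

theorem hasDerivAt_cub (t : ℝ) : HasDerivAt cub (cub' t) t := by
  have := hasDerivAt_piece (f := fun t => t ^ 3) (g := fun t => 3 * t ^ 2)
    (fun t => by simpa using hasDerivAt_pow 3 t) (by norm_num) (by norm_num) t
  exact this

theorem hasDerivAt_cub' (t : ℝ) : HasDerivAt cub' (cub'' t) t := by
  have := hasDerivAt_piece (f := fun t => 3 * t ^ 2) (g := fun t => 6 * t)
    (fun t => by
      have := (hasDerivAt_pow 2 t).const_mul 3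
      have e : (3:ℝ) * (((2:ℕ):ℝ) * t ^ (2 - 1)) = 6 * t := by norm_num; ring
      rw [e] at this
      exact this) (by norm_num) (by norm_num) t
  exact this

theorem deriv_cub : deriv cub = cub' := funext fun t => (hasDerivAt_cub t).deriv

theorem deriv_cub' : deriv cub' = cub'' := funext fun t => (hasDerivAt_cub' t).deriv

theorem continuous_cub'' : Continuous cub'' := by
  unfold cub''
  exact Continuous.if_le (by fun_prop) continuous_const continuous_const continuous_id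
    (fun x hx => by rw [← hx]; norm_num)

theorem contDiff_cub : ContDiff ℝ 2 cub := by
  have h2 : (2 : WithTop ℕ∞) = 1 + 1 := by norm_num
  rw [h2, contDiff_succ_iff_deriv]
  refine ⟨fun t => (hasDerivAt_cub t).differentiableAt, by simp, ?_⟩
  rw [deriv_cub, contDiff_one_iff_deriv]
  refine ⟨fun t => (hasDerivAt_cub' t).differentiableAt, ?_⟩
  rw [deriv_cub']
  exact continuous_cub''

theorem continuous_cub' : Continuous cub' :=
  continuous_iff_continuousAt.2 fun t => (hasDerivAt_cub' t).continuousAt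

theorem continuous_cub : Continuous cub :=
  continuous_iff_continuousAt.2 fun t => (hasDerivAt_cub t).continuousAt

theorem cub_nonneg (t : ℝ) : 0 ≤ cub t := by unfold cub; split_ifs <;> positivity
theorem cub'_nonneg (t : ℝ) : 0 ≤ cub' t := by unfold cub'; split_ifs <;> positivity
theorem cub_eq_zero_iff (t : ℝ) : cub t = 0 ↔ t ≤ 0 := by
  unfold cub
  split_ifs with h
  · constructor
    · intro h2
      exact (pow_eq_zero_iff (by norm_num)).1 h2 |>.le
    · intro h2
      rw [le_antisymm h2 h]; norm_num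
  · simp only [true_iff]; exact (not_le.1 h).le

/-- **Maximum principle** for subharmonic functions. -/
theorem max_principle [CompactSpace Z] (hirr : Irr Q) {O V : Set Z} {u : C(Z, ℝ)}
    (hu : SubH Q O u) (hV : IsOpen V) (hVO : V ⊆ O) (hVne : V ≠ univ) {M : ℝ}
    (hM : ∀ y ∈ frontier V, u y ≤ M) : ∀ x ∈ V, u x ≤ M := by
  -- it suffices to show `u x ≤ M'` for all `M' > M`
  intro x hx
  refine le_of_forall_gt_imp_ge_of_dense fun M' hM' => ?_
  set K : Set Z := closure V ∩ {y | M' ≤ u y} with hK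
  have hKc : IsCompact K :=
    (isClosed_closure.inter (isClosed_le continuous_const u.continuous)).isCompact
  have hKV : K ⊆ V := by
    rintro y ⟨hy1, hy2⟩
    by_contra hne
    have : y ∈ frontier V := ⟨hy1, by rwa [hV.interior_eq]⟩
    have h1 := hM y this
    have h2 : M' ≤ u y := hy2
    linarith
  obtain ⟨χ, hχ, hχ01, ⟨N, hN, hKN, hN1⟩, hχs⟩ := cut_KO Q hKc hV hKV
  -- η ∘ (u - M')
  let η : ℝ → ℝ := fun t => cub (t - M')
  have hη : ContDiff ℝ 2 η := contDiff_cub.comp (contDiff_id.sub contDiff_const)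
  have hηd : ∀ t, deriv η t = cub' (t - M') := fun t => by
    exact ((hasDerivAt_cub (t - M')).comp_sub_const t M').deriv
  let e : C(Z, ℝ) := ⟨fun z => cub (u z - M'), continuous_cub.comp (by fun_prop)⟩
  let d : C(Z, ℝ) := ⟨fun z => cub' (u z - M'), continuous_cub'.comp (by fun_prop)⟩
  have hch := chain1 Q hη hu.1 (w' := e) (d := d) (fun z => rfl) (fun z => (hηd _).symm)
  obtain ⟨heD, heΓ⟩ := hch
  have he0 : ∀ z, 0 ≤ e z := fun z => cub_nonneg _
  have hd0 : ∀ z, 0 ≤ d z := fun z => cub'_nonneg _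
  -- `χ` is locally constant (0 or 1) near the support of `e`
  set W : Set Z := N ∪ (tsupport χ)ᶜ with hW
  have hWo : IsOpen W := hN.union (isClosed_tsupport χ).isOpen_compl
  have hW01 : ∀ z ∈ W, χ z = 0 ∨ χ z = 1 := by
    rintro z (hz | hz)
    · exact Or.inr (hN1 z hz)
    · left
      by_contra hne
      exact hz (subset_tsupport _ hne)
  have hsupp : {z | M' ≤ u z} ⊆ W := by
    intro z hz
    by_cases hzV : z ∈ V
    · exact Or.inl (hKN ⟨subset_closure hzV, hz⟩)
    · exact Or.inr fun h => hzV (hχs h)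
  have hes : tsupport e ⊆ W := by
    refine (closure_minimal ?_ (isClosed_le continuous_const u.continuous)).trans hsupp
    intro z hz
    by_contra hne
    have h1 : ¬ M' ≤ u z := hne
    apply hz
    change cub (u z - M') = 0
    rw [cub_eq_zero_iff]
    push Not at h1
    linarith
  have hds : ∀ φ : C(Z, ℝ), tsupport (φ * d : C(Z, ℝ)) ⊆ W := by
    intro φ
    refine (closure_minimal ?_ (isClosed_le continuous_const u.continuous)).trans hsupp
    intro z hz
    by_contra hne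
    have h1 : ¬ M' ≤ u z := hne
    apply hz
    push Not at h1
    have : d z = 0 := by
      change cub' (u z - M') = 0
      unfold cub'
      rw [if_neg (by linarith)]
    simp [this]
  -- test function
  have hwD : χ * e ∈ Q.Dom := Q.mul_mem χ hχ e heD
  have hws : tsupport (χ * e : C(Z, ℝ)) ⊆ O := by
    refine (closure_mono ?_).trans (hχs.trans hVO)
    intro z hz h
    apply hz
    simp [h]
  have hw0 : ∀ z, 0 ≤ (χ * e) z := fun z => mul_nonneg (hχ01 z).1 (he0 z)
  have h1 := hu.2 (χ * e) hwD hw0 hws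
  have h2 : Q.Γ u (χ * e) 1 = Q.Γ u u (χ * d) := by
    rw [leib_right Q hχ heD hu.1, one_mul, one_mul, Q.symm u hu.1 χ hχ,
      local_01 Q hχ hu.1 hWo hW01 hes, zero_add, Q.symm u hu.1 e heD, heΓ u hu.1]
  rw [h2] at h1
  have h3 : Q.Γ u u (χ * d) = 0 :=
    le_antisymm h1 (Q.nonneg u hu.1 _ fun z => mul_nonneg (hχ01 z).1 (hd0 z))
  -- energy of `χ * e`
  obtain ⟨B, hB⟩ : ∃ B : ℝ, ∀ z, |(χ * d) z| ≤ B := ⟨‖χ * d‖, fun z => (χ * d).norm_coe_le_norm z⟩
  have hE : Q.Γ (χ * e) (χ * e) 1 = Q.Γ u u ((χ * d) * (χ * d)) := by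
    rw [leib Q hχ heD hwD, one_mul, one_mul, leib_right Q hχ heD hχ, leib_right Q hχ heD heD,
      Q.symm e heD χ hχ, heΓ e heD, Q.symm u hu.1 e heD, heΓ u hu.1]
    have z1 : Q.Γ χ χ (e * e) = 0 := by
      apply local_01 Q hχ hχ hWo hW01
      refine (closure_mono ?_).trans hes
      intro z hz h
      apply hz
      simp [h]
    have z2 : Q.Γ χ e (e * χ) = 0 := by
      apply local_01 Q hχ heD hWo hW01
      refine (closure_mono ?_).trans hes
      intro z hz h
      apply hz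
      simp [h]
    have z3 : Q.Γ χ e (χ * e) = 0 := by rw [mul_comm]; exact z2
    rw [z1, z2, z3]
    simp only [zero_add]
    congr 1
    ext z
    simp only [ContinuousMap.mul_apply]
    ring
  have hE0 : Q.Γ (χ * e) (χ * e) 1 = 0 := by
    apply le_antisymm
    · rw [hE]
      calc Q.Γ u u ((χ * d) * (χ * d)) ≤ Q.Γ u u (B • (χ * d)) := by
            apply mono_test Q hu.1
            intro z
            have h0 : 0 ≤ (χ * d) z := mul_nonneg (hχ01 z).1 (hd0 z)
            have := (le_abs_self _).trans (hB z)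
            simp only [ContinuousMap.mul_apply, ContinuousMap.smul_apply, smul_eq_mul] at *
            exact mul_le_mul_of_nonneg_right this h0
        _ = 0 := by rw [Q.smul_test B u hu.1 u hu.1, h3, mul_zero]
    · exact Q.nonneg _ hwD 1 (fun z => by simp)
  -- conclusion
  obtain ⟨y, hy⟩ := (ne_univ_iff_exists_notMem V).1 hVne
  have hχy : χ y = 0 := by
    by_contra hne
    exact hy (hχs (subset_tsupport _ hne))
  have h5 := hirr _ hwD hE0 x y
  have h6 : (χ * e) x = 0 := by rw [h5]; simp [hχy]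
  by_contra hcon
  push Not at hcon
  have hxK : x ∈ K := ⟨subset_closure hx, hcon.le⟩
  have hχx : χ x = 1 := hN1 x (hKN hxK)
  have hex : e x = 0 := by simpa [hχx] using h6
  have := (cub_eq_zero_iff _).1 hex
  linarith

/-- **Minimum principle** for superharmonic functions. -/
theorem min_principle [CompactSpace Z] (hirr : Irr Q) {O V : Set Z} {u : C(Z, ℝ)}
    (hu : SupH Q O u) (hV : IsOpen V) (hVO : V ⊆ O) (hVne : V ≠ univ) {M : ℝ}
    (hM : ∀ y ∈ frontier V, M ≤ u y) : ∀ x ∈ V, M ≤ u x := by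
  intro x hx
  have := max_principle Q hirr hu.neg hV hVO hVne (M := -M)
    (fun y hy => by simpa using hM y hy) x hx
  simpa using this

end Crest.Agent.R193.CPa_Harm
end
end

-- ▼ part R193/CPa_Loop
section

/-!
R193, block D7: loops.  The inside of a separating set; log-Caccioppoli; Harnack loops; strong
maximum principle.
-/

set_option autoImplicit false

noncomputable section

open Set Filter Topology MeasureTheory Metric

namespace Crest.Agent.R193.CPa_Loop

open Crest.Agent.R193 Crest.Agent.R193.CPa_Basic Crest.Agent.R193.CPa_Harm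

/-! ### inside of a separator -/
section top
variable {Z : Type} [TopologicalSpace Z]

/-- union of the components of the complement of `σ` that meet `D` -/
def inside (σ D : Set Z) : Set Z := ⋃ z ∈ D \ σ, connectedComponentIn σᶜ z

theorem isOpen_inside [LocallyConnectedSpace Z] {σ : Set Z} (hσ : IsClosed σ) (D : Set Z) :
    IsOpen (inside σ D) :=
  isOpen_biUnion fun _ _ => hσ.isOpen_compl.connectedComponentIn

theorem diff_subset_inside (σ D : Set Z) : D \ σ ⊆ inside σ D := fun z hz =>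
  mem_iUnion₂.2 ⟨z, hz, mem_connectedComponentIn hz.2⟩

theorem inside_inter {σ D E : Set Z} (h : Separates σ D E) : inside σ D ∩ E = ∅ := by
  by_contra hne
  obtain ⟨y, hy, hyE⟩ := nonempty_iff_ne_empty.2 hne
  obtain ⟨z, hz, hyz⟩ := mem_iUnion₂.1 hy
  obtain ⟨x, hx, hxσ⟩ := h _ isPreconnected_connectedComponentIn
    ⟨z, mem_connectedComponentIn (F := σᶜ) hz.2, hz.1⟩ ⟨y, hyz, hyE⟩
  exact connectedComponentIn_subset _ _ hx hxσ

theorem inside_inter_self (σ D : Set Z) : inside σ D ∩ σ = ∅ := by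
  by_contra hne
  obtain ⟨y, hy, hyE⟩ := nonempty_iff_ne_empty.2 hne
  obtain ⟨z, hz, hyz⟩ := mem_iUnion₂.1 hy
  exact connectedComponentIn_subset _ _ hyz hyE

theorem frontier_inside [LocallyConnectedSpace Z] {σ : Set Z} (hσ : IsClosed σ) (D : Set Z) :
    frontier (inside σ D) ⊆ σ := by
  intro y hy
  by_contra hyσ
  have hC : IsOpen (connectedComponentIn σᶜ y) := hσ.isOpen_compl.connectedComponentIn
  obtain ⟨x, hx1, hx2⟩ := mem_closure_iff.1 hy.1 _ hC (mem_connectedComponentIn hyσ)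
  obtain ⟨z, hz, hxz⟩ := mem_iUnion₂.1 hx2
  have e1 := connectedComponentIn_eq hx1
  have e2 := connectedComponentIn_eq hxz
  have : y ∈ inside σ D := by
    refine mem_iUnion₂.2 ⟨z, hz, ?_⟩
    rw [e2, ← e1]
    exact mem_connectedComponentIn hyσ
  apply hy.2
  rwa [(isOpen_inside hσ D).interior_eq]

end top

variable {G Z : Type} [Group G] [MetricSpace Z] [MulAction G Z] {S : Setup G Z} (Q : DForm S)

/-! ### locality, second form -/

theorem local_zero' [CompactSpace Z] {u f : C(Z, ℝ)} (hu : u ∈ Q.Dom) (hf : f ∈ Q.Dom)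
    {W : Set Z} (hW : IsOpen W) (h0 : ∀ x ∈ W, u x = 0) (hs : tsupport f ⊆ W) (φ : C(Z, ℝ)) :
    Q.Γ u f φ = 0 := by
  obtain ⟨κ, hκ, -, ⟨N, hN, hKN, h1⟩, hsup⟩ :=
    cut_KO Q (isClosed_tsupport f).isCompact hW hs
  have e : φ = φ * κ + φ * (1 - κ) := by ring
  rw [e, Q.add_test u hu f hf]
  have a1 : Q.Γ u f (φ * κ) = 0 := by
    apply local_zero Q hu hf hW h0
    refine (closure_mono ?_).trans hsup
    intro x hx h
    apply hx
    simp [h]
  have a2 : Q.Γ u f (φ * (1 - κ)) = 0 := by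
    rw [Q.symm u hu f hf]
    apply local_zero Q hf hu (isClosed_tsupport f).isOpen_compl
    · intro x hx
      by_contra hne
      exact hx (subset_tsupport _ hne)
    · have : tsupport (φ * (1 - κ) : C(Z, ℝ)) ⊆ Nᶜ := by
        refine closure_minimal ?_ hN.isClosed_compl
        intro x hx hxN
        apply hx
        simp [h1 x hxN]
      exact this.trans (compl_subset_compl.2 hKN)
  rw [a1, a2, add_zero]

theorem local_congr' [CompactSpace Z] {u u' f : C(Z, ℝ)} (hu : u ∈ Q.Dom) (hu' : u' ∈ Q.Dom)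
    (hf : f ∈ Q.Dom) {W : Set Z} (hW : IsOpen W) (h0 : ∀ x ∈ W, u x = u' x)
    (hs : tsupport f ⊆ W) (φ : C(Z, ℝ)) : Q.Γ u f φ = Q.Γ u' f φ := by
  have := local_zero' Q (sub_mem Q hu hu') hf hW (fun x hx => by simp [h0 x hx]) hs φ
  rw [sub_left Q hu hu' hf] at this
  linarith

/-! ### smooth extension of the logarithm -/

theorem exists_log_ext {m : ℝ} (hm : 0 < m) : ∃ η ι : ℝ → ℝ, ContDiff ℝ 2 η ∧ ContDiff ℝ 2 ι ∧
    (∀ t, m ≤ t → η t = Real.log t ∧ deriv η t = t⁻¹ ∧ ι t = t⁻¹ ∧ deriv ι t = -(t⁻¹ * t⁻¹)) := by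
  let s : ℝ → ℝ := fun t => Real.smoothTransition ((t - m / 4) / (m / 4))
  let h : ℝ → ℝ := fun t => s t * t + (1 - s t) * (m / 4)
  have hs : ContDiff ℝ 2 s := Real.smoothTransition.contDiff.comp (by fun_prop)
  have hs0 : ∀ t, 0 ≤ s t := fun t => Real.smoothTransition.nonneg _
  have hs1 : ∀ t, s t ≤ 1 := fun t => Real.smoothTransition.le_one _
  have hh : ContDiff ℝ 2 h := by
    apply ContDiff.add
    · exact hs.mul contDiff_id
    · exact (contDiff_const.sub hs).mul contDiff_const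
  have hpos : ∀ t, 0 < h t := by
    intro t
    by_cases ht : t ≤ m / 4
    · have : s t = 0 := Real.smoothTransition.zero_of_nonpos (by
        apply div_nonpos_of_nonpos_of_nonneg <;> linarith)
      simp only [h, this]
      linarith
    · push Not at ht
      have h1 := hs0 t
      have h2 := hs1 t
      simp only [h]
      nlinarith
  have hid : ∀ t, m / 2 ≤ t → h t = t := by
    intro t ht
    have : s t = 1 := Real.smoothTransition.one_of_one_le (by
      rw [le_div_iff₀ (by linarith)]; linarith)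
    simp only [h, this]
    ring
  refine ⟨fun t => Real.log (h t), fun t => (h t)⁻¹, hh.log fun t => (hpos t).ne',
    hh.inv fun t => (hpos t).ne', ?_⟩
  intro t ht
  have htm : m / 2 < t := by linarith
  have ht0 : 0 < t := by linarith
  have e : (fun t => h t) =ᶠ[𝓝 t] fun t => t := by
    filter_upwards [Ioi_mem_nhds htm] with r hr using hid r (le_of_lt hr)
  have e1 : (fun t => Real.log (h t)) =ᶠ[𝓝 t] Real.log := by
    filter_upwards [e] with r hr
    exact congrArg Real.log hr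
  have e2 : (fun t => (h t)⁻¹) =ᶠ[𝓝 t] fun t => t⁻¹ := by
    filter_upwards [e] with r hr
    exact congrArg (fun t : ℝ => t⁻¹) hr
  refine ⟨congrArg Real.log (hid t htm.le), ?_, congrArg (fun t : ℝ => t⁻¹) (hid t htm.le), ?_⟩
  · rw [e1.deriv_eq, Real.deriv_log]
  · rw [e2.deriv_eq, deriv_inv]
    ring

/-- **log-Caccioppoli** -/
theorem log_cacc [CompactSpace Z] {O : Set Z} {w : C(Z, ℝ)} (hw : SupH Q O w) {m : ℝ}
    (hm : 0 < m) (hwm : ∀ x, m ≤ w x) {χ : C(Z, ℝ)} (hχ : χ ∈ Q.Dom) (hχs : tsupport χ ⊆ O) :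
    ∃ L ∈ Q.Dom, (∀ x, L x = Real.log (w x)) ∧ Q.Γ L L (χ * χ) ≤ 4 * Q.Γ χ χ 1 := by
  obtain ⟨η, ι, hη, hι, hext⟩ := exists_log_ext hm
  let L : C(Z, ℝ) := ⟨fun x => Real.log (w x),
    w.continuous.log fun x => (lt_of_lt_of_le hm (hwm x)).ne'⟩
  let I : C(Z, ℝ) := ⟨fun x => (w x)⁻¹,
    w.continuous.inv₀ fun x => (lt_of_lt_of_le hm (hwm x)).ne'⟩
  obtain ⟨hL, hLΓ⟩ := chain1 Q hη hw.1 (w' := L) (d := I)
    (fun x => (hext _ (hwm x)).1.symm) (fun x => (hext _ (hwm x)).2.1.symm)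
  obtain ⟨hI, hIΓ⟩ := chain1 Q hι hw.1 (w' := I) (d := -(I * I))
    (fun x => (hext _ (hwm x)).2.2.1.symm) (fun x => (hext _ (hwm x)).2.2.2.symm)
  refine ⟨L, hL, fun x => rfl, ?_⟩
  have hχχ := Q.mul_mem χ hχ χ hχ
  have hI0 : ∀ x, 0 ≤ I x := fun x => inv_nonneg.2 ((hm.le).trans (hwm x))
  -- test with χ² / w
  have h1 := hw.2 (χ * χ * I) (Q.mul_mem _ hχχ I hI)
    (fun x => mul_nonneg (mul_self_nonneg _) (hI0 x)) (by
      refine (closure_mono ?_).trans hχs
      intro x hx h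
      apply hx
      simp [h])
  have h2 : Q.Γ w (χ * χ * I) 1 = 2 * Q.Γ χ L χ - Q.Γ L L (χ * χ) := by
    rw [leib_right Q hχχ hI hw.1, leib_right Q hχ hχ hw.1, Q.symm w hw.1 I hI, hIΓ w hw.1,
      Q.symm χ hχ L hL, hLΓ χ hχ, hLΓ L hL, Q.symm w hw.1 L hL, hLΓ w hw.1]
    have e1 : (1 : C(Z, ℝ)) * (χ * χ) * -(I * I) = -(χ * χ * I * I) := by ring
    have e2 : (1 : C(Z, ℝ)) * I * χ = χ * I := by ring
    rw [e1, e2, neg_test Q hw.1 hw.1]
    ring
  rw [h2] at h1
  set A := Q.Γ L L (χ * χ) with hA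
  set E := Q.Γ χ χ 1 with hE
  have hA0 : 0 ≤ A := Q.nonneg L hL _ (fun x => mul_self_nonneg _)
  have hE0 : 0 ≤ E := Q.nonneg χ hχ _ (fun x => by simp)
  have h3 := cs_strong Q hχ hL χ
  rw [← hA, ← hE] at h3
  have h4 : A ≤ 2 * Q.Γ χ L χ := by linarith
  by_cases hA1 : A = 0
  · rw [hA1]; linarith
  · have hA2 : 0 < A := lt_of_le_of_ne hA0 (Ne.symm hA1)
    have h5 : A ^ 2 ≤ 4 * (E * A) := by
      have : A ^ 2 ≤ (2 * Q.Γ χ L χ) ^ 2 := pow_le_pow_left₀ hA0 h4 2
      nlinarith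
    nlinarith

/-- Harnack constant -/
def hC (Q : DForm S) : ℝ := Real.exp (Q.C0 * Real.sqrt (4 * Q.C0) + 1)

theorem hC_pos : 0 < hC Q := Real.exp_pos _

/-- **Harnack loop** -/
theorem harnack_loop [CompactSpace Z] [LocallyConnectedSpace Z] {O : Set Z} (hO : IsOpen O)
    {w : C(Z, ℝ)}
    (hw : SupH Q O w) (hpos : ∀ z ∈ O, 0 < w z) {x : Z} {ρ : ℝ} (hρ : 0 < ρ)
    (hρ0 : Q.lam * ρ ≤ Q.ρ0) (hball : closedBall x (Q.lam * (Q.lam * ρ)) ⊆ O) :
    ∃ σ V : Set Z, IsCompact σ ∧ σ.Nonempty ∧ σ ⊆ ball x (Q.lam * ρ) ∧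
      Separates σ (closedBall x ρ) (ball x (Q.lam * ρ))ᶜ ∧ IsOpen V ∧ V ≠ univ ∧
      closedBall x ρ ⊆ V ∧ V ⊆ ball x (Q.lam * ρ) ∧ frontier V ⊆ σ ∧
      ∀ y ∈ σ, ∀ z ∈ σ, w y ≤ hC Q * w z := by
  have hlam := Q.one_lt_lam
  have hlam0 : 0 < Q.lam := by linarith
  have hlρ : 0 < Q.lam * ρ := by positivity
  have hρρ : ρ ≤ Q.lam * ρ := by nlinarith
  obtain ⟨κ, hκ, hκ01, ⟨N, hN, hKN, hN1⟩, hκs⟩ :=
    cut_KO Q (isCompact_of_isClosed_isBounded isClosed_closedBall isBounded_closedBall) hO hball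
  obtain ⟨χ, hχ, hχ01, hχ1, hχ0, hχE⟩ := Q.cutoff x (Q.lam * ρ) hlρ hρ0
  -- patched function
  set w' : C(Z, ℝ) := κ * w + (1 - κ) with hw'
  have hw'D : w' ∈ Q.Dom := Q.add_mem _ (Q.mul_mem κ hκ w hw.1) _ (one_sub_mem Q hκ)
  have hw'pos : ∀ z, 0 < w' z := by
    intro z
    have e : w' z = κ z * w z + (1 - κ z) := by simp [hw']
    rw [e]
    by_cases hz : z ∈ O
    · have h1 := hpos z hz
      have h2 := (hκ01 z).1
      have h3 := (hκ01 z).2
      rcases eq_or_lt_of_le h3 with h4 | h4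
      · rw [h4]; linarith
      · have := mul_nonneg h2 h1.le
        linarith
    · have : κ z = 0 := by
        by_contra hne
        exact hz (hκs (subset_tsupport _ hne))
      rw [this]; norm_num
  obtain ⟨m, hm, hmw⟩ : ∃ m : ℝ, 0 < m ∧ ∀ z, m ≤ w' z := by
    obtain ⟨z, -, hz⟩ := isCompact_univ.exists_isMinOn (s := (univ : Set Z)) ⟨x, mem_univ x⟩
      w'.continuous.continuousOn
    exact ⟨w' z, hw'pos z, fun y => hz (mem_univ y)⟩
  have hww' : ∀ z ∈ N, w' z = w z := fun z hz => by simp [hw', hN1 z hz]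
  have hsup : SupH Q (N ∩ O) w' := by
    refine ⟨hw'D, fun f hf hf0 hfs => ?_⟩
    rw [local_congr' Q hw'D hw.1 hf hN hww' (hfs.trans inter_subset_left)]
    exact hw.2 f hf hf0 (hfs.trans inter_subset_right)
  have hχs : tsupport χ ⊆ N ∩ O := by
    have : tsupport χ ⊆ closedBall x (Q.lam * (Q.lam * ρ)) := by
      refine closure_minimal ?_ isClosed_closedBall
      intro y hy
      by_contra hne
      rw [mem_closedBall, not_le] at hne
      exact hy (hχ0 y hne.le)
    exact subset_inter (this.trans hKN) (this.trans hball)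
  obtain ⟨L, hL, hLlog, hLE⟩ := log_cacc Q hsup hm hmw hχ hχs
  obtain ⟨σ, hσc, hσconn, hσann, hσsep, hσosc⟩ := Q.CL x ρ hρ (hρρ.trans hρ0) L hL (χ * χ)
    (fun y => mul_self_nonneg _) (fun y _ hy => by simp [hχ1 y hy]) 1 one_pos
  have hσball : σ ⊆ ball x (Q.lam * ρ) := fun y hy => (hσann y hy).2
  refine ⟨σ, inside σ (closedBall x ρ), hσc, hσconn.nonempty, hσball, hσsep,
    isOpen_inside hσc.isClosed _, ?_, ?_, ?_, frontier_inside hσc.isClosed _, ?_⟩
  · intro h
    obtain ⟨y, hy⟩ := hσconn.nonempty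
    have : y ∈ inside σ (closedBall x ρ) ∩ σ := ⟨by rw [h]; trivial, hy⟩
    rw [inside_inter_self] at this
    exact this
  · intro y hy
    refine diff_subset_inside _ _ ⟨hy, fun hyσ => ?_⟩
    have := (hσann y hyσ).1
    rw [mem_closedBall] at hy
    linarith
  · intro y hy
    by_contra hne
    have : y ∈ inside σ (closedBall x ρ) ∩ (ball x (Q.lam * ρ))ᶜ := ⟨hy, hne⟩
    rw [inside_inter hσsep] at this
    exact this
  · intro y hy z hz
    have hbN : ball x (Q.lam * ρ) ⊆ N := (ball_subset_closedBall.trans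
      (closedBall_subset_closedBall (by nlinarith))).trans hKN
    have e1 : w' y = w y := hww' y (hbN (hσball hy))
    have e2 : w' z = w z := hww' z (hbN (hσball hz))
    have hwy : 0 < w y := by rw [← e1]; exact hw'pos y
    have hwz : 0 < w z := by rw [← e2]; exact hw'pos z
    have h1 := (le_abs_self _).trans (hσosc y hy z hz)
    rw [hLlog, hLlog, e1, e2] at h1
    have h2 : Real.sqrt (Q.Γ L L (χ * χ)) ≤ Real.sqrt (4 * Q.C0) := by
      apply Real.sqrt_le_sqrt
      linarith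
    have h3 : Real.log (w y) ≤ Q.C0 * Real.sqrt (4 * Q.C0) + 1 + Real.log (w z) := by
      have := mul_le_mul_of_nonneg_left h2 Q.C0_pos.le
      linarith
    have h4 := Real.exp_le_exp.2 h3
    rw [Real.exp_log hwy, Real.exp_add, Real.exp_log hwz] at h4
    exact h4

/-- **Harnack**: inside the loop the function is bounded below by its values on the loop -/
theorem harnack_inside [CompactSpace Z] [LocallyConnectedSpace Z] (hirr : Irr Q) {O : Set Z}
    (hO : IsOpen O) {w : C(Z, ℝ)}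
    (hw : SupH Q O w) (hpos : ∀ z ∈ O, 0 < w z) {x : Z} {ρ : ℝ} (hρ : 0 < ρ)
    (hρ0 : Q.lam * ρ ≤ Q.ρ0) (hball : closedBall x (Q.lam * (Q.lam * ρ)) ⊆ O) :
    ∃ σ V : Set Z, IsCompact σ ∧ σ.Nonempty ∧ σ ⊆ ball x (Q.lam * ρ) ∧
      Separates σ (closedBall x ρ) (ball x (Q.lam * ρ))ᶜ ∧ IsOpen V ∧ V ≠ univ ∧
      closedBall x ρ ⊆ V ∧ V ⊆ ball x (Q.lam * ρ) ∧ frontier V ⊆ σ ∧
      ∀ y ∈ σ, ∀ z ∈ V ∪ σ, w y ≤ hC Q * w z := by
  obtain ⟨σ, V, hσc, hσn, hσb, hσs, hV, hVne, hbV, hVb, hfV, hosc⟩ :=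
    harnack_loop Q hO hw hpos hρ hρ0 hball
  refine ⟨σ, V, hσc, hσn, hσb, hσs, hV, hVne, hbV, hVb, hfV, ?_⟩
  have hC0 := hC_pos Q
  have hlam := Q.one_lt_lam
  have hVO : V ⊆ O := hVb.trans ((ball_subset_closedBall.trans
      (closedBall_subset_closedBall (by nlinarith [mul_pos (by linarith : (0:ℝ) < Q.lam) hρ]))).trans
      hball)
  intro y hy z hz
  rcases hz with hz | hz
  · have := min_principle Q hirr hw hV hVO hVne (M := w y / hC Q) (fun v hv => by
      rw [div_le_iff₀ hC0, mul_comm]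
      exact hosc y hy v (hfV hv)) z hz
    rw [div_le_iff₀ hC0, mul_comm] at this
    exact this
  · exact hosc y hy z hz


/-- harmonic functions are monotone -/
theorem monoOn_of_harm [CompactSpace Z] [PreconnectedSpace Z] (hirr : Irr Q) {O : Set Z}
    {U : C(Z, ℝ)} (hO : O ≠ univ) (hU : Harm Q O U) : MonoOn U O := by
  intro D hD hDne hDO x hx
  have hDO' : D ⊆ O := subset_closure.trans hDO
  have hDu : D ≠ univ := fun h => hO (univ_subset_iff.1 (h ▸ hDO'))
  have hfr : (frontier D).Nonempty := by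
    rw [nonempty_iff_ne_empty]
    intro h
    rcases isClopen_iff.1 (isClopen_iff_frontier_eq_empty.2 h) with h1 | h1
    · exact hDne.ne_empty h1
    · exact hDu h1
  have hfc : IsCompact (frontier D) := isClosed_frontier.isCompact
  obtain ⟨y1, hy1, hmax⟩ := hfc.exists_isMaxOn hfr U.continuous.continuousOn
  obtain ⟨y2, hy2, hmin⟩ := hfc.exists_isMinOn hfr U.continuous.continuousOn
  exact ⟨⟨y1, hy1, max_principle Q hirr (harm_subH hU) hD hDO' hDu (fun y hy => hmax hy) x hx⟩,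
    ⟨y2, hy2, min_principle Q hirr (harm_supH hU) hD hDO' hDu (fun y hy => hmin hy) x hx⟩⟩

end Crest.Agent.R193.CPa_Loop
end
end

-- ▼ part R193/CPa_Conf
section

/-!
R193, block D7: (C1) and (C3) for conformal pairs.
-/

set_option autoImplicit false

noncomputable section

open Set Filter Topology MeasureTheory Metric

namespace Crest.Agent.R193.CPa_Conf

open Crest.Agent.R193 Crest.Agent.R193.CPa_Basic Crest.Agent.R193.CPa_Harm
  Crest.Agent.R193.CPa_Loop

variable {G Z : Type} [Group G] [MetricSpace Z] [MulAction G Z] {S : Setup G Z} (Q : DForm S)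

/-- composition of a continuous function of two variables with a pair -/
def cmp (ψ : ℝ × ℝ → ℝ) (hψ : Continuous ψ) (U V : C(Z, ℝ)) : C(Z, ℝ) :=
  ⟨fun x => ψ (U x, V x), hψ.comp (U.continuous.prodMk V.continuous)⟩

@[simp] theorem cmp_apply (ψ : ℝ × ℝ → ℝ) (hψ : Continuous ψ) (U V : C(Z, ℝ)) (x : Z) :
    cmp ψ hψ U V x = ψ (U x, V x) := rfl

theorem chain2 {ψ ψ₁ ψ₂ : ℝ × ℝ → ℝ} (hψ : ContDiff ℝ 2 ψ) (h1 : Continuous ψ₁)
    (h2 : Continuous ψ₂) (hd1 : ∀ p, fderiv ℝ ψ p (1, 0) = ψ₁ p)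
    (hd2 : ∀ p, fderiv ℝ ψ p (0, 1) = ψ₂ p) {U V : C(Z, ℝ)} (hU : U ∈ Q.Dom) (hV : V ∈ Q.Dom) :
    cmp ψ hψ.continuous U V ∈ Q.Dom ∧ ∀ w ∈ Q.Dom, ∀ φ : C(Z, ℝ),
      Q.Γ (cmp ψ hψ.continuous U V) w φ =
        Q.Γ U w (φ * cmp ψ₁ h1 U V) + Q.Γ V w (φ * cmp ψ₂ h2 U V) :=
  Q.chain ψ hψ U hU V hV _ _ _ (fun _ => rfl) (fun _ => (hd1 _).symm) (fun _ => (hd2 _).symm)

/-- **(C1)** -/
theorem c1 [CompactSpace Z] {O : Set Z} {U V : C(Z, ℝ)} (h : ConfOn Q O U V)
    {ψ ψ₁ ψ₂ ψ₁₁ ψ₁₂ ψ₂₁ ψ₂₂ : ℝ × ℝ → ℝ} (hψ : ContDiff ℝ 2 ψ) (hψ₁ : ContDiff ℝ 2 ψ₁)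
    (hψ₂ : ContDiff ℝ 2 ψ₂) (c11 : Continuous ψ₁₁) (c12 : Continuous ψ₁₂) (c21 : Continuous ψ₂₁)
    (c22 : Continuous ψ₂₂) (hd1 : ∀ p, fderiv ℝ ψ p (1, 0) = ψ₁ p)
    (hd2 : ∀ p, fderiv ℝ ψ p (0, 1) = ψ₂ p) (hd11 : ∀ p, fderiv ℝ ψ₁ p (1, 0) = ψ₁₁ p)
    (hd12 : ∀ p, fderiv ℝ ψ₁ p (0, 1) = ψ₁₂ p) (hd21 : ∀ p, fderiv ℝ ψ₂ p (1, 0) = ψ₂₁ p)
    (hd22 : ∀ p, fderiv ℝ ψ₂ p (0, 1) = ψ₂₂ p) {w : C(Z, ℝ)} (hw : w ∈ Q.Dom)
    (hws : tsupport w ⊆ O) :
    Q.Γ (cmp ψ hψ.continuous U V) w 1 = - Q.Γ U U (w * (cmp ψ₁₁ c11 U V + cmp ψ₂₂ c22 U V)) := by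
  obtain ⟨hU, hV, hharm, hconf⟩ := h
  obtain ⟨hD, hΓ⟩ := chain2 Q hψ hψ₁.continuous hψ₂.continuous hd1 hd2 hU hV
  obtain ⟨hD1, hΓ1⟩ := chain2 Q hψ₁ c11 c12 hd11 hd12 hU hV
  obtain ⟨hD2, hΓ2⟩ := chain2 Q hψ₂ c21 c22 hd21 hd22 hU hV
  set P1 := cmp ψ₁ hψ₁.continuous U V with hP1
  set P2 := cmp ψ₂ hψ₂.continuous U V with hP2
  have hs : ∀ f : C(Z, ℝ), tsupport (w * f : C(Z, ℝ)) ⊆ O := fun f => by
    refine (closure_mono ?_).trans hws
    intro x hx h
    apply hx
    simp [h]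
  rw [hΓ w hw, one_mul, one_mul]
  have e1 := (hharm (w * P1) (Q.mul_mem w hw P1 hD1) (hs _)).1
  have e2 := (hharm (w * P2) (Q.mul_mem w hw P2 hD2) (hs _)).2
  rw [leib_right Q hw hD1 hU, one_mul, one_mul, Q.symm U hU P1 hD1, hΓ1 U hU,
    Q.symm V hV U hU, (hconf _ (hs _)).1, add_zero] at e1
  rw [leib_right Q hw hD2 hV, one_mul, one_mul, Q.symm V hV P2 hD2, hΓ2 V hV,
    (hconf _ (hs _)).1, zero_add, ← (hconf _ (hs _)).2] at e2
  rw [mul_add, Q.add_test U hU U hU]
  linarith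

/-! ### the logarithmic potential -/

/-- `R = |y - p|² + s²` -/
def lR (p : ℝ × ℝ) (s : ℝ) (y : ℝ × ℝ) : ℝ := (y.1 - p.1) ^ 2 + (y.2 - p.2) ^ 2 + s ^ 2

theorem lR_pos (p : ℝ × ℝ) {s : ℝ} (hs : 0 < s) (y : ℝ × ℝ) : 0 < lR p s y := by
  unfold lR; positivity

theorem hasFDerivAt_lR (p : ℝ × ℝ) (s : ℝ) (y : ℝ × ℝ) :
    HasFDerivAt (lR p s) ((2 * (y.1 - p.1)) • ContinuousLinearMap.fst ℝ ℝ ℝ +
      (2 * (y.2 - p.2)) • ContinuousLinearMap.snd ℝ ℝ ℝ) y := by
  have h1 : HasFDerivAt (fun y : ℝ × ℝ => y.1 - p.1) (ContinuousLinearMap.fst ℝ ℝ ℝ) y :=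
    hasFDerivAt_fst.sub_const _
  have h2 : HasFDerivAt (fun y : ℝ × ℝ => y.2 - p.2) (ContinuousLinearMap.snd ℝ ℝ ℝ) y :=
    hasFDerivAt_snd.sub_const _
  refine (((h1.pow 2).add (h2.pow 2)).add_const (s ^ 2)).congr_fderiv ?_
  ext <;> simp

theorem contDiff_lR (p : ℝ × ℝ) (s : ℝ) {n : WithTop ℕ∞} : ContDiff ℝ n (lR p s) := by
  unfold lR
  fun_prop

/-- `ψ = - (1/2) log R` -/
def lψ (p : ℝ × ℝ) (s : ℝ) (y : ℝ × ℝ) : ℝ := -(1 / 2) * Real.log (lR p s y)
def lψ₁ (p : ℝ × ℝ) (s : ℝ) (y : ℝ × ℝ) : ℝ := -((y.1 - p.1) * (lR p s y)⁻¹)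
def lψ₂ (p : ℝ × ℝ) (s : ℝ) (y : ℝ × ℝ) : ℝ := -((y.2 - p.2) * (lR p s y)⁻¹)
def lψ₁₁ (p : ℝ × ℝ) (s : ℝ) (y : ℝ × ℝ) : ℝ :=
  -(lR p s y)⁻¹ + 2 * (y.1 - p.1) ^ 2 * ((lR p s y)⁻¹) ^ 2
def lψ₂₂ (p : ℝ × ℝ) (s : ℝ) (y : ℝ × ℝ) : ℝ :=
  -(lR p s y)⁻¹ + 2 * (y.2 - p.2) ^ 2 * ((lR p s y)⁻¹) ^ 2
def lψ₁₂ (p : ℝ × ℝ) (s : ℝ) (y : ℝ × ℝ) : ℝ :=
  2 * (y.1 - p.1) * (y.2 - p.2) * ((lR p s y)⁻¹) ^ 2

section
variable (p : ℝ × ℝ) {s : ℝ} (hs : 0 < s)
include hs

theorem contDiff_inv {n : WithTop ℕ∞} : ContDiff ℝ n (fun y => (lR p s y)⁻¹) :=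
  (contDiff_lR p s).inv fun y => (lR_pos p hs y).ne'

theorem contDiff_lψ {n : WithTop ℕ∞} : ContDiff ℝ n (lψ p s) := by
  unfold lψ
  exact contDiff_const.mul ((contDiff_lR p s).log fun y => (lR_pos p hs y).ne')

theorem contDiff_lψ₁ {n : WithTop ℕ∞} : ContDiff ℝ n (lψ₁ p s) := by
  unfold lψ₁
  exact ((contDiff_fst.sub contDiff_const).mul (contDiff_inv p hs)).neg

theorem contDiff_lψ₂ {n : WithTop ℕ∞} : ContDiff ℝ n (lψ₂ p s) := by
  unfold lψ₂
  exact ((contDiff_snd.sub contDiff_const).mul (contDiff_inv p hs)).neg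

theorem hasFDerivAt_inv (y : ℝ × ℝ) : HasFDerivAt (fun y => (lR p s y)⁻¹)
    ((-((lR p s y)⁻¹) ^ 2) • ((2 * (y.1 - p.1)) • ContinuousLinearMap.fst ℝ ℝ ℝ +
      (2 * (y.2 - p.2)) • ContinuousLinearMap.snd ℝ ℝ ℝ)) y := by
  refine ((hasDerivAt_inv (lR_pos p hs y).ne').comp_hasFDerivAt y
    (hasFDerivAt_lR p s y)).congr_fderiv ?_
  rw [inv_pow]

theorem d1_lψ (y : ℝ × ℝ) : fderiv ℝ (lψ p s) y (1, 0) = lψ₁ p s y ∧
    fderiv ℝ (lψ p s) y (0, 1) = lψ₂ p s y := by
  have h := (((hasFDerivAt_lR p s y).log (lR_pos p hs y).ne').const_mul (-(1 / 2) : ℝ))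
  have e : fderiv ℝ (lψ p s) y = _ := h.fderiv
  rw [e]
  constructor
  · simp [lψ₁]; ring
  · simp [lψ₂]; ring

theorem d2_lψ₁ (y : ℝ × ℝ) : fderiv ℝ (lψ₁ p s) y (1, 0) = lψ₁₁ p s y ∧
    fderiv ℝ (lψ₁ p s) y (0, 1) = lψ₁₂ p s y := by
  have h1 : HasFDerivAt (fun y : ℝ × ℝ => y.1 - p.1) (ContinuousLinearMap.fst ℝ ℝ ℝ) y :=
    hasFDerivAt_fst.sub_const _
  have h := (h1.mul (hasFDerivAt_inv p hs y)).neg
  have e : fderiv ℝ (lψ₁ p s) y = _ := h.fderiv
  rw [e]
  constructor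
  · simp [lψ₁₁]; ring
  · simp [lψ₁₂]; ring

theorem d2_lψ₂ (y : ℝ × ℝ) : fderiv ℝ (lψ₂ p s) y (1, 0) = lψ₁₂ p s y ∧
    fderiv ℝ (lψ₂ p s) y (0, 1) = lψ₂₂ p s y := by
  have h1 : HasFDerivAt (fun y : ℝ × ℝ => y.2 - p.2) (ContinuousLinearMap.snd ℝ ℝ ℝ) y :=
    hasFDerivAt_snd.sub_const _
  have h := (h1.mul (hasFDerivAt_inv p hs y)).neg
  have e : fderiv ℝ (lψ₂ p s) y = _ := h.fderiv
  rw [e]
  constructor
  · simp [lψ₁₂]; ring
  · simp [lψ₂₂]; ring

theorem lap_nonpos (y : ℝ × ℝ) : lψ₁₁ p s y + lψ₂₂ p s y ≤ 0 := by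
  have hR := lR_pos p hs y
  have e : lψ₁₁ p s y + lψ₂₂ p s y = -(2 * s ^ 2) * ((lR p s y)⁻¹) ^ 2 := by
    unfold lψ₁₁ lψ₂₂
    field_simp
    unfold lR
    ring
  rw [e]
  have : 0 ≤ ((lR p s y)⁻¹) ^ 2 := sq_nonneg _
  nlinarith [sq_nonneg s]

theorem continuous_stuff : Continuous (lψ₁₁ p s) ∧ Continuous (lψ₂₂ p s) ∧
    Continuous (lψ₁₂ p s) := by
  have h := (contDiff_inv p hs (n := 0)).continuous
  unfold lψ₁₁ lψ₂₂ lψ₁₂
  refine ⟨?_, ?_, ?_⟩ <;> fun_prop

end

/-- `-(1/2) log (|F - p|² + s²)` is superharmonic -/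
theorem supH_log [CompactSpace Z] {O : Set Z} {U V : C(Z, ℝ)} (h : ConfOn Q O U V) (p : ℝ × ℝ)
    {s : ℝ} (hs : 0 < s) : SupH Q O (cmp (lψ p s) (contDiff_lψ p hs (n := 2)).continuous U V) := by
  obtain ⟨c11, c22, c12⟩ := continuous_stuff p hs
  refine ⟨(chain2 Q (contDiff_lψ p hs) (contDiff_lψ₁ p hs (n := 2)).continuous
    (contDiff_lψ₂ p hs (n := 2)).continuous (fun y => (d1_lψ p hs y).1)
    (fun y => (d1_lψ p hs y).2) h.1 h.2.1).1, fun w hw hw0 hws => ?_⟩
  rw [c1 Q h (contDiff_lψ p hs) (contDiff_lψ₁ p hs) (contDiff_lψ₂ p hs) c11 c12 c12 c22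
    (fun y => (d1_lψ p hs y).1) (fun y => (d1_lψ p hs y).2) (fun y => (d2_lψ₁ p hs y).1)
    (fun y => (d2_lψ₁ p hs y).2) (fun y => (d2_lψ₂ p hs y).1) (fun y => (d2_lψ₂ p hs y).2) hw hws,
    ← neg_test Q h.1 h.1]
  apply Q.nonneg U h.1
  intro x
  have h1 := lap_nonpos p hs (U x, V x)
  have h2 := hw0 x
  simp only [ContinuousMap.neg_apply, ContinuousMap.mul_apply, ContinuousMap.add_apply, cmp_apply]
  nlinarith

/-- key step of (C3) and (C4): if for every `r > 0` a connected set crossing the annulus carries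
points... then `F = p` on the small ball. -/
theorem const_of_cross [CompactSpace Z] [LocallyConnectedSpace Z] (hirr : Irr Q) {O : Set Z}
    (hO : IsOpen O) {U V : C(Z, ℝ)} (h : ConfOn Q O U V) {p : ℝ × ℝ} {x : Z} {ρ : ℝ} (hρ : 0 < ρ)
    (hρ0 : Q.lam * ρ ≤ Q.ρ0) (hball : closedBall x (Q.lam * (Q.lam * ρ)) ⊆ O)
    (hsmall : ∀ z ∈ closedBall x (Q.lam * (Q.lam * ρ)), (U z - p.1) ^ 2 + (V z - p.2) ^ 2 < 1 / 2)
    (hE : ∀ r : ℝ, 0 < r → ∃ E : Set Z, IsPreconnected E ∧ (E ∩ closedBall x ρ).Nonempty ∧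
      (E ∩ (ball x (Q.lam * ρ))ᶜ).Nonempty ∧
      ∀ z ∈ E ∩ ball x (Q.lam * ρ), |U z - p.1| ≤ r ∧ |V z - p.2| ≤ r) :
    ∀ z ∈ closedBall x ρ, (U z, V z) = p := by
  have hlam := Q.one_lt_lam
  have hlam0 : 0 < Q.lam := by linarith
  set O' : Set Z := O ∩ {z | (U z - p.1) ^ 2 + (V z - p.2) ^ 2 < 1 / 2} with hO'
  have hO'o : IsOpen O' := hO.inter (isOpen_lt (by fun_prop) continuous_const)
  have hball' : closedBall x (Q.lam * (Q.lam * ρ)) ⊆ O' := fun z hz => ⟨hball hz, hsmall z hz⟩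
  have hC0 := hC_pos Q
  -- main estimate
  have key : ∀ T : ℝ, 1 ≤ T → ∀ z ∈ closedBall x ρ,
      (U z - p.1) ^ 2 + (V z - p.2) ^ 2 ≤ Real.exp (-2 * ((T - Real.log 3 / 2) / hC Q)) := by
    intro T hT z hz
    set s := Real.exp (-T) with hs
    have hs0 : 0 < s := Real.exp_pos _
    have hs2 : s ^ 2 < 1 / 2 := by
      have h0 : s ^ 2 = Real.exp (-T + -T) := by rw [hs, Real.exp_add]; ring
      have h1 : Real.exp (-T + -T) ≤ Real.exp (-2) := by
        apply Real.exp_le_exp.2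
        linarith
      have h2 : Real.exp (-2) < 1 / 2 := by
        rw [Real.exp_neg, inv_lt_comm₀ (Real.exp_pos _) (by norm_num)]
        have := Real.add_one_lt_exp (show (2:ℝ) ≠ 0 by norm_num)
        linarith
      linarith
    have hSup := (supH_log Q h p hs0).mono (inter_subset_left : O' ⊆ O)
    set w := cmp (lψ p s) (contDiff_lψ p hs0 (n := 2)).continuous U V with hw
    have hwpos : ∀ y ∈ O', 0 < w y := by
      intro y hy
      have h1 : lR p s (U y, V y) < 1 := by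
        have : (U y - p.1) ^ 2 + (V y - p.2) ^ 2 < 1 / 2 := hy.2
        unfold lR
        simp only
        linarith
      have h2 := Real.log_neg (lR_pos p hs0 (U y, V y)) h1
      rw [hw, cmp_apply, lψ]
      linarith
    obtain ⟨σ, W, hσc, hσn, hσb, hσs, hW, hWne, hbW, hWb, hfW, hosc⟩ :=
      harnack_inside Q hirr hO'o hSup hwpos hρ hρ0 hball'
    obtain ⟨E, hEc, hE1, hE2, hE3⟩ := hE s hs0
    obtain ⟨y, hyE, hyσ⟩ := hσs E hEc hE1 hE2
    obtain ⟨b1, b2⟩ := hE3 y ⟨hyE, hσb hyσ⟩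
    have hwy : T - Real.log 3 / 2 ≤ w y := by
      have h1 : lR p s (U y, V y) ≤ 3 * s ^ 2 := by
        unfold lR
        have c1 := sq_le_sq' (abs_le.1 b1).1 (abs_le.1 b1).2
        have c2 := sq_le_sq' (abs_le.1 b2).1 (abs_le.1 b2).2
        simp only
        linarith
      have h2 := Real.log_le_log (lR_pos p hs0 (U y, V y)) h1
      rw [Real.log_mul (by norm_num) (by positivity), Real.log_pow, hs, Real.log_exp] at h2
      rw [hw, cmp_apply, lψ]
      push_cast at h2
      rw [hs]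
      linarith
    have h3 := hosc y hyσ z (Or.inl (hbW hz))
    have h4 : (T - Real.log 3 / 2) / hC Q ≤ w z := by
      rw [div_le_iff₀ hC0, mul_comm]
      linarith
    rw [hw, cmp_apply, lψ] at h4
    have h5 : Real.log (lR p s (U z, V z)) ≤ -2 * ((T - Real.log 3 / 2) / hC Q) := by linarith
    have h6 := Real.exp_le_exp.2 h5
    rw [Real.exp_log (lR_pos p hs0 _)] at h6
    unfold lR at h6
    simp only at h6
    nlinarith [sq_nonneg s]
  intro z hz
  have hlim : Tendsto (fun T : ℝ => Real.exp (-2 * ((T - Real.log 3 / 2) / hC Q))) atTop (𝓝 0) := by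
    apply Real.tendsto_exp_atBot.comp
    apply Tendsto.const_mul_atTop_of_neg (by norm_num)
    apply Tendsto.atTop_div_const hC0
    exact tendsto_atTop_add_const_right _ _ tendsto_id
  have h0 : (U z - p.1) ^ 2 + (V z - p.2) ^ 2 ≤ 0 := by
    refine ge_of_tendsto hlim ?_
    filter_upwards [eventually_ge_atTop 1] with T hT using key T hT z hz
  have h1 : U z - p.1 = 0 := by nlinarith [sq_nonneg (U z - p.1), sq_nonneg (V z - p.2)]
  have h2 : V z - p.2 = 0 := by nlinarith [sq_nonneg (U z - p.1), sq_nonneg (V z - p.2)]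
  apply Prod.ext
  · simp only; linarith
  · simp only; linarith

/-- choice of a radius -/
theorem exists_radius {z : Z} {N : Set Z} (hN : N ∈ 𝓝 z) {r : ℝ} (hr : 0 < r) :
    ∃ ρ : ℝ, 0 < ρ ∧ Q.lam * ρ ≤ Q.ρ0 ∧ Q.lam * ρ < r ∧
      closedBall z (Q.lam * (Q.lam * ρ)) ⊆ N := by
  have hlam := Q.one_lt_lam
  have hlam0 : 0 < Q.lam := by linarith
  obtain ⟨r', hr'0, hr'⟩ := Metric.mem_nhds_iff.1 hN
  have hρ0' := Q.ρ0_pos
  set M := min (min Q.ρ0 (r / 2)) (r' / 2) with hM
  have hMpos : 0 < M := by positivity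
  have h2 : 0 < Q.lam * Q.lam := by positivity
  refine ⟨M / (Q.lam * Q.lam), by positivity, ?_, ?_, ?_⟩
  · have e : Q.lam * (M / (Q.lam * Q.lam)) = M / Q.lam := by field_simp
    rw [e]
    have : M / Q.lam ≤ M := div_le_self hMpos.le hlam.le
    exact this.trans ((min_le_left _ _).trans (min_le_left _ _))
  · have e : Q.lam * (M / (Q.lam * Q.lam)) = M / Q.lam := by field_simp
    rw [e]
    have : M / Q.lam ≤ M := div_le_self hMpos.le hlam.le
    have h3 : M ≤ r / 2 := (min_le_left _ _).trans (min_le_right _ _)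
    linarith
  · have e : Q.lam * (Q.lam * (M / (Q.lam * Q.lam))) = M := by field_simp
    rw [e]
    have h3 : M ≤ r' / 2 := min_le_right _ _
    exact (closedBall_subset_ball (by linarith)).trans hr'

/-- the condition `|F - p|² < 1/2` near a point where `F = p` -/
theorem small_nhds {U V : C(Z, ℝ)} {p : ℝ × ℝ} {z : Z} (hz : (U z, V z) = p) :
    {y | (U y - p.1) ^ 2 + (V y - p.2) ^ 2 < 1 / 2} ∈ 𝓝 z := by
  apply IsOpen.mem_nhds (isOpen_lt (by fun_prop) continuous_const)
  rw [← hz]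
  norm_num

/-- a nontrivial connected set on which `F = p` consists of interior points of `{F = p}` -/
theorem mem_interior_of_conn [CompactSpace Z] [LocallyConnectedSpace Z] (hirr : Irr Q) {O : Set Z}
    (hO : IsOpen O) {U V : C(Z, ℝ)} (h : ConfOn Q O U V) {p : ℝ × ℝ} {E : Set Z}
    (hE : IsPreconnected E) (hEp : ∀ x ∈ E, (U x, V x) = p) {z z' : Z} (hz : z ∈ E) (hz' : z' ∈ E)
    (hne : z ≠ z') (hzO : z ∈ O) : z ∈ interior {x | (U x, V x) = p} := by
  obtain ⟨ρ, hρ, hρ0, hρr, hball⟩ := exists_radius Q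
    (inter_mem (hO.mem_nhds hzO) (small_nhds (hEp z hz))) (dist_pos.2 hne)
  rw [mem_interior_iff_mem_nhds]
  refine mem_of_superset (closedBall_mem_nhds z hρ) ?_
  apply const_of_cross Q hirr hO h hρ hρ0 (fun y hy => (hball hy).1) (fun y hy => (hball hy).2)
  intro r hr
  refine ⟨E, hE, ⟨z, hz, mem_closedBall_self hρ.le⟩, ⟨z', hz', ?_⟩, fun y hy => ?_⟩
  · intro h1
    rw [mem_ball, dist_comm] at h1
    linarith
  · have := hEp y hy.1
    rw [Prod.ext_iff] at this
    simp only at this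
    rw [this.1, this.2]
    simp [hr.le]

/-- **(C3)** -/
theorem inC3 [CompactSpace Z] [LocallyConnectedSpace Z] [PreconnectedSpace Z] (hirr : Irr Q) :
    InC3 Q := by
  intro O U V hO hOc h E hEO hE hEn p hEp
  set A : Set Z := {x | (U x, V x) = p} with hA
  have hAc : IsClosed A := isClosed_eq (by fun_prop) continuous_const
  suffices hsub : O ⊆ interior A from fun x hx =>
    (show x ∈ A from interior_subset (hsub hx))
  obtain ⟨z, hz, z', hz', hne⟩ := hEn
  apply hOc.subset_of_closure_inter_subset isOpen_interior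
  · exact ⟨z, hEO hz, mem_interior_of_conn Q hirr hO h hE hEp hz hz' hne (hEO hz)⟩
  · rintro x ⟨hx, hxO⟩
    have hxA : (U x, V x) = p := by
      have : x ∈ A := hAc.closure_eq ▸ closure_mono interior_subset hx
      exact this
    obtain ⟨ρ, hρ, hρ0, -, hball⟩ := exists_radius Q
      (inter_mem (hO.mem_nhds hxO) (small_nhds hxA)) one_pos
    obtain ⟨y, hyb, hyA⟩ := mem_closure_iff.1 hx _ isOpen_ball (mem_ball_self hρ)
    set Y := connectedComponentIn (interior A) y with hY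
    have hYo : IsOpen Y := isOpen_interior.connectedComponentIn
    have hyY : y ∈ Y := mem_connectedComponentIn hyA
    have hYA : Y ⊆ interior A := connectedComponentIn_subset _ _
    have hYc : IsPreconnected Y := isPreconnected_connectedComponentIn
    by_cases hcase : Y ⊆ ball x (Q.lam * ρ)
    · by_cases hYu : Y = univ
      · exact hYA (by rw [hYu]; trivial)
      exfalso
      have hfr : (frontier Y).Nonempty := by
        rw [nonempty_iff_ne_empty]
        intro h0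
        rcases isClopen_iff.1 (isClopen_iff_frontier_eq_empty.2 h0) with h1 | h1
        · rw [h1] at hyY; exact hyY
        · exact hYu h1
      obtain ⟨y', hy'⟩ := hfr
      have hy'c : y' ∈ closure Y := hy'.1
      have hy'Y : y' ∉ Y := by
        have := hy'.2
        rwa [hYo.interior_eq] at this
      have hlam := Q.one_lt_lam
      have hlam0 : 0 < Q.lam := by linarith
      have hy'O : y' ∈ O := by
        have h1 : closure Y ⊆ closedBall x (Q.lam * ρ) :=
          (closure_mono (hcase.trans ball_subset_closedBall)).trans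
            isClosed_closedBall.closure_eq.le
        have h2 : closedBall x (Q.lam * ρ) ⊆ closedBall x (Q.lam * (Q.lam * ρ)) :=
          closedBall_subset_closedBall (by nlinarith [mul_pos hlam0 hρ])
        exact (hball (h2 (h1 hy'c))).1
      have hcl : ∀ v ∈ closure Y, (U v, V v) = p := fun v hv => by
        have : v ∈ A := hAc.closure_eq ▸ closure_mono (hYA.trans interior_subset) hv
        exact this
      have hint : y' ∈ interior A := mem_interior_of_conn Q hirr hO h hYc.closure hcl hy'c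
        (subset_closure hyY) (fun h0 => hy'Y (h0 ▸ hyY)) hy'O
      obtain ⟨v, hv1, hv2⟩ := mem_closure_iff.1 hy'c _
        (isOpen_interior.connectedComponentIn (x := y')) (mem_connectedComponentIn hint)
      apply hy'Y
      rw [hY, connectedComponentIn_eq hv2, ← connectedComponentIn_eq hv1]
      exact mem_connectedComponentIn hint
    · obtain ⟨v, hvY, hvb⟩ := not_subset.1 hcase
      rw [mem_interior_iff_mem_nhds]
      refine mem_of_superset (closedBall_mem_nhds x hρ) ?_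
      apply const_of_cross Q hirr hO h hρ hρ0 (fun y hy => (hball hy).1)
        (fun y hy => (hball hy).2)
      intro r hr
      refine ⟨Y, hYc, ⟨y, hyY, ball_subset_closedBall hyb⟩, ⟨v, hvY, hvb⟩, fun u hu => ?_⟩
      have : (U u, V u) = p := (show u ∈ A from interior_subset (hYA hu.1))
      rw [Prod.ext_iff] at this
      simp only at this
      rw [this.1, this.2]
      simp [hr.le]

end Crest.Agent.R193.CPa_Conf
end
end

-- ▼ part R193/CPa_Measure
section

/-!
R193, block D7: energy measures by Riesz-Markov-Kakutani.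
-/

set_option autoImplicit false

noncomputable section

open Set Filter Topology MeasureTheory
open scoped CompactlySupported

namespace Crest.Agent.R193.CPa_Measure

open Crest.Agent.R193

variable {G Z : Type} [Group G] [MetricSpace Z] [MulAction G Z] {S : Setup G Z}

/-- the functional `φ ↦ Γ u u φ` as a positive linear functional on `C_c(Z, ℝ)` -/
def funct [CompactSpace Z] (Q : DForm S) (u : C(Z, ℝ)) (hu : u ∈ Q.Dom) :
    C_c(Z, ℝ) →ₚ[ℝ] ℝ where
  toFun φ := Q.Γ u u (φ : C(Z, ℝ))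
  map_add' φ ψ := Q.add_test u hu u hu φ ψ
  map_smul' c φ := Q.smul_test c u hu u hu φ
  monotone' := by
    intro φ ψ h
    have h1 : (ψ : C(Z, ℝ)) = (φ : C(Z, ℝ)) + ((ψ : C(Z, ℝ)) - (φ : C(Z, ℝ))) := by
      abel
    have h2 : 0 ≤ Q.Γ u u ((ψ : C(Z, ℝ)) - (φ : C(Z, ℝ))) := by
      apply Q.nonneg u hu
      intro x
      have := h x
      simpa using this
    have h3 := Q.add_test u hu u hu (φ : C(Z, ℝ)) ((ψ : C(Z, ℝ)) - (φ : C(Z, ℝ)))
    rw [← h1] at h3
    change Q.Γ u u (φ : C(Z, ℝ)) ≤ Q.Γ u u (ψ : C(Z, ℝ))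
    linarith

theorem exists_measure [CompactSpace Z] [MeasurableSpace Z] [BorelSpace Z] (Q : DForm S)
    (u : C(Z, ℝ)) (hu : u ∈ Q.Dom) :
    ∃ μ : Measure Z, IsFiniteMeasure μ ∧ ∀ φ : C(Z, ℝ), ∫ x, φ x ∂μ = Q.Γ u u φ := by
  refine ⟨RealRMK.rieszMeasure (funct Q u hu), ?_, ?_⟩
  · infer_instance
  · intro φ
    have := RealRMK.integral_rieszMeasure (funct Q u hu)
      (CompactlySupportedContinuousMap.continuousMapEquiv φ)
    exact this

end Crest.Agent.R193.CPa_Measure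
end
end

-- ▼ part R193/D7_TransInv
section

/-!
R193, block D7 (C2): a measure on a ball `B(p,ρ)` of a finite dimensional space all of whose
distributional first derivatives vanish is a multiple of Lebesgue measure on the ball.
-/

set_option autoImplicit false
set_option linter.unusedSectionVars false

open MeasureTheory Metric Set Filter Function
open scoped Topology ENNReal NNReal ContDiff

namespace Crest.Agent.R193.D7_TransInv

variable {E : Type*} [NormedAddCommGroup E] [NormedSpace ℝ E] [FiniteDimensional ℝ E]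
  [MeasurableSpace E] [BorelSpace E]

/-- `∫ ∂_v ψ dμ = 0` for all test functions `ψ` compactly supported in `B`. -/
def Flat (μ : Measure E) (B : Set E) : Prop :=
  ∀ ψ : E → ℝ, ContDiff ℝ ∞ ψ → HasCompactSupport ψ → tsupport ψ ⊆ B →
    ∀ v : E, ∫ x, fderiv ℝ ψ x v ∂μ = 0

theorem tsupport_comp_sub (ψ : E → ℝ) (y : E) :
    tsupport (fun x => ψ (x - y)) = (fun x => x + y) '' tsupport ψ := by
  have h := tsupport_comp_eq_preimage ψ (Homeomorph.addRight (-y))
  have h2 : (ψ ∘ (Homeomorph.addRight (-y))) = fun x => ψ (x - y) := by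
    ext x; simp [sub_eq_add_neg]
  rw [h2] at h
  rw [h]
  ext x
  constructor
  · intro hx
    exact ⟨x - y, by simpa [sub_eq_add_neg] using hx, by simp⟩
  · rintro ⟨z, hz, rfl⟩
    simpa using hz

theorem hasCompactSupport_comp_sub {ψ : E → ℝ} (h : HasCompactSupport ψ) (y : E) :
    HasCompactSupport (fun x => ψ (x - y)) := by
  have := h.comp_homeomorph (Homeomorph.addRight (-y))
  convert this using 1
  ext x; simp [sub_eq_add_neg]

theorem hasDerivAt_shift (μ : Measure E) [IsFiniteMeasureOnCompacts μ] {ψ : E → ℝ}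
    (hψ : ContDiff ℝ ∞ ψ) (hc : HasCompactSupport ψ) (v : E) (s₀ : ℝ) :
    HasDerivAt (fun s : ℝ => ∫ x, ψ (x - s • v) ∂μ)
      (∫ x, - fderiv ℝ ψ (x - s₀ • v) v ∂μ) s₀ := by
  have hψ1 : ContDiff ℝ 1 ψ := hψ.of_le (by exact_mod_cast le_top)
  have hcont : Continuous (fderiv ℝ ψ) := hψ1.continuous_fderiv one_ne_zero
  have hcs : HasCompactSupport (fderiv ℝ ψ) := hc.fderiv ℝ
  obtain ⟨M, hM⟩ := hcont.bounded_above_of_compact_support hcs
  let K : Set E := (fun q : E × ℝ => q.1 + q.2 • v) '' (tsupport ψ ×ˢ closedBall s₀ 1)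
  have hK : IsCompact K := by
    apply (IsCompact.prod hc.isCompact (isCompact_closedBall s₀ 1)).image
    fun_prop
  have hcontψ : Continuous ψ := hψ.continuous
  have hmain := hasDerivAt_integral_of_dominated_loc_of_deriv_le (μ := μ) (𝕜 := ℝ)
    (F := fun s x => ψ (x - s • v)) (F' := fun s x => - fderiv ℝ ψ (x - s • v) v)
    (x₀ := s₀) (s := ball s₀ 1) (bound := K.indicator (fun _ => M * ‖v‖))
    (ball_mem_nhds _ one_pos) ?_ ?_ ?_ ?_ ?_ ?_
  · exact hmain.2
  · refine Eventually.of_forall (fun s => ?_)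
    exact (hcontψ.comp (by fun_prop)).aestronglyMeasurable
  · exact (hcontψ.comp (by fun_prop : Continuous fun x => x - s₀ • v)).integrable_of_hasCompactSupport
      (hasCompactSupport_comp_sub hc _)
  · have : Continuous (fun x => - fderiv ℝ ψ (x - s₀ • v) v) := by
      have h1 : Continuous (fun x => fderiv ℝ ψ (x - s₀ • v)) := hcont.comp (by fun_prop)
      exact (h1.clm_apply continuous_const).neg
    exact this.aestronglyMeasurable
  · refine Eventually.of_forall (fun x s hs => ?_)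
    by_cases hx : x ∈ K
    · rw [indicator_of_mem hx, norm_neg]
      exact (ContinuousLinearMap.le_opNorm _ _).trans (by gcongr; exact hM _)
    · rw [indicator_of_notMem hx]
      have : x - s • v ∉ tsupport (fderiv ℝ ψ) := by
        intro h
        apply hx
        refine ⟨(x - s • v, s), ⟨tsupport_fderiv_subset ℝ h, ball_subset_closedBall hs⟩, by simp⟩
      have h0 : fderiv ℝ ψ (x - s • v) = 0 := image_eq_zero_of_notMem_tsupport this
      simp [h0]
  · rw [integrable_indicator_iff hK.measurableSet]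
    exact integrableOn_const (hK.measure_lt_top.ne)
  · refine Eventually.of_forall (fun x s _ => ?_)
    have h1 : HasFDerivAt ψ (fderiv ℝ ψ (x - s • v)) (x - s • v) :=
      (hψ1.differentiable one_ne_zero _).hasFDerivAt
    have h2 : HasDerivAt (fun s : ℝ => x - s • v) (-v) s := by
      simpa using ((hasDerivAt_id s).smul_const v).const_sub x
    have := h1.comp_hasDerivAt s h2
    simpa [Function.comp_def] using this

/-- local translation invariance -/
theorem Flat.shift {μ : Measure E} [IsFiniteMeasureOnCompacts μ] {p : E} {ρ : ℝ}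
    (h : Flat μ (ball p ρ)) {ψ : E → ℝ} (hψ : ContDiff ℝ ∞ ψ) (hc : HasCompactSupport ψ)
    (v : E) (h0 : ∀ x ∈ tsupport ψ, x ∈ ball p ρ) (h1 : ∀ x ∈ tsupport ψ, x + v ∈ ball p ρ) :
    ∫ x, ψ (x - v) ∂μ = ∫ x, ψ x ∂μ := by
  set J : ℝ → ℝ := fun s : ℝ => ∫ x, ψ (x - s • v) ∂μ with hJ
  have hd : ∀ s ∈ Icc (0:ℝ) 1, HasDerivAt J 0 s := by
    intro s hs
    have h2 := hasDerivAt_shift μ hψ hc v s
    have h3 : ∫ x, - fderiv ℝ ψ (x - s • v) v ∂μ = 0 := by
      have hsub : ∀ x, fderiv ℝ (fun x => ψ (x - s • v)) x = fderiv ℝ ψ (x - s • v) := by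
        intro x
        exact fderiv_comp_sub (f := ψ) (a := s • v) (x := x)
      have h4 := h (fun x => ψ (x - s • v)) (hψ.comp (by fun_prop))
        (hasCompactSupport_comp_sub hc _) ?_ v
      · simp_rw [hsub] at h4
        rw [integral_neg, h4, neg_zero]
      · rw [tsupport_comp_sub]
        rintro _ ⟨x, hx, rfl⟩
        have hconv := (convex_ball p ρ) (h0 x hx) (h1 x hx) (sub_nonneg.2 hs.2) hs.1 (by ring)
        convert hconv using 1
        rw [smul_add, ← add_assoc, ← add_smul]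
        simp
    rw [h3] at h2
    exact h2
  have hconst := constant_of_has_deriv_right_zero (f := J) (a := 0) (b := 1)
    (fun s hs => (hd s hs).continuousAt.continuousWithinAt)
    (fun s hs => (hd s ⟨hs.1, hs.2.le⟩).hasDerivWithinAt) 1 (by simp)
  simpa [hJ] using hconst


variable {μ : Measure E} [IsFiniteMeasureOnCompacts μ] {lam : Measure E} [lam.IsAddHaarMeasure]

theorem mem_ball_of_add {p x z : E} {ρ ε : ℝ} (hx : x ∈ ball p (ρ - ε)) (hz : z ∈ ball (0:E) ε) :
    x + z ∈ ball p ρ := by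
  rw [mem_ball_iff_norm] at hx hz ⊢
  calc ‖x + z - p‖ = ‖(x - p) + (z - 0)‖ := by congr 1; abel
    _ ≤ ‖x - p‖ + ‖z - 0‖ := norm_add_le _ _
    _ < (ρ - ε) + ε := add_lt_add hx hz
    _ = ρ := by ring

/-- Fubini computation. -/
theorem Flat.key {p : E} {ρ ε : ℝ} (h : Flat μ (ball p ρ)) {η ψ : E → ℝ}
    (hη : ContDiff ℝ ∞ η) (hηc : HasCompactSupport η) (hηs : tsupport η ⊆ ball 0 ε)
    (hψ : ContDiff ℝ ∞ ψ) (hψc : HasCompactSupport ψ) (hψs : tsupport ψ ⊆ ball p (ρ - ε))
    (hε : 0 < ε) (hερ : ε < ρ) :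
    (∫ z, η z ∂lam) * ∫ x, ψ x ∂μ = (∫ x, η (x - p) ∂μ) * ∫ y, ψ y ∂lam := by
  have hφ : ∀ y ∈ tsupport ψ, ∫ x, η (x - y) ∂μ = ∫ x, η (x - p) ∂μ := by
    intro y hy
    have h1 : ContDiff ℝ ∞ (fun x => η (x - p)) := hη.comp (by fun_prop)
    have h2 := hasCompactSupport_comp_sub hηc p
    have h3 := h.shift h1 h2 (y - p) ?_ ?_
    · rw [← h3]
      congr 1
      ext x
      congr 1
      abel
    · rw [tsupport_comp_sub]
      rintro _ ⟨x, hx, rfl⟩
      have := mem_ball_of_add (p := p) (ρ := ρ) (ε := ε) (mem_ball_self (by linarith)) (hηs hx)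
      simpa [add_comm] using this
    · rw [tsupport_comp_sub]
      rintro _ ⟨x, hx, rfl⟩
      have := mem_ball_of_add (p := p) (ρ := ρ) (ε := ε) (hψs hy) (hηs hx)
      convert this using 1
      change x + p + (y - p) = y + x
      abel
  have hA : ∫ y, ψ y * ∫ x, η (x - y) ∂μ ∂lam = (∫ x, η (x - p) ∂μ) * ∫ y, ψ y ∂lam := by
    rw [← integral_const_mul]
    congr 1
    ext y
    by_cases hy : y ∈ tsupport ψ
    · rw [hφ y hy, mul_comm]
    · rw [image_eq_zero_of_notMem_tsupport hy]; simp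
  have hB : ∫ z, η z * ∫ x, ψ (x - z) ∂μ ∂lam = (∫ z, η z ∂lam) * ∫ x, ψ x ∂μ := by
    rw [← integral_mul_const]
    congr 1
    ext z
    by_cases hz : z ∈ tsupport η
    · congr 1
      refine h.shift hψ hψc z ?_ ?_
      · intro x hx
        exact ball_subset_ball (by linarith) (hψs hx)
      · intro x hx
        exact mem_ball_of_add (hψs hx) (hηs hz)
    · rw [image_eq_zero_of_notMem_tsupport hz]; simp
  rw [← hA, ← hB]
  simp_rw [← integral_const_mul]
  have hsw1 : ∫ y, ∫ x, ψ y * η (x - y) ∂μ ∂lam = ∫ x, ∫ y, ψ y * η (x - y) ∂lam ∂μ := by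
    apply integral_integral_swap_of_hasCompactSupport
    · have := hψ.continuous
      have := hη.continuous
      simp only [Function.uncurry_def]
      fun_prop
    · apply HasCompactSupport.of_support_subset_isCompact
        (K := (fun q : E × E => (q.1, q.1 + q.2)) '' (tsupport ψ ×ˢ tsupport η))
      · exact (hψc.isCompact.prod hηc.isCompact).image (by fun_prop)
      · rintro ⟨y, x⟩ hxy
        simp only [Function.uncurry_apply_pair, mem_support, ne_eq, mul_eq_zero, not_or] at hxy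
        exact ⟨(y, x - y), ⟨subset_tsupport _ hxy.1, subset_tsupport _ hxy.2⟩, by simp⟩
  have hsw2 : ∫ z, ∫ x, η z * ψ (x - z) ∂μ ∂lam = ∫ x, ∫ z, η z * ψ (x - z) ∂lam ∂μ := by
    apply integral_integral_swap_of_hasCompactSupport
    · have := hψ.continuous
      have := hη.continuous
      simp only [Function.uncurry_def]
      fun_prop
    · apply HasCompactSupport.of_support_subset_isCompact
        (K := (fun q : E × E => (q.1, q.1 + q.2)) '' (tsupport η ×ˢ tsupport ψ))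
      · exact (hηc.isCompact.prod hψc.isCompact).image (by fun_prop)
      · rintro ⟨y, x⟩ hxy
        simp only [Function.uncurry_apply_pair, mem_support, ne_eq, mul_eq_zero, not_or] at hxy
        exact ⟨(y, x - y), ⟨subset_tsupport _ hxy.1, subset_tsupport _ hxy.2⟩, by simp⟩
  rw [hsw1, hsw2]
  congr 1
  ext x
  rw [← integral_sub_left_eq_self (fun y => ψ y * η (x - y)) lam x]
  congr 1
  ext z
  simp [mul_comm]

/-- test function form of the conclusion -/
theorem Flat.exists_const {p : E} {ρ : ℝ} (hρ : 0 < ρ) (h : Flat μ (ball p ρ)) :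
    ∃ c : ℝ, 0 ≤ c ∧ ∀ ψ : E → ℝ, ContDiff ℝ ∞ ψ → HasCompactSupport ψ → tsupport ψ ⊆ ball p ρ →
      ∫ x, ψ x ∂μ = c * ∫ x, ψ x ∂lam := by
  -- a reference bump function
  let b : ContDiffBump p := ⟨ρ / 8, ρ / 4, by linarith, by linarith⟩
  have hb : 0 < ∫ x, b x ∂lam := b.integral_pos
  have hbs : tsupport b ⊆ ball p (ρ / 2) := by
    rw [b.tsupport_eq]
    exact closedBall_subset_ball (by change ρ / 4 < ρ / 2; linarith)
  refine ⟨(∫ x, b x ∂μ) / ∫ x, b x ∂lam, ?_, ?_⟩
  · exact div_nonneg (integral_nonneg fun x => b.nonneg) hb.le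
  · intro ψ hψ hψc hψs
    obtain ⟨r, hr, hr2⟩ := exists_pos_lt_subset_ball hρ (isClosed_tsupport ψ) hψs
    set ε : ℝ := min (ρ - r) (ρ / 2) with hεdef
    have hε : 0 < ε := lt_min (by linarith [hr.2]) (by linarith)
    have hε1 : ε ≤ ρ - r := min_le_left _ _
    have hε2 : ε ≤ ρ / 2 := min_le_right _ _
    let η : ContDiffBump (0 : E) := ⟨ε / 4, ε / 2, by linarith, by linarith⟩
    have hη : 0 < ∫ x, η x ∂lam := η.integral_pos
    have hηs : tsupport η ⊆ ball 0 ε := by
      rw [η.tsupport_eq]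
      exact closedBall_subset_ball (by change ε / 2 < ε; linarith)
    have k1 := h.key (lam := lam) η.contDiff η.hasCompactSupport hηs hψ hψc
      (hr2.trans (ball_subset_ball (by linarith))) hε (by linarith)
    have k2 := h.key (lam := lam) η.contDiff η.hasCompactSupport hηs b.contDiff b.hasCompactSupport
      (hbs.trans (ball_subset_ball (by linarith))) hε (by linarith)
    rw [div_mul_eq_mul_div, eq_div_iff hb.ne']
    have : (∫ z, η z ∂lam) * ((∫ x, ψ x ∂μ) * ∫ x, b x ∂lam)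
        = (∫ z, η z ∂lam) * ((∫ x, b x ∂μ) * ∫ x, ψ x ∂lam) := by
      calc _ = ((∫ z, η z ∂lam) * (∫ x, ψ x ∂μ)) * ∫ x, b x ∂lam := by ring
        _ = ((∫ z, η z ∂lam) * (∫ x, b x ∂μ)) * ∫ x, ψ x ∂lam := by rw [k1, k2]; ring
        _ = _ := by ring
    exact mul_left_cancel₀ hη.ne' this

/-- **(C2)** the measure form: a flat measure is a multiple of Lebesgue measure on the ball. -/
theorem Flat.restrict_eq {p : E} {ρ : ℝ} (hρ : 0 < ρ) (h : Flat μ (ball p ρ)) :
    ∃ c : ℝ≥0, μ.restrict (ball p ρ) = c • lam.restrict (ball p ρ) := by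
  obtain ⟨c, hc0, hc⟩ := h.exists_const (lam := lam) hρ
  lift c to ℝ≥0 using hc0
  refine ⟨c, ?_⟩
  -- open sets with closure in the ball
  have hopen : ∀ U : Set E, IsOpen U → ∀ r < ρ, U ⊆ ball p r → μ U = c * lam U := by
    intro U hU r hr hUr
    obtain ⟨f, hf1, hf2, hf3⟩ := hU.exists_contDiff_support_eq (n := ⊤)
    have hf0 : ∀ x, 0 ≤ f x := fun x => (hf3 (mem_range_self x)).1
    let g : ℕ → E → ℝ := fun n x => Real.smoothTransition (n * f x)
    have hgs : ∀ n, support (g n) ⊆ U := by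
      intro n x hx
      rw [← hf1]
      intro h0
      apply hx
      simp only [g, h0, mul_zero]
      exact Real.smoothTransition.zero
    have hgts : ∀ n, tsupport (g n) ⊆ closedBall p r := fun n =>
      closure_minimal ((hgs n).trans (hUr.trans ball_subset_closedBall)) isClosed_closedBall
    have hgc : ∀ n, HasCompactSupport (g n) := fun n =>
      (isCompact_closedBall p r).of_isClosed_subset (isClosed_tsupport _) (hgts n)
    have hgd : ∀ n, ContDiff ℝ ∞ (g n) := fun n =>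
      Real.smoothTransition.contDiff.comp (contDiff_const.mul hf2)
    have hlim : ∀ x, Tendsto (fun n => g n x) atTop (𝓝 (U.indicator (fun _ => (1:ℝ)) x)) := by
      intro x
      by_cases hx : x ∈ U
      · rw [indicator_of_mem hx]
        have hfx : 0 < f x := lt_of_le_of_ne (hf0 x) (by
          rw [← hf1] at hx; exact (Ne.symm hx))
        obtain ⟨N, hN⟩ := exists_nat_ge (1 / f x)
        refine tendsto_const_nhds.congr' ?_
        filter_upwards [eventually_ge_atTop N] with n hn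
        symm
        apply Real.smoothTransition.one_of_one_le
        have : (1 / f x) ≤ n := hN.trans (by exact_mod_cast hn)
        rwa [div_le_iff₀ hfx] at this
      · rw [indicator_of_notMem hx]
        have : ∀ n, g n x = 0 := fun n => by
          by_contra h0
          exact hx (hgs n h0)
        simp [this]
    have hbound : ∀ n x, ‖g n x‖ ≤ (closedBall p r).indicator (fun _ => (1:ℝ)) x := by
      intro n x
      by_cases hx : x ∈ closedBall p r
      · rw [indicator_of_mem hx, Real.norm_eq_abs, abs_of_nonneg (Real.smoothTransition.nonneg _)]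
        exact Real.smoothTransition.le_one _
      · rw [indicator_of_notMem hx]
        have : g n x = 0 := by
          by_contra h0
          exact hx (hgts n (subset_tsupport _ h0))
        simp [this]
    have hint : ∀ m : Measure E, IsFiniteMeasureOnCompacts m →
        Tendsto (fun n => ∫ x, g n x ∂m) atTop (𝓝 (m U).toReal) := by
      intro m hm
      have := tendsto_integral_of_dominated_convergence (μ := m) (F := g)
        (f := U.indicator (fun _ => (1:ℝ)))
        ((closedBall p r).indicator (fun _ => (1:ℝ)))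
        (fun n => (hgd n).continuous.aestronglyMeasurable)
        ((integrable_indicator_iff isClosed_closedBall.measurableSet).2
          (integrableOn_const (isCompact_closedBall p r).measure_lt_top.ne))
        (fun n => Eventually.of_forall (hbound n)) (Eventually.of_forall hlim)
      rw [integral_indicator hU.measurableSet] at this
      simpa [Measure.real] using this
    have h1 := hint μ inferInstance
    have h2 := (hint lam inferInstance).const_mul (c:ℝ)
    have h3 : ∀ n, ∫ x, g n x ∂μ = c * ∫ x, g n x ∂lam := fun n =>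
      hc (g n) (hgd n) (hgc n) ((hgts n).trans (closedBall_subset_ball hr))
    simp_rw [h3] at h1
    have h4 := tendsto_nhds_unique h1 h2
    have hfin : ∀ m : Measure E, IsFiniteMeasureOnCompacts m → m U ≠ ⊤ := fun m _ =>
      ((measure_mono (hUr.trans ball_subset_closedBall)).trans_lt
        (isCompact_closedBall p r).measure_lt_top).ne
    rw [← ENNReal.ofReal_toReal (hfin μ inferInstance), h4,
      ENNReal.ofReal_mul (NNReal.coe_nonneg c), ENNReal.ofReal_toReal (hfin lam inferInstance),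
      ENNReal.ofReal_coe_nnreal]
  -- exhaust
  have hballs : ∀ r, 0 < r → r < ρ → μ.restrict (ball p r) = c • lam.restrict (ball p r) := by
    intro r hr0 hr
    have hfinμ : μ (ball p r) < ⊤ := (measure_mono ball_subset_closedBall).trans_lt
        (isCompact_closedBall p r).measure_lt_top
    have : IsFiniteMeasure (μ.restrict (ball p r)) := ⟨by simpa using hfinμ⟩
    refine ext_of_generate_finite {s : Set E | IsOpen s} ?_ ?_ ?_ ?_
    · exact (BorelSpace.measurable_eq)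
    · exact isPiSystem_isOpen
    · intro s hs
      rw [Measure.restrict_apply (IsOpen.measurableSet hs), Measure.smul_apply,
        Measure.restrict_apply (IsOpen.measurableSet hs),
        hopen (s ∩ ball p r) (IsOpen.inter hs isOpen_ball) r hr inter_subset_right]
      rfl
    · rw [Measure.smul_apply, Measure.restrict_apply_univ, Measure.restrict_apply_univ,
        hopen (ball p r) isOpen_ball r hr le_rfl]
      rfl
  have hU : ball p ρ = ⋃ n : ℕ, ball p (ρ - ρ / (n + 2)) := by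
    ext x
    simp only [mem_iUnion, mem_ball]
    constructor
    · intro hx
      obtain ⟨n, hn⟩ := exists_nat_gt (ρ / (ρ - dist x p))
      refine ⟨n, ?_⟩
      have h1 : 0 < ρ - dist x p := by linarith
      rw [div_lt_iff₀ h1] at hn
      have h2 : ρ / (n + 2) < ρ - dist x p := by
        rw [div_lt_iff₀ (by positivity)]
        nlinarith
      linarith
    · rintro ⟨n, hn⟩
      have : 0 < ρ / ((n:ℝ) + 2) := by positivity
      linarith
  rw [hU, ← Measure.restrict_smul, Measure.restrict_iUnion_congr]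
  intro n
  rw [Measure.restrict_smul]
  apply hballs
  · have : ρ / ((n:ℝ) + 2) < ρ := by
      rw [div_lt_iff₀ (by positivity)]
      nlinarith [(Nat.cast_nonneg n : (0:ℝ) ≤ n)]
    linarith
  · have : 0 < ρ / ((n:ℝ) + 2) := by positivity
    linarith

end Crest.Agent.R193.D7_TransInv
end

-- ▼ part R193/CPa_C2
section

/-!
R193, block D7: (C2), the push-forward of the energy measure is `c • volume`.
-/

set_option autoImplicit false

noncomputable section

open Set Filter Topology MeasureTheory Metric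
open scoped ContDiff

namespace Crest.Agent.R193.CPa_C2

open Crest.Agent.R193 Crest.Agent.R193.CPa_Basic Crest.Agent.R193.CPa_Harm
  Crest.Agent.R193.CPa_Loop Crest.Agent.R193.CPa_Conf

variable {G Z : Type} [Group G] [MetricSpace Z] [MulAction G Z] {S : Setup G Z} (Q : DForm S)


/-- **(C2)** -/
theorem inC2 [CompactSpace Z] : InC2 Q := by
  intro O U V hO h W hW hWO p ρ hρ hfr
  classical
  obtain ⟨hU, hV, hharm, hconf⟩ := h
  let _ : MeasurableSpace Z := borel Z
  have _ : BorelSpace Z := ⟨rfl⟩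
  obtain ⟨μ, hμ, hμΓ⟩ := CPa_Measure.exists_measure Q U hU
  let F : Z → ℝ × ℝ := fun x => (U x, V x)
  have hF : Continuous F := by fun_prop
  let ν : Measure (ℝ × ℝ) := (μ.restrict W).map F
  have hνfin : IsFiniteMeasure ν := by
    dsimp only [ν]
    infer_instance
  -- integral against ν
  have hint : ∀ (f : ℝ × ℝ → ℝ), Continuous f → ∀ φ : C(Z, ℝ),
      (∀ x, φ x = W.indicator (fun x => f (U x, V x)) x) → ∫ y, f y ∂ν = Q.Γ U U φ := by
    intro f hf φ hφ
    rw [← hμΓ φ, integral_map hF.measurable.aemeasurable hf.aestronglyMeasurable,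
      ← integral_indicator hW.measurableSet]
    exact integral_congr_ae (Eventually.of_forall fun x => (hφ x).symm)
  -- flatness
  have hflat : D7_TransInv.Flat ν (ball p ρ) := by
    intro ψ hψ hψc hψs v
    have hψ2 : ContDiff ℝ 2 ψ := contDiff_infty.1 hψ 2
    have hψ1 : ContDiff ℝ 1 ψ := hψ.of_le (by exact_mod_cast le_top)
    have hfd : Continuous (fderiv ℝ ψ) := hψ1.continuous_fderiv one_ne_zero
    let ψ₁ : ℝ × ℝ → ℝ := fun y => fderiv ℝ ψ y (1, 0)
    let ψ₂ : ℝ × ℝ → ℝ := fun y => fderiv ℝ ψ y (0, 1)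
    have hc1 : Continuous ψ₁ := hfd.clm_apply continuous_const
    have hc2 : Continuous ψ₂ := hfd.clm_apply continuous_const
    have hts1 : tsupport ψ₁ ⊆ tsupport ψ := by
      refine closure_minimal (fun y hy => ?_) (isClosed_tsupport ψ)
      apply tsupport_fderiv_subset ℝ
      apply subset_tsupport
      intro h0
      apply hy
      change fderiv ℝ ψ y (1, 0) = 0
      rw [h0]; rfl
    have hts2 : tsupport ψ₂ ⊆ tsupport ψ := by
      refine closure_minimal (fun y hy => ?_) (isClosed_tsupport ψ)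
      apply tsupport_fderiv_subset ℝ
      apply subset_tsupport
      intro h0
      apply hy
      change fderiv ℝ ψ y (0, 1) = 0
      rw [h0]; rfl
    -- the compact set and cut-off
    set K : Set Z := closure W ∩ {x | F x ∈ tsupport ψ} with hK
    have hKc : IsCompact K :=
      (isClosed_closure.inter ((isClosed_tsupport ψ).preimage hF)).isCompact
    have hKW : K ⊆ W := by
      rintro x ⟨hx1, hx2⟩
      by_contra hne
      exact hfr x ⟨hx1, by rwa [hW.interior_eq]⟩ (hψs hx2)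
    obtain ⟨χ, hχ, hχ01, ⟨N, hN, hKN, hN1⟩, hχs⟩ := cut_KO Q hKc hW hKW
    have hWO' : W ⊆ O := subset_closure.trans hWO
    -- `χ ≡ 0` or `1` near the set where ψ ∘ F ≠ 0
    set W' : Set Z := N ∪ (tsupport χ)ᶜ with hW'
    have hW'o : IsOpen W' := hN.union (isClosed_tsupport χ).isOpen_compl
    have hW'01 : ∀ z ∈ W', χ z = 0 ∨ χ z = 1 := by
      rintro z (hz | hz)
      · exact Or.inr (hN1 z hz)
      · left
        by_contra hne
        exact hz (subset_tsupport _ hne)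
    have hsupp : F ⁻¹' (tsupport ψ) ⊆ W' := by
      intro z hz
      by_cases hzV : z ∈ W
      · exact Or.inl (hKN ⟨subset_closure hzV, hz⟩)
      · exact Or.inr fun h => hzV (hχs h)
    set P : C(Z, ℝ) := cmp ψ hψ2.continuous U V with hP
    obtain ⟨hPD, hPΓ⟩ := chain2 Q hψ2 hc1 hc2 (fun y => rfl) (fun y => rfl) hU hV
    have hPs : ∀ φ : C(Z, ℝ), tsupport (φ * P : C(Z, ℝ)) ⊆ W' := by
      intro φ
      refine (closure_minimal ?_ ((isClosed_tsupport ψ).preimage hF)).trans hsupp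
      intro z hz
      by_contra hne
      apply hz
      have : P z = 0 := image_eq_zero_of_notMem_tsupport (f := ψ) hne
      simp [this]
    have hg : χ * P ∈ Q.Dom := Q.mul_mem χ hχ P hPD
    have hgs : tsupport (χ * P : C(Z, ℝ)) ⊆ O := by
      refine (closure_mono ?_).trans (hχs.trans hWO')
      intro x hx h0
      apply hx
      simp [h0]
    have hχφs : ∀ φ : C(Z, ℝ), tsupport (χ * φ : C(Z, ℝ)) ⊆ O := by
      intro φ
      refine (closure_mono ?_).trans (hχs.trans hWO')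
      intro x hx h0
      apply hx
      simp [h0]
    obtain ⟨g1, g2⟩ := hharm _ hg hgs
    have z1 : Q.Γ U χ P = 0 := by
      rw [Q.symm U hU χ hχ]
      have := hPs 1
      rw [one_mul] at this
      exact local_01 Q hχ hU hW'o hW'01 this
    have z2 : Q.Γ V χ P = 0 := by
      rw [Q.symm V hV χ hχ]
      have := hPs 1
      rw [one_mul] at this
      exact local_01 Q hχ hV hW'o hW'01 this
    rw [leib_right Q hχ hPD hU, one_mul, one_mul, z1, zero_add, Q.symm U hU P hPD, hPΓ U hU,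
      Q.symm V hV U hU, (hconf _ (hχφs _)).1, add_zero] at g1
    rw [leib_right Q hχ hPD hV, one_mul, one_mul, z2, zero_add, Q.symm V hV P hPD, hPΓ V hV,
      (hconf _ (hχφs _)).1, zero_add, ← (hconf _ (hχφs _)).2] at g2
    -- identify the test functions
    have hval : ∀ (f : ℝ × ℝ → ℝ) (hf : Continuous f), tsupport f ⊆ tsupport ψ →
        ∀ x, (χ * cmp f hf U V : C(Z, ℝ)) x = W.indicator (fun x => f (U x, V x)) x := by
      intro f hf hfs x
      simp only [ContinuousMap.mul_apply, cmp_apply]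
      by_cases hx : x ∈ W
      · rw [indicator_of_mem hx]
        by_cases h0 : f (U x, V x) = 0
        · rw [h0, mul_zero]
        · have : x ∈ K := ⟨subset_closure hx, hfs (subset_tsupport _ h0)⟩
          rw [hN1 x (hKN this), one_mul]
      · rw [indicator_of_notMem hx]
        have : χ x = 0 := by
          by_contra hne
          exact hx (hχs (subset_tsupport _ hne))
        rw [this, zero_mul]
    have i1 : ∫ y, ψ₁ y ∂ν = 0 := by rw [hint ψ₁ hc1 _ (hval ψ₁ hc1 hts1), g1]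
    have i2 : ∫ y, ψ₂ y ∂ν = 0 := by rw [hint ψ₂ hc2 _ (hval ψ₂ hc2 hts2), g2]
    have hv : ∀ y, fderiv ℝ ψ y v = v.1 * ψ₁ y + v.2 * ψ₂ y := by
      intro y
      have : v = v.1 • ((1, 0) : ℝ × ℝ) + v.2 • ((0, 1) : ℝ × ℝ) := by
        ext <;> simp
      conv_lhs => rw [this]
      rw [map_add, map_smul, map_smul]
      rfl
    simp_rw [hv]
    have hcs1 : HasCompactSupport ψ₁ := hψc.of_isClosed_subset (isClosed_tsupport _) hts1
    have hcs2 : HasCompactSupport ψ₂ := hψc.of_isClosed_subset (isClosed_tsupport _) hts2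
    have j1 : Integrable ψ₁ ν := hc1.integrable_of_hasCompactSupport hcs1
    have j2 : Integrable ψ₂ ν := hc2.integrable_of_hasCompactSupport hcs2
    rw [integral_add (j1.const_mul _) (j2.const_mul _), integral_const_mul, integral_const_mul,
      i1, i2]
    ring
  obtain ⟨c, hc⟩ := hflat.restrict_eq (lam := (volume : Measure (ℝ × ℝ))) hρ
  refine ⟨c, c.2, ?_⟩
  intro ψ hψ hψs φ hφ1 hφ2
  have e1 : ∀ x, φ x = W.indicator (fun x => ψ (U x, V x)) x := by
    intro x
    by_cases hx : x ∈ W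
    · rw [indicator_of_mem hx, hφ1 x hx]
    · rw [indicator_of_notMem hx, hφ2 x hx]
  rw [← hint ψ hψ φ e1]
  have hz : ∀ y, y ∉ ball p ρ → ψ y = 0 := fun y hy =>
    image_eq_zero_of_notMem_tsupport (fun h => hy (hψs h))
  have e2 : ∫ y, ψ y ∂ν = ∫ y in ball p ρ, ψ y ∂ν :=
    (setIntegral_eq_integral_of_forall_compl_eq_zero hz).symm
  have e3 : ∫ y, ψ y = ∫ y in ball p ρ, ψ y :=
    (setIntegral_eq_integral_of_forall_compl_eq_zero hz).symm
  rw [e2, e3, hc, integral_smul_nnreal_measure]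
  rfl

end Crest.Agent.R193.CPa_C2
end
end

-- ▼ part R193/L_Unit
section

/-!
# R193, block LOEW, unit scale (helper508)

`loew_unit`: a function of the domain that is `≥ 1` on a connected set of size `≥ d` and `≤ 0` on a
connected set of size `≥ d` has energy at least `c(d) > 0`.

Proof: level sets have large components (planar topology), two of `N+1` equally spaced level
components come close to each other, and the Courant-Lebesgue loop around such a place meets both.
-/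

set_option autoImplicit false

open Set Filter Topology Metric

namespace Crest.Agent.R193.L_Unit

open Crest.Agent.R193 Crest.Agent.R193.Planar

/-! ### complements of small caps on the sphere are connected -/

/-- the complement of an open cone around the direction `p`, without the origin, is preconnected -/
theorem cone_preconnected {E : Type*} [NormedAddCommGroup E] [InnerProductSpace ℝ E] {p : E}
    (hp : ‖p‖ = 1) {c : ℝ} (h0 : 0 ≤ c) (h1 : c < 1) :
    IsPreconnected {x : E | x ≠ 0 ∧ inner ℝ x p ≤ c * ‖x‖} := by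
  have hpp : inner ℝ p p = (1 : ℝ) := by rw [real_inner_self_eq_norm_sq, hp]; norm_num
  set H : Set E := {x : E | inner ℝ x p < 0} with hH
  have hHc : Convex ℝ H := by
    intro x hx y hy a b ha hb hab
    simp only [hH, mem_ofPred_eq] at hx hy ⊢
    rw [inner_add_left, inner_smul_left, inner_smul_left]
    simp only [conj_trivial]
    rcases ha.lt_or_eq with ha' | ha'
    · nlinarith
    · rw [← ha'] at hab ⊢
      have : b = 1 := by linarith
      rw [this]; linarith
  have hHp : IsPreconnected H := hHc.isPreconnected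
  have hmp : -p ∈ H := by
    simp only [hH, mem_ofPred_eq, inner_neg_left, hpp]; norm_num
  -- the half line from `x` in direction `-p`
  have key : ∀ x ∈ {x : E | x ≠ 0 ∧ inner ℝ x p ≤ c * ‖x‖}, ∃ T : Set E,
      T ⊆ {x : E | x ≠ 0 ∧ inner ℝ x p ≤ c * ‖x‖} ∧ -p ∈ T ∧ x ∈ T ∧ IsPreconnected T := by
    rintro x ⟨hx0, hxc⟩
    refine ⟨(fun s : ℝ => x - s • p) '' Ici 0 ∪ H, ?_, Or.inr hmp, Or.inl ⟨0, mem_Ici.2 le_rfl, by simp⟩,
      ?_⟩
    · rintro y (⟨s, hs, rfl⟩ | hy)
      · have hs' : 0 ≤ s := hs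
        refine ⟨?_, ?_⟩
        · intro h
          have hx : x = s • p := sub_eq_zero.1 h
          rw [hx, inner_smul_left, hpp, norm_smul, hp] at hxc
          simp only [conj_trivial, Real.norm_eq_abs, abs_of_nonneg hs', mul_one] at hxc
          have : s = 0 := by nlinarith
          rw [this, zero_smul] at hx
          exact hx0 hx
        · have h2 : ‖x‖ ≤ ‖x - s • p‖ + s := by
            calc ‖x‖ = ‖(x - s • p) + s • p‖ := by rw [sub_add_cancel]
              _ ≤ ‖x - s • p‖ + ‖s • p‖ := norm_add_le _ _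
              _ = ‖x - s • p‖ + s := by rw [norm_smul, hp, mul_one, Real.norm_eq_abs,
                    abs_of_nonneg hs']
          show inner ℝ (x - s • p) p ≤ c * ‖x - s • p‖
          rw [inner_sub_left, inner_smul_left, hpp]
          simp only [conj_trivial, mul_one]
          nlinarith
      · refine ⟨?_, ?_⟩
        · rintro rfl
          simp only [hH, mem_ofPred_eq, inner_zero_left, lt_self_iff_false] at hy
        · exact (le_of_lt hy).trans (mul_nonneg h0 (norm_nonneg _))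
    · have hc : IsPreconnected ((fun s : ℝ => x - s • p) '' Ici 0) :=
        isPreconnected_Ici.image _ (by fun_prop)
      have hsx : 0 ≤ |inner ℝ x p| + 1 := by positivity
      refine hc.union (x - (|inner ℝ x p| + 1) • p) ⟨_, hsx, rfl⟩ ?_ hHp
      simp only [hH, mem_ofPred_eq]
      rw [inner_sub_left, inner_smul_left, hpp]
      simp only [conj_trivial, mul_one]
      have := le_abs_self (inner ℝ x p)
      linarith
  refine isPreconnected_of_forall (-p) fun y hy => ?_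
  obtain ⟨T, h1, h2, h3, h4⟩ := key y hy
  exact ⟨T, h1, h2, h3, h4⟩

/-- complement of a small open ball on the unit sphere is preconnected -/
theorem sphere_compl_ball_preconnected (p : S2) {r : ℝ} (hr0 : 0 < r) (hr1 : r ≤ 1) :
    IsPreconnected {q : S2 | r ≤ dist q p} := by
  have hp : ‖(p : EuclideanSpace ℝ (Fin 3))‖ = 1 := norm_eq_of_mem_sphere p
  set c : ℝ := 1 - r ^ 2 / 2 with hc
  have hc0 : 0 ≤ c := by rw [hc]; nlinarith
  have hc1 : c < 1 := by rw [hc]; nlinarith [sq_pos_of_pos hr0]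
  have hK := cone_preconnected hp hc0 hc1
  -- dist and inner product on the sphere
  have hdist : ∀ q : S2, dist q p ^ 2 = 2 - 2 * inner ℝ (q : EuclideanSpace ℝ (Fin 3)) p := by
    intro q
    have hq : ‖(q : EuclideanSpace ℝ (Fin 3))‖ = 1 := norm_eq_of_mem_sphere q
    rw [Subtype.dist_eq, dist_eq_norm, @norm_sub_sq_real, hq, hp]
    ring
  have hiff : ∀ q : S2, r ≤ dist q p ↔ inner ℝ (q : EuclideanSpace ℝ (Fin 3)) p ≤ c := by
    intro q
    have h := hdist q
    have hd := dist_nonneg (x := q) (y := p)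
    constructor
    · intro hrq
      have : r ^ 2 ≤ dist q p ^ 2 := by gcongr
      rw [hc]; linarith
    · intro hq
      by_contra hlt
      push Not at hlt
      have : dist q p ^ 2 < r ^ 2 := by gcongr
      rw [hc] at hq
      linarith
  -- normalisation map from the cone to the sphere
  have hcont : ContinuousOn (fun x : EuclideanSpace ℝ (Fin 3) => ‖x‖⁻¹ • x)
      {x | x ≠ 0 ∧ inner ℝ x (p : EuclideanSpace ℝ (Fin 3)) ≤ c * ‖x‖} := by
    refine ContinuousOn.smul (ContinuousOn.inv₀ continuous_norm.continuousOn ?_) continuousOn_id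
    rintro x ⟨hx, -⟩
    exact norm_ne_zero_iff.2 hx
  have himg := hK.image _ hcont
  have heq : Subtype.val '' {q : S2 | r ≤ dist q p} =
      (fun x : EuclideanSpace ℝ (Fin 3) => ‖x‖⁻¹ • x) ''
        {x | x ≠ 0 ∧ inner ℝ x (p : EuclideanSpace ℝ (Fin 3)) ≤ c * ‖x‖} := by
    ext y
    constructor
    · rintro ⟨q, hq, rfl⟩
      have hq1 : ‖(q : EuclideanSpace ℝ (Fin 3))‖ = 1 := norm_eq_of_mem_sphere q
      refine ⟨q, ⟨?_, ?_⟩, ?_⟩
      · intro h
        rw [h, norm_zero] at hq1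
        exact zero_ne_one hq1
      · rw [hq1, mul_one]; exact (hiff q).1 hq
      · simp only [hq1, inv_one, one_smul]
    · rintro ⟨x, ⟨hx0, hx⟩, rfl⟩
      have hn : 0 < ‖x‖ := norm_pos_iff.2 hx0
      have hmem : ‖x‖⁻¹ • x ∈ sphere (0 : EuclideanSpace ℝ (Fin 3)) 1 := by
        rw [mem_sphere_zero_iff_norm, norm_smul, norm_inv, norm_norm, inv_mul_cancel₀ hn.ne']
      refine ⟨⟨_, hmem⟩, ?_, rfl⟩
      show r ≤ dist (⟨‖x‖⁻¹ • x, hmem⟩ : S2) p
      rw [hiff]
      show inner ℝ (‖x‖⁻¹ • x) (p : EuclideanSpace ℝ (Fin 3)) ≤ c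
      rw [inner_smul_left]
      simp only [conj_trivial]
      rw [inv_mul_le_iff₀ hn, mul_comm]
      exact hx
  have h3 : IsPreconnected (Subtype.val '' {q : S2 | r ≤ dist q p}) := by rw [heq]; exact himg
  exact (Topology.IsInducing.subtypeVal.isPreconnected_image).1 h3


section
variable {G Z : Type} [Group G] [MetricSpace Z] [MulAction G Z]

/-- **(SM)** small sets do not separate large ones: for `d > 0` there is `τ > 0` such that every
ball of radius `τ` misses a preconnected set containing everything at distance `≥ d / 2`. -/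
theorem exists_small (Φ : Z ≃ₜ S2) [CompactSpace Z] {d : ℝ} (hd : 0 < d) :
    ∃ τ : ℝ, 0 < τ ∧ ∀ z : Z, ∃ V : Set Z, IsPreconnected V ∧ (∀ x ∈ V, τ ≤ dist x z) ∧
      ∀ x, d / 2 ≤ dist x z → x ∈ V := by
  have hu1 : UniformContinuous Φ.symm :=
    CompactSpace.uniformContinuous_of_continuous Φ.symm.continuous
  have hu2 : UniformContinuous Φ := CompactSpace.uniformContinuous_of_continuous Φ.continuous
  obtain ⟨r0, hr0, h1⟩ := Metric.uniformContinuous_iff.1 hu1 (d / 2) (by linarith)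
  set r := min r0 1 with hr
  have hrpos : 0 < r := lt_min hr0 one_pos
  obtain ⟨τ, hτ, h2⟩ := Metric.uniformContinuous_iff.1 hu2 r hrpos
  refine ⟨τ, hτ, fun z => ⟨Φ.symm '' {q : S2 | r ≤ dist q (Φ z)}, ?_, ?_, ?_⟩⟩
  · exact (sphere_compl_ball_preconnected (Φ z) hrpos (min_le_right _ _)).image _
      Φ.symm.continuous.continuousOn
  · rintro x ⟨q, hq, rfl⟩
    by_contra hlt
    push Not at hlt
    have := h2 hlt
    rw [Φ.apply_symm_apply] at this
    exact absurd hq (not_le.2 this)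
  · intro x hx
    refine ⟨Φ x, ?_, Φ.symm_apply_apply x⟩
    show r ≤ dist (Φ x) (Φ z)
    by_contra hlt
    push Not at hlt
    have := h1 (hlt.trans_le (min_le_left _ _))
    rw [Φ.symm_apply_apply, Φ.symm_apply_apply] at this
    linarith

/-- a compact set all of whose components have small diameter is a finite disjoint union of small
compact sets -/
theorem exists_partition [CompactSpace Z] {L : Set Z} (hL : IsClosed L) {τ : ℝ}
    (h : ∀ z ∈ L, connectedComponentIn L z ⊆ ball z τ) :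
    ∃ (n : ℕ) (A : Fin n → Set Z), (∀ i, IsClosed (A i)) ∧ (⋃ i, A i) = L ∧
      (∀ i j, i ≠ j → Disjoint (A i) (A j)) ∧ ∀ i, ∃ z, A i ⊆ ball z τ := by
  classical
  have hLc : IsCompact L := hL.isCompact
  have : CompactSpace L := isCompact_iff_compactSpace.1 hLc
  -- clopen neighbourhoods
  have hs : ∀ z : L, ∃ s : Set L, IsClopen s ∧ z ∈ s ∧ Subtype.val '' s ⊆ ball (z : Z) τ := by
    intro z
    obtain ⟨s, hs, hzs, hd⟩ := P_Comp.exists_isClopen_of_comp_disjoint (X := L)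
      (F := Subtype.val ⁻¹' (ball (z : Z) τ)ᶜ)
      ((isOpen_ball.isClosed_compl).preimage continuous_subtype_val) (x := z) (by
        have h1 := h z z.2
        rw [connectedComponentIn_eq_image z.2] at h1
        rw [disjoint_left]
        intro y hy hyF
        exact hyF (h1 (mem_image_of_mem _ hy)))
    refine ⟨s, hs, hzs, ?_⟩
    rintro _ ⟨y, hy, rfl⟩
    by_contra hcon
    exact disjoint_left.1 hd hy hcon
  choose s hs hzs hsb using hs
  obtain ⟨t, ht⟩ := isCompact_univ.elim_finite_subcover (U := s) (fun z => (hs z).isOpen)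
    (fun z _ => mem_iUnion.2 ⟨z, hzs z⟩)
  -- enumerate
  obtain ⟨n, ⟨e⟩⟩ : ∃ n : ℕ, Nonempty (Fin n ≃ t) := ⟨t.card, ⟨t.equivFin.symm⟩⟩
  set B : Fin n → Set L := fun i => s (e i) with hB
  have hBc : ∀ i, IsClopen (B i) := fun i => hs _
  set A' : Fin n → Set L := fun i => B i \ ⋃ j ∈ Finset.univ.filter (fun j => j < i), B j with hA'
  have hA'c : ∀ i, IsClopen (A' i) := fun i =>
    (hBc i).diff (isClopen_biUnion_finset fun j _ => hBc j)
  refine ⟨n, fun i => Subtype.val '' A' i, fun i => ?_, ?_, ?_, fun i => ⟨(e i : L), ?_⟩⟩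
  · exact ((hA'c i).1.isCompact.image continuous_subtype_val).isClosed
  · rw [← image_iUnion]
    have : (⋃ i, A' i) = univ := by
      rw [eq_univ_iff_forall]
      intro z
      have hz : ∃ i : Fin n, z ∈ B i := by
        obtain ⟨y, hy, hzy⟩ := mem_iUnion₂.1 (ht (mem_univ z))
        exact ⟨e.symm ⟨y, hy⟩, by rw [hB]; simpa using hzy⟩
      have hne : (Finset.univ.filter fun i : Fin n => z ∈ B i).Nonempty := by
        obtain ⟨i, hi⟩ := hz
        exact ⟨i, by simp [hi]⟩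
      set i0 := (Finset.univ.filter fun i : Fin n => z ∈ B i).min' hne with hi0
      have hi0m := Finset.min'_mem _ hne
      rw [← hi0, Finset.mem_filter] at hi0m
      refine mem_iUnion.2 ⟨i0, hi0m.2, ?_⟩
      simp only [mem_iUnion, Finset.mem_filter, Finset.mem_univ, true_and, exists_prop, not_exists,
        not_and]
      intro j hj hzj
      have := Finset.min'_le (Finset.univ.filter fun i : Fin n => z ∈ B i) j (by simp [hzj])
      rw [← hi0] at this
      exact absurd hj (not_lt.2 this)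
    rw [this, image_univ, Subtype.range_coe]
  · intro i j hij
    refine (?_ : Disjoint (A' i) (A' j)).image Subtype.val_injective.injOn (subset_univ _)
      (subset_univ _)
    rw [disjoint_left]
    intro z hzi hzj
    rcases lt_or_gt_of_ne hij with hlt | hlt
    · exact hzj.2 (mem_iUnion₂.2 ⟨i, by simp [hlt], hzi.1⟩)
    · exact hzi.2 (mem_iUnion₂.2 ⟨j, by simp [hlt], hzj.1⟩)
  · rintro _ ⟨y, hy, rfl⟩
    exact hsb _ (mem_image_of_mem _ hy.1)


/-- **(LP)** level sets between two large connected sets have large components -/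
theorem exists_level_comp (Φ : Z ≃ₜ S2) [CompactSpace Z] {d : ℝ} (hd : 0 < d) :
    ∃ τ : ℝ, 0 < τ ∧ ∀ (w : Z → ℝ), Continuous w → ∀ A B : Set Z, IsPreconnected A →
      IsPreconnected B → ∀ a ∈ A, ∀ a' ∈ A, ∀ b ∈ B, ∀ b' ∈ B, d ≤ dist a a' → d ≤ dist b b' →
      (∀ x ∈ A, 1 ≤ w x) → (∀ x ∈ B, w x ≤ 0) → ∀ t : ℝ, 0 < t → t < 1 →
      ∃ K : Set Z, IsPreconnected K ∧ (∀ x ∈ K, w x = t) ∧ ∃ z ∈ K, ∃ y ∈ K, τ ≤ dist y z := by
  obtain ⟨τ, hτ, hV⟩ := exists_small Φ hd
  refine ⟨τ, hτ, fun w hw A B hA hB a ha a' ha' b hb b' hb' hda hdb hwA hwB t ht0 ht1 => ?_⟩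
  have hlc : LocallyConnectedSpace Z := Φ.isOpenEmbedding.locallyConnectedSpace
  have hcs : ConnectedSpace Z := by
    have := S2_connected
    exact Φ.symm.surjective.connectedSpace Φ.symm.continuous
  have hX : Splits Z := splits_S2.of_homeo Φ
  set L : Set Z := {x | w x = t} with hL
  have hLc : IsClosed L := isClosed_singleton.preimage hw
  by_contra hcon
  push Not at hcon
  -- all components are small
  have hsmall : ∀ z ∈ L, connectedComponentIn L z ⊆ ball z τ := by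
    intro z hz y hy
    refine hcon (connectedComponentIn L z) isPreconnected_connectedComponentIn (fun x hx => ?_)
      z (mem_connectedComponentIn hz) y hy
    exact (connectedComponentIn_subset L z hx : x ∈ L)
  obtain ⟨n, U, hUc, hUL, hUd, hUb⟩ := exists_partition hLc hsmall
  have haL : a ∉ L := fun h => by
    have := hwA a ha
    rw [hL] at h
    have h' : w a = t := h
    linarith
  have hbL : b ∉ L := fun h => by
    have := hwB b hb
    have h' : w b = t := h
    linarith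
  have hsep : FSep (⋃ i ∈ (Finset.univ : Finset (Fin n)), U i) a b := by
    have he : (⋃ i ∈ (Finset.univ : Finset (Fin n)), U i) = L := by simp [hUL]
    rw [he]
    refine fsep_of_forall hLc haL hbL fun S hS haS hbS => ?_
    obtain ⟨x, hxS, hx⟩ := hS.intermediate_value hbS haS hw.continuousOn
      (show t ∈ Icc (w b) (w a) from ⟨(hwB b hb).trans ht0.le, ht1.le.trans (hwA a ha)⟩)
    exact ⟨x, hxS, hx⟩
  obtain ⟨c, -, hc, hfam⟩ := hX.exists_famConn U hUc Finset.univ hsep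
  -- `c` has at most one element
  have hcase : c = ∅ ∨ ∃ i, c = {i} := by
    rcases c.eq_empty_or_nonempty with h | ⟨i, hi⟩
    · exact Or.inl h
    · right
      refine ⟨i, ?_⟩
      by_contra hne
      obtain ⟨h1, hh1, h2, -, hh2, hmeet⟩ := hfam {i} (by simpa using hi) ⟨i, by simp⟩
        (fun h' => hne h'.symm)
      rw [Finset.mem_singleton] at hh1
      have hne2 : h1 ≠ h2 := fun h' => hh2 (by rw [Finset.mem_singleton, ← h', hh1])
      obtain ⟨x, hx1, hx2⟩ := hmeet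
      exact disjoint_left.1 (hUd h1 h2 hne2) hx1 hx2
  -- in both cases there is a ball of radius `τ` around some point containing the union
  have hball : ∃ z, (⋃ i ∈ c, U i) ⊆ ball z τ := by
    rcases hcase with h | ⟨i, h⟩
    · exact ⟨a, by rw [h]; simp⟩
    · obtain ⟨z, hz⟩ := hUb i
      exact ⟨z, by rw [h]; simpa using hz⟩
  obtain ⟨z, hz⟩ := hball
  obtain ⟨V, hVp, hV1, hV2⟩ := hV z
  have hAV : (A ∩ V).Nonempty := by
    rcases le_or_gt (d / 2) (dist a z) with h | h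
    · exact ⟨a, ha, hV2 a h⟩
    · refine ⟨a', ha', hV2 a' ?_⟩
      have := dist_triangle a z a'
      rw [dist_comm z a'] at this
      linarith
  have hBV : (B ∩ V).Nonempty := by
    rcases le_or_gt (d / 2) (dist b z) with h | h
    · exact ⟨b, hb, hV2 b h⟩
    · refine ⟨b', hb', hV2 b' ?_⟩
      have := dist_triangle b z b'
      rw [dist_comm z b'] at this
      linarith
  have hW : IsPreconnected (A ∪ V ∪ B) := by
    obtain ⟨x, hxA, hxV⟩ := hAV
    obtain ⟨y, hyB, hyV⟩ := hBV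
    exact (hA.union x hxA hxV hVp).union y (Or.inr hyV) hyB hB
  obtain ⟨x, hxW, hxU⟩ := hc.inter_nonempty hW (Or.inl (Or.inl ha)) (Or.inr hb)
  have hxL : x ∈ L := by
    rw [← hUL]
    obtain ⟨i, -, hi⟩ := mem_iUnion₂.1 hxU
    exact mem_iUnion.2 ⟨i, hi⟩
  have hwx : w x = t := hxL
  rcases hxW with (hx | hx) | hx
  · have := hwA x hx; linarith
  · exact absurd (hz hxU) (not_lt.2 (hV1 x hx))
  · have := hwB x hx; linarith

/-- **Loewner inequality at unit scale.** -/
theorem loew_unit (S : Setup G Z) (Q : DForm S) (Φ : Z ≃ₜ S2) (d : ℝ) (hd : 0 < d) :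
    ∃ c > 0, ∀ A B : Set Z, IsPreconnected A → IsPreconnected B → ∀ a ∈ A, ∀ a' ∈ A, ∀ b ∈ B,
      ∀ b' ∈ B, d ≤ dist a a' → d ≤ dist b b' → ∀ w ∈ Q.Dom, (∀ x ∈ A, 1 ≤ w x) →
      (∀ x ∈ B, w x ≤ 0) → c ≤ Q.Γ w w 1 := by
  have hcomp : CompactSpace Z := Φ.symm.compactSpace
  obtain ⟨τ, hτ, hLP⟩ := exists_level_comp Φ hd
  have hlam : 0 < Q.lam := one_pos.trans Q.one_lt_lam
  set ρ : ℝ := min Q.ρ0 (τ / (4 * Q.lam)) with hρ
  have hρpos : 0 < ρ := lt_min Q.ρ0_pos (by positivity)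
  have hlamρ : Q.lam * ρ ≤ τ / 4 := by
    calc Q.lam * ρ ≤ Q.lam * (τ / (4 * Q.lam)) :=
          mul_le_mul_of_nonneg_left (min_le_right _ _) hlam.le
      _ = τ / 4 := by field_simp
  -- a finite net
  obtain ⟨F, hFfin, hF⟩ := Metric.totallyBounded_iff.1
    (isCompact_univ : IsCompact (univ : Set Z)).totallyBounded (ρ / 2) (by linarith)
  set N := hFfin.toFinset.card with hN
  have hC0 := Q.C0_pos
  refine ⟨(1 / (Q.C0 * (N + 2))) ^ 2, by positivity, ?_⟩
  intro A B hA hB a ha a' ha' b hb b' hb' hda hdb w hw hwA hwB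
  -- level components
  have hlev : ∀ i : Fin (N + 1), ∃ K : Set Z, IsPreconnected K ∧
      (∀ x ∈ K, w x = ((i : ℕ) + 1 : ℝ) / (N + 2)) ∧ ∃ z ∈ K, ∃ y ∈ K, τ ≤ dist y z := by
    intro i
    have hi : ((i : ℕ) : ℝ) ≤ N := by exact_mod_cast Nat.lt_succ_iff.1 i.2
    refine hLP w w.continuous A B hA hB a ha a' ha' b hb b' hb' hda hdb hwA hwB _ (by positivity) ?_
    rw [div_lt_one (by positivity)]
    linarith
  choose K hKp hKw z hz y hy hzy using hlev
  -- nearest net points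
  have hnet : ∀ i, ∃ f ∈ hFfin.toFinset, dist (z i) f < ρ / 2 := by
    intro i
    obtain ⟨f, hf, hzf⟩ := mem_iUnion₂.1 (hF (mem_univ (z i)))
    exact ⟨f, hFfin.mem_toFinset.2 hf, hzf⟩
  choose f hfF hf using hnet
  obtain ⟨i, -, j, -, hij, hfij⟩ := Finset.exists_ne_map_eq_of_card_lt_of_maps_to
    (s := (Finset.univ : Finset (Fin (N + 1)))) (t := hFfin.toFinset) (by simp [← hN])
    (f := f) (fun i _ => hfF i)
  have hclose : dist (z j) (z i) ≤ ρ := by
    have h1 := hf i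
    have h2 := hf j
    rw [← hfij] at h2
    have := dist_triangle (z j) (f i) (z i)
    rw [dist_comm (f i) (z i)] at this
    linarith
  -- both level components meet the ball and leave it
  have hleave : ∀ k : Fin (N + 1), dist (z k) (z i) ≤ ρ →
      (K k ∩ closedBall (z i) ρ).Nonempty ∧ (K k ∩ (ball (z i) (Q.lam * ρ))ᶜ).Nonempty := by
    intro k hk
    refine ⟨⟨z k, hz k, hk⟩, ⟨y k, hy k, ?_⟩⟩
    rw [mem_compl_iff, mem_ball, not_lt]
    have h1 := dist_triangle (y k) (z i) (z k)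
    rw [dist_comm (z i) (z k)] at h1
    have h2 := hzy k
    have h3 : ρ ≤ Q.lam * ρ := by nlinarith [Q.one_lt_lam]
    linarith
  have hmain : ∀ η > 0, 1 / ((N : ℝ) + 2) ≤ Q.C0 * Real.sqrt (Q.Γ w w 1) + η := by
    intro η hη
    obtain ⟨σ, -, -, -, hσs, hσo⟩ := Q.CL (z i) ρ hρpos (min_le_left _ _) w hw 1
      (fun _ => by simp) (fun _ _ _ => by simp) η hη
    obtain ⟨hi1, hi2⟩ := hleave i (by rw [dist_self]; exact hρpos.le)
    obtain ⟨hj1, hj2⟩ := hleave j hclose
    obtain ⟨p, hpK, hpσ⟩ := hσs (K i) (hKp i) hi1 hi2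
    obtain ⟨q, hqK, hqσ⟩ := hσs (K j) (hKp j) hj1 hj2
    refine le_trans ?_ (hσo p hpσ q hqσ)
    rw [hKw i p hpK, hKw j q hqK, ← sub_div, abs_div, abs_of_pos (show (0 : ℝ) < N + 2 by positivity)]
    apply div_le_div_of_nonneg_right _ (by positivity)
    have hne : ((i : ℕ) : ℤ) - ((j : ℕ) : ℤ) ≠ 0 := by
      intro h
      apply hij
      ext
      omega
    have h1 : (1 : ℤ) ≤ |((i : ℕ) : ℤ) - ((j : ℕ) : ℤ)| := Int.one_le_abs hne
    have h2 : (1 : ℝ) ≤ |((i : ℕ) : ℝ) - ((j : ℕ) : ℝ)| := by exact_mod_cast h1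
    have h3 : (((i : ℕ) : ℝ) + 1 - (((j : ℕ) : ℝ) + 1)) = ((i : ℕ) : ℝ) - ((j : ℕ) : ℝ) := by ring
    rw [h3]
    exact h2
  have hfin : 1 / ((N : ℝ) + 2) ≤ Q.C0 * Real.sqrt (Q.Γ w w 1) :=
    le_of_forall_pos_le_add fun η hη => hmain η hη
  have hΓ : 0 ≤ Q.Γ w w 1 := Q.nonneg w hw 1 fun _ => by simp
  have h4 : 1 / (Q.C0 * (N + 2)) ≤ Real.sqrt (Q.Γ w w 1) := by
    rw [div_le_iff₀ (by positivity)] at hfin ⊢
    linarith
  calc (1 / (Q.C0 * (N + 2))) ^ 2 ≤ (Real.sqrt (Q.Γ w w 1)) ^ 2 := by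
        gcongr
    _ = Q.Γ w w 1 := Real.sq_sqrt hΓ

end

end Crest.Agent.R193.L_Unit
end

-- ▼ part R193/L_Main
section

/-!
# R193, block LOEW, all scales (helper508)

`loew : InLoew Q` = Loewner inequality at all scales: `loew_unit` transported by group elements.
-/

set_option autoImplicit false

open Set Filter Topology Metric

namespace Crest.Agent.R193.L_Main

open Crest.Agent.R193 Crest.Agent.R193.S_Basic

variable {G Z : Type} [Group G] [MetricSpace Z] [MulAction G Z]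




/-- Loewner inequality at unit scale (`D_Defs.InLoewUnit`). -/
theorem loewUnit (S : Setup G Z) (Q : DForm S) (Φ : Z ≃ₜ S2) : InLoewUnit Q :=
  fun d hd => L_Unit.loew_unit S Q Φ d hd

end Crest.Agent.R193.L_Main
end

-- ▼ part R193/D_Spec
section

/-!
# R193, block D: assembly of `D_main` from the interfaces (this file is sorry-free, the inputs
are hypotheses).

chain:  `OutPair` (D5+D6, helper120)  →  `OutC6` (C4-C6, helper990)
        →  `ChartMain` (C7, C8, D8W, helper245)  →  `D_main`.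
-/

set_option autoImplicit false

noncomputable section

open Set Filter Topology MeasureTheory

namespace Crest.Agent.R193.D_Spec

open Crest.Agent.R193

variable {G Z : Type} [Group G] [MetricSpace Z] [MulAction G Z] {S : Setup G Z}

/-- conclusion of block D -/
def DMain (G Z : Type) [Group G] [MetricSpace Z] [MulAction G Z] : Prop :=
  ∃ F : Z ≃ₜ OnePoint ℂ, ∀ g : G, WeakConf (fun w => F (g • F.symm w))

theorem locallyConnected (Φ : Z ≃ₜ S2) : LocallyConnectedSpace Z := by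
  have : LocallyConnectedSpace Planar.S2 := inferInstance
  exact (show IsOpenEmbedding (Φ : Z → Planar.S2) from Φ.isOpenEmbedding).locallyConnectedSpace

theorem nontrivial (Φ : Z ≃ₜ S2) : Nontrivial Z := by
  obtain ⟨x, hx⟩ := (GEO_Levels.compl_singleton_connected Φ
    (Φ.symm ⟨EuclideanSpace.single 0 1, by simp⟩)).nonempty
  exact ⟨x, _, hx⟩

/-- the zoom sequence -/
theorem zoom (S : Setup G Z) [CompactSpace Z] : InZoom G Z := by
  intro z
  choose g hg1 hg2 using S.ray z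
  obtain ⟨a, h1, -⟩ := GEO_Levels.exists_pole S (hyperfilter ℕ) g (by
    simp only [hg1]
    exact tendsto_id'.mpr Nat.hyperfilter_le_atTop)
  refine ⟨a, g, fun K hK haK U hU => ?_⟩
  obtain ⟨R, hR, hev⟩ := h1 K hK.isClosed haK
  obtain ⟨r, hr, hball⟩ := Metric.mem_nhds_iff.mp hU
  have hε := S.ε_pos
  have hlim : Tendsto (fun k : ℕ => Real.exp (-S.ε * ((k : ℝ) - (R + S.δ) - S.δ)))
      (hyperfilter ℕ : Filter ℕ) (𝓝 0) := by
    apply Tendsto.mono_left _ Nat.hyperfilter_le_atTop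
    apply Real.tendsto_exp_atBot.comp
    apply Tendsto.const_mul_atTop_of_neg (by linarith)
    have := tendsto_natCast_atTop_atTop (R := ℝ)
    exact tendsto_atTop_add_const_right _ _ (tendsto_atTop_add_const_right _ _ this)
  filter_upwards [hev, hlim.eventually_lt_const hr] with k hk1 hk2 x hx
  apply hball
  rw [Metric.mem_ball]
  refine lt_of_le_of_lt ?_ hk2
  refine (S.dist_le (g k • x) z (g k)).trans ?_
  apply Real.exp_le_exp.mpr
  have h3 : (k : ℝ) - (R + S.δ) ≤ S.s (g k • x) (g k) := by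
    have := GEO_Levels.mem_Sh_of_mem_Gd S (hk1 x hx)
    have h4 : (S.len (g k) : ℝ) - (R + S.δ) ≤ S.s (g k • x) (g k) := this
    rwa [hg1] at h4
  have h5 := hg2 k
  have h6 : (k : ℝ) - (R + S.δ) ≤ min (S.s (g k • x) (g k)) (S.s z (g k)) :=
    le_min h3 (by linarith)
  nlinarith

theorem exists_chart (Q : DForm S) (Φ : Z ≃ₜ S2)
    (h1 : OutPair Q) (h2 : OutC6 Q) : Nonempty (ConfChart Q) := by
  have hconn : ∀ a : Z, IsPreconnected ({a}ᶜ : Set Z) := fun a =>
    (GEO_Levels.compl_singleton_connected Φ a).isPreconnected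
  have : LocallyConnectedSpace Z := locallyConnected Φ
  have : Nontrivial Z := nontrivial Φ
  obtain ⟨a, F, hF, hnc⟩ := h1
  -- some connected open set on which the pair is conformal and non constant
  have key : ∃ (O : Set Z) (U V : C(Z, ℝ)), IsOpen O ∧ IsConnected O ∧ ConfOn Q O U V ∧
      ¬ ∃ p : ℝ × ℝ, ∀ x ∈ O, (U x, V x) = p := by
    by_contra hcon
    push Not at hcon
    apply hnc
    -- `F` is locally constant on `{a}ᶜ`
    have hloc : ∀ x : Z, x ≠ a → ∃ N ∈ 𝓝 x, ∀ y ∈ N, F y = F x := by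
      intro x hx
      obtain ⟨O, hO, hxO, U, V, hc, hFO⟩ := hF {x} isCompact_singleton
        (fun h => hx (by simpa using h.symm))
      have hxO' : x ∈ O := hxO rfl
      let O1 := connectedComponentIn O x
      have hO1 : IsOpen O1 := hO.connectedComponentIn
      have hxO1 : x ∈ O1 := mem_connectedComponentIn hxO'
      have hsub : O1 ⊆ O := connectedComponentIn_subset O x
      obtain ⟨p, hp⟩ := hcon O1 U V hO1 ⟨⟨x, hxO1⟩, isPreconnected_connectedComponentIn⟩
        (hc.mono hsub)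
      refine ⟨O1, hO1.mem_nhds hxO1, fun y hy => ?_⟩
      rw [hFO y (hsub hy), hFO x hxO', hp y hy, hp x hxO1]
    obtain ⟨x0, hx0⟩ := exists_ne a
    refine ⟨F x0, fun y hy => ?_⟩
    have hpc : IsPreconnected ({a}ᶜ : Set Z) := hconn a
    have hA : IsOpen {x : Z | x ≠ a ∧ F x = F x0} := by
      rw [isOpen_iff_mem_nhds]
      rintro x ⟨hx, hxF⟩
      obtain ⟨N, hN, hNF⟩ := hloc x hx
      filter_upwards [hN, isOpen_compl_singleton.mem_nhds hx] with y hy hya
      exact ⟨hya, by rw [hNF y hy, hxF]⟩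
    have hB : IsOpen {x : Z | x ≠ a ∧ F x ≠ F x0} := by
      rw [isOpen_iff_mem_nhds]
      rintro x ⟨hx, hxF⟩
      obtain ⟨N, hN, hNF⟩ := hloc x hx
      filter_upwards [hN, isOpen_compl_singleton.mem_nhds hx] with y hy hya
      exact ⟨hya, by rw [hNF y hy]; exact hxF⟩
    by_contra hne
    obtain ⟨z, -, hz1, hz2⟩ := hpc _ _ hA hB (fun x hx => by
      by_cases h : F x = F x0
      · exact Or.inl ⟨hx, h⟩
      · exact Or.inr ⟨hx, h⟩) ⟨x0, hx0, hx0, rfl⟩ ⟨y, hy, hy, hne⟩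
    exact hz2.2 hz1.2
  obtain ⟨O, U, V, hO, hOc, hc, hne⟩ := key
  obtain ⟨c, hc0, z, hz, ρ, hρ, W, hW, hWc, hzW, hWO, hWcc, hinj, himg, hfr, hpush⟩ :=
    h2 O U V hO hOc.isPreconnected hc hne O hO hOc.nonempty subset_rfl
  exact ⟨{ O := O, O_open := hO, U := U, V := V, conf := hc, W := W, W_open := hW, W_sub := hWO,
           W_ne := hWcc.nonempty, p := (U z, V z), ρ := ρ, ρ_pos := hρ, inj := hinj,
           img := himg,
           bdry := fun x hx h => by
             have h1 := hfr x hx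
             rw [Metric.mem_sphere] at h1
             rw [Metric.mem_ball] at h
             linarith,
           c := c, c_pos := hc0, push := hpush }⟩

/-- statement of C7 + C8 + D8W (helper245) -/
def ChartMain (Q : DForm S) : Prop :=
  InC1 Q → InMax Q → InLoewUnit Q → InOsc Q → InZoom G Z → Nonempty (ConfChart Q) → DMain G Z

end Crest.Agent.R193.D_Spec
end
end

-- ▼ part R193/D_Inputs

/-!
# R193, block D (helper990): all the inputs of the assembly, proved over `(S) (Q : DForm S) (Φ)`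

`irr`, `inMax`, `inSMax`, `inC1`, `inC2`, `inC3`, `inLoewUnit`, `inLoew`, `inOsc`, `outC6`,
`D_main_of`.
-/

set_option autoImplicit false

noncomputable section

open Set Filter Topology MeasureTheory Metric

namespace Crest.Agent.R193.D_Inputs

open Crest.Agent.R193

variable {G Z : Type} [Group G] [MetricSpace Z] [MulAction G Z]

theorem preconnected (Φ : Z ≃ₜ S2) : PreconnectedSpace Z := by
  have hS2 : ConnectedSpace Planar.S2 := Planar.S2_connected
  refine ⟨?_⟩
  have := (isPreconnected_univ (α := Planar.S2)).image Φ.symm Φ.symm.continuous.continuousOn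
  rwa [image_univ, Φ.symm.surjective.range_eq] at this

/-- zero energy implies constant -/
theorem irr (S : Setup G Z) (Q : DForm S) (Φ : Z ≃ₜ S2) : CPa_Harm.Irr Q := by
  have hpc := preconnected Φ
  have hlc : LocallyConnectedSpace Z := OSC.locConn Φ
  intro f hf h0
  -- no isolated points
  have hno : ∀ (x y : Z), x ≠ y → ∀ O : Set Z, IsOpen O → x ∈ O →
      ∃ A ⊆ O, IsPreconnected A ∧ x ∈ A ∧ ∃ a ∈ A, a ≠ x := by
    intro x y hxy O hO hx
    refine ⟨connectedComponentIn O x, connectedComponentIn_subset _ _,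
      isPreconnected_connectedComponentIn, mem_connectedComponentIn hx, ?_⟩
    by_contra hcon
    push Not at hcon
    have h1 : connectedComponentIn O x = {x} :=
      subset_antisymm (fun a ha => hcon a ha)
        (singleton_subset_iff.2 (mem_connectedComponentIn hx))
    have h2 : IsOpen ({x} : Set Z) := h1 ▸ hO.connectedComponentIn
    have h3 : IsClopen ({x} : Set Z) := ⟨isClosed_singleton, h2⟩
    rcases isClopen_iff.1 h3 with h | h
    · exact (singleton_ne_empty x) h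
    · have : y ∈ ({x} : Set Z) := by rw [h]; trivial
      exact hxy this.symm
  -- it suffices to exclude `f y < f x`
  have key : ∀ x y, ¬ f y < f x := by
    intro x y hlt
    have hne : x ≠ y := by
      rintro rfl
      exact lt_irrefl _ hlt
    set k : ℝ := 3 / (f x - f y) with hk
    have hd : 0 < f x - f y := by linarith
    have hk0 : 0 < k := div_pos (by norm_num) hd
    set w : C(Z, ℝ) := k • f + ContinuousMap.const Z (-(k * ((2 * f y + f x) / 3))) with hw
    have hwD : w ∈ Q.Dom := Q.add_mem _ (Q.smul_mem _ _ hf) _ (Q.const_mem _)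
    have hwa : ∀ z, w z = k * (f z - (2 * f y + f x) / 3) := by
      intro z
      rw [hw, ContinuousMap.add_apply, ContinuousMap.smul_apply, ContinuousMap.const_apply,
        smul_eq_mul]
      ring
    have hkd : k * (f x - f y) = 3 := by
      rw [hk]
      field_simp
    have hwx : w x = 2 := by
      rw [hwa]
      have : k * (f x - (2 * f y + f x) / 3) = (k * (f x - f y)) * (2 / 3) := by ring
      rw [this, hkd]
      norm_num
    have hwy : w y = -1 := by
      rw [hwa]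
      have : k * (f y - (2 * f y + f x) / 3) = (k * (f x - f y)) * (-1 / 3) := by ring
      rw [this, hkd]
      norm_num
    obtain ⟨A, hAO, hA, hxA, a, haA, hax⟩ := hno x y hne (w ⁻¹' Ioi 1)
      (isOpen_Ioi.preimage w.continuous) (by
        show (1 : ℝ) < w x
        rw [hwx]
        norm_num)
    obtain ⟨B, hBO, hB, hyB, b, hbB, hby⟩ := hno y x hne.symm (w ⁻¹' Iio 0)
      (isOpen_Iio.preimage w.continuous) (by
        show w y < (0 : ℝ)
        rw [hwy]
        norm_num)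
    have hd0 : 0 < min (dist x a) (dist y b) :=
      lt_min (dist_pos.2 hax.symm) (dist_pos.2 hby.symm)
    obtain ⟨c, hc, hL⟩ := L_Main.loewUnit S Q Φ _ hd0
    have h1 := hL A B hA hB x hxA a haA y hyB b hbB (min_le_left _ _) (min_le_right _ _) w hwD
      (fun z hz => (show (1 : ℝ) < w z from hAO hz).le)
      (fun z hz => (show w z < (0 : ℝ) from hBO hz).le)
    -- the energy of `w` vanishes
    have hff : Q.Γ f f 1 = 0 := h0
    have hcs : ∀ v ∈ Q.Dom, Q.Γ f v 1 = 0 := by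
      intro v hv
      have h2 := CPa_Basic.cs Q hf hv (φ := 1) (fun x => by
        rw [ContinuousMap.one_apply]; exact zero_le_one)
      rw [hff, zero_mul] at h2
      exact pow_eq_zero_iff (two_ne_zero) |>.1 (le_antisymm h2 (sq_nonneg _))
    have hconst : ∀ c : ℝ, ∀ v ∈ Q.Dom, Q.Γ (ContinuousMap.const Z c) v 1 = 0 := by
      intro c v hv
      exact CPa_Basic.const_left Q c hv 1
    have h3 : Q.Γ w w 1 = 0 := by
      rw [hw, Q.add_left _ (Q.smul_mem _ _ hf) _ (Q.const_mem _) _ hwD, Q.smul_left _ _ hf _ hwD,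
        hcs _ hwD, hconst _ _ hwD, mul_zero, add_zero]
    rw [h3] at h1
    linarith
  intro x y
  exact le_antisymm (not_lt.1 (key x y)) (not_lt.1 (key y x))

theorem inMax (S : Setup G Z) (Q : DForm S) (Φ : Z ≃ₜ S2) : InMax Q := by
  have hpc := preconnected Φ
  have hlc : LocallyConnectedSpace Z := OSC.locConn Φ
  have hcpt : CompactSpace Z := Φ.symm.compactSpace
  intro O U _ hOu hU
  exact CPa_Loop.monoOn_of_harm Q (irr S Q Φ) hOu hU


theorem inC2 (S : Setup G Z) (Q : DForm S) (Φ : Z ≃ₜ S2) : InC2 Q := by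
  have hcpt : CompactSpace Z := Φ.symm.compactSpace
  exact CPa_C2.inC2 Q

theorem inC3 (S : Setup G Z) (Q : DForm S) (Φ : Z ≃ₜ S2) : InC3 Q := by
  have hpc := preconnected Φ
  have hlc : LocallyConnectedSpace Z := OSC.locConn Φ
  have hcpt : CompactSpace Z := Φ.symm.compactSpace
  exact CPa_Conf.inC3 Q (irr S Q Φ)

theorem inLoewUnit (S : Setup G Z) (Q : DForm S) (Φ : Z ≃ₜ S2) : InLoewUnit Q :=
  L_Main.loewUnit S Q Φ


theorem inOsc (S : Setup G Z) (Q : DForm S) (Φ : Z ≃ₜ S2) : InOsc Q := by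
  have hlc : LocallyConnectedSpace Z := OSC.locConn Φ
  intro x O hO η hη
  obtain ⟨r, hr, hrO⟩ := Metric.nhds_basis_closedBall.mem_iff.1 hO
  obtain ⟨r', hr', -, h⟩ := OSC.osc_small Q hr hη
  refine ⟨r', hr', fun u hu hm φ hφ hφ1 y hy z hz => ?_⟩
  have := h x u hu O hrO hm φ hφ (fun p hp => hφ1 p (hrO (mem_closedBall.2 hp))) y z hy hz
  rwa [sq_abs] at this

theorem outC6 (S : Setup G Z) (Q : DForm S) (Φ : Z ≃ₜ S2) : OutC6 Q :=
  CPb3.out_C6 Q Φ (inMax S Q Φ) (inC2 S Q Φ) (inC3 S Q Φ)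

/-- (C1) in the form of `D_Defs` -/
theorem inC1 (S : Setup G Z) (Q : DForm S) (Φ : Z ≃ₜ S2) : InC1 Q := by
  have hcpt : CompactSpace Z := Φ.symm.compactSpace
  intro O U V hO h ψ hψ P L hP hL
  -- partial derivatives
  have htwo : ∀ f : ℝ × ℝ → ℝ, ContDiff ℝ (⊤ : ℕ∞) f → ContDiff ℝ 2 f := fun f hf => by
    have := contDiff_infty.1 hf 2
    exact_mod_cast this
  have hψ2 : ContDiff ℝ 2 ψ := htwo ψ hψ
  have hdir : ∀ (f : ℝ × ℝ → ℝ), ContDiff ℝ (⊤ : ℕ∞) f → ∀ e : ℝ × ℝ,
      ContDiff ℝ (⊤ : ℕ∞) (fun p => fderiv ℝ f p e) := by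
    intro f hf e
    exact (hf.fderiv_right (m := (⊤ : ℕ∞)) (by simp)).clm_apply contDiff_const
  set ψ₁ : ℝ × ℝ → ℝ := fun p => fderiv ℝ ψ p (1, 0) with hψ₁
  set ψ₂ : ℝ × ℝ → ℝ := fun p => fderiv ℝ ψ p (0, 1) with hψ₂
  have s1 := hdir ψ hψ (1, 0)
  have s2 := hdir ψ hψ (0, 1)
  have s11 := hdir ψ₁ s1 (1, 0)
  have s12 := hdir ψ₁ s1 (0, 1)
  have s21 := hdir ψ₂ s2 (1, 0)
  have s22 := hdir ψ₂ s2 (0, 1)
  have hPe : P = CPa_Conf.cmp ψ hψ2.continuous U V := by
    ext x
    exact hP x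
  have hsec : ∀ (e : ℝ × ℝ) (p : ℝ × ℝ), fderiv ℝ (fun q => fderiv ℝ ψ q e) p e =
      iteratedFDeriv ℝ 2 ψ p ![e, e] := by
    intro e p
    rw [iteratedFDeriv_two_apply]
    have hdiff : DifferentiableAt ℝ (fderiv ℝ ψ) p :=
      ((hψ.fderiv_right (m := (⊤ : ℕ∞)) (by simp)).differentiable (by simp)) p
    rw [fderiv_clm_apply hdiff (differentiableAt_const e)]
    simp
  refine ⟨?_, ?_⟩
  · rw [hPe]
    exact (CPa_Conf.chain2 Q hψ2 s1.continuous s2.continuous (fun _ => rfl) (fun _ => rfl)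
      h.1 h.2.1).1
  · intro w hw hws
    have hc := CPa_Conf.c1 Q h hψ2 (htwo _ s1)
      (htwo _ s2) s11.continuous s12.continuous s21.continuous
      s22.continuous (fun _ => rfl) (fun _ => rfl) (fun _ => rfl) (fun _ => rfl) (fun _ => rfl)
      (fun _ => rfl) hw hws
    rw [hPe, hc]
    congr 2
    congr 1
    ext x
    rw [hL x, lap2, ContinuousMap.add_apply, CPa_Conf.cmp_apply, CPa_Conf.cmp_apply,
      ← hsec (1, 0), ← hsec (0, 1)]

/-- block D from its two remaining atoms -/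
theorem D_main_of (S : Setup G Z) (Q : DForm S) (Φ : Z ≃ₜ S2) (h1 : OutPair Q)
    (h2 : D_Spec.ChartMain Q) : D_Spec.DMain G Z := by
  have hcpt : CompactSpace Z := Φ.symm.compactSpace
  exact h2 (inC1 S Q Φ) (inMax S Q Φ) (inLoewUnit S Q Φ) (inOsc S Q Φ) (D_Spec.zoom S)
    (D_Spec.exists_chart Q Φ h1 (outC6 S Q Φ))

end Crest.Agent.R193.D_Inputs
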