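import Mathlib

/-!
# R193, block FG2: min-norm duality for finite families of sets (helper246)

`M(S) = inf { ∑ ρ² : ρ ≥ 0, ρ(s) ≥ 1 ∀ s ∈ S }`.  If `m ≤ ∑ ρ²` for every admissible `ρ` then there
is a probability `w` on `S` with `∑_v μ(v)² ≤ 1/m`, `μ(v) = w {s | v ∈ s}`.
-/

set_option autoImplicit false

namespace Crest.Agent.R193.Dual

open Finset

/-- General form: a finite nonnegative matrix `A : ι → V → ℝ`. -/
theorem exists_simplex {ι V : Type*} [Fintype ι] [Nonempty ι] [Fintype V]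
    (A : ι → V → ℝ) (hA : ∀ i v, 0 ≤ A i v) (m : ℝ) (hm : 0 < m)
    (hadm : ∀ ρ : V → ℝ, (∀ v, 0 ≤ ρ v) → (∀ i, 1 ≤ ∑ v, A i v * ρ v) → m ≤ ∑ v, ρ v ^ 2) :
    ∃ w : ι → ℝ, (∀ i, 0 ≤ w i) ∧ ∑ i, w i = 1 ∧ ∑ v, (∑ i, w i * A i v) ^ 2 ≤ 1 / m := by
  classical
  have hc : IsCompact (stdSimplex ℝ ι) := isCompact_stdSimplex ℝ ι
  have hne : (stdSimplex ℝ ι).Nonempty := by
    obtain ⟨i⟩ := ‹Nonempty ι›
    exact ⟨_, single_mem_stdSimplex ℝ i⟩
  have hcont : ContinuousOn (fun w : ι → ℝ => ∑ v, (∑ i, w i * A i v) ^ 2) (stdSimplex ℝ ι) := by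
    apply Continuous.continuousOn
    fun_prop
  obtain ⟨w, hw, hmin⟩ := hc.exists_isMinOn hne hcont
  refine ⟨w, hw.1, hw.2, ?_⟩
  set μ : V → ℝ := fun v => ∑ i, w i * A i v with hμ
  have hμ0 : ∀ v, 0 ≤ μ v := fun v => Finset.sum_nonneg fun i _ => mul_nonneg (hw.1 i) (hA i v)
  set N : ℝ := ∑ v, μ v ^ 2 with hN
  have hN0 : 0 ≤ N := Finset.sum_nonneg fun v _ => sq_nonneg _
  -- first variation
  have key : ∀ i, N ≤ ∑ v, A i v * μ v := by
    intro i
    by_contra hlt
    push Not at hlt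
    set b : ℝ := ∑ v, (A i v - μ v) ^ 2 with hb
    have hb0 : 0 ≤ b := Finset.sum_nonneg fun v _ => sq_nonneg _
    set d : ℝ := N - ∑ v, A i v * μ v with hd
    have hd0 : 0 < d := by rw [hd]; linarith
    -- choose ε = min 1 (d / (b+1))
    set ε : ℝ := min 1 (d / (b + 1)) with hε
    have hε0 : 0 < ε := lt_min one_pos (by positivity)
    have hε1 : ε ≤ 1 := min_le_left _ _
    have hε2 : ε * (b + 1) ≤ d := by
      have := min_le_right 1 (d / (b + 1))
      rw [← hε] at this
      rwa [le_div_iff₀ (by positivity)] at this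
    set w' : ι → ℝ := fun j => (1 - ε) * w j + ε * (if j = i then 1 else 0) with hw'
    have hw'mem : w' ∈ stdSimplex ℝ ι := by
      constructor
      · intro j
        have h1 := hw.1 j
        simp only [hw']
        split_ifs <;> nlinarith
      · simp only [hw', Finset.sum_add_distrib, ← Finset.mul_sum, hw.2]
        simp
    have hle := hmin hw'mem
    simp only [Set.mem_ofPred_eq] at hle
    have hcalc : ∀ v, (∑ j, w' j * A j v) = μ v + ε * (A i v - μ v) := by
      intro v
      simp only [hw', add_mul, Finset.sum_add_distrib, hμ]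
      have e1 : ∑ j, (1 - ε) * w j * A j v = (1 - ε) * ∑ j, w j * A j v := by
        rw [Finset.mul_sum]; exact Finset.sum_congr rfl fun j _ => by ring
      have e2 : ∑ j, ε * (if j = i then (1:ℝ) else 0) * A j v = ε * A i v := by
        rw [Finset.sum_eq_single i]
        · simp
        · intro j _ hj; simp [hj]
        · intro h; exact absurd (Finset.mem_univ i) h
      rw [e1, e2]; ring
    have hsum : ∑ v, (∑ j, w' j * A j v) ^ 2
        = N + 2 * ε * (∑ v, A i v * μ v - N) + ε ^ 2 * b := by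
      have : ∀ v, (∑ j, w' j * A j v) ^ 2
          = μ v ^ 2 + 2 * ε * (A i v * μ v - μ v ^ 2) + ε ^ 2 * (A i v - μ v) ^ 2 := by
        intro v; rw [hcalc v]; ring
      simp only [this, Finset.sum_add_distrib, ← Finset.mul_sum, Finset.sum_sub_distrib]
      rw [hN, hb]
    rw [hsum] at hle
    have h3 : N ≤ N + 2 * ε * (∑ v, A i v * μ v - N) + ε ^ 2 * b := hle
    have h4 : 2 * ε * d ≤ ε ^ 2 * b := by rw [hd]; nlinarith
    have h5 : 2 * d ≤ ε * b := by
      have : ε * (2 * d) ≤ ε * (ε * b) := by nlinarith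
      exact le_of_mul_le_mul_left this hε0
    nlinarith
  change N ≤ 1 / m
  rcases eq_or_lt_of_le hN0 with h0 | hpos
  · rw [← h0]; positivity
  · have h1 := hadm (fun v => μ v / N) (fun v => div_nonneg (hμ0 v) hN0) (by
      intro i
      have : ∑ v, A i v * (μ v / N) = (∑ v, A i v * μ v) / N := by
        rw [Finset.sum_div]; exact Finset.sum_congr rfl fun v _ => by ring
      rw [this, le_div_iff₀ hpos, one_mul]
      exact key i)
    have h2 : ∑ v, (μ v / N) ^ 2 = 1 / N := by
      have : ∀ v, (μ v / N) ^ 2 = μ v ^ 2 * (1 / N ^ 2) := fun v => by ring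
      simp only [this, ← Finset.sum_mul]
      rw [← hN]; field_simp
    rw [h2] at h1
    rw [le_div_iff₀ hm]
    rw [le_div_iff₀ hpos] at h1
    linarith

/-- `pm S w v = w {s ∈ S | v ∈ s}`: the marginal of the weights `w` on the family `S`. -/
noncomputable def pm {V : Type*} [DecidableEq V] (S : Finset (Finset V)) (w : Finset V → ℝ) (v : V) :
    ℝ := ∑ s ∈ S, if v ∈ s then w s else 0

theorem pm_nonneg {V : Type*} [DecidableEq V] {S : Finset (Finset V)} {w : Finset V → ℝ}
    (hw : ∀ s, 0 ≤ w s) (v : V) : 0 ≤ pm S w v :=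
  Finset.sum_nonneg fun s _ => by split_ifs <;> simp [hw]


/-- **Min-norm duality.** `X` is any finite set of vertices containing all members of `S`. -/
theorem exists_prob {V : Type*} [DecidableEq V] (X : Finset V) (S : Finset (Finset V))
    (hS : S.Nonempty) (hX : ∀ s ∈ S, s ⊆ X) (m : ℝ) (hm : 0 < m)
    (hadm : ∀ ρ : V → ℝ, (∀ v, 0 ≤ ρ v) → (∀ s ∈ S, 1 ≤ ∑ v ∈ s, ρ v) → m ≤ ∑ v ∈ X, ρ v ^ 2) :
    ∃ w : Finset V → ℝ, (∀ s, 0 ≤ w s) ∧ (∀ s, s ∉ S → w s = 0) ∧ ∑ s ∈ S, w s = 1 ∧
      ∑ v ∈ X, (pm S w v) ^ 2 ≤ 1 / m := by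
  classical
  have : Nonempty S := ⟨⟨hS.choose, hS.choose_spec⟩⟩
  obtain ⟨w, hw0, hw1, hw2⟩ := exists_simplex (ι := S) (V := X)
    (fun s v => if (v : V) ∈ (s : Finset V) then 1 else 0) (by intro i v; split_ifs <;> simp) m hm (by
      intro ρ hρ hρ1
      have := hadm (fun v => if h : v ∈ X then ρ ⟨v, h⟩ else 0)
        (by intro v; split_ifs with h; exacts [hρ _, le_rfl]) (by
          intro s hs
          have h1 := hρ1 ⟨s, hs⟩
          refine h1.trans (le_of_eq ?_)
          rw [Finset.univ_eq_attach]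
          have e : ∑ v ∈ X.attach, (if (v : V) ∈ s then (1:ℝ) else 0) * ρ v
              = ∑ v ∈ X, (if v ∈ s then (if h : v ∈ X then ρ ⟨v, h⟩ else 0) else 0) := by
            rw [← Finset.sum_attach X]
            refine Finset.sum_congr rfl fun v _ => ?_
            by_cases hv : (v : V) ∈ s
            · simp [hv]
            · simp [hv]
          rw [e, ← Finset.sum_filter]
          refine Finset.sum_congr ?_ fun _ _ => rfl
          ext v; simp only [Finset.mem_filter]
          exact ⟨fun h => h.2, fun h => ⟨hX s hs h, h⟩⟩)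
      refine this.trans (le_of_eq ?_)
      rw [Finset.univ_eq_attach, ← Finset.sum_attach X]
      refine Finset.sum_congr rfl fun v _ => ?_
      simp)
  refine ⟨fun s => if h : s ∈ S then w ⟨s, h⟩ else 0, ?_, ?_, ?_, ?_⟩
  · intro s; dsimp only; split_ifs with h; exacts [hw0 _, le_rfl]
  · intro s hs; simp [hs]
  · rw [← hw1, Finset.univ_eq_attach, ← Finset.sum_attach S]
    exact Finset.sum_congr rfl fun s _ => by simp
  · refine le_trans (le_of_eq ?_) hw2
    rw [Finset.univ_eq_attach, ← Finset.sum_attach X]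
    refine Finset.sum_congr rfl fun v _ => ?_
    congr 1
    rw [pm, Finset.univ_eq_attach, ← Finset.sum_attach S]
    refine Finset.sum_congr rfl fun s _ => ?_
    by_cases hv : (v : V) ∈ (s : Finset V)
    · simp [hv]
    · simp [hv]

/-- The marginal is admissible for every set meeting all members of `S`
(so joining modulus `≤ 1 / M_sep`). -/
theorem one_le_of_meets {V : Type*} [DecidableEq V] (S : Finset (Finset V)) (w : Finset V → ℝ)
    (hw0 : ∀ s, 0 ≤ w s) (hw1 : ∑ s ∈ S, w s = 1) (c : Finset V)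
    (hc : ∀ s ∈ S, ∃ v ∈ s, v ∈ c) : 1 ≤ ∑ v ∈ c, pm S w v := by
  classical
  simp only [pm]
  rw [Finset.sum_comm, ← hw1]
  refine Finset.sum_le_sum fun s hs => ?_
  obtain ⟨v, hvs, hvc⟩ := hc s hs
  refine le_trans ?_ (Finset.single_le_sum (f := fun v => if v ∈ s then w s else 0)
    (fun u _ => by split_ifs <;> simp [hw0]) hvc)
  simp [hvs]







end Crest.Agent.R193.Dual
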