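import Mathlib
import Crest.Prelude.Def_WordHyperbolic
import Crest.Prelude.Def_CayleyBoundary
import Crest.Agent.R193.Defs
import Crest.Agent.R097.HF2

-- ▼ part R193/HypWord
section

/-!
R193, hyperbolic toolkit, layer H1: word metric, geodesics, Gromov products based at `1`.
-/

set_option autoImplicit false

namespace Crest.Agent.R193.Hyp

open Crest.GroupTheory

variable {G : Type*} [Group G]

/-! ### Word length -/

section word
variable {S : Set G}

/-- a word in the letters `S ∪ S⁻¹` -/
def IsWord (S : Set G) (l : List G) : Prop := ∀ x ∈ l, x ∈ S ∨ x⁻¹ ∈ S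

theorem IsWord.append {l l' : List G} (h : IsWord S l) (h' : IsWord S l') : IsWord S (l ++ l') := by
  intro x hx
  rcases List.mem_append.1 hx with hx | hx
  · exact h x hx
  · exact h' x hx

theorem IsWord.take {l : List G} (h : IsWord S l) (k : ℕ) : IsWord S (l.take k) :=
  fun x hx => h x (List.mem_of_mem_take hx)

theorem IsWord.drop {l : List G} (h : IsWord S l) (k : ℕ) : IsWord S (l.drop k) :=
  fun x hx => h x (List.mem_of_mem_drop hx)

theorem IsWord.inv {l : List G} (h : IsWord S l) : IsWord S (l.map (·⁻¹)).reverse := by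
  intro x hx
  rw [List.mem_reverse, List.mem_map] at hx
  obtain ⟨y, hy, rfl⟩ := hx
  rcases h y hy with h1 | h1
  · right; simpa using h1
  · left; exact h1

theorem exists_word (hS : Subgroup.closure S = ⊤) (g : G) :
    ∃ l : List G, IsWord S l ∧ l.prod = g := by
  have hg : g ∈ Subgroup.closure S := by rw [hS]; trivial
  induction hg using Subgroup.closure_induction with
  | mem x hx => exact ⟨[x], by intro y hy; simp at hy; subst hy; exact Or.inl hx, by simp⟩
  | one => exact ⟨[], by intro y hy; simp at hy, by simp⟩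
  | mul x y _ _ hx hy =>
    obtain ⟨l, hl, rfl⟩ := hx
    obtain ⟨l', hl', rfl⟩ := hy
    exact ⟨l ++ l', hl.append hl', by simp⟩
  | inv x _ hx =>
    obtain ⟨l, hl, rfl⟩ := hx
    exact ⟨(l.map (·⁻¹)).reverse, hl.inv, by rw [List.prod_inv_reverse]⟩

theorem wordLength_le_length {l : List G} (hl : IsWord S l) : wordLength S l.prod ≤ l.length :=
  Nat.sInf_le ⟨l, rfl, hl, rfl⟩

theorem exists_geodesic_word (hS : Subgroup.closure S = ⊤) (g : G) :
    ∃ l : List G, l.length = wordLength S g ∧ IsWord S l ∧ l.prod = g := by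
  have hne : {n : ℕ | ∃ l : List G, l.length = n ∧ (∀ x ∈ l, x ∈ S ∨ x⁻¹ ∈ S) ∧ l.prod = g}.Nonempty := by
    obtain ⟨l, hl, hlg⟩ := exists_word hS g
    exact ⟨l.length, l, rfl, hl, hlg⟩
  obtain ⟨l, h1, h2, h3⟩ := Nat.sInf_mem hne
  exact ⟨l, h1, h2, h3⟩

@[simp] theorem wordLength_one : wordLength S (1 : G) = 0 := by
  have : wordLength S (([] : List G).prod) ≤ ([] : List G).length :=
    wordLength_le_length (by intro y hy; simp at hy)
  simpa using this

theorem wordLength_mul_le (hS : Subgroup.closure S = ⊤) (g h : G) :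
    wordLength S (g * h) ≤ wordLength S g + wordLength S h := by
  obtain ⟨l, hl1, hl2, hl3⟩ := exists_geodesic_word hS g
  obtain ⟨l', hl1', hl2', hl3'⟩ := exists_geodesic_word hS h
  have := wordLength_le_length (hl2.append hl2')
  rw [List.prod_append, List.length_append, hl3, hl3', hl1, hl1'] at this
  exact this

theorem wordLength_inv_le (hS : Subgroup.closure S = ⊤) (g : G) :
    wordLength S g⁻¹ ≤ wordLength S g := by
  obtain ⟨l, hl1, hl2, hl3⟩ := exists_geodesic_word hS g
  have := wordLength_le_length hl2.inv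
  rw [← List.prod_inv_reverse, hl3] at this
  simpa [hl1] using this

theorem wordLength_inv (hS : Subgroup.closure S = ⊤) (g : G) :
    wordLength S g⁻¹ = wordLength S g :=
  le_antisymm (wordLength_inv_le hS g) (by simpa using wordLength_inv_le hS g⁻¹)


/-- geodesic interpolation -/
theorem exists_between (hS : Subgroup.closure S = ⊤) (g : G) {k : ℕ} (hk : k ≤ wordLength S g) :
    ∃ h : G, wordLength S h = k ∧ wordLength S (h⁻¹ * g) = wordLength S g - k := by
  obtain ⟨l, hl1, hl2, hl3⟩ := exists_geodesic_word hS g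
  refine ⟨(l.take k).prod, ?_⟩
  have h1 : wordLength S (l.take k).prod ≤ k := by
    have := wordLength_le_length (hl2.take k)
    rw [List.length_take] at this; omega
  have h2 : wordLength S (l.drop k).prod ≤ wordLength S g - k := by
    have := wordLength_le_length (hl2.drop k)
    rw [List.length_drop, hl1] at this; omega
  have h3 : (l.take k).prod⁻¹ * g = (l.drop k).prod := by
    rw [← hl3, ← List.prod_take_mul_prod_drop l k]; group
  have h4 := wordLength_mul_le hS (l.take k).prod (l.drop k).prod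
  rw [List.prod_take_mul_prod_drop, hl3] at h4
  rw [h3]
  omega

/-- the ball of radius `n` is finite when `S` is finite -/
theorem finite_ball (hS : Subgroup.closure S = ⊤) (hf : S.Finite) (n : ℕ) :
    {g : G | wordLength S g ≤ n}.Finite := by
  classical
  set T : Set G := S ∪ S⁻¹ ∪ {1} with hT
  have hTf : T.Finite := (hf.union hf.inv).union (Set.finite_singleton 1)
  have key : ∀ n : ℕ, {g : G | ∃ l : List G, l.length = n ∧ (∀ x ∈ l, x ∈ T) ∧ l.prod = g}.Finite := by
    intro n
    induction n with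
    | zero =>
      refine (Set.finite_singleton (1 : G)).subset ?_
      rintro g ⟨l, hl, _, rfl⟩
      rw [List.length_eq_zero_iff] at hl; subst hl; simp
    | succ n ih =>
      refine (hTf.mul ih).subset ?_
      rintro g ⟨l, hl, hl2, rfl⟩
      cases l with
      | nil => simp at hl
      | cons a l =>
        refine ⟨a, hl2 a (by simp), l.prod, ⟨l, by simpa using hl, fun x hx => hl2 x (by simp [hx]), rfl⟩, by simp⟩
  refine (key n).subset ?_
  intro g hg
  obtain ⟨l, hl1, hl2, hl3⟩ := exists_geodesic_word hS g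
  refine ⟨l ++ List.replicate (n - l.length) 1, ?_, ?_, ?_⟩
  · simp only [List.length_append, List.length_replicate]
    have : l.length ≤ n := by rw [hl1]; exact hg
    omega
  · intro x hx
    rcases List.mem_append.1 hx with hx | hx
    · rcases hl2 x hx with h | h
      · exact Or.inl (Or.inl h)
      · exact Or.inl (Or.inr h)
    · rw [List.mem_replicate] at hx; rw [hx.2]; right; rfl
  · simp [hl3]

end word

/-! ### Real valued length, distance and Gromov product -/

section real
variable {S : Set G}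

/-- real word length -/
noncomputable def len (S : Set G) (g : G) : ℝ := (wordLength S g : ℝ)

/-- the Gromov product based at `1` -/
noncomputable def gp (S : Set G) (x y : G) : ℝ := gromovProduct S 1 x y

theorem len_nonneg (g : G) : 0 ≤ len S g := Nat.cast_nonneg _

@[simp] theorem len_one : len S (1 : G) = 0 := by simp [len]

theorem len_mul_le (hS : Subgroup.closure S = ⊤) (g h : G) : len S (g * h) ≤ len S g + len S h := by
  have := wordLength_mul_le hS g h
  simp only [len]; exact_mod_cast this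

theorem len_inv (hS : Subgroup.closure S = ⊤) (g : G) : len S g⁻¹ = len S g := by
  simp only [len, wordLength_inv hS]

theorem wordDist_eq (g h : G) : wordDist S g h = len S (g⁻¹ * h) := rfl

theorem wordDist_self (g : G) : wordDist S g g = 0 := by simp [wordDist_eq]

theorem wordDist_nonneg (g h : G) : 0 ≤ wordDist S g h := Nat.cast_nonneg _

theorem wordDist_comm (hS : Subgroup.closure S = ⊤) (g h : G) : wordDist S g h = wordDist S h g := by
  rw [wordDist_eq, wordDist_eq, ← len_inv hS]; congr 1; group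

theorem wordDist_triangle (hS : Subgroup.closure S = ⊤) (g h k : G) :
    wordDist S g k ≤ wordDist S g h + wordDist S h k := by
  rw [wordDist_eq, wordDist_eq, wordDist_eq]
  have := len_mul_le hS (g⁻¹ * h) (h⁻¹ * k)
  have h2 : g⁻¹ * h * (h⁻¹ * k) = g⁻¹ * k := by group
  rwa [h2] at this

@[simp] theorem wordDist_mul_left (a g h : G) : wordDist S (a * g) (a * h) = wordDist S g h := by
  rw [wordDist_eq, wordDist_eq]; congr 1; group

theorem wordDist_one_left (g : G) : wordDist S 1 g = len S g := by simp [wordDist_eq]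

theorem wordDist_one_right (hS : Subgroup.closure S = ⊤) (g : G) : wordDist S g 1 = len S g := by
  rw [wordDist_comm hS, wordDist_one_left]

theorem gp_def (hS : Subgroup.closure S = ⊤) (x y : G) :
    gp S x y = (len S x + len S y - wordDist S x y) / 2 := by
  simp only [gp, gromovProduct, wordDist_one_right hS]

theorem gp_comm (hS : Subgroup.closure S = ⊤) (x y : G) : gp S x y = gp S y x := by
  rw [gp_def hS, gp_def hS, wordDist_comm hS x y]; ring

theorem wordDist_eq_gp (hS : Subgroup.closure S = ⊤) (x y : G) :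
    wordDist S x y = len S x + len S y - 2 * gp S x y := by
  rw [gp_def hS]; ring

theorem gp_nonneg (hS : Subgroup.closure S = ⊤) (x y : G) : 0 ≤ gp S x y := by
  rw [gp_def hS]
  have := wordDist_triangle hS x 1 y
  rw [wordDist_one_right hS, wordDist_one_left] at this
  linarith

theorem gp_le_left (hS : Subgroup.closure S = ⊤) (x y : G) : gp S x y ≤ len S x := by
  rw [gp_def hS]
  have := wordDist_triangle hS 1 x y
  rw [wordDist_one_left, wordDist_one_left] at this
  linarith

theorem gp_le_right (hS : Subgroup.closure S = ⊤) (x y : G) : gp S x y ≤ len S y := by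
  rw [gp_comm hS]; exact gp_le_left hS y x

theorem gp_self (hS : Subgroup.closure S = ⊤) (x : G) : gp S x x = len S x := by
  rw [gp_def hS, wordDist_self]; ring

@[simp] theorem gp_one_left (hS : Subgroup.closure S = ⊤) (x : G) : gp S 1 x = 0 := by
  rw [gp_def hS, wordDist_one_left]; simp

/-- `1`-Lipschitz in each variable -/
theorem gp_lip_left (hS : Subgroup.closure S = ⊤) (x x' y : G) :
    |gp S x y - gp S x' y| ≤ wordDist S x x' := by
  rw [gp_def hS, gp_def hS, abs_le]
  have h1 := wordDist_triangle hS 1 x x'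
  have h2 := wordDist_triangle hS 1 x' x
  have h3 := wordDist_triangle hS x x' y
  have h4 := wordDist_triangle hS x' x y
  rw [wordDist_one_left, wordDist_one_left] at h1 h2
  rw [wordDist_comm hS x' x] at h2 h4
  constructor <;> linarith

theorem gp_lip_right (hS : Subgroup.closure S = ⊤) (x y y' : G) :
    |gp S x y - gp S x y'| ≤ wordDist S y y' := by
  rw [gp_comm hS x y, gp_comm hS x y']; exact gp_lip_left hS y y' x

/-- change of base point (exact): `(x|y)_w = (x|y) - (x|w) - (y|w) + |w|` -/
theorem gromovProduct_eq (hS : Subgroup.closure S = ⊤) (w x y : G) :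
    gromovProduct S w x y = gp S x y - gp S x w - gp S y w + len S w := by
  rw [gp_def hS, gp_def hS, gp_def hS]
  simp only [gromovProduct]
  ring

theorem gromovProduct_mul_left (a w x y : G) :
    gromovProduct S (a * w) (a * x) (a * y) = gromovProduct S w x y := by
  simp only [gromovProduct, wordDist_mul_left]

/-- exact: `(gx|gy) = (x|y) - (x|g⁻¹) - (y|g⁻¹) + |g|` -/
theorem gp_mul_mul (hS : Subgroup.closure S = ⊤) (g x y : G) :
    gp S (g * x) (g * y) = gp S x y - gp S x g⁻¹ - gp S y g⁻¹ + len S g := by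
  have h1 : gp S (g * x) (g * y) = gromovProduct S g⁻¹ x y := by
    have := gromovProduct_mul_left (S := S) g g⁻¹ x y
    rw [mul_inv_cancel] at this
    exact this
  rw [h1, gromovProduct_eq hS, len_inv hS]


end real

end Crest.Agent.R193.Hyp
end

-- ▼ part R193/HypBdry
section

/-!
R193, hyperbolic toolkit, layer H2: Gromov products on `G ⊔ ∂G`.

* `IsHyp S δ` : `S` finite, generates, four point condition with constant `δ`.
* `Pt S = G ⊕ CayleyBoundary S`, `pth p : ℕ → G` (constant for group elements, a ray for boundary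
  points), `P p q : EReal` the (monotone) limit of `(pth p n | pth q n)`.
* `zg x g : ℝ` product of a boundary point and a group element, `zz x y : EReal`.
* exact four point inequality on `Pt S` with the same constant `δ`.
* comparison with the product of the Prelude, neighbourhood bases.
-/

set_option autoImplicit false

namespace Crest.Agent.R193.Hyp

open Crest.GroupTheory Filter Topology

variable {G : Type*} [Group G] {S : Set G} {δ : ℝ}

/-- standing hypothesis -/
structure IsHyp (S : Set G) (δ : ℝ) : Prop where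
  gen : Subgroup.closure S = ⊤
  fin : S.Finite
  nonneg : 0 ≤ δ
  four : ∀ w x y z : G, min (gromovProduct S w x y) (gromovProduct S w y z) - δ ≤
    gromovProduct S w x z

theorem IsHyp.gp_four (H : IsHyp S δ) (x y z : G) : min (gp S x y) (gp S y z) - δ ≤ gp S x z :=
  H.four 1 x y z

/-! ### radial sequences -/

/-- a sequence moving away from `1` radially -/
def Radial (S : Set G) (c : ℕ → G) : Prop :=
  ∀ m n, m ≤ n → wordDist S (c m) (c n) = len S (c n) - len S (c m)

theorem Radial.gp_eq (hS : Subgroup.closure S = ⊤) {c : ℕ → G} (hc : Radial S c) {m n : ℕ}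
    (h : m ≤ n) : gp S (c m) (c n) = len S (c m) := by
  rw [gp_def hS, hc m n h]; ring

theorem Radial.gp_mono_left (hS : Subgroup.closure S = ⊤) {c : ℕ → G} (hc : Radial S c) (y : G) :
    Monotone fun n => gp S (c n) y := by
  intro m n h
  simp only
  rw [gp_def hS, gp_def hS]
  have h1 := hc m n h
  have h2 := wordDist_triangle hS (c n) (c m) y
  rw [wordDist_comm hS (c n) (c m), h1] at h2
  linarith

theorem Radial.gp_mono_right (hS : Subgroup.closure S = ⊤) {c : ℕ → G} (hc : Radial S c) (y : G) :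
    Monotone fun n => gp S y (c n) := by
  have := hc.gp_mono_left hS y
  intro m n h
  simp only
  rw [gp_comm hS y, gp_comm hS y]
  exact this h

theorem gp_mono (hS : Subgroup.closure S = ⊤) {c c' : ℕ → G} (hc : Radial S c) (hc' : Radial S c')
    {m n m' n' : ℕ} (h : m ≤ n) (h' : m' ≤ n') : gp S (c m) (c' m') ≤ gp S (c n) (c' n') :=
  (hc.gp_mono_left hS (c' m') h).trans (hc'.gp_mono_right hS (c n) h')

theorem radial_const (g : G) : Radial S (fun _ => g) := by
  intro m n _; simp [wordDist_self]

theorem ray_len (hS : Subgroup.closure S = ⊤) (γ : CayleyRay S) (n : ℕ) : len S (γ.toFun n) = n := by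
  have := γ.dist_eq 0 n
  rw [γ.map_zero, wordDist_one_left] at this
  rw [this]; simp

theorem ray_wordLength (hS : Subgroup.closure S = ⊤) (γ : CayleyRay S) (n : ℕ) :
    wordLength S (γ.toFun n) = n := by
  have := ray_len hS γ n
  simp only [len] at this
  exact_mod_cast this

theorem ray_radial (hS : Subgroup.closure S = ⊤) (γ : CayleyRay S) : Radial S γ.toFun := by
  intro m n h
  rw [γ.dist_eq, ray_len hS, ray_len hS, abs_sub_comm, abs_of_nonneg]
  have : (m : ℝ) ≤ n := by exact_mod_cast h
  linarith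

/-! ### points of `G ⊔ ∂G` -/

/-- `G ⊔ ∂G` -/
abbrev Pt (S : Set G) := G ⊕ CayleyBoundary S

/-- a chosen ray of a boundary point -/
noncomputable def rep (x : CayleyBoundary S) : CayleyRay S := Quot.out x

theorem mk_rep (x : CayleyBoundary S) : Quot.mk _ (rep x) = x := Quot.out_eq x

/-- the chosen ray as a function -/
noncomputable def ray (x : CayleyBoundary S) : ℕ → G := (rep x).toFun

/-- the path of a point -/
noncomputable def pth : Pt S → ℕ → G
  | Sum.inl g => fun _ => g
  | Sum.inr x => ray x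

@[simp] theorem pth_inl (g : G) (n : ℕ) : pth (Sum.inl g : Pt S) n = g := rfl
@[simp] theorem pth_inr (x : CayleyBoundary S) (n : ℕ) : pth (Sum.inr x : Pt S) n = ray x n := rfl

theorem len_ray (H : IsHyp S δ) (x : CayleyBoundary S) (n : ℕ) : len S (ray x n) = n :=
  ray_len H.gen _ n

theorem wordLength_ray (H : IsHyp S δ) (x : CayleyBoundary S) (n : ℕ) : wordLength S (ray x n) = n :=
  ray_wordLength H.gen _ n


theorem radial_pth (H : IsHyp S δ) (p : Pt S) : Radial S (pth p) := by
  cases p with
  | inl g => exact radial_const g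
  | inr x => exact ray_radial H.gen _

/-- the Gromov product on `G ⊔ ∂G` -/
noncomputable def P (p q : Pt S) : EReal := ⨆ n : ℕ, ((gp S (pth p n) (pth q n) : ℝ) : EReal)

theorem lt_P_iff {p q : Pt S} {R : ℝ} :
    (R : EReal) < P p q ↔ ∃ n, R < gp S (pth p n) (pth q n) := by
  simp only [P, lt_iSup_iff, EReal.coe_lt_coe_iff]

theorem P_le_iff {p q : Pt S} {R : ℝ} :
    P p q ≤ (R : EReal) ↔ ∀ n, gp S (pth p n) (pth q n) ≤ R := by
  simp only [P, iSup_le_iff, EReal.coe_le_coe_iff]

theorem gp_le_P (H : IsHyp S δ) (p q : Pt S) (m n : ℕ) :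
    ((gp S (pth p m) (pth q n) : ℝ) : EReal) ≤ P p q := by
  have h := gp_mono H.gen (radial_pth H p) (radial_pth H q) (le_max_left m n) (le_max_right m n)
  exact (EReal.coe_le_coe_iff.2 h).trans (le_iSup (fun n : ℕ => ((gp S (pth p n) (pth q n) : ℝ) : EReal)) (max m n))

theorem le_P_of_forall_lt {p q : Pt S} {R : ℝ} (h : ∀ R' : ℝ, R' < R → (R' : EReal) < P p q) :
    (R : EReal) ≤ P p q := by
  refine le_of_forall_lt fun c hc => ?_
  induction c with
  | bot => exact lt_of_le_of_lt bot_le (h (R - 1) (by linarith))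
  | coe c => exact h c (EReal.coe_lt_coe_iff.1 hc)
  | top => exact absurd hc (by simp)

theorem P_comm (H : IsHyp S δ) (p q : Pt S) : P p q = P q p := by
  simp only [P]; congr 1; ext n; rw [gp_comm H.gen]

theorem P_nonneg (H : IsHyp S δ) (p q : Pt S) : 0 ≤ P p q := by
  have := gp_le_P H p q 0 0
  refine le_trans ?_ this
  exact_mod_cast gp_nonneg H.gen _ _

/-- four point inequality, strict form -/
theorem P_four_lt (H : IsHyp S δ) {p q r : Pt S} {R : ℝ} (h1 : (R : EReal) < P p q)
    (h2 : (R : EReal) < P q r) : ((R - δ : ℝ) : EReal) < P p r := by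
  rw [lt_P_iff] at *
  obtain ⟨m, hm⟩ := h1
  obtain ⟨n, hn⟩ := h2
  have h3 := gp_mono H.gen (radial_pth H p) (radial_pth H q) (le_max_left m n) (le_max_left m n)
  have h4 := gp_mono H.gen (radial_pth H q) (radial_pth H r) (le_max_right m n) (le_max_right m n)
  refine ⟨max m n, ?_⟩
  have := H.gp_four (pth p (max m n)) (pth q (max m n)) (pth r (max m n))
  have h5 : R < min (gp S (pth p (max m n)) (pth q (max m n)))
      (gp S (pth q (max m n)) (pth r (max m n))) := lt_min (by linarith) (by linarith)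
  linarith

/-- four point inequality, weak form -/
theorem P_four_le (H : IsHyp S δ) {p q r : Pt S} {R : ℝ} (h1 : (R : EReal) ≤ P p q)
    (h2 : (R : EReal) ≤ P q r) : ((R - δ : ℝ) : EReal) ≤ P p r := by
  refine le_P_of_forall_lt fun R' hR' => ?_
  have h3 : ((R' + δ : ℝ) : EReal) < (R : EReal) := EReal.coe_lt_coe_iff.2 (by linarith)
  have := P_four_lt H (h3.trans_le h1) (h3.trans_le h2)
  simpa using this


/-! ### boundary point versus group element -/

/-- product of a boundary point and a group element (a real number) -/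
noncomputable def zg (x : CayleyBoundary S) (g : G) : ℝ := ⨆ n : ℕ, gp S (ray x n) g

/-- product of two boundary points -/
noncomputable def zz (x y : CayleyBoundary S) : EReal := P (Sum.inr x) (Sum.inr y)

theorem bdd_zg (H : IsHyp S δ) (x : CayleyBoundary S) (g : G) :
    BddAbove (Set.range fun n : ℕ => gp S (ray x n) g) :=
  ⟨len S g, by rintro _ ⟨n, rfl⟩; exact gp_le_right H.gen _ _⟩

theorem gp_le_zg (H : IsHyp S δ) (x : CayleyBoundary S) (g : G) (n : ℕ) : gp S (ray x n) g ≤ zg x g :=
  le_ciSup (bdd_zg H x g) n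

theorem zg_le (H : IsHyp S δ) {x : CayleyBoundary S} {g : G} {R : ℝ} (h : ∀ n, gp S (ray x n) g ≤ R) :
    zg x g ≤ R := ciSup_le h

theorem P_zg (H : IsHyp S δ) (x : CayleyBoundary S) (g : G) :
    P (Sum.inr x) (Sum.inl g) = (zg x g : EReal) := by
  apply le_antisymm
  · rw [P_le_iff]; intro n; exact gp_le_zg H x g n
  · refine le_P_of_forall_lt fun R' hR' => ?_
    rw [lt_P_iff]
    exact exists_lt_of_lt_ciSup hR'

theorem P_gz (H : IsHyp S δ) (x : CayleyBoundary S) (g : G) :
    P (Sum.inl g) (Sum.inr x) = (zg x g : EReal) := by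
  rw [P_comm H, P_zg H]

theorem P_gg (g h : G) : P (Sum.inl g : Pt S) (Sum.inl h) = ((gp S g h : ℝ) : EReal) := by
  simp [P]

theorem zg_nonneg (H : IsHyp S δ) (x : CayleyBoundary S) (g : G) : 0 ≤ zg x g :=
  (gp_nonneg H.gen _ _).trans (gp_le_zg H x g 0)

theorem zg_le_len (H : IsHyp S δ) (x : CayleyBoundary S) (g : G) : zg x g ≤ len S g :=
  zg_le H fun n => gp_le_right H.gen _ _

theorem zz_comm (H : IsHyp S δ) (x y : CayleyBoundary S) : zz x y = zz y x := P_comm H _ _

theorem tendsto_zg (H : IsHyp S δ) (x : CayleyBoundary S) (g : G) :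
    Tendsto (fun n => gp S (ray x n) g) atTop (𝓝 (zg x g)) :=
  tendsto_atTop_ciSup ((ray_radial H.gen (rep x)).gp_mono_left H.gen g) (bdd_zg H x g)

/-- along its own ray the product is exact -/
theorem zg_ray (H : IsHyp S δ) (x : CayleyBoundary S) (n : ℕ) : zg x (ray x n) = n := by
  apply le_antisymm
  · rw [← len_ray H x n]; exact zg_le_len H x _
  · have := gp_le_zg H x (ray x n) n
    rw [gp_self H.gen, len_ray H] at this
    exact this

theorem zz_self (H : IsHyp S δ) (x : CayleyBoundary S) : zz x x = ⊤ := by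
  rw [EReal.eq_top_iff_forall_lt]
  intro R
  obtain ⟨n, hn⟩ := exists_nat_gt R
  rw [zz, lt_P_iff]
  refine ⟨n, ?_⟩
  simp only [pth_inr]
  rw [gp_self H.gen, len_ray H]; exact hn

/-! four point inequalities by type -/

theorem four_zgz (H : IsHyp S δ) (x y : CayleyBoundary S) (g : G) {R : ℝ} (h1 : R ≤ zg x g)
    (h2 : R ≤ zg y g) : ((R - δ : ℝ) : EReal) ≤ zz x y :=
  P_four_le H (q := Sum.inl g) (by rw [P_zg H]; exact_mod_cast h1) (by rw [P_gz H]; exact_mod_cast h2)

theorem four_zzg (H : IsHyp S δ) (x y : CayleyBoundary S) (g : G) {R : ℝ} (h1 : (R : EReal) ≤ zz x y)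
    (h2 : R ≤ zg y g) : R - δ ≤ zg x g := by
  have := P_four_le H (p := Sum.inr x) (q := Sum.inr y) (r := Sum.inl g) h1
    (by rw [P_zg H]; exact_mod_cast h2)
  rw [P_zg H] at this
  exact_mod_cast this

theorem four_zzz (H : IsHyp S δ) (x y z : CayleyBoundary S) {R : ℝ} (h1 : (R : EReal) ≤ zz x y)
    (h2 : (R : EReal) ≤ zz y z) : ((R - δ : ℝ) : EReal) ≤ zz x z :=
  P_four_le H h1 h2

theorem four_zzz_lt (H : IsHyp S δ) (x y z : CayleyBoundary S) {R : ℝ} (h1 : (R : EReal) < zz x y)
    (h2 : (R : EReal) < zz y z) : ((R - δ : ℝ) : EReal) < zz x z :=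
  P_four_lt H h1 h2

theorem four_zgg (H : IsHyp S δ) (x : CayleyBoundary S) (g h : G) :
    min (zg x g) (gp S g h) - δ ≤ zg x h := by
  have := P_four_le H (p := Sum.inr x) (q := Sum.inl g) (r := Sum.inl h)
    (R := min (zg x g) (gp S g h))
    (by rw [P_zg H]; exact_mod_cast min_le_left _ _) (by rw [P_gg]; exact_mod_cast min_le_right _ _)
  rw [P_zg H] at this
  exact_mod_cast this

theorem four_gzg (H : IsHyp S δ) (x : CayleyBoundary S) (g h : G) :
    min (zg x g) (zg x h) - δ ≤ gp S g h := by
  have := P_four_le H (p := Sum.inl g) (q := Sum.inr x) (r := Sum.inl h)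
    (R := min (zg x g) (zg x h))
    (by rw [P_gz H]; exact_mod_cast min_le_left _ _) (by rw [P_zg H]; exact_mod_cast min_le_right _ _)
  rw [P_gg] at this
  exact_mod_cast this


/-! ### asymptotic rays -/

theorem IsAsymptotic.dist_le (H : IsHyp S δ) {γ γ' : CayleyRay S} (h : γ.IsAsymptotic γ') (m : ℕ) :
    wordDist S (γ.toFun m) (γ'.toFun m) ≤ 4 * δ := by
  obtain ⟨C, hC⟩ := h
  obtain ⟨n, hn⟩ := exists_nat_gt (m + |C|)
  have hmn : m ≤ n := by
    have h0 := abs_nonneg C
    have : (m : ℝ) ≤ n := by linarith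
    exact_mod_cast this
  have r1 := ray_radial H.gen γ
  have r2 := ray_radial H.gen γ'
  have e1 : gp S (γ.toFun m) (γ.toFun n) = m := by rw [r1.gp_eq H.gen hmn, ray_len H.gen]
  have e2 : gp S (γ'.toFun m) (γ'.toFun n) = m := by rw [r2.gp_eq H.gen hmn, ray_len H.gen]
  have e3 : (m : ℝ) ≤ gp S (γ.toFun n) (γ'.toFun n) := by
    rw [gp_def H.gen, ray_len H.gen, ray_len H.gen]
    have := hC n
    have := le_abs_self C
    have h0 := abs_nonneg C
    linarith
  have e4 : (m : ℝ) - δ ≤ gp S (γ.toFun m) (γ'.toFun n) := by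
    have := H.gp_four (γ.toFun m) (γ.toFun n) (γ'.toFun n)
    rw [e1, min_eq_left e3] at this
    exact this
  have e5 : (m : ℝ) - 2 * δ ≤ gp S (γ.toFun m) (γ'.toFun m) := by
    have := H.gp_four (γ.toFun m) (γ'.toFun n) (γ'.toFun m)
    rw [gp_comm H.gen (γ'.toFun n), e2] at this
    have h1 : (m : ℝ) - δ ≤ min (gp S (γ.toFun m) (γ'.toFun n)) m :=
      le_min e4 (by linarith [H.nonneg])
    linarith
  rw [wordDist_eq_gp H.gen, ray_len H.gen, ray_len H.gen]
  linarith

theorem isAsymptotic_equivalence (H : IsHyp S δ) :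
    Equivalence (CayleyRay.IsAsymptotic (S := S)) where
  refl γ := ⟨0, fun n => by rw [wordDist_self]⟩
  symm := fun ⟨C, hC⟩ => ⟨C, fun n => by rw [wordDist_comm H.gen]; exact hC n⟩
  trans := fun ⟨C, hC⟩ ⟨C', hC'⟩ => ⟨C + C', fun n =>
    (wordDist_triangle H.gen _ _ _).trans (add_le_add (hC n) (hC' n))⟩

theorem mk_eq_iff (H : IsHyp S δ) {γ γ' : CayleyRay S} :
    (Quot.mk _ γ : CayleyBoundary S) = Quot.mk _ γ' ↔ γ.IsAsymptotic γ' := by
  constructor
  · intro h
    have := Quot.eqvGen_exact h
    rwa [(isAsymptotic_equivalence H).eqvGen_eq] at this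
  · intro h; exact Quot.sound h

theorem rep_dist_le (H : IsHyp S δ) {γ : CayleyRay S} {x : CayleyBoundary S}
    (h : Quot.mk _ γ = x) (m : ℕ) : wordDist S (γ.toFun m) (ray x m) ≤ 4 * δ := by
  have h1 : (Quot.mk _ γ : CayleyBoundary S) = Quot.mk _ (rep x) := by rw [mk_rep, h]
  exact IsAsymptotic.dist_le H ((mk_eq_iff H).1 h1) m

/-- points with infinite product are equal -/
theorem eq_of_zz (H : IsHyp S δ) {x y : CayleyBoundary S} (h : ∀ R : ℝ, (R : EReal) < zz x y) :
    x = y := by
  rw [← mk_rep x, ← mk_rep y]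
  refine (mk_eq_iff H).2 ⟨4 * δ, fun m => ?_⟩
  have h1 := h m
  have e1 : ((m : ℝ) : EReal) ≤ P (Sum.inr x) (Sum.inl (ray x m)) := by rw [P_zg H, zg_ray H]
  have e2 : ((m : ℝ) : EReal) ≤ P (Sum.inr y) (Sum.inl (ray y m)) := by rw [P_zg H, zg_ray H]
  have e3 : ((m - δ : ℝ) : EReal) ≤ P (Sum.inl (ray x m)) (Sum.inr y) :=
    P_four_le H (by rw [P_comm H]; exact e1) h1.le
  have e4 : ((m - δ - δ : ℝ) : EReal) ≤ P (Sum.inl (ray x m) : Pt S) (Sum.inl (ray y m)) := by
    refine P_four_le H e3 (le_trans ?_ e2)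
    exact_mod_cast (by linarith [H.nonneg] : (m : ℝ) - δ ≤ m)
  rw [P_gg] at e4
  have e5 : (m : ℝ) - δ - δ ≤ gp S (ray x m) (ray y m) := by exact_mod_cast e4
  change wordDist S (ray x m) (ray y m) ≤ 4 * δ
  rw [wordDist_eq_gp H.gen, len_ray H, len_ray H]
  linarith


/-- distinct boundary points have a finite product -/
theorem exists_zz_le (H : IsHyp S δ) {x y : CayleyBoundary S} (h : x ≠ y) :
    ∃ R : ℝ, zz x y ≤ (R : EReal) := by
  by_contra hc
  exact h (eq_of_zz H fun R => not_le.1 fun hR => hc ⟨R, hR⟩)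

/-! ### comparison with the Prelude product -/

theorem productLiminf_eq (H : IsHyp S δ) (γ γ' : CayleyRay S) :
    CayleyRay.productLiminf γ γ' = ⨆ n : ℕ, ((gp S (γ.toFun n) (γ'.toFun n) : ℝ) : EReal) := by
  have hm : Monotone fun n : ℕ => ((gp S (γ.toFun n) (γ'.toFun n) : ℝ) : EReal) := by
    intro m n h
    exact EReal.coe_le_coe_iff.2 (gp_mono H.gen (ray_radial H.gen γ) (ray_radial H.gen γ') h h)
  exact (tendsto_atTop_iSup hm).liminf_eq

theorem zz_le_product (H : IsHyp S δ) (x y : CayleyBoundary S) :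
    zz x y ≤ CayleyBoundary.product x y := by
  have h : zz x y = CayleyRay.productLiminf (rep x) (rep y) := by
    rw [productLiminf_eq H]; rfl
  rw [h]
  exact le_iSup₂_of_le (f := fun (γ : {γ : CayleyRay S // Quot.mk _ γ = x})
    (γ' : {γ' : CayleyRay S // Quot.mk _ γ' = y}) => CayleyRay.productLiminf γ.1 γ'.1)
    ⟨rep x, mk_rep x⟩ ⟨rep y, mk_rep y⟩ le_rfl

theorem product_lt (H : IsHyp S δ) {x y : CayleyBoundary S} {R : ℝ}
    (h : (R : EReal) < CayleyBoundary.product x y) : ((R - 8 * δ : ℝ) : EReal) < zz x y := by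
  simp only [CayleyBoundary.product, lt_iSup_iff] at h
  obtain ⟨⟨γ, hγ⟩, ⟨γ', hγ'⟩, h⟩ := h
  rw [productLiminf_eq H, lt_iSup_iff] at h
  obtain ⟨n, hn⟩ := h
  simp only [EReal.coe_lt_coe_iff] at hn
  rw [zz, lt_P_iff]
  refine ⟨n, ?_⟩
  simp only [pth_inr]
  have h1 := abs_le.1 (gp_lip_left H.gen (γ.toFun n) (ray x n) (γ'.toFun n))
  have h2 := abs_le.1 (gp_lip_right H.gen (ray x n) (γ'.toFun n) (ray y n))
  have h3 := rep_dist_le H hγ n
  have h4 := rep_dist_le H hγ' n
  linarith

/-! ### topology -/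

/-- the product balls `{η | N < (ξ|η)}` are neighbourhoods -/
theorem ball_mem_nhds (H : IsHyp S δ) (x : CayleyBoundary S) (R : ℝ) :
    {y | (R : EReal) < zz x y} ∈ 𝓝 x := by
  rw [mem_nhds_iff]
  refine ⟨{y | ∃ M : ℝ, ∀ z, (M : EReal) < CayleyBoundary.product y z → (R : EReal) < zz x z}, ?_, ?_, ?_⟩
  · rintro y ⟨M, hM⟩
    refine hM y (lt_of_lt_of_le ?_ (zz_le_product H y y))
    rw [zz_self H]; exact EReal.coe_lt_top M
  · intro y hy
    obtain ⟨M, hM⟩ := hy
    obtain ⟨N, hN⟩ := exists_nat_gt (M + 9 * δ + 1)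
    refine ⟨N, fun y' hy' => ⟨N, fun z hz => hM z ?_⟩⟩
    have h1 := product_lt H hy'
    have h2 := product_lt H hz
    have h3 := four_zzz_lt H y y' z h1 h2
    refine lt_of_lt_of_le ?_ (zz_le_product H y z)
    refine lt_trans ?_ h3
    exact_mod_cast (by linarith [H.nonneg] : M < (N : ℝ) - 8 * δ - δ)
  · refine ⟨R + 8 * δ, fun z hz => ?_⟩
    have := product_lt H hz
    simpa using this

theorem mem_nhds_iff_zz (H : IsHyp S δ) {x : CayleyBoundary S} {U : Set (CayleyBoundary S)} :
    U ∈ 𝓝 x ↔ ∃ N : ℕ, ∀ y, (((N : ℝ)) : EReal) < zz x y → y ∈ U := by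
  constructor
  · intro h
    rw [mem_nhds_iff] at h
    obtain ⟨V, hVU, hV, hx⟩ := h
    obtain ⟨N, hN⟩ := hV x hx
    exact ⟨N, fun y hy => hVU (hN y (hy.trans_le (zz_le_product H x y)))⟩
  · rintro ⟨N, hN⟩
    exact Filter.mem_of_superset (ball_mem_nhds H x N) fun y hy => hN y hy


/-- convergence in the boundary -/
theorem tendsto_iff (H : IsHyp S δ) {α : Type*} {l : Filter α} {f : α → CayleyBoundary S}
    {x : CayleyBoundary S} :
    Tendsto f l (𝓝 x) ↔ ∀ R : ℝ, ∀ᶠ a in l, (R : EReal) < zz x (f a) := by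
  constructor
  · intro h R
    exact h (ball_mem_nhds H x R)
  · intro h U hU
    obtain ⟨N, hN⟩ := (mem_nhds_iff_zz H).1 hU
    exact Filter.mem_of_superset (h N) fun a ha => hN _ ha

end Crest.Agent.R193.Hyp
end

-- ▼ part R193/HWord
section

/-! Row 193 (helper586): word metric basics. -/

set_option autoImplicit false

namespace Crest.Agent.R193.H

open Crest.GroupTheory

variable {G : Type*} [Group G] {S : Set G}

/-- admissible words -/
def IsWord (S : Set G) (l : List G) : Prop := ∀ x ∈ l, x ∈ S ∨ x⁻¹ ∈ S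

theorem exists_word (hS : Subgroup.closure S = ⊤) (g : G) : ∃ l : List G, IsWord S l ∧ l.prod = g := by
  have hg : g ∈ Subgroup.closure S := by rw [hS]; exact Subgroup.mem_top g
  rw [← Subgroup.mem_toSubmonoid, Subgroup.closure_toSubmonoid] at hg
  obtain ⟨l, h1, h2⟩ := Submonoid.exists_list_of_mem_closure hg
  refine ⟨l, fun x hx => ?_, h2⟩
  rcases h1 x hx with h | h
  · exact Or.inl h
  · exact Or.inr (Set.mem_inv.mp h)

theorem wordLength_le_of_word {l : List G} (h : IsWord S l) : wordLength S l.prod ≤ l.length :=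
  Nat.sInf_le ⟨l, rfl, h, rfl⟩

theorem exists_word_length (hS : Subgroup.closure S = ⊤) (g : G) :
    ∃ l : List G, l.length = wordLength S g ∧ IsWord S l ∧ l.prod = g := by
  obtain ⟨l, hl, hlg⟩ := exists_word hS g
  have hne : {n : ℕ | ∃ l : List G, l.length = n ∧ (∀ x ∈ l, x ∈ S ∨ x⁻¹ ∈ S) ∧ l.prod = g}.Nonempty :=
    ⟨l.length, l, rfl, hl, hlg⟩
  exact Nat.sInf_mem hne

theorem IsWord.append {l l' : List G} (h : IsWord S l) (h' : IsWord S l') : IsWord S (l ++ l') := by
  intro x hx
  rcases List.mem_append.mp hx with h1 | h1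
  · exact h x h1
  · exact h' x h1

theorem IsWord.inv {l : List G} (h : IsWord S l) : IsWord S (l.map (·⁻¹)).reverse := by
  intro x hx
  rw [List.mem_reverse, List.mem_map] at hx
  obtain ⟨y, hy, rfl⟩ := hx
  rcases h y hy with h1 | h1
  · right; rwa [inv_inv]
  · left; exact h1

theorem wordLength_one : wordLength S (1 : G) = 0 := by
  have := wordLength_le_of_word (S := S) (l := []) (by intro x hx; simp at hx)
  simpa using this


theorem wordLength_inv_le (hS : Subgroup.closure S = ⊤) (g : G) :
    wordLength S g⁻¹ ≤ wordLength S g := by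
  obtain ⟨l, h1, h2, h3⟩ := exists_word_length hS g
  have h4 := wordLength_le_of_word h2.inv
  rw [List.length_reverse, List.length_map, h1] at h4
  rwa [← List.prod_inv_reverse, h3] at h4

theorem wordLength_inv (hS : Subgroup.closure S = ⊤) (g : G) :
    wordLength S g⁻¹ = wordLength S g := by
  refine le_antisymm (wordLength_inv_le hS g) ?_
  have := wordLength_inv_le hS g⁻¹
  rwa [inv_inv] at this

theorem wordLength_mul (hS : Subgroup.closure S = ⊤) (g h : G) :
    wordLength S (g * h) ≤ wordLength S g + wordLength S h := by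
  obtain ⟨l, h1, h2, h3⟩ := exists_word_length hS g
  obtain ⟨l', h1', h2', h3'⟩ := exists_word_length hS h
  have h4 := wordLength_le_of_word (h2.append h2')
  rw [List.length_append, List.prod_append, h1, h1', h3, h3'] at h4
  exact h4


/-- a geodesic path from `1` to `g`, constant after time `|g|` -/
theorem exists_path (hS : Subgroup.closure S = ⊤) (g : G) : ∃ p : ℕ → G, p 0 = 1 ∧
    (∀ k, wordLength S g ≤ k → p k = g) ∧
    ∀ m n, m ≤ n → n ≤ wordLength S g → wordLength S ((p m)⁻¹ * p n) = n - m := by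
  obtain ⟨l, h1, h2, h3⟩ := exists_word_length hS g
  refine ⟨fun k => (l.take k).prod, by simp, ?_, ?_⟩
  · intro k hk
    show (l.take k).prod = g
    rw [List.take_of_length_le (i := k) (l := l) (by omega), h3]
  · intro m n hmn hn
    -- `take n = take m ++ middle`
    have e0 : ((l.take m).prod)⁻¹ * (l.take n).prod = ((l.take n).drop m).prod := by
      have : l.take m = (l.take n).take m := by rw [List.take_take, min_eq_left hmn]
      rw [this, inv_mul_eq_iff_eq_mul, List.prod_take_mul_prod_drop]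
    have w1 : IsWord S (l.take m) := fun x hx => h2 x (List.mem_of_mem_take hx)
    have w2 : IsWord S ((l.take n).drop m) :=
      fun x hx => h2 x (List.mem_of_mem_take (List.mem_of_mem_drop hx))
    have w3 : IsWord S (l.drop n) := fun x hx => h2 x (List.mem_of_mem_drop hx)
    have e1 := wordLength_le_of_word w1
    have e2 := wordLength_le_of_word w2
    have e3 := wordLength_le_of_word w3
    have e4 : g = (l.take m).prod * (((l.take n).drop m).prod * (l.drop n).prod) := by
      rw [← mul_assoc, ← e0, mul_inv_cancel_left, List.prod_take_mul_prod_drop, h3]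
    have e5 := wordLength_mul hS (l.take m).prod (((l.take n).drop m).prod * (l.drop n).prod)
    have e6 := wordLength_mul hS ((l.take n).drop m).prod (l.drop n).prod
    rw [← e4] at e5
    rw [List.length_take] at e1
    rw [List.length_drop, List.length_take] at e2
    rw [List.length_drop] at e3
    simp only [e0]
    omega

theorem finite_ball (S : Finset G) (hS : Subgroup.closure (S : Set G) = ⊤) (n : ℕ) :
    {g : G | wordLength (S : Set G) g ≤ n}.Finite := by
  classical
  set A : Finset G := S ∪ S.image (·⁻¹) with hA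
  have hfin : {l : List G | l.length ≤ n ∧ ∀ x ∈ l, x ∈ A}.Finite := by
    have h1 : (⋃ k ∈ Finset.range (n + 1), {l : List G | l.length = k ∧ ∀ x ∈ l, x ∈ A}).Finite := by
      refine Set.Finite.biUnion (Finset.finite_toSet _) fun k _ => ?_
      have h2 : ({l : List A | l.length = k} : Set (List A)).Finite := List.finite_length_eq A k
      refine (h2.image (fun l : List A => l.map Subtype.val)).subset ?_
      rintro l ⟨hl, hx⟩
      refine ⟨l.attach.map (fun x => ⟨x.1, hx x.1 x.2⟩), by simpa using hl, ?_⟩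
      show List.map Subtype.val (l.attach.map (fun x => (⟨x.1, hx x.1 x.2⟩ : A))) = l
      rw [List.map_map]
      exact List.attach_map_subtype_val l
    refine h1.subset fun l hl => ?_
    simp only [Set.mem_iUnion, Finset.mem_range]
    exact ⟨l.length, by have := hl.1; omega, rfl, hl.2⟩
  refine (hfin.image List.prod).subset fun g hg => ?_
  obtain ⟨l, h1, h2, h3⟩ := exists_word_length hS g
  refine ⟨l, ⟨by rw [h1]; exact hg, fun x hx => ?_⟩, h3⟩
  rw [hA, Finset.mem_union, Finset.mem_image]
  rcases h2 x hx with h | h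
  · left; exact_mod_cast h
  · right; exact ⟨x⁻¹, by exact_mod_cast h, inv_inv x⟩


end Crest.Agent.R193.H
end

-- ▼ part R193/HRay
section

/-! Row 193 (helper586): rays, limit rays, products along rays, the action on the boundary. -/

set_option autoImplicit false

namespace Crest.Agent.R193.H

open Crest.GroupTheory Filter

variable {G : Type*} [Group G] {S : Set G}

/-! ### the word distance and the Gromov product based at `1` -/

/-- Gromov product based at `1` -/
noncomputable def gp (S : Set G) (x y : G) : ℝ := gromovProduct S 1 x y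


theorem dist_self' (x : G) : wordDist S x x = 0 := by
  unfold wordDist; rw [inv_mul_cancel, wordLength_one]; simp

theorem dist_comm' (hS : Subgroup.closure S = ⊤) (x y : G) : wordDist S x y = wordDist S y x := by
  unfold wordDist
  rw [← wordLength_inv hS (x⁻¹ * y), mul_inv_rev, inv_inv]

theorem dist_triangle' (hS : Subgroup.closure S = ⊤) (x y z : G) :
    wordDist S x z ≤ wordDist S x y + wordDist S y z := by
  unfold wordDist
  have h := wordLength_mul hS (x⁻¹ * y) (y⁻¹ * z)
  rw [mul_assoc, mul_inv_cancel_left] at h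
  exact_mod_cast h

theorem dist_smul' (g x y : G) : wordDist S (g * x) (g * y) = wordDist S x y := by
  unfold wordDist
  rw [mul_inv_rev, mul_assoc, inv_mul_cancel_left]

theorem dist_one' (hS : Subgroup.closure S = ⊤) (x : G) : wordDist S x 1 = wordLength S x := by
  unfold wordDist
  rw [mul_one, wordLength_inv hS]


theorem gp_def (hS : Subgroup.closure S = ⊤) (x y : G) :
    gp S x y = ((wordLength S x : ℝ) + wordLength S y - wordDist S x y) / 2 := by
  unfold gp gromovProduct
  rw [dist_one' hS, dist_one' hS]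

theorem gp_comm (hS : Subgroup.closure S = ⊤) (x y : G) : gp S x y = gp S y x := by
  rw [gp_def hS, gp_def hS, dist_comm' hS x y]; ring


theorem length_le_add_dist (hS : Subgroup.closure S = ⊤) (x y : G) :
    (wordLength S x : ℝ) ≤ wordLength S y + wordDist S x y := by
  have := dist_triangle' hS x y 1
  rw [dist_one' hS, dist_one' hS] at this
  linarith


theorem gp_le_left (hS : Subgroup.closure S = ⊤) (x y : G) : gp S x y ≤ wordLength S x := by
  rw [gp_def hS]
  have h := length_le_add_dist hS y x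
  rw [dist_comm' hS] at h
  linarith

theorem gp_le_right (hS : Subgroup.closure S = ⊤) (x y : G) : gp S x y ≤ wordLength S y := by
  rw [gp_comm hS]; exact gp_le_left hS y x


theorem dist_eq_gp (hS : Subgroup.closure S = ⊤) (x y : G) :
    wordDist S x y = wordLength S x + wordLength S y - 2 * gp S x y := by
  rw [gp_def hS]; ring


/-- the four-point condition based at `1` -/
def Hyp (S : Set G) (δ : ℝ) : Prop :=
  ∀ x y z : G, min (gp S x y) (gp S y z) - δ ≤ gp S x z


/-! ### rays -/

theorem ray_length (hS : Subgroup.closure S = ⊤) (c : CayleyRay S) (n : ℕ) :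
    wordLength S (c.toFun n) = n := by
  have h := c.dist_eq n 0
  rw [c.map_zero, dist_one' hS] at h
  simp only [CharP.cast_eq_zero, sub_zero, Nat.abs_cast] at h
  exact_mod_cast h

theorem ray_dist_le (c : CayleyRay S) {m n : ℕ} (h : m ≤ n) :
    wordDist S (c.toFun m) (c.toFun n) = n - m := by
  rw [c.dist_eq, abs_sub_comm, abs_of_nonneg]
  have : (m : ℝ) ≤ n := by exact_mod_cast h
  linarith










theorem asymp_refl (c : CayleyRay S) : c.IsAsymptotic c :=
  ⟨0, fun n => by rw [dist_self']⟩

theorem asymp_symm (hS : Subgroup.closure S = ⊤) {c c' : CayleyRay S} (h : c.IsAsymptotic c') :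
    c'.IsAsymptotic c := by
  obtain ⟨C, hC⟩ := h
  exact ⟨C, fun n => by rw [dist_comm' hS]; exact hC n⟩

theorem asymp_trans (hS : Subgroup.closure S = ⊤) {c c' c'' : CayleyRay S}
    (h : c.IsAsymptotic c') (h' : c'.IsAsymptotic c'') : c.IsAsymptotic c'' := by
  obtain ⟨C, hC⟩ := h
  obtain ⟨C', hC'⟩ := h'
  refine ⟨C + C', fun n => ?_⟩
  have := dist_triangle' hS (c.toFun n) (c'.toFun n) (c''.toFun n)
  have h1 := hC n
  have h2 := hC' n
  linarith

theorem asymp_equivalence (hS : Subgroup.closure S = ⊤) :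
    Equivalence (CayleyRay.IsAsymptotic (S := S)) :=
  ⟨asymp_refl, asymp_symm hS, asymp_trans hS⟩

theorem mk_eq_iff (hS : Subgroup.closure S = ⊤) (c c' : CayleyRay S) :
    (Quot.mk _ c : CayleyBoundary S) = Quot.mk _ c' ↔ c.IsAsymptotic c' := by
  rw [Quot.eq]
  exact ⟨fun h => (asymp_equivalence hS).eqvGen_iff.mp h, fun h => .rel _ _ h⟩

/-! ### limit rays -/

theorem exists_limit_ray (S : Set G) (hS : Subgroup.closure S = ⊤)
    (hfin : ∀ n, {g : G | wordLength S g ≤ n}.Finite) {ι : Type*}
    (U : Ultrafilter ι) (p : ι → ℕ → G) (N : ι → ℕ) (hN : ∀ k, ∀ᶠ i in (U : Filter ι), k ≤ N i)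
    (h0 : ∀ i, p i 0 = 1)
    (hp : ∀ i m n, m ≤ n → n ≤ N i → wordLength S ((p i m)⁻¹ * p i n) = n - m) :
    ∃ c : CayleyRay S, ∀ k, ∀ᶠ i in (U : Filter ι), p i k = c.toFun k := by
  have key : ∀ k, ∃ x : G, ∀ᶠ i in (U : Filter ι), p i k = x := by
    intro k
    have h1 : ∀ᶠ i in (U : Filter ι), ∃ x ∈ {g : G | wordLength S g ≤ k}, p i k = x := by
      filter_upwards [hN k] with i hi
      refine ⟨p i k, ?_, rfl⟩
      have := hp i 0 k (Nat.zero_le k) hi
      rw [h0, inv_one, one_mul] at this
      show wordLength S (p i k) ≤ k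
      omega
    rw [Ultrafilter.eventually_exists_mem_iff (hfin k)] at h1
    obtain ⟨x, -, hx⟩ := h1
    exact ⟨x, hx⟩
  choose c hc using key
  have hle : ∀ m n : ℕ, m ≤ n → wordDist S (c m) (c n) = n - m := by
    intro m n hmn
    obtain ⟨i, h1, h2, h3⟩ := ((hc m).and ((hc n).and (hN n))).exists
    have := hp i m n hmn h3
    rw [h1, h2] at this
    unfold wordDist
    rw [this, Nat.cast_sub hmn]
  refine ⟨⟨c, ?_, ?_⟩, hc⟩
  · obtain ⟨i, h1⟩ := (hc 0).exists
    rw [← h1, h0]
  · intro m n
    rcases le_total m n with h | h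
    · rw [hle m n h, abs_sub_comm, abs_of_nonneg]
      have : (m : ℝ) ≤ n := by exact_mod_cast h
      linarith
    · rw [dist_comm' hS, hle n m h, abs_of_nonneg]
      have : (n : ℝ) ≤ m := by exact_mod_cast h
      linarith

/-- a family of group elements going to infinity along an ultrafilter has a limit ray:
`(c(k)|g_i) = k` for most `i` -/
theorem exists_limit_ray' (S : Set G) (hS : Subgroup.closure S = ⊤)
    (hfin : ∀ n, {g : G | wordLength S g ≤ n}.Finite) {ι : Type*}
    (U : Ultrafilter ι) (g : ι → G) (hg : ∀ k : ℕ, ∀ᶠ i in (U : Filter ι), k ≤ wordLength S (g i)) :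
    ∃ c : CayleyRay S, ∀ k, ∀ᶠ i in (U : Filter ι), gp S (c.toFun k) (g i) = k := by
  choose p hp0 hp1 hp2 using fun i => exists_path hS (g i)
  obtain ⟨c, hc⟩ := exists_limit_ray S hS hfin U p (fun i => wordLength S (g i)) hg hp0 hp2
  refine ⟨c, fun k => ?_⟩
  filter_upwards [hc k, hg k] with i h1 h2
  have h3 := hp2 i k _ h2 le_rfl
  rw [hp1 i _ le_rfl] at h3
  rw [← h1, gp_def hS]
  have h4 : wordLength S (p i k) = k := by rw [h1, ray_length hS]
  unfold wordDist
  rw [h3, h4, Nat.cast_sub h2]
  ring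

/-- translates of rays -/
theorem exists_translate (S : Set G) (hS : Subgroup.closure S = ⊤)
    (hfin : ∀ n, {g : G | wordLength S g ≤ n}.Finite) {δ : ℝ} (hδ : 0 ≤ δ) (hyp : Hyp S δ)
    (g : G) (c : CayleyRay S) :
    ∃ c' : CayleyRay S,
      ∀ k i : ℕ, k + wordLength S g ≤ i → (k : ℝ) - δ ≤ gp S (c'.toFun k) (g * c.toFun i) := by
  have hlen : ∀ i : ℕ, (i : ℝ) - wordLength S g ≤ wordLength S (g * c.toFun i) := by
    intro i
    have h1 := length_le_add_dist hS (c.toFun i) (g⁻¹)
    have h2 : wordDist S (c.toFun i) g⁻¹ = wordLength S (g * c.toFun i) := by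
      have := dist_smul' (S := S) g (c.toFun i) g⁻¹
      rw [mul_inv_cancel, dist_one' hS] at this
      exact this.symm
    rw [ray_length hS, wordLength_inv hS, h2] at h1
    linarith
  obtain ⟨c', hc'⟩ := exists_limit_ray' S hS hfin (hyperfilter ℕ) (fun i => g * c.toFun i) (by
    intro k
    refine Nat.hyperfilter_le_atTop ?_
    filter_upwards [eventually_ge_atTop (k + wordLength S g)] with i hi
    have h1 := hlen i
    have h2 : ((k : ℝ) + wordLength S g) ≤ i := by exact_mod_cast hi
    have h3 : (k : ℝ) ≤ wordLength S (g * c.toFun i) := by linarith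
    exact_mod_cast h3)
  refine ⟨c', fun k i hi => ?_⟩
  have h1 : ∀ᶠ j in ((hyperfilter ℕ : Ultrafilter ℕ) : Filter ℕ), i ≤ j :=
    Nat.hyperfilter_le_atTop (eventually_ge_atTop i)
  obtain ⟨j, hj1, hj2⟩ := ((hc' k).and h1).exists
  have h2 := hyp (c'.toFun k) (g * c.toFun j) (g * c.toFun i)
  rw [hj1] at h2
  have h3 : (k : ℝ) ≤ gp S (g * c.toFun j) (g * c.toFun i) := by
    rw [gp_def hS, dist_smul', dist_comm' hS, ray_dist_le c hj2]
    have e1 := hlen i
    have e2 := hlen j
    have h2 : ((k : ℝ) + wordLength S g) ≤ i := by exact_mod_cast hi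
    linarith
  rw [min_eq_left h3] at h2
  exact h2

theorem translate_dist (hS : Subgroup.closure S = ⊤) {δ : ℝ} (hδ : 0 ≤ δ) (hyp : Hyp S δ)
    {g : G} {c c' : CayleyRay S}
    (h : ∀ k i : ℕ, k + wordLength S g ≤ i → (k : ℝ) - δ ≤ gp S (c'.toFun k) (g * c.toFun i))
    (k : ℕ) : wordDist S (c'.toFun k) (g * c.toFun k) ≤ 3 * wordLength S g + 4 * δ := by
  have h1 := h k (k + wordLength S g) le_rfl
  have h2 := hyp (c'.toFun k) (g * c.toFun (k + wordLength S g)) (g * c.toFun k)
  have hlen : ∀ i : ℕ, (i : ℝ) - wordLength S g ≤ wordLength S (g * c.toFun i) := by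
    intro i
    have h1 := length_le_add_dist hS (c.toFun i) (g⁻¹)
    have h2 : wordDist S (c.toFun i) g⁻¹ = wordLength S (g * c.toFun i) := by
      have := dist_smul' (S := S) g (c.toFun i) g⁻¹
      rw [mul_inv_cancel, dist_one' hS] at this
      exact this.symm
    rw [ray_length hS, wordLength_inv hS, h2] at h1
    linarith
  have h3 : (k : ℝ) - wordLength S g ≤ gp S (g * c.toFun (k + wordLength S g)) (g * c.toFun k) := by
    rw [gp_def hS, dist_smul', dist_comm' hS, ray_dist_le c (Nat.le_add_right _ _)]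
    have e1 := hlen k
    have e2 := hlen (k + wordLength S g)
    push_cast at e2 ⊢
    linarith
  have h4 : (k : ℝ) - wordLength S g - 2 * δ ≤ gp S (c'.toFun k) (g * c.toFun k) := by
    have : (k : ℝ) - wordLength S g - δ ≤
        min (gp S (c'.toFun k) (g * c.toFun (k + wordLength S g)))
          (gp S (g * c.toFun (k + wordLength S g)) (g * c.toFun k)) := by
      refine le_min ?_ (by linarith)
      have : (0 : ℝ) ≤ wordLength S g := Nat.cast_nonneg _
      linarith
    linarith
  rw [dist_eq_gp hS, ray_length hS]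
  have h5 : (wordLength S (g * c.toFun k) : ℝ) ≤ wordLength S g + k := by
    have := wordLength_mul hS g (c.toFun k)
    rw [ray_length hS] at this
    exact_mod_cast this
  linarith

end Crest.Agent.R193.H
namespace Crest.Agent.R193.H.Hyp
end Crest.Agent.R193.H.Hyp
end

-- ▼ part R193/HypAct
section

/-!
R193, hyperbolic toolkit, layer H3: the action of `G` on `CayleyBoundary S`.
-/

set_option autoImplicit false

namespace Crest.Agent.R193.Hyp

open Crest.GroupTheory Filter Topology

variable {G : Type*} [Group G] {S : Set G} {δ : ℝ}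

theorem IsHyp.ball (H : IsHyp S δ) (n : ℕ) : {g : G | wordLength S g ≤ n}.Finite :=
  finite_ball H.gen H.fin n

theorem IsHyp.toHyp (H : IsHyp S δ) : Crest.Agent.R193.H.Hyp S δ := fun x y z => H.gp_four x y z

/-- `y` is the endpoint of `g · (ray to x)` -/
def Foll (g : G) (x y : CayleyBoundary S) : Prop :=
  ∃ C : ℝ, ∀ n : ℕ, wordDist S (ray y n) (g * ray x n) ≤ C

theorem Foll.unique (H : IsHyp S δ) {g : G} {x y y' : CayleyBoundary S} (h : Foll g x y)
    (h' : Foll g x y') : y = y' := by
  obtain ⟨C, hC⟩ := h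
  obtain ⟨C', hC'⟩ := h'
  rw [← mk_rep y, ← mk_rep y']
  refine (mk_eq_iff H).2 ⟨C + C', fun n => ?_⟩
  refine (wordDist_triangle H.gen _ (g * ray x n) _).trans (add_le_add (hC n) ?_)
  rw [wordDist_comm H.gen]
  exact hC' n

theorem Foll.exists (H : IsHyp S δ) (g : G) (x : CayleyBoundary S) :
    ∃ y : CayleyBoundary S, Foll g x y := by
  obtain ⟨c, hc⟩ := Crest.Agent.R193.H.exists_translate S H.gen H.ball H.nonneg H.toHyp g (rep x)
  refine ⟨Quot.mk _ c, 4 * δ + (3 * wordLength S g + 4 * δ), fun n => ?_⟩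
  have h1 := Crest.Agent.R193.H.translate_dist H.gen H.nonneg H.toHyp hc n
  have h2 := rep_dist_le H (γ := c) rfl n
  refine (wordDist_triangle H.gen _ (c.toFun n) _).trans (add_le_add ?_ h1)
  rw [wordDist_comm H.gen]
  exact h2

theorem Foll.one (x : CayleyBoundary S) : Foll 1 x x :=
  ⟨0, fun n => by rw [one_mul, wordDist_self]⟩

theorem Foll.mul (H : IsHyp S δ) {g h : G} {x y z : CayleyBoundary S} (h1 : Foll g x y)
    (h2 : Foll h y z) : Foll (h * g) x z := by
  obtain ⟨C, hC⟩ := h1
  obtain ⟨C', hC'⟩ := h2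
  refine ⟨C' + C, fun n => ?_⟩
  refine (wordDist_triangle H.gen _ (h * ray y n) _).trans (add_le_add (hC' n) ?_)
  rw [mul_assoc, wordDist_mul_left]
  exact hC n

open Classical in
/-- the action on the boundary -/
noncomputable def act (g : G) (x : CayleyBoundary S) : CayleyBoundary S :=
  if h : ∃ y : CayleyBoundary S, Foll g x y then h.choose else x

theorem foll_act (H : IsHyp S δ) (g : G) (x : CayleyBoundary S) : Foll g x (act g x) := by
  have h := Foll.exists H g x
  rw [act, dif_pos h]
  exact h.choose_spec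

theorem act_eq (H : IsHyp S δ) {g : G} {x y : CayleyBoundary S} (h : Foll g x y) : act g x = y :=
  (foll_act H g x).unique H h

theorem act_one (H : IsHyp S δ) (x : CayleyBoundary S) : act 1 x = x := act_eq H (Foll.one x)

theorem act_mul (H : IsHyp S δ) (g h : G) (x : CayleyBoundary S) :
    act (g * h) x = act g (act h x) :=
  act_eq H ((foll_act H h x).mul H (foll_act H g (act h x)))

/-- the products between `ray (g x) n` and `g · ray x n` tend to infinity -/
theorem Foll.gp_ge (H : IsHyp S δ) {g : G} {x y : CayleyBoundary S} (h : Foll g x y) :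
    ∃ C : ℝ, ∀ n : ℕ, (n : ℝ) - C ≤ gp S (ray y n) (g * ray x n) := by
  obtain ⟨C, hC⟩ := h
  refine ⟨C + len S g, fun n => ?_⟩
  have h1 := hC n
  have h2 : (n : ℝ) - len S g ≤ len S (g * ray x n) := by
    have := len_mul_le H.gen g⁻¹ (g * ray x n)
    rw [inv_mul_cancel_left, len_ray H, len_inv H.gen] at this
    linarith
  have h3 := wordDist_nonneg (S := S) (ray y n) (g * ray x n)
  have h4 := len_nonneg (S := S) g
  rw [gp_def H.gen, len_ray H]
  linarith

theorem Foll.gp_tendsto (H : IsHyp S δ) {g : G} {x y : CayleyBoundary S} (h : Foll g x y) (R : ℝ) :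
    ∀ᶠ n : ℕ in atTop, R ≤ gp S (ray y n) (g * ray x n) := by
  obtain ⟨C, hC⟩ := h.gp_ge H
  obtain ⟨N, hN⟩ := exists_nat_gt (R + C)
  filter_upwards [eventually_ge_atTop N] with n hn
  have : (N : ℝ) ≤ n := by exact_mod_cast hn
  linarith [hC n]

/-- cocycle identity up to `δ` -/
theorem cocycle (H : IsHyp S δ) (x : CayleyBoundary S) (g k : G) :
    |zg (act k x) (k * g) - (zg x g - zg x k⁻¹ - gp S g k⁻¹ + len S k)| ≤ δ := by
  set y := act k x with hy
  have hF := foll_act H k x
  rw [← hy] at hF
  -- limit of `(k ray x n | k g)`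
  have h1 : Tendsto (fun n => gp S (k * ray x n) (k * g)) atTop
      (𝓝 (zg x g - zg x k⁻¹ - gp S g k⁻¹ + len S k)) := by
    have e : (fun n => gp S (k * ray x n) (k * g)) =
        fun n => gp S (ray x n) g - gp S (ray x n) k⁻¹ - gp S g k⁻¹ + len S k := by
      funext n; rw [gp_mul_mul H.gen]
    rw [e]
    exact (((tendsto_zg H x g).sub (tendsto_zg H x k⁻¹)).sub_const _).add_const _
  have h2 := tendsto_zg H y (k * g)
  have h3 := (h2.sub h1).abs
  refine le_of_tendsto h3 ?_
  filter_upwards [hF.gp_tendsto H (len S (k * g))] with n hn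
  have e1 := H.gp_four (ray y n) (k * ray x n) (k * g)
  have e2 := H.gp_four (k * ray x n) (ray y n) (k * g)
  rw [gp_comm H.gen (k * ray x n) (ray y n)] at e2
  have e3 := gp_le_right H.gen (k * ray x n) (k * g)
  have e4 := gp_le_right H.gen (ray y n) (k * g)
  rw [min_eq_right (by linarith)] at e1 e2
  rw [abs_le]
  constructor <;> linarith

/-- the action distorts the product of boundary points by at most `|g| + 2δ` -/
theorem zz_act_lt (H : IsHyp S δ) (g : G) {x y : CayleyBoundary S} {R : ℝ}
    (h : (R : EReal) < zz x y) : ((R - len S g - 2 * δ : ℝ) : EReal) < zz (act g x) (act g y) := by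
  rw [zz, lt_P_iff] at *
  obtain ⟨m, hm⟩ := h
  simp only [pth_inr] at hm ⊢
  have h1 := (foll_act H g x).gp_tendsto H (R + 1)
  have h2 := (foll_act H g y).gp_tendsto H (R + 1)
  obtain ⟨n, hn1, hn2, hn3⟩ := (h1.and (h2.and (eventually_ge_atTop m))).exists
  refine ⟨n, ?_⟩
  have e0 : gp S (ray x m) (ray y m) ≤ gp S (ray x n) (ray y n) :=
    gp_mono H.gen (ray_radial H.gen _) (ray_radial H.gen _) hn3 hn3
  have l := len_nonneg (S := S) g
  have e1 : R - len S g < gp S (g * ray x n) (g * ray y n) := by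
    rw [gp_mul_mul H.gen]
    have h3 := gp_le_right H.gen (ray x n) g⁻¹
    have h4 := gp_le_right H.gen (ray y n) g⁻¹
    rw [len_inv H.gen] at h3 h4
    linarith
  have e2 := H.gp_four (ray (act g x) n) (g * ray x n) (g * ray y n)
  have e3 := H.gp_four (ray (act g x) n) (g * ray y n) (ray (act g y) n)
  rw [gp_comm H.gen (g * ray y n) (ray (act g y) n)] at e3
  have e4 : R - len S g < min (gp S (ray (act g x) n) (g * ray x n))
      (gp S (g * ray x n) (g * ray y n)) := lt_min (by linarith) e1
  have e5 : R - len S g - δ < min (gp S (ray (act g x) n) (g * ray y n))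
      (gp S (ray (act g y) n) (g * ray y n)) := lt_min (by linarith) (by linarith [H.nonneg])
  linarith

theorem continuous_act (H : IsHyp S δ) (g : G) : Continuous (act g : CayleyBoundary S → _) := by
  rw [continuous_iff_continuousAt]
  intro x
  rw [ContinuousAt, tendsto_iff H]
  intro R
  have := ball_mem_nhds H x (R + len S g + 2 * δ)
  refine Filter.mem_of_superset this fun y hy => ?_
  have h := zz_act_lt H g hy
  have e : R + len S g + 2 * δ - len S g - 2 * δ = R := by ring
  rw [e] at h
  exact h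

/-- every group element points to a boundary point -/
theorem exists_star (H : IsHyp S δ) {p q : CayleyBoundary S} (hpq : p ≠ q) :
    ∃ C : ℝ, ∀ g : G, ∃ x : CayleyBoundary S, len S g - C ≤ zg x g := by
  obtain ⟨R, hR⟩ := exists_zz_le H hpq
  refine ⟨R + 2 * δ + 1, fun g => ?_⟩
  have h1 : zg p g⁻¹ ≤ R + δ + 1 ∨ zg q g⁻¹ ≤ R + δ + 1 := by
    by_contra hc
    rw [not_or, not_le, not_le] at hc
    have := four_zgz H p q g⁻¹ hc.1.le hc.2.le
    have h2 := this.trans hR
    have h3 : R + δ + 1 - δ ≤ R := by exact_mod_cast h2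
    linarith
  have key : ∀ x : CayleyBoundary S, zg x g⁻¹ ≤ R + δ + 1 → len S g - (R + 2 * δ + 1) ≤ zg (act g x) g := by
    intro x hx
    have h := cocycle H x 1 g
    rw [mul_one, gp_one_left H.gen] at h
    have h2 : zg x (1 : G) = 0 := by
      have a := zg_nonneg H x 1
      have b := zg_le_len H x 1
      rw [len_one] at b
      linarith
    rw [h2] at h
    have h3 := (abs_le.1 h).1
    linarith
  rcases h1 with h1 | h1
  · exact ⟨_, key p h1⟩
  · exact ⟨_, key q h1⟩

end Crest.Agent.R193.Hyp
end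

-- ▼ part R193/H_Metric
section

/-!
R193, hyperbolic toolkit: the visual metric.
-/

set_option autoImplicit false

namespace Crest.Agent.R193.H_Metric

open Crest.GroupTheory Filter Topology NNReal
open Crest.Agent.R193.Hyp

variable {G : Type} [Group G] {S : Set G} {δ ε : ℝ}

/-- copy of the boundary which will carry the visual metric -/
def Bd (S : Set G) : Type := CayleyBoundary S

/-- back to the boundary -/
def Bd.p (x : Bd S) : CayleyBoundary S := x

open Classical in
/-- the visual quasimetric `exp (-ε (x|y))` -/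
noncomputable def rho (ε : ℝ) (x y : Bd S) : ℝ≥0 :=
  if x = y then 0 else ⟨Real.exp (-ε * (zz x.p y.p).toReal), (Real.exp_pos _).le⟩

theorem rho_self (x : Bd S) : rho ε x x = 0 := by simp [rho]

theorem rho_comm (H : IsHyp S δ) (x y : Bd S) : rho ε x y = rho ε y x := by
  by_cases h : x = y
  · rw [h]
  · rw [rho, rho, if_neg h, if_neg (Ne.symm h)]
    simp only [zz_comm H x.p y.p]

theorem rho_ne {x y : Bd S} (h : x ≠ y) :
    ((rho ε x y : ℝ≥0) : ℝ) = Real.exp (-ε * (zz x.p y.p).toReal) := by
  rw [rho, if_neg h]; rfl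

theorem zz_coe (H : IsHyp S δ) {x y : Bd S} (h : x ≠ y) :
    (((zz x.p y.p).toReal : ℝ) : EReal) = zz x.p y.p := by
  obtain ⟨R, hR⟩ := exists_zz_le H (x := x.p) (y := y.p) h
  refine EReal.coe_toReal ?_ ?_
  · intro h1; rw [h1] at hR; exact absurd hR (by simp)
  · intro h1
    have := P_nonneg H (Sum.inr x.p) (Sum.inr y.p)
    rw [← zz, h1] at this
    exact absurd this (by simp)

theorem rho_eq_zero {x y : Bd S} (h : rho ε x y = 0) : x = y := by
  by_contra hc
  have h1 := rho_ne (ε := ε) hc
  rw [h] at h1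
  have := Real.exp_pos (-ε * (zz x.p y.p).toReal)
  rw [← h1] at this
  simp at this

theorem le_zz_iff (H : IsHyp S δ) (hε : 0 < ε) {x y : Bd S} {R : ℝ} :
    (R : EReal) ≤ zz x.p y.p ↔ ((rho ε x y : ℝ≥0) : ℝ) ≤ Real.exp (-ε * R) := by
  by_cases h : x = y
  · subst h
    rw [rho_self, zz_self H]
    simp [(Real.exp_pos _).le]
  · rw [rho_ne h]
    have hz := zz_coe H h
    generalize (zz x.p y.p).toReal = t at hz ⊢
    rw [← hz, EReal.coe_le_coe_iff, Real.exp_le_exp]
    constructor
    · intro h1; nlinarith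
    · intro h1
      have h2 : ε * R ≤ ε * t := by linarith
      exact le_of_mul_le_mul_left h2 hε

theorem rho_four (H : IsHyp S δ) (hε : 0 < ε) (hεδ : ε * (2 * δ) ≤ Real.log 2)
    (x₁ x₂ x₃ x₄ : Bd S) :
    rho ε x₁ x₄ ≤ 2 * max (rho ε x₁ x₂) (max (rho ε x₂ x₃) (rho ε x₃ x₄)) := by
  set M := max (rho ε x₁ x₂) (max (rho ε x₂ x₃) (rho ε x₃ x₄)) with hM
  have h12 : rho ε x₁ x₂ ≤ M := le_max_left _ _
  have h23 : rho ε x₂ x₃ ≤ M := (le_max_left _ _).trans (le_max_right _ _)
  have h34 : rho ε x₃ x₄ ≤ M := (le_max_right _ _).trans (le_max_right _ _)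
  rcases eq_or_ne M 0 with h0 | h0
  · rw [h0] at h12 h23 h34
    have e1 := rho_eq_zero (le_antisymm h12 bot_le)
    have e2 := rho_eq_zero (le_antisymm h23 bot_le)
    have e3 := rho_eq_zero (le_antisymm h34 bot_le)
    rw [e1, e2, e3, rho_self]
    exact bot_le
  · have hpos : 0 < (M : ℝ) := by
      have : 0 < M := bot_lt_iff_ne_bot.2 h0
      exact_mod_cast this
    set R : ℝ := -Real.log M / ε with hR
    have hexp : Real.exp (-ε * R) = M := by
      rw [hR]
      have : -ε * (-Real.log M / ε) = Real.log M := by field_simp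
      rw [this, Real.exp_log hpos]
    have l12 : (R : EReal) ≤ zz x₁.p x₂.p := by
      rw [le_zz_iff H hε, hexp]; exact_mod_cast h12
    have l23 : (R : EReal) ≤ zz x₂.p x₃.p := by
      rw [le_zz_iff H hε, hexp]; exact_mod_cast h23
    have l34 : (R : EReal) ≤ zz x₃.p x₄.p := by
      rw [le_zz_iff H hε, hexp]; exact_mod_cast h34
    have l13 := four_zzz H _ _ _ l12 l23
    have l34' : ((R - δ : ℝ) : EReal) ≤ zz x₃.p x₄.p := by
      refine le_trans ?_ l34
      exact_mod_cast (by linarith [H.nonneg] : R - δ ≤ R)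
    have l14 := four_zzz H _ _ _ l13 l34'
    rw [le_zz_iff H hε] at l14
    have e : -ε * (R - δ - δ) = -ε * R + ε * (2 * δ) := by ring
    rw [e, Real.exp_add, hexp] at l14
    have h2 : Real.exp (ε * (2 * δ)) ≤ 2 := by
      calc Real.exp (ε * (2 * δ)) ≤ Real.exp (Real.log 2) := Real.exp_le_exp.2 hεδ
        _ = 2 := Real.exp_log (by norm_num)
    have h3 : ((rho ε x₁ x₄ : ℝ≥0) : ℝ) ≤ 2 * M := by
      calc ((rho ε x₁ x₄ : ℝ≥0) : ℝ) ≤ M * Real.exp (ε * (2 * δ)) := l14
        _ ≤ M * 2 := by gcongr
        _ = 2 * M := by ring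
    exact_mod_cast h3

/-- the visual metric -/
@[reducible] noncomputable def visual (H : IsHyp S δ) (hε : 0 < ε) (hεδ : ε * (2 * δ) ≤ Real.log 2) :
    MetricSpace (Bd S) :=
  letI : PseudoMetricSpace (Bd S) := PseudoMetricSpace.ofPreNNDist (rho ε) rho_self (rho_comm H)
  { (inferInstance : PseudoMetricSpace (Bd S)) with
    eq_of_dist_eq_zero := by
      intro x y h
      have h1 := PseudoMetricSpace.le_two_mul_dist_ofPreNNDist (rho ε) rho_self (rho_comm H)
        (rho_four H hε hεδ) x y
      have h2 : ((rho ε x y : ℝ≥0) : ℝ) ≤ 2 * dist x y := h1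
      rw [h] at h2
      have h3 : ((rho ε x y : ℝ≥0) : ℝ) = 0 := le_antisymm (by linarith) (NNReal.coe_nonneg _)
      exact rho_eq_zero (by exact_mod_cast h3) }

theorem visual_dist_le (H : IsHyp S δ) (hε : 0 < ε) (hεδ : ε * (2 * δ) ≤ Real.log 2) (x y : Bd S) :
    @dist _ (visual H hε hεδ).toDist x y ≤ rho ε x y :=
  PseudoMetricSpace.dist_ofPreNNDist_le (rho ε) rho_self (rho_comm H) x y

theorem visual_le_two_dist (H : IsHyp S δ) (hε : 0 < ε) (hεδ : ε * (2 * δ) ≤ Real.log 2)
    (x y : Bd S) : (rho ε x y : ℝ) ≤ 2 * @dist _ (visual H hε hεδ).toDist x y :=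
  PseudoMetricSpace.le_two_mul_dist_ofPreNNDist (rho ε) rho_self (rho_comm H)
    (rho_four H hε hεδ) x y

/-- the visual metric induces the topology of the boundary -/
noncomputable def visualHomeo (H : IsHyp S δ) (hε : 0 < ε) (hεδ : ε * (2 * δ) ≤ Real.log 2) :
    letI := visual H hε hεδ
    CayleyBoundary S ≃ₜ Bd S :=
  letI := visual H hε hεδ
  { toFun := fun x => x
    invFun := fun x => x.p
    left_inv := fun _ => rfl
    right_inv := fun _ => rfl
    continuous_toFun := by
      rw [continuous_iff_continuousAt]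
      intro x
      rw [Metric.continuousAt_iff']
      intro r hr
      have h1 := ball_mem_nhds H x (-Real.log (r / 2) / ε)
      refine Filter.mem_of_superset h1 fun y hy => ?_
      have h2 := (le_zz_iff H hε (x := (x : Bd S)) (y := (y : Bd S))).1 (le_of_lt hy)
      have h3 : -ε * (-Real.log (r / 2) / ε) = Real.log (r / 2) := by field_simp
      rw [h3, Real.exp_log (by linarith)] at h2
      have h4 := visual_dist_le H hε hεδ (x : Bd S) (y : Bd S)
      show @dist (Bd S) _ y x < r
      rw [dist_comm]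
      exact lt_of_le_of_lt (h4.trans h2) (by linarith)
    continuous_invFun := by
      rw [continuous_iff_continuousAt]
      intro x
      rw [ContinuousAt, tendsto_iff H]
      intro R
      have hr : 0 < Real.exp (-ε * (R + 1)) / 2 := by positivity
      refine Filter.mem_of_superset (Metric.ball_mem_nhds x hr) fun y hy => ?_
      rw [Metric.mem_ball, dist_comm] at hy
      have h1 := visual_le_two_dist H hε hεδ x y
      have h2 : ((rho ε x y : ℝ≥0) : ℝ) ≤ Real.exp (-ε * (R + 1)) := by linarith
      have h3 := (le_zz_iff H hε).2 h2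
      refine lt_of_lt_of_le ?_ h3
      exact_mod_cast (by linarith : R < R + 1) }

end Crest.Agent.R193.H_Metric
end

-- ▼ part R193/H_Main
section

/-!
R193, block H: the boundary of a hyperbolic group gives a `Setup`.
-/

set_option autoImplicit false

noncomputable section

open Set Filter Topology NNReal
open Crest.GroupTheory
open Crest.Agent.R193.Hyp Crest.Agent.R193.H_Metric

namespace Crest.Agent.R193.H_Main

open Crest.Agent.R193

/-! ### growth -/

open Classical Pointwise in
theorem prod_mem_pow {G : Type} [Group G] (T : Finset G) (l : List G) (h : ∀ x ∈ l, x ∈ T) :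
    l.prod ∈ T ^ l.length := by
  induction l with
  | nil => simp
  | cons a l ih =>
    rw [List.prod_cons, List.length_cons, pow_succ']
    exact Finset.mul_mem_mul (h a (by simp)) (ih fun x hx => h x (by simp [hx]))

open Classical Pointwise in
theorem growth {G : Type} [Group G] {S : Set G} (hS : Subgroup.closure S = ⊤) (hf : S.Finite) :
    ∃ v : ℝ, 0 < v ∧ ∀ n : ℕ, ({g : G | wordLength S g ≤ n}.ncard : ℝ) ≤ Real.exp (v * n) := by
  set T : Finset G := hf.toFinset ∪ hf.toFinset⁻¹ ∪ {1} with hT
  have h1T : (1 : G) ∈ T := by simp [hT]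
  refine ⟨Real.log (T.card + 1), Real.log_pos ?_, fun n => ?_⟩
  · have : 0 < T.card := Finset.card_pos.2 ⟨1, h1T⟩
    have : (0 : ℝ) < T.card := by exact_mod_cast this
    linarith
  · have hsub : {g : G | wordLength S g ≤ n} ⊆ ((T ^ n : Finset G) : Set G) := by
      intro g hg
      obtain ⟨l, hl1, hl2, hl3⟩ := exists_geodesic_word hS g
      have hl : l.prod ∈ T ^ l.length := by
        refine prod_mem_pow T l fun x hx => ?_
        rcases hl2 x hx with h | h
        · simp [hT, h]
        · simp [hT, h]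
      rw [hl3] at hl
      have hle : l.length ≤ n := by rw [hl1]; exact hg
      exact Finset.mem_coe.2 (Finset.pow_subset_pow_right h1T hle hl)
    have h1 : {g : G | wordLength S g ≤ n}.ncard ≤ T.card ^ n := by
      calc {g : G | wordLength S g ≤ n}.ncard ≤ ((T ^ n : Finset G) : Set G).ncard :=
            Set.ncard_le_ncard hsub (Finset.finite_toSet _)
        _ = (T ^ n : Finset G).card := Set.ncard_coe_finset _
        _ ≤ T.card ^ n := Finset.card_pow_le
    calc ({g : G | wordLength S g ≤ n}.ncard : ℝ) ≤ ((T.card ^ n : ℕ) : ℝ) := by exact_mod_cast h1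
      _ = (T.card : ℝ) ^ n := by push_cast; ring
      _ ≤ ((T.card : ℝ) + 1) ^ n := by gcongr; linarith
      _ = Real.exp (Real.log (T.card + 1) * n) := by
        rw [mul_comm, Real.exp_nat_mul, Real.exp_log (by positivity)]

theorem gpOf_eq {G : Type} [Group G] {S : Set G} (hS : Subgroup.closure S = ⊤) (g h : G) :
    gpOf (wordLength S) g h = gp S g h := by
  rw [gp_def hS]; rfl

theorem exists_ne_S2 : ∃ p q : S2, p ≠ q := by
  refine ⟨⟨EuclideanSpace.single 0 1, by simp⟩, ⟨EuclideanSpace.single 1 1, by simp⟩, ?_⟩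
  intro h
  have h1 := congrArg (fun p : S2 => (p : EuclideanSpace ℝ (Fin 3)) 0) h
  simp at h1

/-- the action on the copy of the boundary -/
@[reducible] def bdAct {G : Type} [Group G] {S : Set G} {δ : ℝ} (H : IsHyp S δ) :
    MulAction G (Bd S) where
  smul g x := act g x.p
  one_smul x := act_one H x.p
  mul_smul g h x := act_mul H g h x.p

/-- BLOCK H: hyperbolic toolkit. -/
theorem H_main (G : Type) [Group G] (S : Finset G) (hS : Subgroup.closure (S : Set G) = ⊤)
    (hδ : ∃ δ : ℝ, 0 ≤ δ ∧ ∀ w x y z : G,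
      min (gromovProduct (S : Set G) w x y) (gromovProduct (S : Set G) w y z) - δ ≤
        gromovProduct (S : Set G) w x z)
    (hB : Nonempty (CayleyBoundary (S : Set G) ≃ₜ Metric.sphere (0 : EuclideanSpace ℝ (Fin 3)) 1)) :
    ∃ (Z : Type) (_ : MetricSpace Z) (_ : MulAction G Z) (_ : Setup G Z), Nonempty (Z ≃ₜ S2) := by
  obtain ⟨δ₀, h0, h4⟩ := hδ
  obtain ⟨Φ⟩ := hB
  have H : IsHyp (S : Set G) δ₀ := ⟨hS, S.finite_toSet, h0, h4⟩
  set ε : ℝ := Real.log 2 / (2 * (δ₀ + 1)) with hεdef
  have hl2 : 0 < Real.log 2 := Real.log_pos (by norm_num)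
  have hε : 0 < ε := by positivity
  have hεδ : ε * (2 * δ₀) ≤ Real.log 2 := by
    rw [hεdef, div_mul_eq_mul_div, div_le_iff₀ (by positivity)]
    nlinarith
  have hl2ε : Real.log 2 / ε = 2 * (δ₀ + 1) := by
    rw [hεdef]; field_simp
  obtain ⟨p, q, hpq⟩ := exists_ne_S2
  have hpq' : Φ.symm p ≠ Φ.symm q := fun h => hpq (Φ.symm.injective h)
  obtain ⟨C, hC⟩ := exists_star H hpq'
  obtain ⟨v, hv, hcard⟩ := growth hS S.finite_toSet
  have hδ1 : (1 : ℝ) ≤ 4 + 4 * δ₀ + |C| := by linarith [abs_nonneg C]
  letI iM : MetricSpace (Bd (S : Set G)) := visual H hε hεδ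
  letI iA : MulAction G (Bd (S : Set G)) := bdAct H
  have hsm : ∀ (g : G) (x : Bd (S : Set G)), (g • x).p = act g x.p := fun g x => rfl
  let Ψ : CayleyBoundary (S : Set G) ≃ₜ Bd (S : Set G) := visualHomeo H hε hεδ
  refine ⟨Bd (S : Set G), iM, iA,
    { len := wordLength (S : Set G)
      len_one := wordLength_one
      len_inv := wordLength_inv hS
      len_mul := wordLength_mul_le hS
      finite_ball := finite_ball hS S.finite_toSet
      v := v
      v_pos := hv
      card_ball := hcard
      geod := fun g k hk => exists_between hS g hk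
      δ := 4 + 4 * δ₀ + |C|
      one_le_δ := hδ1
      hyp := ?_
      s := fun x g => zg x.p g
      s_nonneg := fun x g => zg_nonneg H _ _
      s_le := fun x g => zg_le_len H _ _
      hyp_s1 := ?_
      hyp_s2 := ?_
      cocycle := ?_
      ε := ε
      ε_pos := hε
      dist_le := ?_
      le_s := ?_
      ray := ?_
      star := ?_
      cont := ?_ }, ?_⟩
  · intro g h k
    rw [gpOf_eq hS, gpOf_eq hS, gpOf_eq hS]
    have := H.gp_four g h k
    linarith [abs_nonneg C]
  · intro x g h
    rw [gpOf_eq hS]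
    have := four_zgg H x.p g h
    linarith [abs_nonneg C]
  · intro x g h
    rw [gpOf_eq hS]
    have := four_gzg H x.p g h
    linarith [abs_nonneg C]
  · intro x g k
    rw [gpOf_eq hS, hsm]
    have := Crest.Agent.R193.Hyp.cocycle H x.p g k
    exact this.trans (by linarith [abs_nonneg C])
  · intro x y g
    refine (visual_dist_le H hε hεδ x y).trans ?_
    have h1 := four_zgz H x.p y.p g (R := min (zg x.p g) (zg y.p g)) (min_le_left _ _)
      (min_le_right _ _)
    have h2 := (le_zz_iff H hε (x := x) (y := y)).1 h1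
    refine h2.trans (Real.exp_le_exp.2 ?_)
    have : 0 ≤ ε * (4 + 3 * δ₀ + |C|) := by positivity
    nlinarith
  · intro x y g hxy
    have hd : 0 < dist x y := dist_pos.2 hxy
    set R : ℝ := -Real.log (dist x y) / ε with hR
    have h1 := visual_le_two_dist H hε hεδ x y
    have h2 : Real.exp (-ε * (R - Real.log 2 / ε)) = 2 * dist x y := by
      have : -ε * (R - Real.log 2 / ε) = Real.log 2 + Real.log (dist x y) := by
        rw [hR]; field_simp; ring
      rw [this, Real.exp_add, Real.exp_log (by norm_num), Real.exp_log hd]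
    have h3 : ((R - Real.log 2 / ε : ℝ) : EReal) ≤ zz x.p y.p := by
      rw [le_zz_iff H hε, h2]; exact h1
    have h4 := four_zzg H y.p x.p g (R := min (zg x.p g) R - Real.log 2 / ε) ?_ ?_
    · rw [hl2ε] at h4
      linarith [abs_nonneg C]
    · rw [zz_comm H]
      refine le_trans ?_ h3
      have := min_le_right (zg x.p g) R
      exact_mod_cast (by linarith : min (zg x.p g) R - Real.log 2 / ε ≤ R - Real.log 2 / ε)
    · have := min_le_left (zg x.p g) R
      have : 0 < Real.log 2 / ε := by positivity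
      linarith
  · intro x n
    refine ⟨ray x.p n, wordLength_ray H _ n, ?_⟩
    rw [zg_ray H]
    linarith [abs_nonneg C]
  · intro g
    obtain ⟨x, hx⟩ := hC g
    refine ⟨x, ?_⟩
    have h1 : len (S : Set G) g - C ≤ zg x g := hx
    have h2 : ((wordLength (S : Set G) g : ℝ)) = len (S : Set G) g := rfl
    rw [h2]
    have := le_abs_self C
    show len (S : Set G) g - (4 + 4 * δ₀ + |C|) ≤ zg x g
    linarith
  · intro g
    have h1 : Continuous (fun x : Bd (S : Set G) => Ψ (act g (Ψ.symm x))) :=
      Ψ.continuous.comp ((continuous_act H g).comp Ψ.symm.continuous)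
    exact h1
  · exact ⟨Ψ.symm.trans Φ⟩

end Crest.Agent.R193.H_Main
end
end

-- ▼ part R193/D8_Mob
section

/-!
# R193, block D8 (c): holomorphic homeomorphisms of the Riemann sphere are Moebius maps

Author: helper997.
-/

set_option autoImplicit false

open Complex Filter Topology Set Metric Bornology OnePoint

namespace Crest.Agent.R193.D8

/-- An entire function with at most linear growth is affine. -/
lemma affine_of_linear_growth {H : ℂ → ℂ} (hH : Differentiable ℂ H) (z0 : ℂ) (C : ℝ)
    (hC : ∀ z, ‖H z‖ ≤ C * (1 + ‖z - z0‖)) : ∃ b : ℂ, ∀ z, H z = H z0 + b * (z - z0) := by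
  have hC0 : 0 ≤ C := by
    have := hC z0
    simp at this
    exact (norm_nonneg _).trans this
  have hK : Differentiable ℂ (dslope H z0) := by
    rw [← differentiableOn_univ, differentiableOn_dslope (univ_mem : univ ∈ 𝓝 z0)]
    exact hH.differentiableOn
  obtain ⟨M, hM⟩ := (isCompact_closedBall z0 1).exists_bound_of_continuousOn
    (hK.continuous.continuousOn)
  have hb : IsBounded (range (dslope H z0)) := by
    rw [isBounded_iff_forall_norm_le]
    refine ⟨max M (2 * C + ‖H z0‖), ?_⟩
    rintro _ ⟨z, rfl⟩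
    by_cases hz : z ∈ closedBall z0 1
    · exact (hM z hz).trans (le_max_left _ _)
    · refine le_trans ?_ (le_max_right _ _)
      rw [mem_closedBall, dist_eq_norm, not_le] at hz
      have hne : z ≠ z0 := by
        rintro rfl
        simp at hz
        linarith
      rw [dslope_of_ne _ hne, slope_def_field, norm_div, div_le_iff₀ (by linarith)]
      calc ‖H z - H z0‖ ≤ ‖H z‖ + ‖H z0‖ := norm_sub_le _ _
        _ ≤ C * (1 + ‖z - z0‖) + ‖H z0‖ := by linarith [hC z]
        _ ≤ (2 * C + ‖H z0‖) * ‖z - z0‖ := by nlinarith [norm_nonneg (H z0)]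
  refine ⟨dslope H z0 z0, fun z => ?_⟩
  have h1 := hK.apply_eq_apply_of_bounded hb z z0
  have h2 := sub_smul_dslope H z0 z
  rw [h1, smul_eq_mul] at h2
  linear_combination -h2

/-- An injective entire function tending to infinity is affine. -/
lemma affine_of_injective {f : ℂ → ℂ} (hf : Differentiable ℂ f) (hinj : Function.Injective f)
    (hinf : Tendsto f (cocompact ℂ) (cocompact ℂ)) : ∃ a b : ℂ, a ≠ 0 ∧ ∀ z, f z = a * z + b := by
  obtain ⟨z0, hz0⟩ : ∃ z0, deriv f z0 ≠ 0 := by
    by_contra hcon
    push Not at hcon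
    have := is_const_of_deriv_eq_zero hf hcon 0 1
    exact zero_ne_one (hinj this)
  have hg : Differentiable ℂ (dslope f z0) := by
    rw [← differentiableOn_univ, differentiableOn_dslope (univ_mem : univ ∈ 𝓝 z0)]
    exact hf.differentiableOn
  have hg0 : ∀ z, dslope f z0 z ≠ 0 := by
    intro z
    by_cases hz : z = z0
    · rw [hz, dslope_same]
      exact hz0
    · rw [dslope_of_ne _ hz, slope_def_field]
      exact div_ne_zero (sub_ne_zero.mpr (fun h => hz (hinj h))) (sub_ne_zero.mpr hz)
  set H : ℂ → ℂ := fun z => (dslope f z0 z)⁻¹ with hHdef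
  have hH : Differentiable ℂ H := fun z => (hg z).inv (hg0 z)
  -- growth
  have h1 : ∀ᶠ z in cocompact ℂ, 1 ≤ ‖f z - f z0‖ := by
    have h2 : ∀ᶠ w in cocompact ℂ, 1 ≤ ‖w - f z0‖ := by
      have h3 : Tendsto (fun w : ℂ => ‖w - f z0‖) (cocompact ℂ) atTop := by
        have h4 : Tendsto (fun w : ℂ => w - f z0) (cocompact ℂ) (cocompact ℂ) := by
          have := (Homeomorph.subRight (f z0)).isClosedEmbedding.tendsto_cocompact
          exact this
        exact (tendsto_norm_cocompact_atTop (E := ℂ)).comp h4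
      exact h3.eventually (eventually_ge_atTop 1)
    exact hinf.eventually h2
  rw [← cobounded_eq_cocompact] at h1
  obtain ⟨R, -, hR⟩ := (Metric.hasBasis_cobounded_compl_closedBall (0 : ℂ)).eventually_iff.mp h1
  obtain ⟨M, hM⟩ := (isCompact_closedBall (0 : ℂ) (max R 0)).exists_bound_of_continuousOn
    (hH.continuous.continuousOn)
  have hgrow : ∀ z, ‖H z‖ ≤ max M 1 * (1 + ‖z - z0‖) := by
    intro z
    have hn : 0 ≤ ‖z - z0‖ := norm_nonneg _
    by_cases hz : z ∈ closedBall (0 : ℂ) (max R 0)
    · have h5 := hM z hz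
      have h6 := le_max_left M 1
      have h7 := le_max_right M 1
      nlinarith
    · rw [mem_closedBall, dist_zero_right, not_le] at hz
      have hzR : R < ‖z‖ := lt_of_le_of_lt (le_max_left _ _) hz
      have h5 : 1 ≤ ‖f z - f z0‖ := hR (by
        simp only [mem_compl_iff, mem_closedBall, dist_zero_right, not_le]
        exact hzR)
      have hne : z ≠ z0 := by
        rintro rfl
        simp at h5
        linarith
      have h6 : ‖H z‖ ≤ ‖z - z0‖ := by
        rw [hHdef]
        simp only
        rw [dslope_of_ne _ hne, slope_def_field, inv_div, norm_div, div_le_iff₀ (by linarith)]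
        nlinarith
      have h7 := le_max_right M 1
      nlinarith
  obtain ⟨b, hb⟩ := affine_of_linear_growth hH z0 _ hgrow
  have hb0 : b = 0 := by
    by_contra hb0
    have h2 := hb (z0 - H z0 / b)
    have h3 : H (z0 - H z0 / b) = 0 := by
      rw [h2]
      field_simp
      ring
    exact (inv_ne_zero (hg0 _)) h3
  have hconst : ∀ z, dslope f z0 z = dslope f z0 z0 := by
    intro z
    have h2 := hb z
    rw [hb0, zero_mul, add_zero] at h2
    exact inv_injective h2
  refine ⟨deriv f z0, f z0 - deriv f z0 * z0, hz0, fun z => ?_⟩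
  have h2 := sub_smul_dslope f z0 z
  rw [hconst, dslope_same, smul_eq_mul] at h2
  linear_combination -h2

/-- The two normal forms of a Moebius transformation of the Riemann sphere. -/
inductive MobForm (h : OnePoint ℂ → OnePoint ℂ) : Prop
  | aff (a b : ℂ) (ha : a ≠ 0) (h1 : h ∞ = ∞) (h2 : ∀ z : ℂ, h z = ((a * z + b : ℂ) : OnePoint ℂ))
  | inv (a b q : ℂ) (ha : a ≠ 0) (h1 : h ∞ = (q : OnePoint ℂ))
      (h2 : ∀ z : ℂ, a * z + b ≠ 0 → h z = ((q + (a * z + b)⁻¹ : ℂ) : OnePoint ℂ))
      (h3 : ∀ z : ℂ, a * z + b = 0 → h z = ∞)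

lemma cocompact_eq : coclosedCompact ℂ = cocompact ℂ := coclosedCompact_eq_cocompact

/-- A homeomorphism of the Riemann sphere which is holomorphic in the affine chart, off the
preimage of infinity, is a Moebius transformation. -/
theorem mob_of_holo (h : OnePoint ℂ ≃ₜ OnePoint ℂ) (f : ℂ → ℂ)
    (hf : ∀ z : ℂ, h z ≠ ∞ → h z = (f z : OnePoint ℂ))
    (hd : DifferentiableOn ℂ f {z : ℂ | h z ≠ ∞}) : MobForm h := by
  by_cases hinf : h ∞ = ∞
  · -- affine case
    have hne : ∀ z : ℂ, h z ≠ ∞ := by
      intro z hz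
      have : ((z : OnePoint ℂ)) = ∞ := h.injective (hz.trans hinf.symm)
      exact coe_ne_infty z this
    have hU : {z : ℂ | h z ≠ ∞} = univ := by
      ext z
      simp [hne z]
    rw [hU, differentiableOn_univ] at hd
    have hinj : Function.Injective f := by
      intro z w hzw
      have : h z = h w := by rw [hf z (hne z), hf w (hne w), hzw]
      exact coe_injective (h.injective this)
    have ht : Tendsto f (cocompact ℂ) (cocompact ℂ) := by
      have h1 : Tendsto (fun z : ℂ => h (z : OnePoint ℂ)) (coclosedCompact ℂ) (𝓝 (h ∞)) :=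
        (h.continuous.tendsto ∞).comp tendsto_coe_infty
      rw [hinf] at h1
      have h2 : Tendsto (fun z : ℂ => ((f z : ℂ) : OnePoint ℂ)) (coclosedCompact ℂ) (𝓝 ∞) :=
        h1.congr (fun z => hf z (hne z))
      rw [← cocompact_eq]
      conv_rhs => rw [← comap_coe_nhds_infty]
      exact tendsto_comap_iff.mpr h2
    obtain ⟨a, b, ha, hab⟩ := affine_of_injective hd hinj ht
    exact MobForm.aff a b ha hinf (fun z => by rw [hf z (hne z), hab z])
  · obtain ⟨q, hq⟩ := ne_infty_iff_exists.mp hinf
    have hp' : h.symm ∞ ≠ ∞ := by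
      intro hcon
      apply hinf
      rw [← hcon, h.apply_symm_apply]
      exact hcon.symm ▸ rfl
    obtain ⟨p, hp⟩ := ne_infty_iff_exists.mp hp'
    have hhp : h (p : OnePoint ℂ) = ∞ := by rw [hp, h.apply_symm_apply]
    have hne : ∀ z : ℂ, z ≠ p → h z ≠ ∞ := by
      intro z hz hcon
      exact hz (coe_injective (h.injective (hcon.trans hhp.symm)))
    have hU : {z : ℂ | h z ≠ ∞} = {p}ᶜ := by
      ext z
      simp only [mem_ofPred_eq, mem_compl_iff, mem_singleton_iff]
      exact ⟨fun h1 h2 => h1 (by rw [h2, hhp]), fun h1 => hne z h1⟩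
    rw [hU] at hd
    have hfq : ∀ z : ℂ, z ≠ p → f z ≠ q := by
      intro z hz hcon
      have h1 : h z = h ∞ := by rw [hf z (hne z hz), hcon, hq]
      exact coe_ne_infty z (h.injective h1)
    have hcp : IsClosed ({p} : Set ℂ) := isClosed_singleton
    have hpop : IsOpen ({p}ᶜ : Set ℂ) := hcp.isOpen_compl
    set k : ℂ → ℂ := fun z => if z = p then 0 else (f z - q)⁻¹ with hk
    have hkp : k p = 0 := by simp [hk]
    have hkne : ∀ z, z ≠ p → k z = (f z - q)⁻¹ := fun z hz => by simp [hk, hz]
    -- differentiable off p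
    have hkd : DifferentiableOn ℂ k {p}ᶜ := by
      have : DifferentiableOn ℂ (fun z => (f z - q)⁻¹) {p}ᶜ :=
        (hd.sub_const q).inv (fun z hz => sub_ne_zero.mpr (hfq z hz))
      exact this.congr (fun z hz => hkne z hz)
    -- continuity at p
    have hfp : Tendsto f (𝓝[≠] p) (cocompact ℂ) := by
      have h1 : Tendsto (fun z : ℂ => h (z : OnePoint ℂ)) (𝓝[≠] p) (𝓝 ∞) := by
        have h2 : Tendsto (fun z : ℂ => h (z : OnePoint ℂ)) (𝓝 p) (𝓝 (h p)) :=
          (h.continuous.comp continuous_coe).tendsto p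
        rw [hhp] at h2
        exact h2.mono_left nhdsWithin_le_nhds
      have h3 : Tendsto (fun z : ℂ => ((f z : ℂ) : OnePoint ℂ)) (𝓝[≠] p) (𝓝 ∞) := by
        refine h1.congr' ?_
        filter_upwards [self_mem_nhdsWithin] with z hz using hf z (hne z hz)
      rw [← cocompact_eq, ← comap_coe_nhds_infty]
      exact tendsto_comap_iff.mpr h3
    have hsub : Tendsto (fun w : ℂ => w - q) (cocompact ℂ) (cocompact ℂ) :=
      (Homeomorph.subRight q).isClosedEmbedding.tendsto_cocompact
    have hkc : ContinuousAt k p := by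
      rw [continuousAt_iff_punctured_nhds, hkp]
      have h1 : Tendsto (fun z => (f z - q)⁻¹) (𝓝[≠] p) (𝓝 0) := by
        have h2 := hsub.comp hfp
        rw [← cobounded_eq_cocompact] at h2
        exact tendsto_inv₀_cobounded.comp h2
      refine h1.congr' ?_
      filter_upwards [self_mem_nhdsWithin] with z hz using (hkne z hz).symm
    have hkdiff : Differentiable ℂ k := by
      rw [← differentiableOn_univ, ← differentiableOn_compl_singleton_and_continuousAt_iff
        (univ_mem : univ ∈ 𝓝 p)]
      refine ⟨?_, hkc⟩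
      rw [← compl_eq_univ_sdiff]
      exact hkd
    have hkinj : Function.Injective k := by
      intro z w hzw
      by_cases hz : z = p
      · by_cases hw : w = p
        · rw [hz, hw]
        · rw [hz, hkp, hkne w hw] at hzw
          exact absurd hzw.symm (inv_ne_zero (sub_ne_zero.mpr (hfq w hw)))
      · by_cases hw : w = p
        · rw [hw, hkp, hkne z hz] at hzw
          exact absurd hzw (inv_ne_zero (sub_ne_zero.mpr (hfq z hz)))
        · rw [hkne z hz, hkne w hw] at hzw
          have h1 : f z = f w := by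
            have := inv_injective hzw
            exact sub_left_injective this
          have h2 : h z = h w := by rw [hf z (hne z hz), hf w (hne w hw), h1]
          exact coe_injective (h.injective h2)
    have hkinf : Tendsto k (cocompact ℂ) (cocompact ℂ) := by
      have h1 : Tendsto (fun z : ℂ => h (z : OnePoint ℂ)) (cocompact ℂ) (𝓝 (h ∞)) := by
        rw [← cocompact_eq]
        exact (h.continuous.tendsto ∞).comp tendsto_coe_infty
      rw [← hq] at h1
      have hnep : ∀ᶠ z in cocompact ℂ, z ≠ p := by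
        have : ({p}ᶜ : Set ℂ) ∈ cocompact ℂ := (isCompact_singleton).compl_mem_cocompact
        filter_upwards [this] with z hz using hz
      have h2 : Tendsto (fun z : ℂ => ((f z : ℂ) : OnePoint ℂ)) (cocompact ℂ) (𝓝 (q : OnePoint ℂ)) := by
        refine h1.congr' ?_
        filter_upwards [hnep] with z hz using hf z (hne z hz)
      have h3 : Tendsto f (cocompact ℂ) (𝓝 q) := by
        rw [← comap_coe_nhds]
        exact tendsto_comap_iff.mpr h2
      have h4 : Tendsto (fun z => f z - q) (cocompact ℂ) (𝓝[≠] 0) := by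
        rw [tendsto_nhdsWithin_iff]
        refine ⟨?_, ?_⟩
        · have := h3.sub_const q
          rwa [sub_self] at this
        · filter_upwards [hnep] with z hz using sub_ne_zero.mpr (hfq z hz)
      have h5 : Tendsto (fun z => (f z - q)⁻¹) (cocompact ℂ) (cocompact ℂ) := by
        rw [← cobounded_eq_cocompact]
        rw [← cobounded_eq_cocompact] at h4
        exact tendsto_inv₀_nhdsNE_zero.comp h4
      refine h5.congr' ?_
      filter_upwards [hnep] with z hz using (hkne z hz).symm
    obtain ⟨a, b, ha, hab⟩ := affine_of_injective hkdiff hkinj hkinf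
    have hz0 : ∀ z, a * z + b = 0 ↔ z = p := by
      intro z
      rw [← hab z]
      constructor
      · intro h1
        exact hkinj (h1.trans hkp.symm)
      · rintro rfl
        exact hkp
    refine MobForm.inv a b q ha hq.symm (fun z hz => ?_) (fun z hz => ?_)
    · have hzp : z ≠ p := fun h1 => hz ((hz0 z).mpr h1)
      rw [hf z (hne z hzp)]
      congr 1
      have h1 := hkne z hzp
      rw [hab z] at h1
      rw [h1, inv_inv]
      ring
    · rw [(hz0 z).mp hz, hhp]

end Crest.Agent.R193.D8
end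

-- ▼ part R193/D8_Conf
section

/-!
# R193, block D8 (a), (b): Weyl's lemma on `ℂ`, conformal harmonic maps

Author: helper997.
-/

set_option autoImplicit false

open Complex Filter Topology Set Metric Bornology InnerProductSpace MeasureTheory
open scoped Laplacian ContDiff ComplexConjugate

namespace Crest.Agent.R193.D8

lemma laplacian_comp_isometry {E F : Type*} [NormedAddCommGroup E] [InnerProductSpace ℝ E]
    [FiniteDimensional ℝ E] [NormedAddCommGroup F] [InnerProductSpace ℝ F]
    [FiniteDimensional ℝ F] (e : E ≃ₗᵢ[ℝ] F) (f : F → ℝ) (x : E) :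
    (Δ (f ∘ e)) x = (Δ f) (e x) := by
  set b := stdOrthonormalBasis ℝ E with hb
  rw [laplacian_eq_iteratedFDeriv_orthonormalBasis _ b,
    laplacian_eq_iteratedFDeriv_orthonormalBasis _ (b.map e)]
  simp only
  refine Finset.sum_congr rfl fun i _ => ?_
  have h1 := e.toContinuousLinearEquiv.iteratedFDerivWithin_comp_right f uniqueDiffOn_univ
    (x := x) (mem_univ _) 2
  simp only [preimage_univ, iteratedFDerivWithin_univ] at h1
  have h2 : f ∘ e = f ∘ (e.toContinuousLinearEquiv : E → F) := rfl
  rw [h2, h1]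
  simp only [ContinuousMultilinearMap.compContinuousLinearMap_apply, OrthonormalBasis.map_apply]
  congr 1
  ext j
  fin_cases j <;> rfl

/-- Weyl's lemma in the complex plane. -/
theorem weylC {U : Set ℂ} (hU : IsOpen U) {φ : ℂ → ℝ} (hφ : ContinuousOn φ U)
    (h : ∀ ψ : ℂ → ℝ, ContDiff ℝ ∞ ψ → HasCompactSupport ψ → tsupport ψ ⊆ U →
      ∫ z, φ z * (Δ ψ) z = 0) : HarmonicOnNhd φ U := by
  set e : ℂ ≃ₗᵢ[ℝ] EuclideanSpace ℝ (Fin 2) := Complex.orthonormalBasisOneI.repr with he
  set V : Set (EuclideanSpace ℝ (Fin 2)) := e.symm ⁻¹' U with hV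
  have hVo : IsOpen V := hU.preimage e.symm.continuous
  have hΦ : ContinuousOn (φ ∘ e.symm) V :=
    hφ.comp e.symm.continuous.continuousOn (fun x hx => hx)
  have key := Crest.Agent.R097.weyl_cont hVo hΦ (by
    intro χ hχ hχc hχs
    have h1 := h (χ ∘ e) (hχ.comp e.contDiff) (hχc.comp_homeomorph e.toHomeomorph) (by
      intro z hz
      have h2 : e z ∈ tsupport χ := by
        have := tsupport_comp_subset_preimage χ e.continuous hz
        exact this
      have h3 := hχs h2
      rw [hV, mem_preimage, e.symm_apply_apply] at h3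
      exact h3)
    have h2 : ∫ z, φ z * (Δ (χ ∘ e)) z = ∫ x, (φ ∘ e.symm) x * (Δ χ) x := by
      have hmp : MeasurePreserving e volume volume := e.measurePreserving
      rw [← hmp.integral_comp e.toHomeomorph.measurableEmbedding]
      congr 1
      ext z
      rw [laplacian_comp_isometry]
      simp
    rw [← h2, h1])
  obtain ⟨k1, k2⟩ := key
  have hlap : ∀ z ∈ U, (Δ φ) z = 0 := by
    intro z hz
    have h1 : φ = (φ ∘ e.symm) ∘ e := by
      ext w
      simp
    rw [h1, laplacian_comp_isometry]
    apply k2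
    rw [hV, mem_preimage, e.symm_apply_apply]
    exact hz
  intro z hz
  refine ⟨?_, ?_⟩
  · have h1 : φ = (φ ∘ e.symm) ∘ e := by
      ext w
      simp
    rw [h1]
    have h2 : ContDiffAt ℝ 2 (φ ∘ e.symm) (e z) := by
      have h3 := k1.contDiffAt (hVo.mem_nhds (by
        rw [hV, mem_preimage, e.symm_apply_apply]
        exact hz))
      exact contDiffAt_infty.mp h3 2
    exact h2.comp z e.contDiff.contDiffAt
  · filter_upwards [hU.mem_nhds hz] with w hw using hlap w hw

lemma hasF {u v : ℂ → ℝ} {z : ℂ} (hu : DifferentiableAt ℝ u z) (hv : DifferentiableAt ℝ v z)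
    (c : ℂ) : HasFDerivAt (𝕜 := ℝ) (fun z => (u z : ℂ) + c * (v z : ℂ))
      (ofRealCLM.comp (fderiv ℝ u z) + c • ofRealCLM.comp (fderiv ℝ v z)) z := by
  have h1 : HasFDerivAt (𝕜 := ℝ) (fun z => (u z : ℂ)) (ofRealCLM.comp (fderiv ℝ u z)) z :=
    ofRealCLM.hasFDerivAt.comp z hu.hasFDerivAt
  have h2 : HasFDerivAt (𝕜 := ℝ) (fun z => (v z : ℂ)) (ofRealCLM.comp (fderiv ℝ v z)) z :=
    ofRealCLM.hasFDerivAt.comp z hv.hasFDerivAt
  exact h1.add (h2.const_smul c)

/-- A conformal harmonic map is holomorphic or antiholomorphic. -/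
theorem holo_or_antiholo {U : Set ℂ} (hc : IsPreconnected U) {u v : ℂ → ℝ}
    (hu : HarmonicOnNhd u U) (hv : HarmonicOnNhd v U)
    (h1 : ∀ z ∈ U, fderiv ℝ u z 1 * fderiv ℝ v z 1 + fderiv ℝ u z I * fderiv ℝ v z I = 0)
    (h2 : ∀ z ∈ U, fderiv ℝ u z 1 ^ 2 + fderiv ℝ u z I ^ 2 =
      fderiv ℝ v z 1 ^ 2 + fderiv ℝ v z I ^ 2) :
    DifferentiableOn ℂ (fun z => (u z : ℂ) + v z * I) U ∨
      DifferentiableOn ℂ (fun z => (u z : ℂ) - v z * I) U := by
  set a : ℂ → ℂ := fun z => fderiv ℝ u z 1 - I * fderiv ℝ u z I with ha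
  set b : ℂ → ℂ := fun z => fderiv ℝ v z 1 - I * fderiv ℝ v z I with hb
  have haA : AnalyticOnNhd ℂ a U := fun z hz =>
    _root_.HarmonicAt.analyticAt_complex_partial (hu z hz)
  have hbA : AnalyticOnNhd ℂ b U := fun z hz =>
    _root_.HarmonicAt.analyticAt_complex_partial (hv z hz)
  have hud : ∀ z ∈ U, DifferentiableAt ℝ u z := fun z hz =>
    (hu z hz).1.differentiableAt (by norm_num)
  have hvd : ∀ z ∈ U, DifferentiableAt ℝ v z := fun z hz =>
    (hv z hz).1.differentiableAt (by norm_num)
  have hprod : ∀ z ∈ U, (b z + I * a z) * (b z - I * a z) = 0 := by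
    intro z hz
    have e1 : (b z + I * a z) * (b z - I * a z) = b z ^ 2 + a z ^ 2 := by
      linear_combination (-(a z) ^ 2) * I_sq
    rw [e1, ha, hb]
    simp only
    have k1 : ((fderiv ℝ u z 1 : ℝ) : ℂ) * (fderiv ℝ v z 1 : ℝ) +
        (fderiv ℝ u z I : ℝ) * (fderiv ℝ v z I : ℝ) = 0 := by exact_mod_cast h1 z hz
    have k2 : ((fderiv ℝ u z 1 : ℝ) : ℂ) ^ 2 + (fderiv ℝ u z I : ℝ) ^ 2 =
        (fderiv ℝ v z 1 : ℝ) ^ 2 + (fderiv ℝ v z I : ℝ) ^ 2 := by exact_mod_cast h2 z hz
    -- real identities: the orthogonality forces `v' = ± J u'`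
    have r1 := h1 z hz
    have r2 := h2 z hz
    set p := fderiv ℝ u z 1
    set q := fderiv ℝ u z I
    set r := fderiv ℝ v z 1
    set s := fderiv ℝ v z I
    have t1 : (r ^ 2 - q ^ 2) * (p ^ 2 + q ^ 2) = 0 := by
      linear_combination (-q ^ 2) * r2 + (p * r - q * s) * r1 
    have t2 : (r * s + p * q) * (p ^ 2 + q ^ 2) = 0 := by
      linear_combination (p * q) * r2 + (q * r + p * s) * r1
    rcases eq_or_ne (p ^ 2 + q ^ 2) 0 with h0 | h0
    · have hp : p = 0 := by nlinarith [sq_nonneg p, sq_nonneg q]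
      have hq : q = 0 := by nlinarith [sq_nonneg p, sq_nonneg q]
      have hr : r = 0 := by nlinarith [sq_nonneg r, sq_nonneg s]
      have hs : s = 0 := by nlinarith [sq_nonneg r, sq_nonneg s]
      rw [hp, hq, hr, hs]
      simp
    · have m1 : r ^ 2 = q ^ 2 := by
        have := (mul_eq_zero.mp t1).resolve_right h0
        linarith
      have m2 : r * s + p * q = 0 := (mul_eq_zero.mp t2).resolve_right h0
      have m3 : s ^ 2 = p ^ 2 := by linarith
      have n1 : (r : ℂ) ^ 2 = q ^ 2 := by exact_mod_cast m1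
      have n2 : (r : ℂ) * s + p * q = 0 := by exact_mod_cast m2
      have n3 : (s : ℂ) ^ 2 = p ^ 2 := by exact_mod_cast m3
      linear_combination n1 - n3 - 2 * I * n2 + (s ^ 2 + q ^ 2) * I_sq
  have hbI : AnalyticOnNhd ℂ (fun z => b z + I * a z) U :=
    hbA.add (analyticOnNhd_const.mul haA)
  have hbI' : AnalyticOnNhd ℂ (fun z => b z - I * a z) U :=
    hbA.sub (analyticOnNhd_const.mul haA)
  rcases hbI.eq_zero_or_eq_zero_of_mul_eq_zero hbI' hprod hc with h0 | h0
  · left
    intro z hz
    have e0 := h0 z hz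
    simp only [ha, hb] at e0
    have er := congrArg Complex.re e0
    have ei := congrArg Complex.im e0
    simp at er ei
    have hF := hasF (hud z hz) (hvd z hz) I
    refine DifferentiableAt.differentiableWithinAt ?_
    rw [differentiableAt_complex_iff_differentiableAt_real]
    have hfe : (fun z => (u z : ℂ) + v z * I) = fun z => (u z : ℂ) + I * (v z : ℂ) := by
      ext w
      ring
    rw [hfe]
    refine ⟨hF.differentiableAt, ?_⟩
    rw [hF.fderiv]
    apply Complex.ext
    · simp
      linarith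
    · simp
      linarith
  · right
    intro z hz
    have e0 := h0 z hz
    simp only [ha, hb] at e0
    have er := congrArg Complex.re e0
    have ei := congrArg Complex.im e0
    simp at er ei
    have hF := hasF (hud z hz) (hvd z hz) (-I)
    refine DifferentiableAt.differentiableWithinAt ?_
    rw [differentiableAt_complex_iff_differentiableAt_real]
    have hfe : (fun z => (u z : ℂ) - v z * I) = fun z => (u z : ℂ) + (-I) * (v z : ℂ) := by
      ext w
      ring
    rw [hfe]
    refine ⟨hF.differentiableAt, ?_⟩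
    rw [hF.fderiv]
    apply Complex.ext
    · simp
      linarith
    · simp
      linarith

end Crest.Agent.R193.D8
end

-- ▼ part R193/E_Main

/-!
# R193, block E: weakly conformal homeomorphisms of the Riemann sphere are (anti-)Moebius

Author: helper997.
-/

set_option autoImplicit false

open Complex Filter Topology Set Metric Bornology InnerProductSpace MeasureTheory OnePoint
open scoped Laplacian ComplexConjugate

namespace Crest.Agent.R193.E_Main

open Crest.Agent.R193 Crest.Agent.R193.D8

lemma mob_of_form {h : OnePoint ℂ → OnePoint ℂ} (hh : MobForm h) :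
    ∃ a b c d : ℂ, a * d - b * c ≠ 0 ∧ h = mob a b c d := by
  cases hh with
  | aff a b ha h1 h2 =>
    refine ⟨a, b, 0, 1, by simpa using ha, ?_⟩
    funext w
    induction w using OnePoint.rec with
    | infty =>
      rw [h1]
      show ∞ = (if (0 : ℂ) = 0 then ∞ else _)
      rw [if_pos rfl]
    | coe z =>
      rw [h2]
      show _ = (if (0 : ℂ) * z + 1 = 0 then ∞ else (((a * z + b) / (0 * z + 1) : ℂ) : OnePoint ℂ))
      rw [if_neg (by simp)]
      congr 1
      ring
  | inv a b q ha h1 h2 h3 =>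
    refine ⟨q * a, q * b + 1, a, b, ?_, ?_⟩
    · have : q * a * b - (q * b + 1) * a = -a := by ring
      rw [this]
      exact neg_ne_zero.mpr ha
    funext w
    induction w using OnePoint.rec with
    | infty =>
      rw [h1]
      show _ = (if a = 0 then ∞ else ((q * a / a : ℂ) : OnePoint ℂ))
      rw [if_neg ha, mul_div_cancel_right₀ _ ha]
    | coe z =>
      show _ = (if a * z + b = 0 then ∞ else
        (((q * a * z + (q * b + 1)) / (a * z + b) : ℂ) : OnePoint ℂ))
      by_cases hz : a * z + b = 0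
      · rw [if_pos hz, h3 z hz]
      · rw [if_neg hz, h2 z hz]
        congr 1
        field_simp
        ring

/-- complex conjugation as a homeomorphism of the sphere -/
noncomputable def conjH : OnePoint ℂ ≃ₜ OnePoint ℂ := (Complex.conjLIE.toHomeomorph).onePointCongr

lemma conjH_apply (w : OnePoint ℂ) : conjH w = conjO w := by
  induction w using OnePoint.rec with
  | infty => rfl
  | coe z => rfl

lemma conjO_conjO (w : OnePoint ℂ) : conjO (conjO w) = w := by
  induction w using OnePoint.rec with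
  | infty => rfl
  | coe z =>
    show ((conj (conj z) : ℂ) : OnePoint ℂ) = z
    rw [Complex.conj_conj]

lemma conjO_mob (a b c d : ℂ) (w : OnePoint ℂ) :
    conjO (mob a b c d w) = mob (conj a) (conj b) (conj c) (conj d) (conjO w) := by
  induction w using OnePoint.rec with
  | infty =>
    show conjO (if c = 0 then ∞ else ((a / c : ℂ) : OnePoint ℂ)) =
      (if conj c = 0 then ∞ else ((conj a / conj c : ℂ) : OnePoint ℂ))
    by_cases hc : c = 0
    · rw [if_pos hc, if_pos (by rw [hc, map_zero])]
      rfl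
    · rw [if_neg hc, if_neg (by simpa using hc)]
      show ((conj (a / c) : ℂ) : OnePoint ℂ) = _
      rw [map_div₀]
  | coe z =>
    show conjO (if c * z + d = 0 then ∞ else (((a * z + b) / (c * z + d) : ℂ) : OnePoint ℂ)) =
      (if conj c * conj z + conj d = 0 then ∞ else
        (((conj a * conj z + conj b) / (conj c * conj z + conj d) : ℂ) : OnePoint ℂ))
    have h1 : conj c * conj z + conj d = conj (c * z + d) := by simp
    have h2 : conj a * conj z + conj b = conj (a * z + b) := by simp
    rw [h1, h2]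
    by_cases hc : c * z + d = 0
    · rw [if_pos hc, if_pos (by rw [hc, map_zero])]
      rfl
    · rw [if_neg hc, if_neg ((map_ne_zero (starRingEnd ℂ)).mpr hc)]
      show ((conj ((a * z + b) / (c * z + d)) : ℂ) : OnePoint ℂ) = _
      rw [map_div₀]

lemma lap_eq (ψ : ℂ → ℝ) (z : ℂ) : lap ψ z = (Δ ψ) z := by
  rw [laplacian_eq_iteratedFDeriv_complexPlane]
  rfl

/-- Laplacian of a product -/
lemma laplacian_mul {u v : ℂ → ℝ} {z : ℂ} (hu : ContDiffAt ℝ 2 u z) (hv : ContDiffAt ℝ 2 v z) :
    (Δ (fun w => u w * v w)) z = u z * (Δ v) z + v z * (Δ u) z +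
      2 * (fderiv ℝ u z 1 * fderiv ℝ v z 1 + fderiv ℝ u z I * fderiv ℝ v z I) := by
  have hdu : ∀ᶠ w in 𝓝 z, DifferentiableAt ℝ u w := by
    filter_upwards [hu.eventually (by simp)] with w hw using hw.differentiableAt (by norm_num)
  have hdv : ∀ᶠ w in 𝓝 z, DifferentiableAt ℝ v w := by
    filter_upwards [hv.eventually (by simp)] with w hw using hw.differentiableAt (by norm_num)
  have hev : fderiv ℝ (fun w => u w * v w) =ᶠ[𝓝 z]
      fun w => u w • fderiv ℝ v w + v w • fderiv ℝ u w := by
    filter_upwards [hdu, hdv] with w h1 h2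
    exact fderiv_fun_mul h1 h2
  have hu1 : DifferentiableAt ℝ u z := hu.differentiableAt (by norm_num)
  have hv1 : DifferentiableAt ℝ v z := hv.differentiableAt (by norm_num)
  have hu2 : DifferentiableAt ℝ (fderiv ℝ u) z :=
    (hu.fderiv_right (m := 1) (by norm_num)).differentiableAt (by norm_num)
  have hv2 : DifferentiableAt ℝ (fderiv ℝ v) z :=
    (hv.fderiv_right (m := 1) (by norm_num)).differentiableAt (by norm_num)
  have key : ∀ e : ℂ, fderiv ℝ (fderiv ℝ (fun w => u w * v w)) z e e =
      u z * fderiv ℝ (fderiv ℝ v) z e e + v z * fderiv ℝ (fderiv ℝ u) z e e +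
        2 * (fderiv ℝ u z e * fderiv ℝ v z e) := by
    intro e
    have s1 : DifferentiableAt ℝ (fun w => u w • fderiv ℝ v w) z := hu1.smul hv2
    have s2 : DifferentiableAt ℝ (fun w => v w • fderiv ℝ u w) z := hv1.smul hu2
    rw [hev.fderiv_eq, fderiv_fun_add s1 s2, fderiv_fun_smul hu1 hv2,
      fderiv_fun_smul hv1 hu2]
    simp only [add_apply, smul_apply,
      ContinuousLinearMap.smulRight_apply, smul_eq_mul]
    ring
  rw [laplacian_eq_iteratedFDeriv_complexPlane, laplacian_eq_iteratedFDeriv_complexPlane,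
    laplacian_eq_iteratedFDeriv_complexPlane]
  simp only [iteratedFDeriv_two_apply, Matrix.cons_val_zero, Matrix.cons_val_one,
    Matrix.cons_val_fin_one]
  rw [key 1, key I]
  ring

lemma integrable_test {U : Set ℂ} {F : ℂ → ℂ} (hF : ContinuousOn F U) {ψ : ℂ → ℝ}
    (hψ : ContDiff ℝ (⊤ : ℕ∞) ψ) (hc : HasCompactSupport ψ) (hs : tsupport ψ ⊆ U) :
    Integrable (fun z => F z * ((lap ψ z : ℝ) : ℂ)) := by
  have hcont : Continuous (fun z => lap ψ z) := by
    have h1 : Continuous (iteratedFDeriv ℝ 2 ψ) :=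
      (contDiff_infty.mp hψ 2).continuous_iteratedFDeriv le_rfl
    unfold lap
    have h2 : ∀ m : Fin 2 → ℂ, Continuous (fun z => iteratedFDeriv ℝ 2 ψ z m) := fun m =>
      (ContinuousMultilinearMap.apply ℝ (fun _ : Fin 2 => ℂ) ℝ m).continuous.comp h1
    exact (h2 _).add (h2 _)
  have h1 : IntegrableOn (fun z => F z * ((lap ψ z : ℝ) : ℂ)) (tsupport ψ) := by
    apply ContinuousOn.integrableOn_compact hc.isCompact
    exact (hF.mono hs).mul (continuous_ofReal.comp hcont).continuousOn
  rw [← integrableOn_univ]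
  refine h1.of_forall_sdiff_eq_zero MeasurableSet.univ ?_
  intro x hx
  have h2 : lap ψ x = 0 := by
    have h3 : x ∉ tsupport (iteratedFDeriv ℝ 2 ψ) := fun h4 =>
      hx.2 (tsupport_iteratedFDeriv_subset (𝕜 := ℝ) 2 h4)
    have h5 := image_eq_zero_of_notMem_tsupport h3
    unfold lap
    rw [h5]
    simp
  rw [h2]
  simp

/-- harmonicity of the real part of a weakly harmonic function -/
lemma harm_re {U : Set ℂ} (hU : IsOpen U) {F : ℂ → ℂ} (hF : ContinuousOn F U)
    (hw : ∀ ψ : ℂ → ℝ, ContDiff ℝ (⊤ : ℕ∞) ψ → HasCompactSupport ψ → tsupport ψ ⊆ U →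
      ∫ z : ℂ, F z * ((lap ψ z : ℝ) : ℂ) = 0) :
    HarmonicOnNhd (fun z => (F z).re) U ∧ HarmonicOnNhd (fun z => (F z).im) U := by
  constructor
  · refine weylC hU (Complex.continuous_re.comp_continuousOn hF) ?_
    intro ψ hψ hc hs
    have h1 := integral_re (integrable_test hF hψ hc hs)
    rw [hw ψ hψ hc hs] at h1
    simp only [RCLike.re_to_complex, Complex.zero_re] at h1
    rw [← h1]
    congr 1
    funext z
    rw [← lap_eq]
    simp
  · refine weylC hU (Complex.continuous_im.comp_continuousOn hF) ?_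
    intro ψ hψ hc hs
    have h1 := integral_im (integrable_test hF hψ hc hs)
    rw [hw ψ hψ hc hs] at h1
    simp only [RCLike.im_to_complex, Complex.zero_im] at h1
    rw [← h1]
    congr 1
    funext z
    rw [← lap_eq]
    simp

/-- BLOCK E: weakly conformal homeomorphisms of the sphere are (anti-)Moebius. -/
theorem E_main (f : OnePoint ℂ ≃ₜ OnePoint ℂ) (hf : WeakConf f) : IsMob f := by
  set U : Set ℂ := {z : ℂ | f z ≠ ∞} with hUdef
  set F : ℂ → ℂ := fun z => toC (f z) with hFdef
  have hfF : ∀ z : ℂ, f z ≠ ∞ → f z = (F z : OnePoint ℂ) := by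
    intro z hz
    obtain ⟨w, hw⟩ := ne_infty_iff_exists.mp hz
    rw [hFdef]
    simp only
    rw [← hw]
    rfl
  have hUo : IsOpen U := by
    have : U = (fun z : ℂ => f z) ⁻¹' {∞}ᶜ := rfl
    rw [this]
    exact (isClosed_infty.isOpen_compl).preimage (f.continuous.comp continuous_coe)
  have hFc : ContinuousOn F U := by
    intro z hz
    have h1 : ContinuousAt toC (f z) := by
      rw [hfF z hz, continuousAt_coe]
      exact continuousAt_id
    have h2 : ContinuousAt (fun w : ℂ => f w) z := (f.continuous.comp continuous_coe).continuousAt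
    exact (ContinuousAt.comp (f := fun w : ℂ => f w) h1 h2).continuousWithinAt
  have hUc : IsPreconnected U := by
    by_cases h0 : f.symm ∞ = ∞
    · have : U = univ := by
        ext z
        simp only [hUdef, mem_ofPred_eq, mem_univ, iff_true]
        intro hz
        have : (z : OnePoint ℂ) = f.symm ∞ := by rw [← hz, f.symm_apply_apply]
        rw [h0] at this
        exact coe_ne_infty z this
      rw [this]
      exact isPreconnected_univ
    · obtain ⟨p, hp⟩ := ne_infty_iff_exists.mp h0
      have : U = {p}ᶜ := by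
        ext z
        simp only [hUdef, mem_ofPred_eq, mem_compl_iff, mem_singleton_iff]
        constructor
        · intro h1 h2
          apply h1
          rw [h2, hp, f.apply_symm_apply]
        · intro h1 h2
          apply h1
          apply coe_injective
          rw [hp, ← h2, f.symm_apply_apply]
      rw [this]
      exact (isConnected_compl_singleton_of_one_lt_rank (by simp) p).isPreconnected
  have hw1 : ∀ ψ : ℂ → ℝ, ContDiff ℝ (⊤ : ℕ∞) ψ → HasCompactSupport ψ → tsupport ψ ⊆ U →
      ∫ z : ℂ, F z * ((lap ψ z : ℝ) : ℂ) = 0 := fun ψ h1 h2 h3 =>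
    (hf ψ h1 h2 (fun z hz => h3 hz)).1
  have hw2 : ∀ ψ : ℂ → ℝ, ContDiff ℝ (⊤ : ℕ∞) ψ → HasCompactSupport ψ → tsupport ψ ⊆ U →
      ∫ z : ℂ, (F z ^ 2) * ((lap ψ z : ℝ) : ℂ) = 0 := fun ψ h1 h2 h3 =>
    (hf ψ h1 h2 (fun z hz => h3 hz)).2
  obtain ⟨hu, hv⟩ := harm_re hUo hFc hw1
  obtain ⟨hu2, hv2⟩ := harm_re hUo (hFc.pow 2) hw2
  set u : ℂ → ℝ := fun z => (F z).re with hudef
  set v : ℂ → ℝ := fun z => (F z).im with hvdef
  have hlu : ∀ z ∈ U, (Δ u) z = 0 := fun z hz => (hu z hz).2.self_of_nhds
  have hlv : ∀ z ∈ U, (Δ v) z = 0 := fun z hz => (hv z hz).2.self_of_nhds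
  have huv : ∀ z ∈ U, (Δ (fun w => u w * v w)) z = 0 := by
    intro z hz
    have h1 : (fun z => ((F ^ 2) z).im) = (2 : ℝ) • (fun w => u w * v w) := by
      funext w
      simp only [hudef, hvdef, Pi.pow_apply, sq, Complex.mul_im, Pi.smul_apply, smul_eq_mul]
      ring
    have h2 := (hv2 z hz).2.self_of_nhds
    rw [h1, laplacian_smul] at h2
    · have h3 : (2 : ℝ) * (Δ (fun w => u w * v w)) z = 0 := h2
      linarith
    · exact (hu z hz).1.mul (hv z hz).1
  have huu : ∀ z ∈ U, (Δ (fun w => u w * u w)) z = (Δ (fun w => v w * v w)) z := by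
    intro z hz
    have h1 : (fun z => ((F ^ 2) z).re) = (fun w => u w * u w) - (fun w => v w * v w) := by
      funext w
      simp only [hudef, hvdef, Pi.pow_apply, sq, Complex.mul_re, Pi.sub_apply]
    have h2 := (hu2 z hz).2.self_of_nhds
    rw [h1, ContDiffAt.laplacian_sub] at h2
    · have h3 : (Δ (fun w => u w * u w)) z - (Δ (fun w => v w * v w)) z = 0 := h2
      linarith
    · exact (hu z hz).1.mul (hu z hz).1
    · exact (hv z hz).1.mul (hv z hz).1
  have h1 : ∀ z ∈ U, fderiv ℝ u z 1 * fderiv ℝ v z 1 + fderiv ℝ u z I * fderiv ℝ v z I = 0 := by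
    intro z hz
    have h2 := laplacian_mul (hu z hz).1 (hv z hz).1
    rw [huv z hz, hlu z hz, hlv z hz] at h2
    linarith
  have h2 : ∀ z ∈ U, fderiv ℝ u z 1 ^ 2 + fderiv ℝ u z I ^ 2 =
      fderiv ℝ v z 1 ^ 2 + fderiv ℝ v z I ^ 2 := by
    intro z hz
    have h3 := laplacian_mul (hu z hz).1 (hu z hz).1
    have h4 := laplacian_mul (hv z hz).1 (hv z hz).1
    rw [hlu z hz] at h3
    rw [hlv z hz] at h4
    have h5 := huu z hz
    nlinarith
  rcases holo_or_antiholo hUc hu hv h1 h2 with hd | hd
  · have hd' : DifferentiableOn ℂ F U := by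
      refine hd.congr (fun z hz => ?_)
      simp only [hudef, hvdef]
      rw [Complex.re_add_im]
    obtain ⟨a, b, c, d, hdet, he⟩ := mob_of_form (mob_of_holo f F hfF hd')
    exact ⟨a, b, c, d, hdet, Or.inl he⟩
  · have hd' : DifferentiableOn ℂ (fun z => conj (F z)) U := by
      refine hd.congr (fun z hz => ?_)
      simp only [hudef, hvdef]
      apply Complex.ext <;> simp
    set f' : OnePoint ℂ ≃ₜ OnePoint ℂ := f.trans conjH with hf'
    have hf'a : ∀ w, f' w = conjO (f w) := fun w => conjH_apply (f w)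
    have hne : ∀ w, f' w ≠ ∞ ↔ f w ≠ ∞ := by
      intro w
      rw [hf'a]
      constructor
      · intro h3 h4
        apply h3
        rw [h4]
        rfl
      · intro h3 h4
        apply h3
        rw [← conjO_conjO (f w), h4]
        rfl
    have hform : MobForm f' := by
      refine mob_of_holo f' (fun z => conj (F z)) ?_ ?_
      · intro z hz
        rw [hf'a, hfF z ((hne z).mp hz)]
        rfl
      · refine hd'.mono ?_
        intro z hz
        exact (hne z).mp hz
    obtain ⟨a, b, c, d, hdet, he⟩ := mob_of_form hform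
    refine ⟨conj a, conj b, conj c, conj d, ?_, Or.inr ?_⟩
    · intro h3
      apply hdet
      have h4 : conj (a * d - b * c) = 0 := by
        rw [map_sub, map_mul, map_mul]
        exact h3
      exact (map_eq_zero (starRingEnd ℂ)).mp h4
    · funext w
      rw [← conjO_mob, ← he, hf'a, conjO_conjO]

end Crest.Agent.R193.E_Main
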