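import Mathlib

-- ▼ part R193/FG1
section

/-!
R193, block FG1: discrete potential theory on a finite graph.

`V` finite, `G : SimpleGraph V`, `L R : Set V` ("left" and "right" vertices).
`en G u = (1/2) ∑_{(v,w), v ~ w} (u v - u w)^2`.
-/

set_option autoImplicit false

namespace Crest.Agent.R193.FG

open Finset

variable {V : Type*} [Fintype V]

/-- Dirichlet energy of `u` on the finite graph `G` (unit conductances). -/
noncomputable def en (G : SimpleGraph V) (u : V → ℝ) : ℝ := by
  classical
  exact (∑ v, ∑ w, if G.Adj v w then (u v - u w) ^ 2 else 0) / 2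

open Classical in
theorem en_def (G : SimpleGraph V) (u : V → ℝ) :
    en G u = (∑ v, ∑ w, if G.Adj v w then (u v - u w) ^ 2 else 0) / 2 := by
  unfold en
  congr 1

/-- Boundary conditions: `u = 0` on `L`, `u = 1` on `R`. -/
def BC (L R : Set V) (u : V → ℝ) : Prop :=
  (∀ v ∈ L, u v = 0) ∧ (∀ v ∈ R, u v = 1)

/-- Discrete Laplacian. -/
noncomputable def lap (G : SimpleGraph V) (u : V → ℝ) (v : V) : ℝ := by
  classical
  exact ∑ w, if G.Adj v w then (u w - u v) else 0

open Classical in
theorem lap_def (G : SimpleGraph V) (u : V → ℝ) (v : V) :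
    lap G u v = ∑ w, if G.Adj v w then (u w - u v) else 0 := by
  unfold lap
  refine Finset.sum_congr rfl fun w _ => ?_
  split_ifs <;> rfl

/-- Bilinear energy. -/
noncomputable def enB (G : SimpleGraph V) (u f : V → ℝ) : ℝ := by
  classical
  exact (∑ v, ∑ w, if G.Adj v w then (u v - u w) * (f v - f w) else 0) / 2

open Classical in
theorem enB_def (G : SimpleGraph V) (u f : V → ℝ) :
    enB G u f = (∑ v, ∑ w, if G.Adj v w then (u v - u w) * (f v - f w) else 0) / 2 := by
  unfold enB
  congr 1

theorem en_nonneg (G : SimpleGraph V) (u : V → ℝ) : 0 ≤ en G u := by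
  classical
  rw [en_def]
  refine div_nonneg (Finset.sum_nonneg fun v _ => Finset.sum_nonneg fun w _ => ?_) (by norm_num)
  split_ifs
  · positivity
  · exact le_rfl

theorem enB_self (G : SimpleGraph V) (u : V → ℝ) : enB G u u = en G u := by
  classical
  rw [en_def, enB_def]
  congr 1
  refine Finset.sum_congr rfl fun v _ => Finset.sum_congr rfl fun w _ => ?_
  split_ifs
  · ring
  · rfl


/-- Green's identity. -/
theorem enB_eq_lap (G : SimpleGraph V) (u f : V → ℝ) :
    enB G u f = - ∑ v, lap G u v * f v := by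
  classical
  rw [enB_def]
  have h1 : (∑ v, ∑ w, if G.Adj v w then (u v - u w) * (f v - f w) else 0)
      = (∑ v, ∑ w, if G.Adj v w then (u v - u w) * f v else 0)
        - ∑ v, ∑ w, if G.Adj v w then (u v - u w) * f w else 0 := by
    rw [← Finset.sum_sub_distrib]
    refine Finset.sum_congr rfl fun v _ => ?_
    rw [← Finset.sum_sub_distrib]
    refine Finset.sum_congr rfl fun w _ => ?_
    split_ifs
    · ring
    · ring
  have h2 : (∑ v, ∑ w, if G.Adj v w then (u v - u w) * f w else 0)
      = - ∑ v, ∑ w, if G.Adj v w then (u v - u w) * f v else 0 := by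
    rw [Finset.sum_comm, ← Finset.sum_neg_distrib]
    refine Finset.sum_congr rfl fun v _ => ?_
    rw [← Finset.sum_neg_distrib]
    refine Finset.sum_congr rfl fun w _ => ?_
    rw [G.adj_comm]
    split_ifs
    · ring
    · ring
  have h3 : (∑ v, ∑ w, if G.Adj v w then (u v - u w) * f v else 0)
      = - ∑ v, lap G u v * f v := by
    rw [← Finset.sum_neg_distrib]
    refine Finset.sum_congr rfl fun v _ => ?_
    rw [lap_def, Finset.sum_mul, ← Finset.sum_neg_distrib]
    refine Finset.sum_congr rfl fun w _ => ?_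
    split_ifs
    · ring
    · ring
  rw [h1, h2, h3]
  ring

theorem en_add (G : SimpleGraph V) (u f : V → ℝ) (t : ℝ) :
    en G (fun v => u v + t * f v) = en G u + 2 * t * enB G u f + t ^ 2 * en G f := by
  classical
  rw [en_def, en_def, en_def, enB_def]
  have : (∑ v, ∑ w, if G.Adj v w then ((u v + t * f v) - (u w + t * f w)) ^ 2 else 0)
      = (∑ v, ∑ w, if G.Adj v w then (u v - u w) ^ 2 else 0)
        + 2 * t * (∑ v, ∑ w, if G.Adj v w then (u v - u w) * (f v - f w) else 0)
        + t ^ 2 * (∑ v, ∑ w, if G.Adj v w then (f v - f w) ^ 2 else 0) := by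
    rw [Finset.mul_sum, Finset.mul_sum, ← Finset.sum_add_distrib, ← Finset.sum_add_distrib]
    refine Finset.sum_congr rfl fun v _ => ?_
    rw [Finset.mul_sum, Finset.mul_sum, ← Finset.sum_add_distrib, ← Finset.sum_add_distrib]
    refine Finset.sum_congr rfl fun w _ => ?_
    split_ifs
    · ring
    · ring
  rw [this]
  ring

/-- Truncation to `[0,1]` does not increase the energy; more generally 1-Lipschitz maps. -/
theorem en_comp_le (G : SimpleGraph V) (u : V → ℝ) (φ : ℝ → ℝ)
    (hφ : ∀ x y, |φ x - φ y| ≤ |x - y|) : en G (fun v => φ (u v)) ≤ en G u := by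
  classical
  rw [en_def, en_def]
  refine div_le_div_of_nonneg_right (Finset.sum_le_sum fun v _ => Finset.sum_le_sum fun w _ => ?_)
    (by norm_num)
  split_ifs
  · exact sq_le_sq.2 (hφ _ _)
  · exact le_rfl

theorem clamp_lip (x y : ℝ) : |max 0 (min 1 x) - max 0 (min 1 y)| ≤ |x - y| := by
  rcases le_total x y with h | h
  · have h1 : max 0 (min 1 x) ≤ max 0 (min 1 y) := max_le_max le_rfl (min_le_min le_rfl h)
    rw [abs_of_nonpos (by linarith), abs_of_nonpos (by linarith)]
    rcases le_total 1 y with h3 | h3 <;> rcases le_total 1 x with h4 | h4 <;>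
    rcases le_total 0 x with h5 | h5 <;> rcases le_total 0 y with h6 | h6 <;>
    simp [h3, h4, h5, h6] <;> linarith
  · have h1 : max 0 (min 1 y) ≤ max 0 (min 1 x) := max_le_max le_rfl (min_le_min le_rfl h)
    rw [abs_of_nonneg (by linarith), abs_of_nonneg (by linarith)]
    rcases le_total 1 y with h3 | h3 <;> rcases le_total 1 x with h4 | h4 <;>
    rcases le_total 0 x with h5 | h5 <;> rcases le_total 0 y with h6 | h6 <;>
    simp [h3, h4, h5, h6] <;> linarith

theorem continuous_en (G : SimpleGraph V) : Continuous (fun u : V → ℝ => en G u) := by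
  classical
  simp_rw [en_def]
  refine Continuous.div_const (continuous_finsetSum _ fun v _ =>
    continuous_finsetSum _ fun w _ => ?_) _
  split_ifs
  · fun_prop
  · fun_prop

/-- Existence of the energy minimiser with boundary values `0` on `L`, `1` on `R`. -/
theorem exists_min (G : SimpleGraph V) (L R : Set V) (hLR : Disjoint L R) :
    ∃ u : V → ℝ, BC L R u ∧ (∀ v, 0 ≤ u v ∧ u v ≤ 1) ∧
      ∀ f : V → ℝ, BC L R f → en G u ≤ en G f := by
  classical
  let K : Set (V → ℝ) := {u | BC L R u} ∩ Set.pi Set.univ (fun _ => Set.Icc (0 : ℝ) 1)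
  have hK : IsCompact K := by
    refine IsCompact.inter_left (isCompact_univ_pi fun _ => isCompact_Icc) ?_
    have h1 : IsClosed {u : V → ℝ | ∀ v ∈ L, u v = 0} := by
      simp only [Set.ofPred_forall]
      exact isClosed_iInter fun v => isClosed_iInter fun _ =>
        isClosed_eq (continuous_apply v) continuous_const
    have h2 : IsClosed {u : V → ℝ | ∀ v ∈ R, u v = 1} := by
      simp only [Set.ofPred_forall]
      exact isClosed_iInter fun v => isClosed_iInter fun _ =>
        isClosed_eq (continuous_apply v) continuous_const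
    exact h1.inter h2
  have hne : K.Nonempty := by
    refine ⟨fun v => if v ∈ R then 1 else 0, ⟨⟨fun v hv => ?_, fun v hv => ?_⟩, fun v _ => ?_⟩⟩
    · simp [Set.disjoint_left.1 hLR hv]
    · simp [hv]
    · simp only [Set.mem_Icc]
      split_ifs <;> simp
  obtain ⟨u, huK, hu⟩ := hK.exists_isMinOn hne (continuous_en G).continuousOn
  refine ⟨u, huK.1, fun v => ?_, fun f hf => ?_⟩
  · exact huK.2 v (Set.mem_univ v)
  · have h1 : (fun v => max 0 (min 1 (f v))) ∈ K := by
      refine ⟨⟨fun v hv => ?_, fun v hv => ?_⟩, fun v _ => ⟨le_max_left _ _, ?_⟩⟩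
      · simp [hf.1 v hv]
      · simp [hf.2 v hv]
      · exact max_le zero_le_one (min_le_left _ _)
    exact (hu h1).trans (en_comp_le G f _ clamp_lip)

/-- A minimiser is harmonic off `L ∪ R`. -/
theorem min_harmonic (G : SimpleGraph V) (L R : Set V) (u : V → ℝ) (hu : BC L R u)
    (hmin : ∀ f : V → ℝ, BC L R f → en G u ≤ en G f) (v : V) (hL : v ∉ L) (hR : v ∉ R) :
    lap G u v = 0 := by
  classical
  let f : V → ℝ := fun w => if w = v then 1 else 0
  have hB : enB G u f = - lap G u v := by
    rw [enB_eq_lap]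
    congr 1
    simp [f]
  have key : ∀ t : ℝ, 0 ≤ 2 * t * enB G u f + t ^ 2 * en G f := by
    intro t
    have := hmin (fun w => u w + t * f w) ⟨fun w hw => ?_, fun w hw => ?_⟩
    · rw [en_add] at this
      linarith
    · have : w ≠ v := fun h => hL (h ▸ hw)
      simp [f, this, hu.1 w hw]
    · have : w ≠ v := fun h => hR (h ▸ hw)
      simp [f, this, hu.2 w hw]
  have hE : 0 ≤ en G f := en_nonneg G f
  -- choose t = - b / (e+1)
  set b := enB G u f with hb
  set e := en G f with he
  have h1 := key (- b / (e + 1))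
  have he1 : (0 : ℝ) < e + 1 := by linarith
  have h2 : 2 * (- b / (e + 1)) * b + (- b / (e + 1)) ^ 2 * e
      = - (b ^ 2 * (e + 2)) / (e + 1) ^ 2 := by
    field_simp
    ring
  rw [h2] at h1
  have h3 : b ^ 2 * (e + 2) ≤ 0 := by
    have h4 : (0 : ℝ) < (e + 1) ^ 2 := by positivity
    have := mul_nonneg h1 h4.le
    rw [div_mul_cancel₀ _ h4.ne'] at this
    linarith
  have h5 : b ^ 2 = 0 := by
    nlinarith [sq_nonneg b]
  have h6 : b = 0 := by simpa using h5
  rw [h6] at hB
  linarith

end Crest.Agent.R193.FG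
end

-- ▼ part R193/FG1b

/-!
R193, block FG1 (second part): maximum principle, connectedness of level sets, flux identity,
energy versus vertex modulus.
-/

set_option autoImplicit false

namespace Crest.Agent.R193.FG

open Finset MeasureTheory

variable {V : Type*} [Fintype V]

/-- Maximum principle.  `A` is a set on which `u` is subharmonic or at most `M`, all outer
neighbours have value at most `M`, and from every vertex of `A` one can leave `A`. -/
theorem max_principle (G : SimpleGraph V) (u : V → ℝ) (A : Set V) (M : ℝ)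
    (hA : ∀ v ∈ A, u v ≤ M ∨ 0 ≤ lap G u v)
    (hb : ∀ v ∈ A, ∀ w, w ∉ A → G.Adj v w → u w ≤ M)
    (hexit : ∀ v ∈ A, ∃ w, w ∉ A ∧ G.Reachable v w) :
    ∀ v ∈ A, u v ≤ M := by
  classical
  by_contra hcon
  push Not at hcon
  obtain ⟨v1, hv1, hv1M⟩ := hcon
  obtain ⟨v0, hv0, hmax⟩ := Set.exists_max_image A u A.toFinite ⟨v1, hv1⟩
  have hm : M < u v0 := lt_of_lt_of_le hv1M (hmax v1 hv1)
  -- closed under adjacency
  have hcl : ∀ v w, v ∈ A → u v = u v0 → G.Adj v w → w ∈ A ∧ u w = u v0 := by
    intro v w hv huv hadj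
    have hle : ∀ x, G.Adj v x → u x ≤ u v := by
      intro x hx
      by_cases hxA : x ∈ A
      · rw [huv]; exact hmax x hxA
      · rw [huv]; exact (hb v hv x hxA hx).trans hm.le
    have hlap : 0 ≤ lap G u v := by
      rcases hA v hv with h | h
      · rw [huv] at h; exact absurd h (not_le.2 hm)
      · exact h
    rw [lap_def] at hlap
    have hz : ∀ x ∈ (Finset.univ : Finset V), (if G.Adj v x then (u x - u v) else 0) = 0 := by
      have hnp : ∀ x ∈ (Finset.univ : Finset V), (if G.Adj v x then (u x - u v) else 0) ≤ 0 := by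
        intro x _
        split_ifs with hx
        · linarith [hle x hx]
        · exact le_rfl
      have hs : (∑ x, if G.Adj v x then (u x - u v) else 0) = 0 :=
        le_antisymm (Finset.sum_nonpos hnp) hlap
      exact (Finset.sum_eq_zero_iff_of_nonpos hnp).1 hs
    have hw := hz w (Finset.mem_univ _)
    rw [if_pos hadj] at hw
    have huw : u w = u v0 := by linarith
    refine ⟨?_, huw⟩
    by_contra hwA
    have := hb v hv w hwA hadj
    linarith
  obtain ⟨w, hwA, ⟨p⟩⟩ := hexit v0 hv0
  have : ∀ {a b : V} (q : G.Walk a b), a ∈ A → u a = u v0 → b ∈ A ∧ u b = u v0 := by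
    intro a b q
    induction q with
    | nil => exact fun h1 h2 => ⟨h1, h2⟩
    | cons hadj q ih =>
      intro h1 h2
      obtain ⟨h3, h4⟩ := hcl _ _ h1 h2 hadj
      exact ih h3 h4
  exact hwA (this p hv0 rfl).1

theorem lap_neg (G : SimpleGraph V) (u : V → ℝ) (v : V) :
    lap G (fun x => - u x) v = - lap G u v := by
  classical
  rw [lap_def, lap_def, ← Finset.sum_neg_distrib]
  refine Finset.sum_congr rfl fun w _ => ?_
  split_ifs
  · ring
  · ring

/-- Minimum principle. -/
theorem min_principle (G : SimpleGraph V) (u : V → ℝ) (A : Set V) (M : ℝ)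
    (hA : ∀ v ∈ A, M ≤ u v ∨ lap G u v ≤ 0)
    (hb : ∀ v ∈ A, ∀ w, w ∉ A → G.Adj v w → M ≤ u w)
    (hexit : ∀ v ∈ A, ∃ w, w ∉ A ∧ G.Reachable v w) :
    ∀ v ∈ A, M ≤ u v := by
  intro v hv
  have := max_principle G (fun x => - u x) A (-M)
    (fun v hv => (hA v hv).imp (fun h => neg_le_neg h)
      (fun h => by rw [lap_neg]; linarith))
    (fun v hv w hw hadj => neg_le_neg (hb v hv w hw hadj)) hexit v hv
  simpa using this

/-- `v` and `w` are joined by a chain of adjacent vertices in `S`. -/
def ConnIn (G : SimpleGraph V) (S : Set V) (v w : V) : Prop :=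
  Relation.ReflTransGen (fun a b => G.Adj a b ∧ a ∈ S ∧ b ∈ S) v w

omit [Fintype V] in
theorem ConnIn.symm {G : SimpleGraph V} {S : Set V} {v w : V} (h : ConnIn G S v w) :
    ConnIn G S w v := by
  induction h with
  | refl => exact Relation.ReflTransGen.refl
  | tail _ h ih => exact Relation.ReflTransGen.head ⟨h.1.symm, h.2.2, h.2.1⟩ ih

omit [Fintype V] in
theorem ConnIn.trans {G : SimpleGraph V} {S : Set V} {v w x : V} (h : ConnIn G S v w)
    (h' : ConnIn G S w x) : ConnIn G S v x := Relation.ReflTransGen.trans h h'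

omit [Fintype V] in
theorem ConnIn.mono {G : SimpleGraph V} {S T : Set V} (hST : S ⊆ T) {v w : V}
    (h : ConnIn G S v w) : ConnIn G T v w := by
  induction h with
  | refl => exact Relation.ReflTransGen.refl
  | tail _ h ih => exact Relation.ReflTransGen.tail ih ⟨h.1, hST h.2.1, hST h.2.2⟩

omit [Fintype V] in
theorem ConnIn.mem {G : SimpleGraph V} {S : Set V} {v w : V} (h : ConnIn G S v w)
    (hv : v ∈ S) : w ∈ S := by
  induction h with
  | refl => exact hv
  | tail _ h _ => exact h.2.2

omit [Fintype V] in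
theorem ConnIn.reachable {G : SimpleGraph V} {S : Set V} {v w : V} (h : ConnIn G S v w) :
    G.Reachable v w := by
  induction h with
  | refl => exact SimpleGraph.Reachable.refl _
  | tail _ h ih => exact ih.trans h.1.reachable

/-- Boundary value problem data: `u = 0` on `L`, `u = 1` on `R`, harmonic elsewhere, and every
vertex is connected to `L ∪ R`. -/
structure Sol (G : SimpleGraph V) (L R : Set V) (u : V → ℝ) : Prop where
  bc : BC L R u
  harm : ∀ v, v ∉ L → v ∉ R → lap G u v = 0
  conn : ∀ v, ∃ w, w ∈ L ∪ R ∧ G.Reachable v w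

/-- Every vertex of `{t < u}` is joined to `R` inside `{t < u}`. -/
theorem Sol.conn_above {G : SimpleGraph V} {L R : Set V} {u : V → ℝ} (h : Sol G L R u)
    {t : ℝ} (ht : 0 ≤ t) {v : V} (hv : t < u v) :
    ∃ r ∈ R, ConnIn G {x | t < u x} v r := by
  classical
  by_contra hcon
  push Not at hcon
  let A : Set V := {x | ConnIn G {x | t < u x} v x}
  have hmem : ∀ x ∈ A, t < u x := fun x hx => ConnIn.mem (S := {x | t < u x}) hx hv
  have := max_principle G u A t ?_ ?_ ?_ v Relation.ReflTransGen.refl
  · linarith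
  · intro x hx
    right
    rw [h.harm x]
    · intro hL
      have := hmem x hx
      rw [h.bc.1 x hL] at this
      linarith
    · intro hR
      exact hcon x hR hx
  · intro x hx w hw hadj
    by_contra hwt
    push Not at hwt
    exact hw (Relation.ReflTransGen.tail hx ⟨hadj, hmem x hx, hwt⟩)
  · intro x hx
    obtain ⟨w, hw, hr⟩ := h.conn x
    refine ⟨w, fun hwA => ?_, hr⟩
    rcases hw with hw | hw
    · have := hmem w hwA
      rw [h.bc.1 w hw] at this
      linarith
    · exact hcon w hw hwA

/-- Every vertex of `{u < t}` is joined to `L` inside `{u < t}`. -/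
theorem Sol.conn_below {G : SimpleGraph V} {L R : Set V} {u : V → ℝ} (h : Sol G L R u)
    {t : ℝ} (ht : t ≤ 1) {v : V} (hv : u v < t) :
    ∃ r ∈ L, ConnIn G {x | u x < t} v r := by
  classical
  by_contra hcon
  push Not at hcon
  let A : Set V := {x | ConnIn G {x | u x < t} v x}
  have hmem : ∀ x ∈ A, u x < t := fun x hx => ConnIn.mem (S := {x | u x < t}) hx hv
  have := min_principle G u A t ?_ ?_ ?_ v Relation.ReflTransGen.refl
  · linarith
  · intro x hx
    right
    rw [h.harm x]
    · intro hL
      exact hcon x hL hx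
    · intro hR
      have := hmem x hx
      rw [h.bc.2 x hR] at this
      linarith
  · intro x hx w hw hadj
    by_contra hwt
    push Not at hwt
    exact hw (Relation.ReflTransGen.tail hx ⟨hadj, hmem x hx, hwt⟩)
  · intro x hx
    obtain ⟨w, hw, hr⟩ := h.conn x
    refine ⟨w, fun hwA => ?_, hr⟩
    rcases hw with hw | hw
    · exact hcon w hw hwA
    · have := hmem w hwA
      rw [h.bc.2 w hw] at this
      linarith

theorem Sol.nonneg_le_one {G : SimpleGraph V} {L R : Set V} {u : V → ℝ} (h : Sol G L R u)
    (v : V) : 0 ≤ u v ∧ u v ≤ 1 := by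
  constructor
  · by_contra hv
    push Not at hv
    obtain ⟨r, hr, hc⟩ := h.conn_below (t := 0) zero_le_one hv
    have := ConnIn.mem hc hv
    simp only [Set.mem_ofPred_eq, h.bc.1 r hr, lt_irrefl] at this
  · by_contra hv
    push Not at hv
    obtain ⟨r, hr, hc⟩ := h.conn_above (t := 1) zero_le_one hv
    have := ConnIn.mem hc hv
    simp only [Set.mem_ofPred_eq, h.bc.2 r hr, lt_irrefl] at this

/-- Flux through the level `t` equals the energy, `0 ≤ t < 1`. -/
theorem Sol.flux {G : SimpleGraph V} {L R : Set V} {u : V → ℝ} (h : Sol G L R u)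
    {t : ℝ} (h0 : 0 ≤ t) (h1 : t < 1) : by
    classical
    exact (∑ v, ∑ w, if G.Adj v w ∧ u w ≤ t ∧ t < u v then (u v - u w) else 0) = en G u := by
  classical
  -- both sides equal `- ∑_{v ∈ R} lap u v`
  have hE : en G u = - ∑ v, if v ∈ R then lap G u v else 0 := by
    rw [← enB_self, enB_eq_lap]
    congr 1
    refine Finset.sum_congr rfl fun v _ => ?_
    by_cases hR : v ∈ R
    · rw [if_pos hR, h.bc.2 v hR, mul_one]
    · rw [if_neg hR]
      by_cases hL : v ∈ L
      · rw [h.bc.1 v hL, mul_zero]
      · rw [h.harm v hL hR, zero_mul]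
  have hS : (∑ v, if t < u v then lap G u v else 0) = ∑ v, if v ∈ R then lap G u v else 0 := by
    refine Finset.sum_congr rfl fun v _ => ?_
    by_cases hR : v ∈ R
    · rw [if_pos hR, if_pos (by rw [h.bc.2 v hR]; exact h1)]
    · rw [if_neg hR]
      by_cases hL : v ∈ L
      · rw [if_neg (by rw [h.bc.1 v hL]; exact not_lt.2 h0)]
      · rw [h.harm v hL hR, ite_self]
  have hT : (∑ v, if t < u v then lap G u v else 0)
      = - ∑ v, ∑ w, if G.Adj v w ∧ u w ≤ t ∧ t < u v then (u v - u w) else 0 := by
    have e1 : (∑ v, if t < u v then lap G u v else 0)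
        = (∑ v, ∑ w, if G.Adj v w ∧ t < u v ∧ t < u w then (u w - u v) else 0)
          - ∑ v, ∑ w, if G.Adj v w ∧ u w ≤ t ∧ t < u v then (u v - u w) else 0 := by
      rw [← Finset.sum_sub_distrib]
      refine Finset.sum_congr rfl fun v _ => ?_
      rw [← Finset.sum_sub_distrib]
      by_cases hv : t < u v
      · rw [if_pos hv, lap_def]
        refine Finset.sum_congr rfl fun w _ => ?_
        by_cases hw : t < u w
        · by_cases ha : G.Adj v w
          · rw [if_pos ha, if_pos ⟨ha, hv, hw⟩, if_neg (fun h => absurd h.2.1 (not_le.2 hw))]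
            ring
          · rw [if_neg ha, if_neg (fun h => ha h.1), if_neg (fun h => ha h.1)]
            ring
        · by_cases ha : G.Adj v w
          · rw [if_pos ha, if_neg (fun h => hw h.2.2), if_pos ⟨ha, not_lt.1 hw, hv⟩]
            ring
          · rw [if_neg ha, if_neg (fun h => ha h.1), if_neg (fun h => ha h.1)]
            ring
      · rw [if_neg hv]
        symm
        refine Finset.sum_eq_zero fun w _ => ?_
        rw [if_neg (fun h => hv h.2.1), if_neg (fun h => hv h.2.2)]
        ring
    have e2 : (∑ v, ∑ w, if G.Adj v w ∧ t < u v ∧ t < u w then (u w - u v) else 0) = 0 := by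
      have e3 : (∑ v, ∑ w, if G.Adj v w ∧ t < u v ∧ t < u w then (u w - u v) else 0)
          = - ∑ v, ∑ w, if G.Adj v w ∧ t < u v ∧ t < u w then (u w - u v) else 0 := by
        conv_lhs => rw [Finset.sum_comm]
        rw [← Finset.sum_neg_distrib]
        refine Finset.sum_congr rfl fun v _ => ?_
        rw [← Finset.sum_neg_distrib]
        refine Finset.sum_congr rfl fun w _ => ?_
        have : (G.Adj w v ∧ t < u w ∧ t < u v) ↔ (G.Adj v w ∧ t < u v ∧ t < u w) := by
          rw [G.adj_comm]; tauto
        simp only [this]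
        split_ifs
        · ring
        · ring
      linarith
    rw [e1, e2]
    ring
  rw [hE, ← hS, hT]
  ring

end Crest.Agent.R193.FG
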