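import Crest.Agent.R193.FG1b

/-!
R193, block FG1 (fifth part): oscillation inside a connected separating set.
-/

set_option autoImplicit false

namespace Crest.Agent.R193.FG

open Finset

variable {V : Type*} [Fintype V]

/-- Sum of the absolute differences over the edges at `x`. -/
noncomputable def grad (G : SimpleGraph V) (u : V → ℝ) (x : V) : ℝ := by
  classical
  exact ∑ y, if G.Adj x y then |u x - u y| else 0

open Classical in
theorem grad_def (G : SimpleGraph V) (u : V → ℝ) (x : V) :
    grad G u x = ∑ y, if G.Adj x y then |u x - u y| else 0 := by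
  unfold grad
  rfl

theorem grad_nonneg (G : SimpleGraph V) (u : V → ℝ) (x : V) : 0 ≤ grad G u x := by
  classical
  rw [grad_def]
  refine Finset.sum_nonneg fun y _ => ?_
  split_ifs
  · exact abs_nonneg _
  · exact le_rfl

theorem abs_sub_le_grad (G : SimpleGraph V) (u : V → ℝ) {x y : V} (h : G.Adj x y) :
    |u x - u y| ≤ grad G u x := by
  classical
  rw [grad_def]
  have := Finset.single_le_sum (f := fun y => if G.Adj x y then |u x - u y| else 0)
    (s := Finset.univ) (fun z _ => by split_ifs <;> [exact abs_nonneg _; exact le_rfl])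
    (Finset.mem_univ y)
  simpa [h] using this





open Classical in
/-- `∑_x grad(x)² ≤ 2 Δ en`. -/
theorem sum_grad_sq_le (G : SimpleGraph V) (u : V → ℝ) (Δ : ℕ)
    (hΔ : ∀ v, {w | G.Adj v w}.ncard ≤ Δ) :
    (∑ x, grad G u x ^ 2) ≤ 2 * Δ * en G u := by
  have hdeg : ∀ v, ((Finset.univ.filter (fun w => G.Adj v w)).card : ℝ) ≤ Δ := by
    intro v
    have := hΔ v
    rw [Set.ncard_eq_toFinset_card'] at this
    have e : (Set.toFinset {w | G.Adj v w}) = Finset.univ.filter (fun w => G.Adj v w) := by
      ext w; simp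
    rw [e] at this
    exact_mod_cast this
  have h1 : ∀ x, grad G u x ^ 2 ≤ Δ * ∑ y, if G.Adj x y then (u x - u y) ^ 2 else 0 := by
    intro x
    rw [grad_def, ← Finset.sum_filter, ← Finset.sum_filter]
    have hb := sq_sum_le_card_mul_sum_sq
      (s := Finset.univ.filter (fun w => G.Adj x w)) (f := fun y => |u x - u y|)
    simp only [sq_abs] at hb
    refine hb.trans (mul_le_mul_of_nonneg_right (hdeg x) ?_)
    exact Finset.sum_nonneg fun y _ => sq_nonneg _
  calc (∑ x, grad G u x ^ 2) ≤ ∑ x, Δ * ∑ y, (if G.Adj x y then (u x - u y) ^ 2 else 0) :=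
        Finset.sum_le_sum fun x _ => h1 x
    _ = 2 * Δ * en G u := by rw [← Finset.mul_sum, en_def]; ring


end Crest.Agent.R193.FG
namespace Crest.Agent.R193.FG.Sol
end Crest.Agent.R193.FG.Sol
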