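import Mathlib
import Crest.Agent.R193.S_Basic
import Crest.Agent.R193.F_Spec

-- ▼ part R193/AF1
section

/-!
R193, block AF (invariant Dirichlet form as a Gamma-limit on the Cayley graph), part 1:
weighted `ℓ²` sums over a countable index type.   (helper555)
-/

set_option autoImplicit false

namespace Crest.Agent.R193.AF

open Filter Topology

section wsum

variable {ι : Type} (W : ι → ℝ)

/-- finite weighted energy -/
def FinE (a : ι → ℝ) : Prop := Summable fun i => W i * (a i) ^ 2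

/-- weighted energy -/
noncomputable def wen (a : ι → ℝ) : ℝ := ∑' i, W i * (a i) ^ 2

/-- weighted bilinear form with coefficient `b` -/
noncomputable def wip (b a c : ι → ℝ) : ℝ := ∑' i, W i * (b i * (a i * c i))

variable {W}

theorem wen_nonneg (hW : ∀ i, 0 ≤ W i) (a : ι → ℝ) : 0 ≤ wen W a :=
  tsum_nonneg fun i => mul_nonneg (hW i) (sq_nonneg _)

theorem FinE.add (hW : ∀ i, 0 ≤ W i) {a c : ι → ℝ} (ha : FinE W a) (hc : FinE W c) :
    FinE W (fun i => a i + c i) := by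
  have h1 : Summable fun i => 2 * (W i * (a i) ^ 2) + 2 * (W i * (c i) ^ 2) :=
    (ha.mul_left 2).add (hc.mul_left 2)
  refine Summable.of_nonneg_of_le (fun i => mul_nonneg (hW i) (sq_nonneg _)) (fun i => ?_) h1
  have h2 : (a i + c i) ^ 2 ≤ 2 * (a i) ^ 2 + 2 * (c i) ^ 2 := by nlinarith [sq_nonneg (a i - c i)]
  nlinarith [hW i]

theorem FinE.smul {a : ι → ℝ} (t : ℝ) (ha : FinE W a) : FinE W (fun i => t * a i) := by
  have h1 : Summable fun i => t ^ 2 * (W i * (a i) ^ 2) := ha.mul_left _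
  refine h1.congr fun i => ?_
  ring

theorem FinE.neg {a : ι → ℝ} (ha : FinE W a) : FinE W (fun i => - a i) := by
  refine ha.congr fun i => ?_
  ring

theorem FinE.of_le (hW : ∀ i, 0 ≤ W i) {a c : ι → ℝ} (ha : FinE W a)
    (h : ∀ i, |c i| ≤ |a i|) : FinE W c := by
  refine Summable.of_nonneg_of_le (fun i => mul_nonneg (hW i) (sq_nonneg _)) (fun i => ?_) ha
  exact mul_le_mul_of_nonneg_left (sq_le_sq.mpr (h i)) (hW i)

theorem wen_le_of_le (hW : ∀ i, 0 ≤ W i) {a c : ι → ℝ} (ha : FinE W a)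
    (h : ∀ i, |c i| ≤ |a i|) : wen W c ≤ wen W a :=
  Summable.tsum_le_tsum (fun i => mul_le_mul_of_nonneg_left (sq_le_sq.mpr (h i)) (hW i))
    (ha.of_le hW h) ha

theorem wen_add_le (hW : ∀ i, 0 ≤ W i) {a c : ι → ℝ} (ha : FinE W a) (hc : FinE W c) :
    wen W (fun i => a i + c i) ≤ 2 * wen W a + 2 * wen W c := by
  unfold wen
  rw [← tsum_mul_left, ← tsum_mul_left, ← (ha.mul_left 2).tsum_add (hc.mul_left 2)]
  refine Summable.tsum_le_tsum (fun i => ?_) (ha.add hW hc) ((ha.mul_left 2).add (hc.mul_left 2))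
  have h2 : (a i + c i) ^ 2 ≤ 2 * (a i) ^ 2 + 2 * (c i) ^ 2 := by nlinarith [sq_nonneg (a i - c i)]
  nlinarith [hW i]

theorem wen_smul {a : ι → ℝ} (t : ℝ) : wen W (fun i => t * a i) = t ^ 2 * wen W a := by
  unfold wen
  rw [← tsum_mul_left]
  refine tsum_congr fun i => ?_
  ring

/-- absolute summability of the mixed sums -/
theorem summable_abs (hW : ∀ i, 0 ≤ W i) {a c : ι → ℝ} (ha : FinE W a) (hc : FinE W c) :
    Summable fun i => W i * (|a i| * |c i|) := by
  have ha' : Summable fun i => W i * (a i) ^ 2 := ha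
  have hc' : Summable fun i => W i * (c i) ^ 2 := hc
  refine Summable.of_nonneg_of_le
    (fun i => mul_nonneg (hW i) (mul_nonneg (abs_nonneg _) (abs_nonneg _))) (fun i => ?_)
    (ha'.add hc')
  have h1 : |a i| * |c i| ≤ (a i) ^ 2 + (c i) ^ 2 := by
    have := sq_nonneg (|a i| - |c i|)
    nlinarith [sq_abs (a i), sq_abs (c i), abs_nonneg (a i), abs_nonneg (c i),
      mul_nonneg (abs_nonneg (a i)) (abs_nonneg (c i))]
  nlinarith [hW i]

theorem summable_wip (hW : ∀ i, 0 ≤ W i) {a b c : ι → ℝ} (ha : FinE W a) (hc : FinE W c)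
    {M : ℝ} (hb : ∀ i, |b i| ≤ M) : Summable fun i => W i * (b i * (a i * c i)) := by
  refine Summable.of_norm_bounded ((summable_abs hW ha hc).mul_left M) fun i => ?_
  rw [Real.norm_eq_abs, abs_mul, abs_mul, abs_mul, abs_of_nonneg (hW i)]
  have h1 : 0 ≤ W i * (|a i| * |c i|) :=
    mul_nonneg (hW i) (mul_nonneg (abs_nonneg _) (abs_nonneg _))
  have h2 := mul_le_mul_of_nonneg_right (hb i) h1
  nlinarith

theorem tsum_abs_le (hW : ∀ i, 0 ≤ W i) {a c : ι → ℝ} (ha : FinE W a) (hc : FinE W c) :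
    ∑' i, W i * (|a i| * |c i|) ≤ Real.sqrt (wen W a) * Real.sqrt (wen W c) := by
  have hs := summable_abs hW ha hc
  refine hs.tsum_le_of_sum_le fun s => ?_
  have h1 : ∑ i ∈ s, W i * (|a i| * |c i|)
      = ∑ i ∈ s, (Real.sqrt (W i) * |a i|) * (Real.sqrt (W i) * |c i|) := by
    refine Finset.sum_congr rfl fun i _ => ?_
    have := Real.mul_self_sqrt (hW i)
    calc W i * (|a i| * |c i|) = (Real.sqrt (W i) * Real.sqrt (W i)) * (|a i| * |c i|) := by
          rw [this]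
      _ = _ := by ring
  have h2 := Finset.sum_mul_sq_le_sq_mul_sq s (fun i => Real.sqrt (W i) * |a i|)
    (fun i => Real.sqrt (W i) * |c i|)
  have h3 : ∀ d : ι → ℝ, FinE W d → ∑ i ∈ s, (Real.sqrt (W i) * |d i|) ^ 2 ≤ wen W d := by
    intro d hd
    have : ∑ i ∈ s, (Real.sqrt (W i) * |d i|) ^ 2 = ∑ i ∈ s, W i * (d i) ^ 2 := by
      refine Finset.sum_congr rfl fun i _ => ?_
      rw [mul_pow, Real.sq_sqrt (hW i), sq_abs]
    rw [this]
    exact hd.sum_le_tsum s fun i _ => mul_nonneg (hW i) (sq_nonneg _)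
  rw [h1, ← Real.sqrt_mul (wen_nonneg hW a)]
  refine Real.le_sqrt_of_sq_le (h2.trans ?_)
  exact mul_le_mul (h3 a ha) (h3 c hc) (Finset.sum_nonneg fun i _ => sq_nonneg _)
    (wen_nonneg hW a)

theorem abs_wip_le (hW : ∀ i, 0 ≤ W i) {a b c : ι → ℝ} (ha : FinE W a) (hc : FinE W c)
    {M : ℝ} (hb : ∀ i, |b i| ≤ M) :
    |wip W b a c| ≤ M * (Real.sqrt (wen W a) * Real.sqrt (wen W c)) := by
  by_cases hι : Nonempty ι
  · have hM : 0 ≤ M := (abs_nonneg _).trans (hb hι.some)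
    have hs := summable_abs hW ha hc
    have h1 : |wip W b a c| ≤ ∑' i, M * (W i * (|a i| * |c i|)) := by
      rw [← Real.norm_eq_abs]
      unfold wip
      refine tsum_of_norm_bounded ((hs.mul_left M).hasSum) fun i => ?_
      rw [Real.norm_eq_abs, abs_mul, abs_mul, abs_mul, abs_of_nonneg (hW i)]
      have h1 : 0 ≤ W i * (|a i| * |c i|) :=
        mul_nonneg (hW i) (mul_nonneg (abs_nonneg _) (abs_nonneg _))
      have h2 := mul_le_mul_of_nonneg_right (hb i) h1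
      nlinarith
    rw [tsum_mul_left] at h1
    exact h1.trans (mul_le_mul_of_nonneg_left (tsum_abs_le hW ha hc) hM)
  · have : IsEmpty ι := not_nonempty_iff.mp hι
    simp [wip, wen]

theorem wip_add_left (hW : ∀ i, 0 ≤ W i) {a a' b c : ι → ℝ} (ha : FinE W a) (ha' : FinE W a')
    (hc : FinE W c) {M : ℝ} (hb : ∀ i, |b i| ≤ M) :
    wip W b (fun i => a i + a' i) c = wip W b a c + wip W b a' c := by
  unfold wip
  rw [← (summable_wip hW ha hc hb).tsum_add (summable_wip hW ha' hc hb)]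
  refine tsum_congr fun i => ?_
  ring

theorem wip_smul_left (t : ℝ) {a b c : ι → ℝ} :
    wip W b (fun i => t * a i) c = t * wip W b a c := by
  unfold wip
  rw [← tsum_mul_left]
  refine tsum_congr fun i => ?_
  ring

theorem wip_add_test (hW : ∀ i, 0 ≤ W i) {a b b' c : ι → ℝ} (ha : FinE W a)
    (hc : FinE W c) {M M' : ℝ} (hb : ∀ i, |b i| ≤ M) (hb' : ∀ i, |b' i| ≤ M') :
    wip W (fun i => b i + b' i) a c = wip W b a c + wip W b' a c := by
  unfold wip
  rw [← (summable_wip hW ha hc hb).tsum_add (summable_wip hW ha hc hb')]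
  refine tsum_congr fun i => ?_
  ring

theorem wip_smul_test (t : ℝ) {a b c : ι → ℝ} :
    wip W (fun i => t * b i) a c = t * wip W b a c := by
  unfold wip
  rw [← tsum_mul_left]
  refine tsum_congr fun i => ?_
  ring

theorem wip_symm {a b c : ι → ℝ} : wip W b a c = wip W b c a := by
  unfold wip
  refine tsum_congr fun i => ?_
  ring

theorem wip_one_self {a : ι → ℝ} : wip W (fun _ => 1) a a = wen W a := by
  unfold wip wen
  refine tsum_congr fun i => ?_
  ring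

theorem wip_nonneg (hW : ∀ i, 0 ≤ W i) {a b : ι → ℝ} (hb : ∀ i, 0 ≤ b i) :
    0 ≤ wip W b a a :=
  tsum_nonneg fun i => mul_nonneg (hW i) (mul_nonneg (hb i) (mul_self_nonneg _))


end wsum

end Crest.Agent.R193.AF
end

-- ▼ part R193/InvForm1
section

/-!
R193, block D2 (invariant form), part 1: ultralimits of bounded real sequences and Cesaro
averages over balls of a group with a length function.   (helper508)
-/

set_option autoImplicit false

namespace Crest.Agent.R193.InvForm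

open Filter Topology

/-! ### ultralimits along the hyperfilter of `ℕ` -/

/-- a bounded real sequence -/
def Bdd (x : ℕ → ℝ) : Prop := ∃ C : ℝ, ∀ n, |x n| ≤ C

theorem Bdd.of_le {x : ℕ → ℝ} {C : ℝ} (h : ∀ n, |x n| ≤ C) : Bdd x := ⟨C, h⟩

theorem Bdd.add {x y : ℕ → ℝ} (hx : Bdd x) (hy : Bdd y) : Bdd (fun n => x n + y n) := by
  obtain ⟨C, hC⟩ := hx; obtain ⟨D, hD⟩ := hy
  exact ⟨C + D, fun n => (abs_add_le _ _).trans (add_le_add (hC n) (hD n))⟩

theorem Bdd.sub {x y : ℕ → ℝ} (hx : Bdd x) (hy : Bdd y) : Bdd (fun n => x n - y n) := by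
  obtain ⟨C, hC⟩ := hx; obtain ⟨D, hD⟩ := hy
  exact ⟨C + D, fun n => (abs_sub _ _).trans (add_le_add (hC n) (hD n))⟩

theorem Bdd.const_mul {x : ℕ → ℝ} (c : ℝ) (hx : Bdd x) : Bdd (fun n => c * x n) := by
  obtain ⟨C, hC⟩ := hx
  exact ⟨|c| * C, fun n => by rw [abs_mul]; exact mul_le_mul_of_nonneg_left (hC n) (abs_nonneg _)⟩

theorem Bdd.const (c : ℝ) : Bdd (fun _ => c) := ⟨|c|, fun _ => le_rfl⟩

/-- the ultralimit of a (bounded) real sequence along the hyperfilter -/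
noncomputable def ulim (x : ℕ → ℝ) : ℝ := limUnder (hyperfilter ℕ : Filter ℕ) x

theorem tendsto_ulim {x : ℕ → ℝ} (hx : Bdd x) :
    Tendsto x (hyperfilter ℕ : Filter ℕ) (𝓝 (ulim x)) := by
  obtain ⟨C, hC⟩ := hx
  have hcomp : IsCompact (Metric.closedBall (0 : ℝ) C) := isCompact_closedBall _ _
  have hmem : Metric.closedBall (0 : ℝ) C ∈ (hyperfilter ℕ).map x := by
    rw [Ultrafilter.mem_map]
    filter_upwards with n
    simpa [Real.norm_eq_abs] using hC n
  obtain ⟨a, -, ha⟩ := hcomp.ultrafilter_le_nhds ((hyperfilter ℕ).map x) (by simpa using hmem)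
  have h1 : Tendsto x (hyperfilter ℕ : Filter ℕ) (𝓝 a) := ha
  exact tendsto_nhds_limUnder ⟨a, h1⟩

theorem ulim_eq_of_tendsto {x : ℕ → ℝ} {a : ℝ}
    (h : Tendsto x (hyperfilter ℕ : Filter ℕ) (𝓝 a)) : ulim x = a := h.limUnder_eq

theorem ulim_eq_of_tendsto_atTop {x : ℕ → ℝ} {a : ℝ} (h : Tendsto x atTop (𝓝 a)) :
    ulim x = a :=
  ulim_eq_of_tendsto (h.mono_left (by rw [← Nat.cofinite_eq_atTop]; exact hyperfilter_le_cofinite))


theorem ulim_add {x y : ℕ → ℝ} (hx : Bdd x) (hy : Bdd y) :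
    ulim (fun n => x n + y n) = ulim x + ulim y :=
  ulim_eq_of_tendsto ((tendsto_ulim hx).add (tendsto_ulim hy))

theorem ulim_sub {x y : ℕ → ℝ} (hx : Bdd x) (hy : Bdd y) :
    ulim (fun n => x n - y n) = ulim x - ulim y :=
  ulim_eq_of_tendsto ((tendsto_ulim hx).sub (tendsto_ulim hy))

theorem ulim_const_mul (c : ℝ) {x : ℕ → ℝ} (hx : Bdd x) :
    ulim (fun n => c * x n) = c * ulim x :=
  ulim_eq_of_tendsto ((tendsto_ulim hx).const_mul c)


theorem ulim_nonneg {x : ℕ → ℝ} (hx : Bdd x) (h : ∀ n, 0 ≤ x n) : 0 ≤ ulim x :=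
  ge_of_tendsto' (tendsto_ulim hx) h



/-- two bounded sequences with difference tending to zero have the same ultralimit -/
theorem ulim_congr_of_sub {x y : ℕ → ℝ} (hx : Bdd x) (hy : Bdd y)
    (h : Tendsto (fun n => x n - y n) atTop (𝓝 0)) : ulim x = ulim y := by
  have h1 := ulim_sub hx hy
  rw [ulim_eq_of_tendsto_atTop h] at h1
  linarith



/-! ### Cesaro averages -/












end Crest.Agent.R193.InvForm
end

-- ▼ part R193/AF2
section

/-!
R193, block AF, part 2: Abel-weighted energies on the Cayley graph, admissible sequences,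
the limit bilinear functional `L`, null test functions, the linearisation (chain) rule. (helper555)
-/

set_option autoImplicit false

namespace Crest.Agent.R193.AF

open Filter Topology InvForm

/-- A group with a length function acting on a space `Z`, together with a map `p : G → Z`
("shadow points") which is asymptotically invariant under right multiplication by `st` and
asymptotically equivariant. -/
structure Net (G Z : Type) [Group G] [TopologicalSpace Z] [MulAction G Z] where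
  len : G → ℕ
  len_mul : ∀ g h : G, len (g * h) ≤ len g + len h
  len_inv : ∀ g : G, len g⁻¹ = len g
  fin : ∀ n : ℕ, {g : G | len g ≤ n}.Finite
  st : Finset G
  p : G → Z
  A1 : ∀ s ∈ st, ∀ u : C(Z, ℝ), ∀ ε : ℝ, 0 < ε → ∃ K : ℕ, ∀ h : G, K ≤ len h →
    |u (p h) - u (p (h * s))| ≤ ε
  A2 : ∀ g : G, ∀ u : C(Z, ℝ), ∀ ε : ℝ, 0 < ε → ∃ K : ℕ, ∀ h : G, K ≤ len h →
    |u (g • p h) - u (p (g * h))| ≤ ε
  cont : ∀ g : G, Continuous (fun x : Z => g • x)

/-- the ultrafilter -/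
noncomputable abbrev om : Filter ℕ := (hyperfilter ℕ : Filter ℕ)

theorem om_eventually_of_atTop {P : ℕ → Prop} (h : ∀ᶠ n in atTop, P n) : ∀ᶠ n in om, P n := by
  rw [← Nat.cofinite_eq_atTop] at h
  exact h.filter_mono hyperfilter_le_cofinite

theorem om_ge (K : ℕ) : ∀ᶠ n in om, K ≤ n := om_eventually_of_atTop (eventually_ge_atTop K)

theorem ulim_eq_zero_of_abs_le {x : ℕ → ℝ} (h : ∀ η > 0, ∀ᶠ n in om, |x n| ≤ η) :
    ulim x = 0 := by
  refine ulim_eq_of_tendsto ?_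
  rw [Metric.tendsto_nhds]
  intro ε hε
  filter_upwards [h (ε / 2) (by linarith)] with n hn
  rw [Real.dist_eq, sub_zero]
  linarith

section
variable {G Z : Type} [Group G] [TopologicalSpace Z] [MulAction G Z] (N : Net G Z)

/-- oriented edges of the Cayley graph -/
abbrev Net.I : Type := G × {s : G // s ∈ N.st}

/-- Abel weights -/
noncomputable def Net.W (k : ℕ) (i : N.I) : ℝ :=
  Real.exp (-((N.len i.1 : ℝ) / ((k : ℝ) + 1))) / ((k : ℝ) + 1)

/-- difference along an edge -/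
def Net.dd (f : G → ℝ) (i : N.I) : ℝ := f i.1 - f (i.1 * i.2.1)

variable {N}

theorem Net.W_pos (k : ℕ) (i : N.I) : 0 < N.W k i := by
  unfold Net.W; positivity

theorem Net.W_nonneg (k : ℕ) (i : N.I) : 0 ≤ N.W k i := (N.W_pos k i).le

theorem Net.W_le (k : ℕ) (i : N.I) : N.W k i ≤ 1 / ((k : ℝ) + 1) := by
  unfold Net.W
  refine div_le_div_of_nonneg_right ?_ (by positivity)
  rw [Real.exp_le_one_iff]
  have : 0 ≤ (N.len i.1 : ℝ) / ((k : ℝ) + 1) := by positivity
  linarith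

/-- a bound for the lengths of the steps -/
theorem Net.exists_step_bound (N : Net G Z) : ∃ c : ℕ, ∀ s ∈ N.st, N.len s ≤ c :=
  ⟨N.st.sup N.len, fun _ hs => Finset.le_sup (f := N.len) hs⟩

theorem Net.len_le_mul (N : Net G Z) (g h : G) : N.len g ≤ N.len (g * h) + N.len h := by
  have := N.len_mul (g * h) h⁻¹
  rw [mul_assoc, mul_inv_cancel, mul_one, N.len_inv] at this
  exact this

theorem Net.len_le_mul' (N : Net G Z) (g h : G) : N.len h ≤ N.len (g * h) + N.len g := by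
  have := N.len_mul g⁻¹ (g * h)
  rw [inv_mul_cancel_left, N.len_inv] at this
  omega

/-- admissible sequences of functions on the group: uniformly bounded with bounded energy -/
def Net.Adm (N : Net G Z) (f : ℕ → G → ℝ) : Prop :=
  ∃ C : ℝ, (∀ k h, |f k h| ≤ C) ∧ (∀ k, FinE (N.W k) (N.dd (f k))) ∧
    ∀ k, wen (N.W k) (N.dd (f k)) ≤ C

/-- convergence of a sequence of functions on the group to a function on the boundary -/
def Net.Conv (N : Net G Z) (f : ℕ → G → ℝ) (u : C(Z, ℝ)) : Prop :=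
  ∀ η > 0, ∃ K : ℕ, ∀ᶠ k in om, ∀ h : G, K ≤ N.len h → |f k h - u (N.p h)| ≤ η

/-- bounded test functions -/
def Net.TB (N : Net G Z) (b : ℕ → N.I → ℝ) : Prop := ∃ C : ℝ, ∀ k i, |b k i| ≤ C

/-- null test functions -/
def Net.TN (N : Net G Z) (b : ℕ → N.I → ℝ) : Prop :=
  N.TB b ∧ ∀ η > 0, ∃ K : ℕ, ∀ᶠ k in om, ∀ i : N.I, K ≤ N.len i.1 → |b k i| ≤ η

/-- the limit bilinear functional -/
noncomputable def Net.L (N : Net G Z) (f g : ℕ → G → ℝ) (b : ℕ → N.I → ℝ) : ℝ :=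
  ulim fun k => wip (N.W k) (b k) (N.dd (f k)) (N.dd (g k))

/-- the constant test function -/
def Net.one (N : Net G Z) : ℕ → N.I → ℝ := fun _ _ => 1

theorem Net.TB_one : N.TB N.one := ⟨1, fun k i => by simp [Net.one]⟩

theorem Net.TB.add {b c : ℕ → N.I → ℝ} (hb : N.TB b) (hc : N.TB c) :
    N.TB (fun k i => b k i + c k i) := by
  obtain ⟨C, hC⟩ := hb; obtain ⟨D, hD⟩ := hc
  exact ⟨C + D, fun k i => (abs_add_le _ _).trans (add_le_add (hC k i) (hD k i))⟩

theorem Net.TB.mul {b c : ℕ → N.I → ℝ} (hb : N.TB b) (hc : N.TB c) :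
    N.TB (fun k i => b k i * c k i) := by
  obtain ⟨C, hC⟩ := hb; obtain ⟨D, hD⟩ := hc
  refine ⟨|C| * |D|, fun k i => ?_⟩
  rw [abs_mul]
  exact mul_le_mul ((hC k i).trans (le_abs_self _)) ((hD k i).trans (le_abs_self _))
    (abs_nonneg _) (abs_nonneg _)

theorem Net.TB.smul {b : ℕ → N.I → ℝ} (t : ℝ) (hb : N.TB b) :
    N.TB (fun k i => t * b k i) := by
  obtain ⟨C, hC⟩ := hb
  refine ⟨|t| * |C|, fun k i => ?_⟩
  rw [abs_mul]
  exact mul_le_mul_of_nonneg_left ((hC k i).trans (le_abs_self _)) (abs_nonneg _)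

theorem Net.TB.exists_pos {b : ℕ → N.I → ℝ} (hb : N.TB b) : ∃ C > 0, ∀ k i, |b k i| ≤ C := by
  obtain ⟨C, hC⟩ := hb
  exact ⟨|C| + 1, by positivity, fun k i => (hC k i).trans ((le_abs_self C).trans (by linarith))⟩

theorem Net.Adm.exists_pos {f : ℕ → G → ℝ} (hf : N.Adm f) :
    ∃ C > 0, (∀ k h, |f k h| ≤ C) ∧ (∀ k, FinE (N.W k) (N.dd (f k))) ∧
      ∀ k, wen (N.W k) (N.dd (f k)) ≤ C := by
  obtain ⟨C, h1, h2, h3⟩ := hf
  exact ⟨|C| + 1, by positivity, fun k h => (h1 k h).trans ((le_abs_self C).trans (by linarith)),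
    h2, fun k => (h3 k).trans ((le_abs_self C).trans (by linarith))⟩

theorem Net.Adm.fin {f : ℕ → G → ℝ} (hf : N.Adm f) (k : ℕ) : FinE (N.W k) (N.dd (f k)) := by
  obtain ⟨C, h1, h2, h3⟩ := hf
  exact h2 k

theorem Net.dd_add (f g : G → ℝ) : N.dd (fun h => f h + g h) = fun i => N.dd f i + N.dd g i := by
  funext i; simp only [Net.dd]; ring

theorem Net.dd_smul (t : ℝ) (f : G → ℝ) : N.dd (fun h => t * f h) = fun i => t * N.dd f i := by
  funext i; simp only [Net.dd]; ring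

theorem Net.Adm.add {f g : ℕ → G → ℝ} (hf : N.Adm f) (hg : N.Adm g) :
    N.Adm (fun k h => f k h + g k h) := by
  obtain ⟨C, hC0, h1, h2, h3⟩ := hf.exists_pos
  obtain ⟨D, hD0, g1, g2, g3⟩ := hg.exists_pos
  refine ⟨2 * C + 2 * D, fun k h => ?_, fun k => ?_, fun k => ?_⟩
  · exact (abs_add_le _ _).trans (by linarith [h1 k h, g1 k h])
  · rw [Net.dd_add]; exact (h2 k).add (N.W_nonneg k) (g2 k)
  · rw [Net.dd_add]
    exact (wen_add_le (N.W_nonneg k) (h2 k) (g2 k)).trans (by linarith [h3 k, g3 k])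

theorem Net.Adm.smul {f : ℕ → G → ℝ} (t : ℝ) (hf : N.Adm f) :
    N.Adm (fun k h => t * f k h) := by
  obtain ⟨C, hC0, h1, h2, h3⟩ := hf.exists_pos
  refine ⟨|t| * C + t ^ 2 * C, fun k h => ?_, fun k => ?_, fun k => ?_⟩
  · rw [abs_mul]
    have := mul_le_mul_of_nonneg_left (h1 k h) (abs_nonneg t)
    nlinarith [sq_nonneg t, mul_nonneg (sq_nonneg t) hC0.le]
  · rw [Net.dd_smul]; exact (h2 k).smul t
  · rw [Net.dd_smul, wen_smul]
    have := mul_le_mul_of_nonneg_left (h3 k) (sq_nonneg t)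
    nlinarith [abs_nonneg t, mul_nonneg (abs_nonneg t) hC0.le]

theorem Net.Adm.neg {f : ℕ → G → ℝ} (hf : N.Adm f) : N.Adm (fun k h => - f k h) := by
  have := hf.smul (-1)
  simpa using this

theorem Net.Adm.sub {f g : ℕ → G → ℝ} (hf : N.Adm f) (hg : N.Adm g) :
    N.Adm (fun k h => f k h - g k h) := by
  have := hf.add hg.neg
  simpa [sub_eq_add_neg] using this

/-- the functional is bounded along the sequence -/
theorem Net.bdd_wip {f g : ℕ → G → ℝ} {b : ℕ → N.I → ℝ} (hf : N.Adm f) (hg : N.Adm g)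
    (hb : N.TB b) : Bdd fun k => wip (N.W k) (b k) (N.dd (f k)) (N.dd (g k)) := by
  obtain ⟨C, hC0, h1, h2, h3⟩ := hf.exists_pos
  obtain ⟨D, hD0, g1, g2, g3⟩ := hg.exists_pos
  obtain ⟨M, hM0, hM⟩ := hb.exists_pos
  refine ⟨M * (Real.sqrt C * Real.sqrt D), fun k => ?_⟩
  refine (abs_wip_le (N.W_nonneg k) (h2 k) (g2 k) (hM k)).trans ?_
  exact mul_le_mul_of_nonneg_left (mul_le_mul (Real.sqrt_le_sqrt (h3 k)) (Real.sqrt_le_sqrt (g3 k))
    (Real.sqrt_nonneg _) (Real.sqrt_nonneg _)) hM0.le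

theorem Net.tendsto_L {f g : ℕ → G → ℝ} {b : ℕ → N.I → ℝ} (hf : N.Adm f) (hg : N.Adm g)
    (hb : N.TB b) :
    Tendsto (fun k => wip (N.W k) (b k) (N.dd (f k)) (N.dd (g k))) om (𝓝 (N.L f g b)) :=
  tendsto_ulim (Net.bdd_wip hf hg hb)

theorem Net.L_symm {f g : ℕ → G → ℝ} {b : ℕ → N.I → ℝ} : N.L f g b = N.L g f b := by
  unfold Net.L
  congr 1
  funext k
  exact wip_symm

theorem Net.L_add_left {f f' g : ℕ → G → ℝ} {b : ℕ → N.I → ℝ} (hf : N.Adm f) (hf' : N.Adm f')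
    (hg : N.Adm g) (hb : N.TB b) :
    N.L (fun k h => f k h + f' k h) g b = N.L f g b + N.L f' g b := by
  unfold Net.L
  rw [← ulim_add (Net.bdd_wip hf hg hb) (Net.bdd_wip hf' hg hb)]
  congr 1
  funext k
  obtain ⟨M, hM⟩ := hb
  rw [Net.dd_add]
  exact wip_add_left (N.W_nonneg k) (hf.fin k) (hf'.fin k) (hg.fin k) (hM k)

theorem Net.L_smul_left {f g : ℕ → G → ℝ} {b : ℕ → N.I → ℝ} (t : ℝ) (hf : N.Adm f)
    (hg : N.Adm g) (hb : N.TB b) :
    N.L (fun k h => t * f k h) g b = t * N.L f g b := by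
  unfold Net.L
  rw [← ulim_const_mul t (Net.bdd_wip hf hg hb)]
  congr 1
  funext k
  rw [Net.dd_smul]
  exact wip_smul_left t

theorem Net.L_sub_left {f f' g : ℕ → G → ℝ} {b : ℕ → N.I → ℝ} (hf : N.Adm f) (hf' : N.Adm f')
    (hg : N.Adm g) (hb : N.TB b) :
    N.L (fun k h => f k h - f' k h) g b = N.L f g b - N.L f' g b := by
  have h1 := Net.L_add_left hf (hf'.smul (-1)) hg hb
  rw [Net.L_smul_left (-1) hf' hg hb] at h1
  have h2 : (fun k h => f k h + -1 * f' k h) = fun k h => f k h - f' k h := by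
    funext k h; ring
  rw [h2] at h1
  linarith

theorem Net.L_add_right {f g g' : ℕ → G → ℝ} {b : ℕ → N.I → ℝ} (hf : N.Adm f) (hg : N.Adm g)
    (hg' : N.Adm g') (hb : N.TB b) :
    N.L f (fun k h => g k h + g' k h) b = N.L f g b + N.L f g' b := by
  rw [Net.L_symm, Net.L_add_left hg hg' hf hb, Net.L_symm, Net.L_symm (f := g')]

theorem Net.L_smul_right {f g : ℕ → G → ℝ} {b : ℕ → N.I → ℝ} (t : ℝ) (hf : N.Adm f)
    (hg : N.Adm g) (hb : N.TB b) :
    N.L f (fun k h => t * g k h) b = t * N.L f g b := by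
  rw [Net.L_symm, Net.L_smul_left t hg hf hb, Net.L_symm]


theorem Net.L_add_test {f g : ℕ → G → ℝ} {b c : ℕ → N.I → ℝ} (hf : N.Adm f) (hg : N.Adm g)
    (hb : N.TB b) (hc : N.TB c) :
    N.L f g (fun k i => b k i + c k i) = N.L f g b + N.L f g c := by
  unfold Net.L
  rw [← ulim_add (Net.bdd_wip hf hg hb) (Net.bdd_wip hf hg hc)]
  congr 1
  funext k
  obtain ⟨M, hM⟩ := hb
  obtain ⟨M', hM'⟩ := hc
  exact wip_add_test (N.W_nonneg k) (hf.fin k) (hg.fin k) (hM k) (hM' k)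

theorem Net.L_smul_test {f g : ℕ → G → ℝ} {b : ℕ → N.I → ℝ} (t : ℝ) (hf : N.Adm f)
    (hg : N.Adm g) (hb : N.TB b) :
    N.L f g (fun k i => t * b k i) = t * N.L f g b := by
  unfold Net.L
  rw [← ulim_const_mul t (Net.bdd_wip hf hg hb)]
  congr 1
  funext k
  exact wip_smul_test t

theorem Net.L_nonneg {f : ℕ → G → ℝ} {b : ℕ → N.I → ℝ} (hf : N.Adm f) (hb : N.TB b)
    (h0 : ∀ k i, 0 ≤ b k i) : 0 ≤ N.L f f b :=
  ulim_nonneg (Net.bdd_wip hf hf hb) fun k => wip_nonneg (N.W_nonneg k) (h0 k)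

theorem Net.tendsto_wen {f : ℕ → G → ℝ} (hf : N.Adm f) :
    Tendsto (fun k => wen (N.W k) (N.dd (f k))) om (𝓝 (N.L f f N.one)) := by
  have := Net.tendsto_L hf hf Net.TB_one
  refine this.congr fun k => ?_
  exact wip_one_self

/-- Cauchy-Schwarz -/
theorem Net.abs_L_le {f g : ℕ → G → ℝ} {b : ℕ → N.I → ℝ} {M : ℝ} (hf : N.Adm f) (hg : N.Adm g)
    (hb : ∀ k i, |b k i| ≤ M) :
    |N.L f g b| ≤ M * (Real.sqrt (N.L f f N.one) * Real.sqrt (N.L g g N.one)) := by
  have h1 := (Net.tendsto_L hf hg ⟨M, hb⟩).abs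
  have h2 := ((Real.continuous_sqrt.tendsto _).comp (Net.tendsto_wen hf)).mul
    ((Real.continuous_sqrt.tendsto _).comp (Net.tendsto_wen hg))
  have h3 := h2.const_mul M
  refine le_of_tendsto_of_tendsto' h1 h3 fun k => ?_
  exact abs_wip_le (N.W_nonneg k) (hf.fin k) (hg.fin k) (hb k)

/-- a differences sum supported in a ball is negligible -/
theorem Net.finite_I (N : Net G Z) (K : ℕ) : {i : N.I | N.len i.1 < K}.Finite := by
  have h1 : ({g : G | N.len g ≤ K} ×ˢ (Set.univ : Set {s : G // s ∈ N.st})).Finite :=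
    (N.fin K).prod Set.finite_univ
  refine h1.subset fun i hi => ?_
  simp only [Set.mem_prod, Set.mem_ofPred_eq, Set.mem_univ, and_true]
  exact le_of_lt hi

/-- Main estimate for remainders: if `|c i| ≤ β i * (|dd f i| * |dd g i|)` with `β` null, the
weighted sums of `c` tend to `0`. -/
theorem Net.ulim_rem {f g : ℕ → G → ℝ} (hf : N.Adm f) (hg : N.Adm g) {β c : ℕ → N.I → ℝ}
    (hβ : N.TN β) (hc : ∀ k i, |c k i| ≤ |β k i| * (|N.dd (f k) i| * |N.dd (g k) i|)) :
    ∀ η > 0, ∀ᶠ k in om, |∑' i, N.W k i * c k i| ≤ η := by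
  classical
  intro η hη
  obtain ⟨C, hC0, h1, h2, h3⟩ := hf.exists_pos
  obtain ⟨D, hD0, g1, g2, g3⟩ := hg.exists_pos
  obtain ⟨B, hB0, hB⟩ := hβ.1.exists_pos
  set E := Real.sqrt C * Real.sqrt D with hE
  have hE0 : 0 < E := mul_pos (Real.sqrt_pos.mpr hC0) (Real.sqrt_pos.mpr hD0)
  obtain ⟨K, hK⟩ := hβ.2 (η / (2 * E)) (by positivity)
  set F := (N.finite_I K).toFinset with hF
  have hdf : ∀ k i, |N.dd (f k) i| ≤ 2 * C := fun k i => by
    unfold Net.dd
    exact (abs_sub _ _).trans (by linarith [h1 k i.1, h1 k (i.1 * i.2.1)])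
  have hdg : ∀ k i, |N.dd (g k) i| ≤ 2 * D := fun k i => by
    unfold Net.dd
    exact (abs_sub _ _).trans (by linarith [g1 k i.1, g1 k (i.1 * i.2.1)])
  -- size of the finite part
  set A := (F.card : ℝ) * (B * ((2 * C) * (2 * D))) with hA
  have hA0 : 0 ≤ A := by positivity
  obtain ⟨k0, hk0⟩ := exists_nat_gt (A / (η / 2))
  filter_upwards [hK, om_ge k0] with k hk hkk
  have hsum : Summable fun i => N.W k i * (|N.dd (f k) i| * |N.dd (g k) i|) :=
    summable_abs (N.W_nonneg k) (h2 k) (g2 k)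
  have hle : ∀ i, |N.W k i * c k i| ≤
      (if i ∈ F then N.W k i * (B * ((2 * C) * (2 * D))) else 0) +
      (η / (2 * E)) * (N.W k i * (|N.dd (f k) i| * |N.dd (g k) i|)) := by
    intro i
    rw [abs_mul, abs_of_nonneg (N.W_nonneg k i)]
    have hP : 0 ≤ |N.dd (f k) i| * |N.dd (g k) i| := mul_nonneg (abs_nonneg _) (abs_nonneg _)
    by_cases hi : i ∈ F
    · rw [if_pos hi]
      have h5 : |c k i| ≤ B * ((2 * C) * (2 * D)) := by
        refine (hc k i).trans ?_
        exact mul_le_mul (hB k i) (mul_le_mul (hdf k i) (hdg k i) (abs_nonneg _) (by positivity))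
          hP hB0.le
      have h6 := mul_le_mul_of_nonneg_left h5 (N.W_nonneg k i)
      have h7 : 0 ≤ (η / (2 * E)) * (N.W k i * (|N.dd (f k) i| * |N.dd (g k) i|)) :=
        mul_nonneg (by positivity) (mul_nonneg (N.W_nonneg k i) hP)
      linarith
    · rw [if_neg hi, zero_add]
      have hi' : K ≤ N.len i.1 := by
        by_contra hcon
        exact hi (by rw [hF]; simpa using hcon)
      have h5 : |c k i| ≤ (η / (2 * E)) * (|N.dd (f k) i| * |N.dd (g k) i|) :=
        (hc k i).trans (mul_le_mul_of_nonneg_right (hk i hi') hP)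
      have h6 := mul_le_mul_of_nonneg_left h5 (N.W_nonneg k i)
      linarith
  have hs1 : Summable fun i : N.I => (if i ∈ F then N.W k i * (B * ((2 * C) * (2 * D))) else 0) :=
    summable_of_ne_finset_zero (s := F) fun i hi => by rw [if_neg hi]
  have hs2 : Summable fun i => (η / (2 * E)) * (N.W k i * (|N.dd (f k) i| * |N.dd (g k) i|)) :=
    hsum.mul_left _
  have h8 : |∑' i, N.W k i * c k i| ≤ ∑' i, ((if i ∈ F then N.W k i * (B * ((2 * C) * (2 * D))) else 0) +
      (η / (2 * E)) * (N.W k i * (|N.dd (f k) i| * |N.dd (g k) i|))) := by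
    rw [← Real.norm_eq_abs]
    exact tsum_of_norm_bounded (hs1.add hs2).hasSum fun i => by
      rw [Real.norm_eq_abs]; exact hle i
  rw [hs1.tsum_add hs2, tsum_mul_left] at h8
  have h9 : ∑' i, N.W k i * (|N.dd (f k) i| * |N.dd (g k) i|) ≤ E := by
    refine (tsum_abs_le (N.W_nonneg k) (h2 k) (g2 k)).trans ?_
    exact mul_le_mul (Real.sqrt_le_sqrt (h3 k)) (Real.sqrt_le_sqrt (g3 k))
      (Real.sqrt_nonneg _) (Real.sqrt_nonneg _)
  have h10 : (η / (2 * E)) * ∑' i, N.W k i * (|N.dd (f k) i| * |N.dd (g k) i|) ≤ η / 2 := by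
    refine (mul_le_mul_of_nonneg_left h9 (by positivity)).trans (le_of_eq ?_)
    field_simp
  have h11 : ∑' i : N.I, (if i ∈ F then N.W k i * (B * ((2 * C) * (2 * D))) else 0) ≤ η / 2 := by
    rw [tsum_eq_sum (s := F) fun i hi => by rw [if_neg hi]]
    have : ∑ i ∈ F, (if i ∈ F then N.W k i * (B * ((2 * C) * (2 * D))) else 0)
        ≤ ∑ i ∈ F, 1 / ((k : ℝ) + 1) * (B * ((2 * C) * (2 * D))) := by
      refine Finset.sum_le_sum fun i hi => ?_
      rw [if_pos hi]
      exact mul_le_mul_of_nonneg_right (N.W_le k i) (by positivity)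
    refine this.trans ?_
    rw [Finset.sum_const, nsmul_eq_mul]
    have hk1 : A / (η / 2) < (k : ℝ) + 1 := by
      have : (k0 : ℝ) ≤ k := by exact_mod_cast hkk
      linarith
    have hkp : (0 : ℝ) < (k : ℝ) + 1 := by positivity
    rw [div_lt_iff₀ (by linarith)] at hk1
    have : (F.card : ℝ) * (1 / ((k : ℝ) + 1) * (B * ((2 * C) * (2 * D)))) = A / ((k : ℝ) + 1) := by
      rw [hA]; ring
    rw [this, div_le_iff₀ hkp]
    nlinarith
  linarith

/-- null test functions do not contribute -/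
theorem Net.L_null {f g : ℕ → G → ℝ} (hf : N.Adm f) (hg : N.Adm g) {b : ℕ → N.I → ℝ}
    (hb : N.TN b) : N.L f g b = 0 := by
  refine ulim_eq_zero_of_abs_le fun η hη => ?_
  have := Net.ulim_rem hf hg (c := fun k i => b k i * (N.dd (f k) i * N.dd (g k) i)) hb
    (fun k i => by rw [abs_mul, abs_mul]) η hη
  exact this

/-- test functions with null difference give the same functional -/
theorem Net.L_congr_test {f g : ℕ → G → ℝ} (hf : N.Adm f) (hg : N.Adm g) {b c : ℕ → N.I → ℝ}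
    (hb : N.TB b) (hc : N.TB c) (h : N.TN (fun k i => b k i - c k i)) : N.L f g b = N.L f g c := by
  have h1 := Net.L_null hf hg h
  have h2 : (fun k i => b k i - c k i) = fun k i => b k i + (-1) * c k i := by
    funext k i; ring
  rw [h2, Net.L_add_test hf hg hb (hc.smul (-1)), Net.L_smul_test (-1) hf hg hc] at h1
  linarith

/-- LINEARISATION: if `dd F = a * dd f + b * dd g + r` with `|r| ≤ β (|dd f| + |dd g|)`, `β` null,
then `L F w c = L f w (c a) + L g w (c b)`. -/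
theorem Net.L_lin {F f g w : ℕ → G → ℝ} (hF : N.Adm F) (hf : N.Adm f) (hg : N.Adm g)
    (hw : N.Adm w) {a b c β : ℕ → N.I → ℝ} (ha : N.TB a) (hb : N.TB b) (hc : N.TB c)
    (hβ : N.TN β)
    (h : ∀ k i, |N.dd (F k) i - (a k i * N.dd (f k) i + b k i * N.dd (g k) i)| ≤
      |β k i| * (|N.dd (f k) i| + |N.dd (g k) i|)) :
    N.L F w c = N.L f w (fun k i => c k i * a k i) + N.L g w (fun k i => c k i * b k i) := by
  obtain ⟨M, hM0, hM⟩ := hc.exists_pos
  have hca := hc.mul ha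
  have hcb := hc.mul hb
  have key : ulim (fun k => wip (N.W k) (c k) (N.dd (F k)) (N.dd (w k)) -
      (wip (N.W k) (fun i => c k i * a k i) (N.dd (f k)) (N.dd (w k)) +
        wip (N.W k) (fun i => c k i * b k i) (N.dd (g k)) (N.dd (w k)))) = 0 := by
    refine ulim_eq_zero_of_abs_le fun η hη => ?_
    -- split the remainder in two parts
    have hr1 := Net.ulim_rem hf hw (β := fun k i => M * β k i)
      (c := fun k i => M * (|β k i| * (|N.dd (f k) i| * |N.dd (w k) i|)))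
      ⟨hβ.1.smul M, fun η hη => by
        obtain ⟨K, hK⟩ := hβ.2 (η / M) (by positivity)
        refine ⟨K, hK.mono fun k hk i hi => ?_⟩
        rw [abs_mul, abs_of_pos hM0]
        have := hk i hi
        rw [le_div_iff₀ hM0] at this
        linarith⟩
      (fun k i => by
        rw [abs_mul, abs_mul, abs_mul M (β k i), abs_abs, abs_mul, abs_abs, abs_abs]
        exact le_of_eq (by ring)) (η / 2) (by linarith)
    have hr2 := Net.ulim_rem hg hw (β := fun k i => M * β k i)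
      (c := fun k i => M * (|β k i| * (|N.dd (g k) i| * |N.dd (w k) i|)))
      ⟨hβ.1.smul M, fun η hη => by
        obtain ⟨K, hK⟩ := hβ.2 (η / M) (by positivity)
        refine ⟨K, hK.mono fun k hk i hi => ?_⟩
        rw [abs_mul, abs_of_pos hM0]
        have := hk i hi
        rw [le_div_iff₀ hM0] at this
        linarith⟩
      (fun k i => by
        rw [abs_mul, abs_mul, abs_mul M (β k i), abs_abs, abs_mul, abs_abs, abs_abs]
        exact le_of_eq (by ring)) (η / 2) (by linarith)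
    filter_upwards [hr1, hr2] with k hk1 hk2
    obtain ⟨B, hB0, hB⟩ := hβ.1.exists_pos
    obtain ⟨Ma, hMa⟩ := hca
    obtain ⟨Mb, hMb⟩ := hcb
    have s0 := summable_wip (N.W_nonneg k) (hF.fin k) (hw.fin k) (hM k)
    have s1 := summable_wip (N.W_nonneg k) (hf.fin k) (hw.fin k) (hMa k)
    have s2 := summable_wip (N.W_nonneg k) (hg.fin k) (hw.fin k) (hMb k)
    have t1 : Summable fun i => N.W k i * (M * (|β k i| * (|N.dd (f k) i| * |N.dd (w k) i|))) := by
      refine Summable.of_nonneg_of_le (fun i => ?_) (fun i => ?_)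
        ((summable_abs (N.W_nonneg k) (hf.fin k) (hw.fin k)).mul_left (M * B))
      · have := N.W_nonneg k i
        positivity
      · have h1 : 0 ≤ N.W k i * (|N.dd (f k) i| * |N.dd (w k) i|) :=
          mul_nonneg (N.W_nonneg k i) (by positivity)
        have h2 := mul_le_mul_of_nonneg_right (hB k i) h1
        have h3 := mul_le_mul_of_nonneg_left h2 hM0.le
        linarith
    have t2 : Summable fun i => N.W k i * (M * (|β k i| * (|N.dd (g k) i| * |N.dd (w k) i|))) := by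
      refine Summable.of_nonneg_of_le (fun i => ?_) (fun i => ?_)
        ((summable_abs (N.W_nonneg k) (hg.fin k) (hw.fin k)).mul_left (M * B))
      · have := N.W_nonneg k i
        positivity
      · have h1 : 0 ≤ N.W k i * (|N.dd (g k) i| * |N.dd (w k) i|) :=
          mul_nonneg (N.W_nonneg k i) (by positivity)
        have h2 := mul_le_mul_of_nonneg_right (hB k i) h1
        have h3 := mul_le_mul_of_nonneg_left h2 hM0.le
        linarith
    unfold wip
    rw [← s1.tsum_add s2, ← s0.tsum_sub (s1.add s2)]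
    have h8 : |∑' i, (N.W k i * (c k i * (N.dd (F k) i * N.dd (w k) i)) -
        (N.W k i * (c k i * a k i * (N.dd (f k) i * N.dd (w k) i)) +
          N.W k i * (c k i * b k i * (N.dd (g k) i * N.dd (w k) i))))| ≤
        ∑' i, (N.W k i * (M * (|β k i| * (|N.dd (f k) i| * |N.dd (w k) i|))) +
          N.W k i * (M * (|β k i| * (|N.dd (g k) i| * |N.dd (w k) i|)))) := by
      rw [← Real.norm_eq_abs]
      refine tsum_of_norm_bounded (t1.add t2).hasSum fun i => ?_
      rw [Real.norm_eq_abs]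
      have e1 : N.W k i * (c k i * (N.dd (F k) i * N.dd (w k) i)) -
        (N.W k i * (c k i * a k i * (N.dd (f k) i * N.dd (w k) i)) +
          N.W k i * (c k i * b k i * (N.dd (g k) i * N.dd (w k) i))) =
          N.W k i * (c k i * ((N.dd (F k) i - (a k i * N.dd (f k) i + b k i * N.dd (g k) i)) *
            N.dd (w k) i)) := by ring
      rw [e1, abs_mul, abs_mul, abs_mul, abs_of_nonneg (N.W_nonneg k i), ← mul_add]
      refine mul_le_mul_of_nonneg_left ?_ (N.W_nonneg k i)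
      have h9 := mul_le_mul_of_nonneg_right (h k i) (abs_nonneg (N.dd (w k) i))
      have h10 := mul_le_mul (hM k i) h9 (by positivity) hM0.le
      refine h10.trans (le_of_eq ?_)
      ring
    rw [t1.tsum_add t2] at h8
    have h11 := (abs_le.mp hk1).2
    have h12 := (abs_le.mp hk2).2
    linarith
  have hb1 := Net.bdd_wip hF hw hc
  have hb2 := Net.bdd_wip hf hw hca
  have hb3 := Net.bdd_wip hg hw hcb
  rw [ulim_sub hb1 (hb2.add hb3), ulim_add hb2 hb3] at key
  unfold Net.L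
  linarith

end

end Crest.Agent.R193.AF
end

-- ▼ part R193/AF3
section

/-!
R193, block AF, part 3: convergence, composition with smooth functions, optimal sequences.
(helper555)
-/

set_option autoImplicit false

namespace Crest.Agent.R193.AF

open Filter Topology InvForm

section
variable {G Z : Type} [Group G] [TopologicalSpace Z] [MulAction G Z] {N : Net G Z}

/-- null sequences -/
def Net.Nul (N : Net G Z) (w : ℕ → G → ℝ) : Prop :=
  N.Adm w ∧ ∀ η > 0, ∃ K : ℕ, ∀ᶠ k in om, ∀ h : G, K ≤ N.len h → |w k h| ≤ η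

/-- optimal sequences -/
def Net.Opt (N : Net G Z) (f : ℕ → G → ℝ) (u : C(Z, ℝ)) : Prop :=
  N.Adm f ∧ N.Conv f u ∧ ∀ w, N.Nul w → N.L f w N.one = 0

/-- test function given by a sequence of functions on the group -/
def Net.tf (N : Net G Z) (a : ℕ → G → ℝ) : ℕ → N.I → ℝ := fun k i => a k i.1

/-- test function given by a function on the boundary -/
def Net.tz (N : Net G Z) (φ : C(Z, ℝ)) : ℕ → N.I → ℝ := fun _ i => φ (N.p i.1)

theorem Net.Adm.TB_tf {a : ℕ → G → ℝ} (ha : N.Adm a) : N.TB (N.tf a) := by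
  obtain ⟨C, h1, h2, h3⟩ := ha
  exact ⟨C, fun k i => h1 k i.1⟩

theorem Net.Nul.TN_tf {w : ℕ → G → ℝ} (hw : N.Nul w) : N.TN (N.tf w) := by
  refine ⟨hw.1.TB_tf, fun η hη => ?_⟩
  obtain ⟨K, hK⟩ := hw.2 η hη
  exact ⟨K, hK.mono fun k hk i hi => hk i.1 hi⟩

theorem Net.TB_tz [CompactSpace Z] (φ : C(Z, ℝ)) : N.TB (N.tz φ) :=
  ⟨‖φ‖, fun _ i => φ.norm_coe_le_norm (N.p i.1)⟩

theorem Net.Conv.add {f g : ℕ → G → ℝ} {u v : C(Z, ℝ)} (hf : N.Conv f u) (hg : N.Conv g v) :
    N.Conv (fun k h => f k h + g k h) (u + v) := by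
  intro η hη
  obtain ⟨K, hK⟩ := hf (η / 2) (by linarith)
  obtain ⟨K', hK'⟩ := hg (η / 2) (by linarith)
  refine ⟨max K K', (hK.and hK').mono fun k hk h hh => ?_⟩
  have h1 := hk.1 h (le_trans (le_max_left _ _) hh)
  have h2 := hk.2 h (le_trans (le_max_right _ _) hh)
  rw [ContinuousMap.add_apply]
  have : f k h + g k h - (u (N.p h) + v (N.p h)) = (f k h - u (N.p h)) + (g k h - v (N.p h)) := by
    ring
  rw [this]
  exact (abs_add_le _ _).trans (by linarith)

theorem Net.Conv.smul {f : ℕ → G → ℝ} {u : C(Z, ℝ)} (t : ℝ) (hf : N.Conv f u) :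
    N.Conv (fun k h => t * f k h) (t • u) := by
  intro η hη
  obtain ⟨K, hK⟩ := hf (η / (|t| + 1)) (by positivity)
  refine ⟨K, hK.mono fun k hk h hh => ?_⟩
  have h1 := hk h hh
  rw [ContinuousMap.smul_apply, smul_eq_mul, ← mul_sub, abs_mul]
  rw [le_div_iff₀ (by positivity)] at h1
  nlinarith [abs_nonneg (f k h - u (N.p h)), abs_nonneg t]

theorem Net.Nul.smul {w : ℕ → G → ℝ} (t : ℝ) (hw : N.Nul w) : N.Nul (fun k h => t * w k h) := by
  refine ⟨hw.1.smul t, fun η hη => ?_⟩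
  obtain ⟨K, hK⟩ := hw.2 (η / (|t| + 1)) (by positivity)
  refine ⟨K, hK.mono fun k hk h hh => ?_⟩
  have h1 := hk h hh
  rw [abs_mul]
  rw [le_div_iff₀ (by positivity)] at h1
  nlinarith [abs_nonneg (w k h), abs_nonneg t]

theorem Net.Conv.add_nul {f w : ℕ → G → ℝ} {u : C(Z, ℝ)} (hf : N.Conv f u) (hw : N.Nul w) :
    N.Conv (fun k h => f k h + w k h) u := by
  intro η hη
  obtain ⟨K, hK⟩ := hf (η / 2) (by linarith)
  obtain ⟨K', hK'⟩ := hw.2 (η / 2) (by linarith)
  refine ⟨max K K', (hK.and hK').mono fun k hk h hh => ?_⟩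
  have h1 := hk.1 h (le_trans (le_max_left _ _) hh)
  have h2 := hk.2 h (le_trans (le_max_right _ _) hh)
  have : f k h + w k h - u (N.p h) = (f k h - u (N.p h)) + w k h := by ring
  rw [this]
  exact (abs_add_le _ _).trans (by linarith)

theorem Net.Conv.sub_nul {f g : ℕ → G → ℝ} {u : C(Z, ℝ)} (hf : N.Adm f) (hg : N.Adm g)
    (hfu : N.Conv f u) (hgu : N.Conv g u) : N.Nul (fun k h => f k h - g k h) := by
  refine ⟨hf.sub hg, fun η hη => ?_⟩
  obtain ⟨K, hK⟩ := hfu (η / 2) (by linarith)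
  obtain ⟨K', hK'⟩ := hgu (η / 2) (by linarith)
  refine ⟨max K K', (hK.and hK').mono fun k hk h hh => ?_⟩
  have h1 := hk.1 h (le_trans (le_max_left _ _) hh)
  have h2 := hk.2 h (le_trans (le_max_right _ _) hh)
  have : f k h - g k h = (f k h - u (N.p h)) - (g k h - u (N.p h)) := by ring
  show |f k h - g k h| ≤ η
  rw [this]
  exact (abs_sub _ _).trans (by linarith)

/-- differences along edges of a convergent sequence are null -/
theorem Net.Conv.TN_dd {f : ℕ → G → ℝ} {u : C(Z, ℝ)} (hf : N.Adm f) (hfu : N.Conv f u) :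
    N.TN (fun k i => N.dd (f k) i) := by
  obtain ⟨C, h1, h2, h3⟩ := hf
  refine ⟨⟨2 * C, fun k i => ?_⟩, fun η hη => ?_⟩
  · unfold Net.dd
    exact (abs_sub _ _).trans (by linarith [h1 k i.1, h1 k (i.1 * i.2.1)])
  · obtain ⟨K, hK⟩ := hfu (η / 3) (by linarith)
    obtain ⟨c, hc⟩ := N.exists_step_bound
    choose! K1 hK1 using fun s (hs : s ∈ N.st) => N.A1 s hs u (η / 3) (by linarith)
    refine ⟨max (K + c) (N.st.sup K1), hK.mono fun k hk i hi => ?_⟩
    have hi1 : K + c ≤ N.len i.1 := le_trans (le_max_left _ _) hi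
    have hi2 : K1 i.2.1 ≤ N.len i.1 :=
      le_trans (Finset.le_sup (f := K1) i.2.2) (le_trans (le_max_right _ _) hi)
    have e1 := hk i.1 (by omega)
    have h4 : K ≤ N.len (i.1 * i.2.1) := by
      have := N.len_le_mul i.1 i.2.1
      have := hc i.2.1 i.2.2
      omega
    have e2 := hk _ h4
    have e3 := hK1 i.2.1 i.2.2 i.1 hi2
    show |f k i.1 - f k (i.1 * i.2.1)| ≤ η
    have : f k i.1 - f k (i.1 * i.2.1) = (f k i.1 - u (N.p i.1)) +
      (u (N.p i.1) - u (N.p (i.1 * i.2.1))) - (f k (i.1 * i.2.1) - u (N.p (i.1 * i.2.1))) := by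
      ring
    rw [this]
    refine (abs_sub _ _).trans ?_
    have := abs_add_le (f k i.1 - u (N.p i.1)) (u (N.p i.1) - u (N.p (i.1 * i.2.1)))
    linarith

theorem Net.TN.abs {b : ℕ → N.I → ℝ} (hb : N.TN b) : N.TN (fun k i => |b k i|) := by
  obtain ⟨⟨C, hC⟩, h⟩ := hb
  refine ⟨⟨C, fun k i => by rw [abs_abs]; exact hC k i⟩, fun η hη => ?_⟩
  obtain ⟨K, hK⟩ := h η hη
  exact ⟨K, hK.mono fun k hk i hi => by rw [abs_abs]; exact hk i hi⟩

theorem Net.TN.add {b c : ℕ → N.I → ℝ} (hb : N.TN b) (hc : N.TN c) :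
    N.TN (fun k i => b k i + c k i) := by
  refine ⟨hb.1.add hc.1, fun η hη => ?_⟩
  obtain ⟨K, hK⟩ := hb.2 (η / 2) (by linarith)
  obtain ⟨K', hK'⟩ := hc.2 (η / 2) (by linarith)
  refine ⟨max K K', (hK.and hK').mono fun k hk i hi => ?_⟩
  exact (abs_add_le _ _).trans (by
    linarith [hk.1 i (le_trans (le_max_left _ _) hi), hk.2 i (le_trans (le_max_right _ _) hi)])

theorem Net.TN.smul {b : ℕ → N.I → ℝ} (t : ℝ) (hb : N.TN b) :
    N.TN (fun k i => t * b k i) := by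
  refine ⟨hb.1.smul t, fun η hη => ?_⟩
  obtain ⟨K, hK⟩ := hb.2 (η / (|t| + 1)) (by positivity)
  refine ⟨K, hK.mono fun k hk i hi => ?_⟩
  have h1 := hk i hi
  rw [abs_mul]
  rw [le_div_iff₀ (by positivity)] at h1
  nlinarith [abs_nonneg (b k i), abs_nonneg t]

theorem Net.TN.mul_TB {b c : ℕ → N.I → ℝ} (hb : N.TN b) (hc : N.TB c) :
    N.TN (fun k i => b k i * c k i) := by
  refine ⟨hb.1.mul hc, fun η hη => ?_⟩
  obtain ⟨C, hC0, hC⟩ := hc.exists_pos
  obtain ⟨K, hK⟩ := hb.2 (η / C) (by positivity)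
  refine ⟨K, hK.mono fun k hk i hi => ?_⟩
  have h1 := hk i hi
  rw [le_div_iff₀ hC0] at h1
  rw [abs_mul]
  have := mul_le_mul_of_nonneg_left (hC k i) (abs_nonneg (b k i))
  linarith

/-! ### smooth functions of two variables -/

theorem exists_lip {ψ : ℝ × ℝ → ℝ} (hψ : ContDiff ℝ 1 ψ) (C : ℝ) :
    ∃ Λ > 0, ∀ x y : ℝ × ℝ, ‖x‖ ≤ C → ‖y‖ ≤ C → |ψ x - ψ y| ≤ Λ * ‖x - y‖ := by
  have hc : IsCompact (Metric.closedBall (0 : ℝ × ℝ) C) := isCompact_closedBall _ _
  have hcont : Continuous (fun x => ‖fderiv ℝ ψ x‖) :=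
    (hψ.continuous_fderiv (by norm_num)).norm
  obtain ⟨M, hM⟩ := (hc.image hcont).bddAbove
  refine ⟨|M| + 1, by positivity, fun x y hx hy => ?_⟩
  have h := Convex.norm_image_sub_le_of_norm_fderiv_le (𝕜 := ℝ) (f := ψ) (C := |M| + 1)
    (s := Metric.closedBall (0 : ℝ × ℝ) C) (x := y) (y := x)
    (fun z _ => (hψ.differentiable (by norm_num)) z)
    (fun z hz => (hM ⟨z, hz, rfl⟩).trans ((le_abs_self M).trans (by linarith)))
    (convex_closedBall _ _) (by simpa using hy) (by simpa using hx)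
  simpa [Real.norm_eq_abs] using h

theorem exists_taylor {ψ : ℝ × ℝ → ℝ} (hψ : ContDiff ℝ 2 ψ) (C : ℝ) :
    ∃ Λ > 0, ∀ x y : ℝ × ℝ, ‖x‖ ≤ C → ‖y‖ ≤ C →
      |ψ y - ψ x - fderiv ℝ ψ x (y - x)| ≤ Λ * ‖y - x‖ * ‖y - x‖ := by
  have hd : ContDiff ℝ 1 (fderiv ℝ ψ) := hψ.fderiv_right (by norm_num)
  have hc : IsCompact (Metric.closedBall (0 : ℝ × ℝ) C) := isCompact_closedBall _ _
  have hcont : Continuous (fun x => ‖fderiv ℝ (fderiv ℝ ψ) x‖) :=
    (hd.continuous_fderiv (by norm_num)).norm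
  obtain ⟨M, hM⟩ := (hc.image hcont).bddAbove
  refine ⟨|M| + 1, by positivity, fun x y hx hy => ?_⟩
  have hseg : segment ℝ x y ⊆ Metric.closedBall (0 : ℝ × ℝ) C :=
    (convex_closedBall _ _).segment_subset (by simpa using hx) (by simpa using hy)
  have hbd : ∀ z ∈ segment ℝ x y, ‖fderiv ℝ ψ z - fderiv ℝ ψ x‖ ≤ (|M| + 1) * ‖y - x‖ := by
    intro z hz
    have h := Convex.norm_image_sub_le_of_norm_fderiv_le (𝕜 := ℝ) (f := fderiv ℝ ψ) (C := |M| + 1)
      (s := Metric.closedBall (0 : ℝ × ℝ) C) (x := x) (y := z)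
      (fun z _ => (hd.differentiable (by norm_num)) z)
      (fun z hz => (hM ⟨z, hz, rfl⟩).trans ((le_abs_self M).trans (by linarith)))
      (convex_closedBall _ _) (by simpa using hx) (hseg hz)
    refine h.trans (mul_le_mul_of_nonneg_left ?_ (by positivity))
    have h5 : segment ℝ x y ⊆ Metric.closedBall x ‖y - x‖ :=
      (convex_closedBall _ _).segment_subset (Metric.mem_closedBall_self (norm_nonneg _))
        (by rw [Metric.mem_closedBall, dist_eq_norm])
    have h6 := h5 hz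
    rwa [Metric.mem_closedBall, dist_eq_norm] at h6
  have := Convex.norm_image_sub_le_of_norm_hasFDerivWithin_le' (𝕜 := ℝ) (f := ψ)
    (f' := fderiv ℝ ψ) (φ := fderiv ℝ ψ x) (C := (|M| + 1) * ‖y - x‖) (s := segment ℝ x y)
    (x := x) (y := y)
    (fun z _ => ((hψ.differentiable (by norm_num)) z).hasFDerivAt.hasFDerivWithinAt)
    hbd (convex_segment _ _) (left_mem_segment _ _ _) (right_mem_segment _ _ _)
  rw [Real.norm_eq_abs] at this
  exact this

end

end Crest.Agent.R193.AF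
end

-- ▼ part R193/AF4
section

/-!
R193, block AF, part 4: chain rule at the level of sequences; optimal sequences are stable under
`C²` functions of two variables; independence of the choice of optimal sequences. (helper555)
-/

set_option autoImplicit false

namespace Crest.Agent.R193.AF

open Filter Topology InvForm

section
variable {G Z : Type} [Group G] [TopologicalSpace Z] [MulAction G Z] {N : Net G Z}

theorem norm_pair_le {a b C : ℝ} (ha : |a| ≤ C) (hb : |b| ≤ C) : ‖((a, b) : ℝ × ℝ)‖ ≤ C := by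
  rw [Prod.norm_def]
  exact max_le (by simpa using ha) (by simpa using hb)

theorem norm_pair_le_add (a b : ℝ) : ‖((a, b) : ℝ × ℝ)‖ ≤ |a| + |b| := by
  rw [Prod.norm_def]
  exact max_le (by simp) (by simp)

/-- composition of a function of two variables with two sequences -/
def cmp (ψ : ℝ × ℝ → ℝ) (f g : ℕ → G → ℝ) : ℕ → G → ℝ := fun k h => ψ (f k h, g k h)

theorem FinE.of_le_add {ι : Type} {W : ι → ℝ} (hW : ∀ i, 0 ≤ W i) {a c e : ι → ℝ}
    (ha : FinE W a) (hc : FinE W c) {Λ : ℝ}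
    (h : ∀ i, |e i| ≤ Λ * (|a i| + |c i|)) :
    FinE W e ∧ wen W e ≤ Λ ^ 2 * (2 * wen W a + 2 * wen W c) := by
  have ha' : FinE W (fun i => |a i|) := ha.of_le hW fun i => by rw [abs_abs]
  have hc' : FinE W (fun i => |c i|) := hc.of_le hW fun i => by rw [abs_abs]
  have h1 : FinE W (fun i => Λ * (|a i| + |c i|)) := (ha'.add hW hc').smul Λ
  have h2 : ∀ i, |e i| ≤ |Λ * (|a i| + |c i|)| := fun i => (h i).trans (le_abs_self _)
  refine ⟨h1.of_le hW h2, (wen_le_of_le hW h1 h2).trans ?_⟩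
  rw [wen_smul]
  refine mul_le_mul_of_nonneg_left ?_ (sq_nonneg _)
  refine (wen_add_le hW ha' hc').trans (le_of_eq ?_)
  have e1 : wen W (fun i => |a i|) = wen W a := by unfold wen; simp
  have e2 : wen W (fun i => |c i|) = wen W c := by unfold wen; simp
  rw [e1, e2]

theorem Net.Adm.cmp {ψ : ℝ × ℝ → ℝ} (hψ : ContDiff ℝ 1 ψ) {f g : ℕ → G → ℝ} (hf : N.Adm f)
    (hg : N.Adm g) : N.Adm (cmp ψ f g) := by
  obtain ⟨C, hC0, h1, h2, h3⟩ := hf.exists_pos
  obtain ⟨D, hD0, g1, g2, g3⟩ := hg.exists_pos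
  set R := max C D with hR
  obtain ⟨Λ, hΛ0, hΛ⟩ := exists_lip hψ R
  have hn : ∀ k h, ‖((f k h, g k h) : ℝ × ℝ)‖ ≤ R := fun k h =>
    norm_pair_le ((h1 k h).trans (le_max_left _ _)) ((g1 k h).trans (le_max_right _ _))
  have hdd : ∀ k i, |N.dd (AF.cmp ψ f g k) i| ≤ Λ * (|N.dd (f k) i| + |N.dd (g k) i|) := by
    intro k i
    have := hΛ _ _ (hn k i.1) (hn k (i.1 * i.2.1))
    refine this.trans (mul_le_mul_of_nonneg_left ?_ hΛ0.le)
    exact norm_pair_le_add _ _
  have hR0 : 0 < R := lt_max_of_lt_left hC0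
  refine ⟨(|ψ 0| + Λ * R) + Λ ^ 2 * (2 * C + 2 * D), fun k h => ?_, fun k => ?_, fun k => ?_⟩
  · have h4 := hΛ _ _ (hn k h) (show ‖(0 : ℝ × ℝ)‖ ≤ R by simpa using hR0.le)
    rw [sub_zero] at h4
    have h5 : |ψ (f k h, g k h)| ≤ |ψ 0| + Λ * R := by
      have h6 : |ψ (f k h, g k h)| ≤ |ψ (f k h, g k h) - ψ 0| + |ψ 0| := by
        have := abs_add_le (ψ (f k h, g k h) - ψ 0) (ψ 0)
        simpa using this
      have h7 := mul_le_mul_of_nonneg_left (hn k h) hΛ0.le
      linarith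
    have h8 : 0 ≤ Λ ^ 2 * (2 * C + 2 * D) := by positivity
    exact h5.trans (by linarith)
  · exact (FinE.of_le_add (N.W_nonneg k) (h2 k) (g2 k) (hdd k)).1
  · refine (FinE.of_le_add (N.W_nonneg k) (h2 k) (g2 k) (hdd k)).2.trans ?_
    have h9 : 0 ≤ |ψ 0| + Λ * R := by positivity
    have h10 : Λ ^ 2 * (2 * wen (N.W k) (N.dd (f k)) + 2 * wen (N.W k) (N.dd (g k))) ≤
        Λ ^ 2 * (2 * C + 2 * D) :=
      mul_le_mul_of_nonneg_left (by linarith [h3 k, g3 k]) (sq_nonneg _)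
    linarith

theorem Net.Conv.cmp [CompactSpace Z] {ψ : ℝ × ℝ → ℝ} (hψ : ContDiff ℝ 1 ψ) {f g : ℕ → G → ℝ}
    (hf : N.Adm f) (hg : N.Adm g) {u v w : C(Z, ℝ)} (hfu : N.Conv f u) (hgv : N.Conv g v)
    (hw : ∀ x, w x = ψ (u x, v x)) : N.Conv (cmp ψ f g) w := by
  obtain ⟨C, hC0, h1, h2, h3⟩ := hf.exists_pos
  obtain ⟨D, hD0, g1, g2, g3⟩ := hg.exists_pos
  set R := max (max C D) (max ‖u‖ ‖v‖) with hR
  obtain ⟨Λ, hΛ0, hΛ⟩ := exists_lip hψ R
  have hn : ∀ k h, ‖((f k h, g k h) : ℝ × ℝ)‖ ≤ R := fun k h =>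
    norm_pair_le ((h1 k h).trans ((le_max_left _ _).trans (le_max_left _ _)))
      ((g1 k h).trans ((le_max_right _ _).trans (le_max_left _ _)))
  have hn' : ∀ x, ‖((u x, v x) : ℝ × ℝ)‖ ≤ R := fun x =>
    norm_pair_le ((u.norm_coe_le_norm x).trans ((le_max_left _ _).trans (le_max_right _ _)))
      ((v.norm_coe_le_norm x).trans ((le_max_right _ _).trans (le_max_right _ _)))
  intro η hη
  obtain ⟨K, hK⟩ := hfu (η / (2 * Λ)) (by positivity)
  obtain ⟨K', hK'⟩ := hgv (η / (2 * Λ)) (by positivity)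
  refine ⟨max K K', (hK.and hK').mono fun k hk h hh => ?_⟩
  have e1 := hk.1 h (le_trans (le_max_left _ _) hh)
  have e2 := hk.2 h (le_trans (le_max_right _ _) hh)
  rw [hw]
  refine (hΛ _ _ (hn k h) (hn' _)).trans ?_
  have h3 : ‖((f k h, g k h) : ℝ × ℝ) - (u (N.p h), v (N.p h))‖ ≤ η / (2 * Λ) + η / (2 * Λ) :=
    (norm_pair_le_add _ _).trans (add_le_add e1 e2)
  refine (mul_le_mul_of_nonneg_left h3 hΛ0.le).trans (le_of_eq ?_)
  field_simp
  ring

/-- the chain rule for the limit functional -/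
theorem Net.L_chain {ψ : ℝ × ℝ → ℝ} (hψ : ContDiff ℝ 2 ψ) {f g w : ℕ → G → ℝ}
    (hf : N.Adm f) (hg : N.Adm g) (hw : N.Adm w) {u v : C(Z, ℝ)} (hfu : N.Conv f u)
    (hgv : N.Conv g v) {c : ℕ → N.I → ℝ} (hc : N.TB c) :
    N.L (cmp ψ f g) w c =
      N.L f w (fun k i => c k i * N.tf (cmp (fun x => fderiv ℝ ψ x (1, 0)) f g) k i) +
      N.L g w (fun k i => c k i * N.tf (cmp (fun x => fderiv ℝ ψ x (0, 1)) f g) k i) := by
  have hψ1 : ContDiff ℝ 1 ψ := hψ.of_le (by norm_num)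
  have hd : ContDiff ℝ 1 (fderiv ℝ ψ) := hψ.fderiv_right (by norm_num)
  have hd1 : ContDiff ℝ 1 (fun x => fderiv ℝ ψ x (1, 0)) := hd.clm_apply contDiff_const
  have hd2 : ContDiff ℝ 1 (fun x => fderiv ℝ ψ x (0, 1)) := hd.clm_apply contDiff_const
  have hA := Net.Adm.cmp hd1 hf hg
  have hB := Net.Adm.cmp hd2 hf hg
  obtain ⟨C, hC0, h1, h2, h3⟩ := hf.exists_pos
  obtain ⟨D, hD0, g1, g2, g3⟩ := hg.exists_pos
  set R := max C D with hR
  obtain ⟨Λ, hΛ0, hΛ⟩ := exists_taylor hψ R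
  have hn : ∀ k h, ‖((f k h, g k h) : ℝ × ℝ)‖ ≤ R := fun k h =>
    norm_pair_le ((h1 k h).trans (le_max_left _ _)) ((g1 k h).trans (le_max_right _ _))
  have hβ : N.TN (fun k i => Λ * (|N.dd (f k) i| + |N.dd (g k) i|)) :=
    ((hfu.TN_dd hf).abs.add (hgv.TN_dd hg).abs).smul Λ
  refine Net.L_lin (Net.Adm.cmp hψ1 hf hg) hf hg hw hA.TB_tf hB.TB_tf hc hβ fun k i => ?_
  set x : ℝ × ℝ := (f k i.1, g k i.1) with hx
  set y : ℝ × ℝ := (f k (i.1 * i.2.1), g k (i.1 * i.2.1)) with hy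
  have ht := hΛ x y (hn k i.1) (hn k (i.1 * i.2.1))
  have hyx : y - x = (-(N.dd (f k) i)) • ((1, 0) : ℝ × ℝ) + (-(N.dd (g k) i)) • ((0, 1) : ℝ × ℝ) := by
    simp only [hx, hy, Net.dd, Prod.mk_sub_mk, Prod.smul_mk, smul_eq_mul, mul_one, mul_zero,
      Prod.mk_add_mk, add_zero, zero_add]
    congr 1 <;> ring
  have hnorm : ‖y - x‖ ≤ |N.dd (f k) i| + |N.dd (g k) i| := by
    have e : y - x = (-(N.dd (f k) i), -(N.dd (g k) i)) := by
      simp only [hx, hy, Net.dd, Prod.mk_sub_mk]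
      congr 1 <;> ring
    rw [e]
    refine (norm_pair_le_add _ _).trans ?_
    rw [abs_neg, abs_neg]
  have e2 : fderiv ℝ ψ x (y - x) = -(N.dd (f k) i) * fderiv ℝ ψ x (1, 0) +
      -(N.dd (g k) i) * fderiv ℝ ψ x (0, 1) := by
    rw [hyx, map_add, map_smul, map_smul, smul_eq_mul, smul_eq_mul]
  have e3 : N.dd (cmp ψ f g k) i - (N.tf (cmp (fun x => fderiv ℝ ψ x (1, 0)) f g) k i * N.dd (f k) i +
      N.tf (cmp (fun x => fderiv ℝ ψ x (0, 1)) f g) k i * N.dd (g k) i) =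
      -(ψ y - ψ x - fderiv ℝ ψ x (y - x)) := by
    rw [e2]
    simp only [Net.tf, cmp, Net.dd, hx, hy]
    ring
  rw [e3, abs_neg]
  refine ht.trans ?_
  rw [abs_of_nonneg (by positivity : 0 ≤ Λ * (|N.dd (f k) i| + |N.dd (g k) i|))]
  have h5 : 0 ≤ |N.dd (f k) i| + |N.dd (g k) i| := by positivity
  have h6 := mul_le_mul_of_nonneg_left hnorm hΛ0.le
  exact mul_le_mul h6 hnorm (norm_nonneg _) (by positivity)

/-- the Leibniz rule -/
theorem Net.L_mul {f g w : ℕ → G → ℝ} (hf : N.Adm f) (hg : N.Adm g) (hw : N.Adm w)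
    {u v : C(Z, ℝ)} (hfu : N.Conv f u) (hgv : N.Conv g v) {c : ℕ → N.I → ℝ} (hc : N.TB c) :
    N.L (fun k h => f k h * g k h) w c =
      N.L f w (fun k i => c k i * N.tf g k i) + N.L g w (fun k i => c k i * N.tf f k i) := by
  have hψ : ContDiff ℝ 2 (fun x : ℝ × ℝ => x.1 * x.2) := contDiff_fst.mul contDiff_snd
  have h := Net.L_chain (N := N) hψ hf hg hw hfu hgv hc
  have hfd : ∀ x : ℝ × ℝ, HasFDerivAt (fun x : ℝ × ℝ => x.1 * x.2)
      (x.1 • ContinuousLinearMap.snd ℝ ℝ ℝ + x.2 • ContinuousLinearMap.fst ℝ ℝ ℝ) x := fun x =>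
    (hasFDerivAt_fst).mul (hasFDerivAt_snd)
  have e1 : cmp (fun x => fderiv ℝ (fun x : ℝ × ℝ => x.1 * x.2) x (1, 0)) f g = g := by
    funext k h
    simp only [cmp]
    rw [(hfd _).fderiv]
    simp
  have e2 : cmp (fun x => fderiv ℝ (fun x : ℝ × ℝ => x.1 * x.2) x (0, 1)) f g = f := by
    funext k h
    simp only [cmp]
    rw [(hfd _).fderiv]
    simp
  rw [e1, e2] at h
  exact h

theorem Net.Adm.mul {f g : ℕ → G → ℝ} (hf : N.Adm f) (hg : N.Adm g) :
    N.Adm (fun k h => f k h * g k h) :=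
  Net.Adm.cmp (ψ := fun x : ℝ × ℝ => x.1 * x.2) (contDiff_fst.mul contDiff_snd) hf hg

theorem Net.Nul.mul_left {a w : ℕ → G → ℝ} (ha : N.Adm a) (hw : N.Nul w) :
    N.Nul (fun k h => a k h * w k h) := by
  refine ⟨ha.mul hw.1, fun η hη => ?_⟩
  obtain ⟨C, hC0, h1, h2, h3⟩ := ha.exists_pos
  obtain ⟨K, hK⟩ := hw.2 (η / C) (by positivity)
  refine ⟨K, hK.mono fun k hk h hh => ?_⟩
  have e1 := hk h hh
  rw [le_div_iff₀ hC0] at e1
  rw [abs_mul]
  have := mul_le_mul_of_nonneg_right (h1 k h) (abs_nonneg (w k h))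
  linarith

theorem Net.Nul.conv {w : ℕ → G → ℝ} (hw : N.Nul w) : N.Conv w 0 := by
  intro η hη
  obtain ⟨K, hK⟩ := hw.2 η hη
  exact ⟨K, hK.mono fun k hk h hh => by simpa using hk h hh⟩

/-- an optimal sequence is orthogonal to null sequences also with coefficients of finite energy -/
theorem Net.Opt.L_nul_coef {f a w : ℕ → G → ℝ} {u v : C(Z, ℝ)} (hf : N.Opt f u) (ha : N.Adm a)
    (hav : N.Conv a v) (hw : N.Nul w) : N.L f w (N.tf a) = 0 := by
  have h1 := hf.2.2 _ (hw.mul_left ha)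
  have h2 := Net.L_mul ha hw.1 hf.1 hav hw.conv (c := N.one) Net.TB_one
  have e1 : (fun k i => N.one k i * N.tf w k i) = N.tf w := by funext k i; simp [Net.one]
  have e2 : (fun k i => N.one k i * N.tf a k i) = N.tf a := by funext k i; simp [Net.one]
  rw [e1, e2, Net.L_symm] at h2
  rw [h1] at h2
  have h3 : N.L a f (N.tf w) = 0 := Net.L_null ha hf.1 hw.TN_tf
  rw [h3, zero_add] at h2
  rw [Net.L_symm]
  exact h2.symm

/-- optimal sequences are stable under `C²` functions -/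
theorem Net.Opt.cmp [CompactSpace Z] {ψ : ℝ × ℝ → ℝ} (hψ : ContDiff ℝ 2 ψ) {f g : ℕ → G → ℝ}
    {u v w : C(Z, ℝ)} (hf : N.Opt f u) (hg : N.Opt g v) (hw : ∀ x, w x = ψ (u x, v x)) :
    N.Opt (AF.cmp ψ f g) w := by
  have hψ1 : ContDiff ℝ 1 ψ := hψ.of_le (by norm_num)
  have hd : ContDiff ℝ 1 (fderiv ℝ ψ) := hψ.fderiv_right (by norm_num)
  have hd1 : ContDiff ℝ 1 (fun x => fderiv ℝ ψ x (1, 0)) := hd.clm_apply contDiff_const
  have hd2 : ContDiff ℝ 1 (fun x => fderiv ℝ ψ x (0, 1)) := hd.clm_apply contDiff_const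
  have hA := Net.Adm.cmp hd1 hf.1 hg.1
  have hB := Net.Adm.cmp hd2 hf.1 hg.1
  have cA : N.Conv (AF.cmp (fun x => fderiv ℝ ψ x (1, 0)) f g)
      ⟨fun x => fderiv ℝ ψ (u x, v x) (1, 0),
        hd1.continuous.comp (u.continuous.prodMk v.continuous)⟩ :=
    Net.Conv.cmp hd1 hf.1 hg.1 hf.2.1 hg.2.1 fun x => rfl
  have cB : N.Conv (AF.cmp (fun x => fderiv ℝ ψ x (0, 1)) f g)
      ⟨fun x => fderiv ℝ ψ (u x, v x) (0, 1),
        hd2.continuous.comp (u.continuous.prodMk v.continuous)⟩ :=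
    Net.Conv.cmp hd2 hf.1 hg.1 hf.2.1 hg.2.1 fun x => rfl
  refine ⟨Net.Adm.cmp hψ1 hf.1 hg.1, Net.Conv.cmp hψ1 hf.1 hg.1 hf.2.1 hg.2.1 hw,
    fun w hw => ?_⟩
  rw [Net.L_chain hψ hf.1 hg.1 hw.1 hf.2.1 hg.2.1 Net.TB_one]
  have e1 : (fun k i => N.one k i * N.tf (AF.cmp (fun x => fderiv ℝ ψ x (1, 0)) f g) k i) =
      N.tf (AF.cmp (fun x => fderiv ℝ ψ x (1, 0)) f g) := by funext k i; simp [Net.one]
  have e2 : (fun k i => N.one k i * N.tf (AF.cmp (fun x => fderiv ℝ ψ x (0, 1)) f g) k i) =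
      N.tf (AF.cmp (fun x => fderiv ℝ ψ x (0, 1)) f g) := by funext k i; simp [Net.one]
  rw [e1, e2, hf.L_nul_coef hA cA hw, hg.L_nul_coef hB cB hw, add_zero]

theorem Net.Opt.add {f g : ℕ → G → ℝ} {u v : C(Z, ℝ)} (hf : N.Opt f u) (hg : N.Opt g v) :
    N.Opt (fun k h => f k h + g k h) (u + v) :=
  ⟨hf.1.add hg.1, hf.2.1.add hg.2.1, fun w hw => by
    rw [Net.L_add_left hf.1 hg.1 hw.1 Net.TB_one, hf.2.2 w hw, hg.2.2 w hw, add_zero]⟩

theorem Net.Opt.smul {f : ℕ → G → ℝ} {u : C(Z, ℝ)} (t : ℝ) (hf : N.Opt f u) :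
    N.Opt (fun k h => t * f k h) (t • u) :=
  ⟨hf.1.smul t, hf.2.1.smul t, fun w hw => by
    rw [Net.L_smul_left t hf.1 hw.1 Net.TB_one, hf.2.2 w hw, mul_zero]⟩

/-- zero-energy differences do not change the functional -/
theorem Net.L_eq_of_energy_zero {f f' g : ℕ → G → ℝ} (hf : N.Adm f) (hf' : N.Adm f')
    (hg : N.Adm g) (h : N.L (fun k h => f k h - f' k h) (fun k h => f k h - f' k h) N.one = 0)
    {b : ℕ → N.I → ℝ} (hb : N.TB b) : N.L f g b = N.L f' g b := by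
  obtain ⟨M, hM⟩ := hb
  have h1 := Net.abs_L_le (hf.sub hf') hg hM
  rw [h, Real.sqrt_zero, zero_mul, mul_zero, Net.L_sub_left hf hf' hg ⟨M, hM⟩] at h1
  have := abs_nonpos_iff.mp h1
  linarith

/-- independence of the optimal sequence -/
theorem Net.Opt.L_congr {f f' g : ℕ → G → ℝ} {u : C(Z, ℝ)} (hf : N.Opt f u) (hf' : N.Opt f' u)
    (hg : N.Adm g) {b : ℕ → N.I → ℝ} (hb : N.TB b) : N.L f g b = N.L f' g b := by
  refine Net.L_eq_of_energy_zero hf.1 hf'.1 hg ?_ hb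
  have hn := Net.Conv.sub_nul hf.1 hf'.1 hf.2.1 hf'.2.1
  rw [Net.L_sub_left hf.1 hf'.1 hn.1 Net.TB_one, hf.2.2 _ hn, hf'.2.2 _ hn, sub_zero]

end

end Crest.Agent.R193.AF
end

-- ▼ part R193/AF5
section

/-!
R193, block AF, part 5: finite modifications, diagonal sequences, existence of optimal sequences,
closedness and weak continuity. (helper555)
-/

set_option autoImplicit false

namespace Crest.Agent.R193.AF

open Filter Topology InvForm

/-- DIAGONAL LEMMA along the hyperfilter. -/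
theorem exists_diag {X : Type} (x0 : X) (P : ℕ → ℕ → X → Prop)
    (hmono : ∀ j k x, P (j + 1) k x → P j k x) (hP : ∀ j, ∀ᶠ k in om, ∃ x, P j k x) :
    ∃ x : ℕ → X, (∀ j, ∀ᶠ k in om, P j k (x k)) ∧ ∀ k, x k = x0 ∨ P 0 k (x k) := by
  classical
  have hmono' : ∀ j m k x, j ≤ m → P m k x → P j k x := by
    intro j m k x hjm
    induction m, hjm using Nat.le_induction with
    | base => exact id
    | succ m _ ih => exact fun h => ih (hmono m k x h)
  let m : ℕ → ℕ := fun k => Nat.findGreatest (fun j => ∃ x, P j k x) k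
  let x : ℕ → X := fun k => if h : ∃ x, P (m k) k x then h.choose else x0
  refine ⟨x, fun j => ?_, fun k => ?_⟩
  · filter_upwards [hP j, om_ge j] with k hk hjk
    have h1 : ∃ x, P (m k) k x := Nat.findGreatest_spec (P := fun j => ∃ x, P j k x) hjk hk
    have h2 : j ≤ m k := Nat.le_findGreatest hjk hk
    have h3 : x k = h1.choose := dif_pos h1
    rw [h3]
    exact hmono' j (m k) k _ h2 h1.choose_spec
  · by_cases h : ∃ x, P (m k) k x
    · right
      have h3 : x k = h.choose := dif_pos h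
      rw [h3]
      exact hmono' 0 (m k) k _ (Nat.zero_le _) h.choose_spec
    · left
      exact dif_neg h

section
variable {G Z : Type} [Group G] [TopologicalSpace Z] [MulAction G Z] {N : Net G Z}

/-- sequences supported in a fixed ball are admissible and have zero energy in the limit -/
theorem Net.ball_supported {e : ℕ → G → ℝ} {C : ℝ} (hC : ∀ k h, |e k h| ≤ C) {K : ℕ}
    (hK : ∀ k h, K ≤ N.len h → e k h = 0) : N.Adm e ∧ N.L e e N.one = 0 := by
  classical
  obtain ⟨c, hc⟩ := N.exists_step_bound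
  have h0 : ∀ k (i : N.I), K + c ≤ N.len i.1 → N.dd (e k) i = 0 := by
    intro k i hi
    unfold Net.dd
    have h1 := N.len_le_mul i.1 i.2.1
    have h2 := hc i.2.1 i.2.2
    rw [hK k i.1 (by omega), hK k _ (by omega), sub_zero]
  set F := (N.finite_I (K + c)).toFinset with hF
  have hC0 : 0 ≤ C := (abs_nonneg _).trans (hC 0 1)
  have hdd : ∀ k i, |N.dd (e k) i| ≤ 2 * C := fun k i => by
    unfold Net.dd
    exact (abs_sub _ _).trans (by linarith [hC k i.1, hC k (i.1 * i.2.1)])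
  have hout : ∀ k (i : N.I), i ∉ F → N.W k i * (N.dd (e k) i) ^ 2 = 0 := by
    intro k i hi
    rw [h0 k i (by
      by_contra hcon
      exact hi (by rw [hF]; simpa using hcon))]
    ring
  have hadm : N.Adm e := by
    refine ⟨C + F.card * (2 * C) ^ 2, fun k h => (hC k h).trans ?_, fun k => ?_, fun k => ?_⟩
    · have : 0 ≤ (F.card : ℝ) * (2 * C) ^ 2 := by positivity
      linarith
    · exact summable_of_ne_finset_zero (s := F) fun i hi => hout k i hi
    · unfold wen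
      rw [tsum_eq_sum (s := F) fun i hi => hout k i hi]
      have h1 : ∑ i ∈ F, N.W k i * (N.dd (e k) i) ^ 2 ≤ ∑ i ∈ F, (2 * C) ^ 2 := by
        refine Finset.sum_le_sum fun i _ => ?_
        have h2 : N.W k i ≤ 1 := by
          refine (N.W_le k i).trans ?_
          rw [div_le_one (by positivity)]
          have : (0 : ℝ) ≤ k := Nat.cast_nonneg k
          linarith
        have h3 : (N.dd (e k) i) ^ 2 ≤ (2 * C) ^ 2 := by
          rw [← sq_abs]
          exact pow_le_pow_left₀ (abs_nonneg _) (hdd k i) 2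
        have := mul_le_mul h2 h3 (sq_nonneg _) zero_le_one
        linarith
      rw [Finset.sum_const, nsmul_eq_mul] at h1
      linarith
  refine ⟨hadm, ?_⟩
  have hβ : N.TN (fun _ i => if N.len i.1 < K + c then (1 : ℝ) else 0) := by
    refine ⟨⟨1, fun k i => by dsimp only; split_ifs <;> simp⟩, fun η hη => ⟨K + c, ?_⟩⟩
    refine Eventually.of_forall fun k i hi => ?_
    dsimp only
    rw [if_neg (by omega)]
    simpa using hη.le
  have h1 := Net.L_null hadm hadm hβ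
  rw [← h1]
  unfold Net.L
  congr 1
  funext k
  unfold wip
  refine tsum_congr fun i => ?_
  dsimp only
  by_cases hi : N.len i.1 < K + c
  · rw [if_pos hi]; rfl
  · rw [h0 k i (by omega)]; simp

/-- modification on a ball: uniform closeness to the boundary function -/
theorem Net.modify [CompactSpace Z] {f : ℕ → G → ℝ} {u : C(Z, ℝ)} (hf : N.Adm f)
    (hfu : N.Conv f u) {η : ℝ} (hη : 0 < η) :
    ∃ f' : ℕ → G → ℝ, N.Adm f' ∧ (∀ᶠ k in om, ∀ h, |f' k h - u (N.p h)| ≤ η) ∧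
      (∀ g, N.Adm g → ∀ b, N.TB b → N.L f' g b = N.L f g b) := by
  classical
  obtain ⟨C, hC0, h1, h2, h3⟩ := hf.exists_pos
  obtain ⟨K, hK⟩ := hfu η hη
  set e : ℕ → G → ℝ := fun k h => if N.len h < K then u (N.p h) - f k h else 0 with he
  have hb := Net.ball_supported (N := N) (e := e) (C := ‖u‖ + C) (K := K)
    (fun k h => by
      simp only [he]
      split_ifs
      · exact (abs_sub _ _).trans (add_le_add (u.norm_coe_le_norm _) (h1 k h))
      · rw [abs_zero]; positivity)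
    (fun k h hh => by simp only [he]; rw [if_neg (by omega)])
  refine ⟨fun k h => f k h + e k h, hf.add hb.1, ?_, fun g hg b hb' => ?_⟩
  · refine hK.mono fun k hk h => ?_
    simp only [he]
    split_ifs with hh
    · simpa using hη.le
    · rw [add_zero]; exact hk h (by omega)
  · refine Net.L_eq_of_energy_zero (hf.add hb.1) hf hg ?_ hb'
    have : (fun k h => f k h + e k h - f k h) = e := by funext k h; ring
    rw [this]
    exact hb.2

/-- the domain of the limit form -/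
def Net.Dom (N : Net G Z) : Set C(Z, ℝ) := {u | ∃ f, N.Adm f ∧ N.Conv f u}

/-- EXISTENCE of optimal sequences -/
theorem Net.exists_opt [CompactSpace Z] {u : C(Z, ℝ)} (hu : u ∈ N.Dom) : ∃ f, N.Opt f u := by
  set S : Set ℝ := {e | ∃ f, N.Adm f ∧ N.Conv f u ∧ e = N.L f f N.one} with hS
  have hne : S.Nonempty := by
    obtain ⟨f, hf, hfu⟩ := hu
    exact ⟨_, f, hf, hfu, rfl⟩
  have hbdd : BddBelow S := ⟨0, fun e ⟨f, hf, _, he⟩ => by
    rw [he]; exact Net.L_nonneg hf Net.TB_one fun k i => by simp [Net.one]⟩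
  set m := sInf S with hm
  have hm0 : 0 ≤ m := le_csInf hne fun e ⟨f, hf, _, he⟩ => by
    rw [he]; exact Net.L_nonneg hf Net.TB_one fun k i => by simp [Net.one]
  let P : ℕ → ℕ → (G → ℝ) → Prop := fun j k x => (∀ h, |x h - u (N.p h)| ≤ 1 / ((j : ℝ) + 1)) ∧
    FinE (N.W k) (N.dd x) ∧ wen (N.W k) (N.dd x) ≤ m + 2 / ((j : ℝ) + 1)
  have hmono : ∀ j k x, P (j + 1) k x → P j k x := by
    intro j k x ⟨a1, a2, a3⟩
    have h1 : 1 / (((j + 1 : ℕ) : ℝ) + 1) ≤ 1 / ((j : ℝ) + 1) := by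
      push_cast
      exact one_div_le_one_div_of_le (by positivity) (by linarith)
    have h2 : 2 / (((j + 1 : ℕ) : ℝ) + 1) ≤ 2 / ((j : ℝ) + 1) := by
      have e1 : 2 / (((j + 1 : ℕ) : ℝ) + 1) = 2 * (1 / (((j + 1 : ℕ) : ℝ) + 1)) := by ring
      have e2 : 2 / ((j : ℝ) + 1) = 2 * (1 / ((j : ℝ) + 1)) := by ring
      rw [e1, e2]
      linarith
    exact ⟨fun h => (a1 h).trans h1, a2, a3.trans (by linarith)⟩
  have hP : ∀ j, ∀ᶠ k in om, ∃ x, P j k x := by
    intro j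
    have hjp : (0 : ℝ) < 1 / ((j : ℝ) + 1) := by positivity
    obtain ⟨e, ⟨f, hf, hfu, rfl⟩, he⟩ := exists_lt_of_csInf_lt hne
      (show sInf S < m + 1 / ((j : ℝ) + 1) by linarith)
    obtain ⟨f', hf', hclose, hL⟩ := Net.modify hf hfu hjp
    have hE : N.L f' f' N.one < m + 1 / ((j : ℝ) + 1) := by
      rw [hL f' hf' _ Net.TB_one, Net.L_symm, hL f hf _ Net.TB_one]
      exact he
    have ht := (Net.tendsto_wen hf').eventually (gt_mem_nhds hE)
    filter_upwards [hclose, ht] with k hk1 hk2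
    refine ⟨f' k, hk1, hf'.fin k, hk2.le.trans ?_⟩
    have : 2 / ((j : ℝ) + 1) = 2 * (1 / ((j : ℝ) + 1)) := by ring
    rw [this]
    linarith
  obtain ⟨f, hf1, hf2⟩ := exists_diag (fun _ => (0 : ℝ)) P hmono hP
  have hfin0 : ∀ k, FinE (N.W k) (N.dd (fun _ : G => (0 : ℝ))) := fun k => by
    unfold FinE Net.dd
    simp only [sub_self]
    have : (fun i : N.I => N.W k i * (0 : ℝ) ^ 2) = fun _ => 0 := by funext i; ring
    rw [this]
    exact summable_zero
  have hwen0 : ∀ k, wen (N.W k) (N.dd (fun _ : G => (0 : ℝ))) = 0 := fun k => by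
    unfold wen Net.dd
    simp
  have hadm : N.Adm f := by
    refine ⟨(‖u‖ + 1) + (m + 2), fun k h => ?_, fun k => ?_, fun k => ?_⟩
    · rcases hf2 k with h0 | ⟨a1, a2, a3⟩
      · rw [h0, abs_zero]; positivity
      · have e1 := a1 h
        have e2 := u.norm_coe_le_norm (N.p h)
        rw [Real.norm_eq_abs] at e2
        have e3 : |f k h| ≤ |f k h - u (N.p h)| + |u (N.p h)| := by
          have := abs_add_le (f k h - u (N.p h)) (u (N.p h))
          simpa using this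
        norm_num at e1
        linarith
    · rcases hf2 k with h0 | ⟨a1, a2, a3⟩
      · rw [h0]; exact hfin0 k
      · exact a2
    · rcases hf2 k with h0 | ⟨a1, a2, a3⟩
      · rw [h0, hwen0 k]; positivity
      · norm_num at a3
        linarith [norm_nonneg u]
  have hconv : N.Conv f u := by
    intro η hη
    obtain ⟨j, hj⟩ := exists_nat_one_div_lt hη
    exact ⟨0, (hf1 j).mono fun k hk h _ => (hk.1 h).trans hj.le⟩
  have hLle : N.L f f N.one ≤ m := by
    refine le_of_forall_pos_le_add fun η hη => ?_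
    obtain ⟨j, hj⟩ := exists_nat_one_div_lt (show 0 < η / 2 by linarith)
    refine le_of_tendsto (Net.tendsto_wen hadm) ((hf1 j).mono fun k hk => hk.2.2.trans ?_)
    have : 2 / ((j : ℝ) + 1) = 2 * (1 / ((j : ℝ) + 1)) := by ring
    rw [this]
    linarith
  refine ⟨f, hadm, hconv, fun w hw => ?_⟩
  set A := N.L f w N.one with hA
  set B := N.L w w N.one with hB
  have key : ∀ t : ℝ, 0 ≤ 2 * t * A + t ^ 2 * B := by
    intro t
    have hw' := hw.smul t
    have h1 : N.L (fun k h => f k h + t * w k h) (fun k h => f k h + t * w k h) N.one ∈ S :=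
      ⟨_, hadm.add hw'.1, hconv.add_nul hw', rfl⟩
    have h2 := csInf_le hbdd h1
    rw [Net.L_add_left hadm hw'.1 (hadm.add hw'.1) Net.TB_one,
      Net.L_add_right hadm hadm hw'.1 Net.TB_one, Net.L_add_right hw'.1 hadm hw'.1 Net.TB_one,
      Net.L_smul_left t hw.1 hadm Net.TB_one, Net.L_smul_right t hadm hw.1 Net.TB_one,
      Net.L_smul_left t hw.1 hw'.1 Net.TB_one, Net.L_smul_right t hw.1 hw.1 Net.TB_one,
      Net.L_symm (f := w) (g := f)] at h2
    have h3 : m ≤ N.L f f N.one + t * A + (t * A + t * (t * B)) := h2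
    nlinarith
  have hB0 : 0 ≤ B := Net.L_nonneg hw.1 Net.TB_one fun k i => by simp [Net.one]
  -- choose t = -A / (B+1)
  have h4 := key (-A / (B + 1))
  have hB1 : 0 < B + 1 := by linarith
  have h5 : 2 * (-A / (B + 1)) * A + (-A / (B + 1)) ^ 2 * B = -(A ^ 2 * (B + 2) / (B + 1) ^ 2) := by
    field_simp
    ring
  rw [h5] at h4
  have h6 : 0 ≤ A ^ 2 * (B + 2) / (B + 1) ^ 2 := by positivity
  have h7 : A ^ 2 * (B + 2) / (B + 1) ^ 2 = 0 := by linarith
  have h8 : A ^ 2 * (B + 2) = 0 := by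
    rcases div_eq_zero_iff.mp h7 with h | h
    · exact h
    · exfalso; have : 0 < (B + 1) ^ 2 := by positivity
      linarith
  have h9 : A ^ 2 = 0 := by
    rcases mul_eq_zero.mp h8 with h | h
    · exact h
    · exfalso; linarith
  exact pow_eq_zero_iff (two_ne_zero) |>.mp h9

end

end Crest.Agent.R193.AF
end

-- ▼ part R193/AF6
section

/-!
R193, block AF, part 6: the limit form `Gam`, chain rule, closedness and weak continuity.
(helper555)
-/

set_option autoImplicit false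

namespace Crest.Agent.R193.AF

open Filter Topology InvForm

section
variable {G Z : Type} [Group G] [TopologicalSpace Z] [MulAction G Z] {N : Net G Z}

open Classical in
/-- a chosen optimal sequence -/
noncomputable def Net.opt [CompactSpace Z] (N : Net G Z) (u : C(Z, ℝ)) : ℕ → G → ℝ :=
  if h : u ∈ N.Dom then (Net.exists_opt h).choose else fun _ _ => 0

theorem Net.opt_spec [CompactSpace Z] {u : C(Z, ℝ)} (hu : u ∈ N.Dom) : N.Opt (N.opt u) u := by
  unfold Net.opt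
  rw [dif_pos hu]
  exact (Net.exists_opt hu).choose_spec

theorem Net.Opt.mem {f : ℕ → G → ℝ} {u : C(Z, ℝ)} (hf : N.Opt f u) : u ∈ N.Dom :=
  ⟨f, hf.1, hf.2.1⟩

/-- the limit form -/
noncomputable def Net.Gam [CompactSpace Z] (N : Net G Z) (u v φ : C(Z, ℝ)) : ℝ :=
  N.L (N.opt u) (N.opt v) (N.tz φ)

theorem Net.Gam_eq [CompactSpace Z] {f g : ℕ → G → ℝ} {u v : C(Z, ℝ)} (hf : N.Opt f u)
    (hg : N.Opt g v) (φ : C(Z, ℝ)) : N.Gam u v φ = N.L f g (N.tz φ) := by
  unfold Net.Gam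
  have hu := Net.opt_spec hf.mem
  have hv := Net.opt_spec hg.mem
  rw [hu.L_congr hf hv.1 (Net.TB_tz φ), Net.L_symm, hv.L_congr hg hf.1 (Net.TB_tz φ), Net.L_symm]

theorem Net.tz_one : N.tz (1 : C(Z, ℝ)) = N.one := by
  funext k i
  simp [Net.tz, Net.one]

/-- minimality of optimal sequences -/
theorem Net.Opt.le {f g : ℕ → G → ℝ} {u : C(Z, ℝ)} (hf : N.Opt f u) (hg : N.Adm g)
    (hgu : N.Conv g u) : N.L f f N.one ≤ N.L g g N.one := by
  have hn := Net.Conv.sub_nul hg hf.1 hgu hf.2.1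
  have h1 : N.L g g N.one = N.L f f N.one +
      N.L (fun k h => g k h - f k h) (fun k h => g k h - f k h) N.one := by
    have e : g = fun k h => f k h + (g k h - f k h) := by funext k h; ring
    have h2 : N.L g g N.one = N.L (fun k h => f k h + (g k h - f k h))
        (fun k h => f k h + (g k h - f k h)) N.one := by rw [← e]
    have hs1 : N.L f (fun k h => g k h - f k h) N.one = 0 := hf.2.2 _ hn
    have hs2 : N.L (fun k h => g k h - f k h) f N.one = 0 := by
      rw [Net.L_symm]; exact hf.2.2 _ hn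
    rw [h2, Net.L_add_left hf.1 hn.1 (hf.1.add hn.1) Net.TB_one,
      Net.L_add_right hf.1 hf.1 hn.1 Net.TB_one, Net.L_add_right hn.1 hf.1 hn.1 Net.TB_one,
      hs1, hs2]
    ring
  have h3 : 0 ≤ N.L (fun k h => g k h - f k h) (fun k h => g k h - f k h) N.one :=
    Net.L_nonneg hn.1 Net.TB_one fun k i => by simp [Net.one]
  linarith

theorem Net.Gam_self_le [CompactSpace Z] {g : ℕ → G → ℝ} {u : C(Z, ℝ)} (hg : N.Adm g)
    (hgu : N.Conv g u) : N.Gam u u 1 ≤ N.L g g N.one := by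
  have hf := Net.opt_spec (N := N) (u := u) ⟨g, hg, hgu⟩
  rw [Net.Gam_eq hf hf, Net.tz_one]
  exact hf.le hg hgu

theorem Net.const_opt (c : ℝ) : N.Opt (fun _ _ => c) (ContinuousMap.const Z c) := by
  have h0 : ∀ k, N.dd ((fun (_ : ℕ) (_ : G) => c) k) = fun _ => 0 := fun k => by
    funext i; simp [Net.dd]
  have hadm : N.Adm (fun _ _ => c) := by
    refine ⟨|c|, fun k h => le_refl _, fun k => ?_, fun k => ?_⟩
    · rw [h0 k]
      unfold FinE
      have : (fun i : N.I => N.W k i * (0 : ℝ) ^ 2) = fun _ => 0 := by funext i; ring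
      rw [this]
      exact summable_zero
    · rw [h0 k]
      unfold wen
      simp
  refine ⟨hadm, fun η hη => ⟨0, Eventually.of_forall fun k h _ => by simpa using hη.le⟩,
    fun w hw => ?_⟩
  unfold Net.L
  refine ulim_eq_zero_of_abs_le fun η hη => Eventually.of_forall fun k => ?_
  rw [h0 k]
  unfold wip
  simpa using hη.le

theorem Net.const_mem (c : ℝ) : ContinuousMap.const Z c ∈ N.Dom := (Net.const_opt c).mem

theorem Net.add_mem {u v : C(Z, ℝ)} (hu : u ∈ N.Dom) (hv : v ∈ N.Dom) : u + v ∈ N.Dom := by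
  obtain ⟨f, hf, hfu⟩ := hu
  obtain ⟨g, hg, hgv⟩ := hv
  exact ⟨_, hf.add hg, hfu.add hgv⟩

theorem Net.smul_mem (t : ℝ) {u : C(Z, ℝ)} (hu : u ∈ N.Dom) : t • u ∈ N.Dom := by
  obtain ⟨f, hf, hfu⟩ := hu
  exact ⟨_, hf.smul t, hfu.smul t⟩

theorem Net.sub_mem {u v : C(Z, ℝ)} (hu : u ∈ N.Dom) (hv : v ∈ N.Dom) : u - v ∈ N.Dom := by
  have h := Net.add_mem hu (Net.smul_mem (-1) hv)
  have e : u + (-1 : ℝ) • v = u - v := by ext x; simp [sub_eq_add_neg]
  rwa [e] at h

theorem Net.comp_mem [CompactSpace Z] {ψ : ℝ × ℝ → ℝ} (hψ : ContDiff ℝ 1 ψ) {u v w : C(Z, ℝ)}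
    (hu : u ∈ N.Dom) (hv : v ∈ N.Dom) (hw : ∀ x, w x = ψ (u x, v x)) : w ∈ N.Dom := by
  obtain ⟨f, hf, hfu⟩ := hu
  obtain ⟨g, hg, hgv⟩ := hv
  exact ⟨_, hf.cmp hψ hg, Net.Conv.cmp hψ hf hg hfu hgv hw⟩

theorem Net.mul_mem [CompactSpace Z] {u v : C(Z, ℝ)} (hu : u ∈ N.Dom) (hv : v ∈ N.Dom) :
    u * v ∈ N.Dom :=
  Net.comp_mem (ψ := fun x : ℝ × ℝ => x.1 * x.2) (contDiff_fst.mul contDiff_snd) hu hv
    fun _ => rfl

theorem Net.Gam_symm [CompactSpace Z] (u v φ : C(Z, ℝ)) : N.Gam u v φ = N.Gam v u φ := Net.L_symm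

theorem Net.Gam_add_left [CompactSpace Z] {u u' v : C(Z, ℝ)} (hu : u ∈ N.Dom) (hu' : u' ∈ N.Dom)
    (hv : v ∈ N.Dom) (φ : C(Z, ℝ)) : N.Gam (u + u') v φ = N.Gam u v φ + N.Gam u' v φ := by
  have a := Net.opt_spec hu
  have b := Net.opt_spec hu'
  have c := Net.opt_spec hv
  rw [Net.Gam_eq (a.add b) c, Net.Gam_eq a c, Net.Gam_eq b c]
  exact Net.L_add_left a.1 b.1 c.1 (Net.TB_tz φ)

theorem Net.Gam_smul_left [CompactSpace Z] (t : ℝ) {u v : C(Z, ℝ)} (hu : u ∈ N.Dom)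
    (hv : v ∈ N.Dom) (φ : C(Z, ℝ)) : N.Gam (t • u) v φ = t * N.Gam u v φ := by
  have a := Net.opt_spec hu
  have c := Net.opt_spec hv
  rw [Net.Gam_eq (a.smul t) c, Net.Gam_eq a c]
  exact Net.L_smul_left t a.1 c.1 (Net.TB_tz φ)

theorem Net.Gam_sub_left [CompactSpace Z] {u u' v : C(Z, ℝ)} (hu : u ∈ N.Dom) (hu' : u' ∈ N.Dom)
    (hv : v ∈ N.Dom) (φ : C(Z, ℝ)) : N.Gam (u - u') v φ = N.Gam u v φ - N.Gam u' v φ := by
  have h := Net.Gam_add_left hu (Net.smul_mem (-1) hu') hv φ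
  have e : u + (-1 : ℝ) • u' = u - u' := by ext x; simp [sub_eq_add_neg]
  rw [e, Net.Gam_smul_left (-1) hu' hv] at h
  rw [h]; ring

theorem Net.Gam_add_test [CompactSpace Z] {u v : C(Z, ℝ)} (hu : u ∈ N.Dom) (hv : v ∈ N.Dom)
    (φ φ' : C(Z, ℝ)) : N.Gam u v (φ + φ') = N.Gam u v φ + N.Gam u v φ' :=
  Net.L_add_test (Net.opt_spec hu).1 (Net.opt_spec hv).1 (Net.TB_tz φ) (Net.TB_tz φ')

theorem Net.Gam_smul_test [CompactSpace Z] (t : ℝ) {u v : C(Z, ℝ)} (hu : u ∈ N.Dom)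
    (hv : v ∈ N.Dom) (φ : C(Z, ℝ)) : N.Gam u v (t • φ) = t * N.Gam u v φ :=
  Net.L_smul_test t (Net.opt_spec hu).1 (Net.opt_spec hv).1 (Net.TB_tz φ)

theorem Net.Gam_nonneg [CompactSpace Z] {u : C(Z, ℝ)} (hu : u ∈ N.Dom) {φ : C(Z, ℝ)}
    (hφ : ∀ x, 0 ≤ φ x) : 0 ≤ N.Gam u u φ :=
  Net.L_nonneg (Net.opt_spec hu).1 (Net.TB_tz φ) fun _ i => hφ (N.p i.1)

theorem Net.abs_Gam_le [CompactSpace Z] {u v : C(Z, ℝ)} (hu : u ∈ N.Dom) (hv : v ∈ N.Dom)
    (φ : C(Z, ℝ)) :
    |N.Gam u v φ| ≤ ‖φ‖ * (Real.sqrt (N.Gam u u 1) * Real.sqrt (N.Gam v v 1)) := by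
  have h := Net.abs_L_le (Net.opt_spec hu).1 (Net.opt_spec hv).1
    (b := N.tz φ) (M := ‖φ‖) (fun _ i => φ.norm_coe_le_norm (N.p i.1))
  unfold Net.Gam
  rw [Net.tz_one]
  exact h

/-- coefficients converging to the same boundary function are interchangeable -/
theorem Net.L_coef_congr [CompactSpace Z] {f g a : ℕ → G → ℝ} {c : ℕ → N.I → ℝ} {d : C(Z, ℝ)}
    (hf : N.Adm f) (hg : N.Adm g) (ha : N.Adm a) (had : N.Conv a d) (hc : N.TB c) :
    N.L f g (fun k i => c k i * N.tf a k i) = N.L f g (fun k i => c k i * N.tz d k i) := by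
  refine Net.L_congr_test hf hg (hc.mul ha.TB_tf) (hc.mul (Net.TB_tz d)) ?_
  have h1 : N.TN (fun k i => N.tf a k i - N.tz d k i) := by
    refine ⟨?_, fun η hη => ?_⟩
    · have := ha.TB_tf.add ((Net.TB_tz d).smul (-1))
      simpa [sub_eq_add_neg] using this
    · obtain ⟨K, hK⟩ := had η hη
      exact ⟨K, hK.mono fun k hk i hi => hk i.1 hi⟩
  have h2 := h1.mul_TB hc
  have e : (fun k i => c k i * N.tf a k i - c k i * N.tz d k i) =
      fun k i => (N.tf a k i - N.tz d k i) * c k i := by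
    funext k i; ring
  rw [e]
  exact h2

/-- CHAIN RULE for the limit form -/
theorem Net.Gam_chain [CompactSpace Z] {ψ : ℝ × ℝ → ℝ} (hψ : ContDiff ℝ 2 ψ)
    {u v w' d1 d2 : C(Z, ℝ)} (hu : u ∈ N.Dom) (hv : v ∈ N.Dom)
    (hw' : ∀ x, w' x = ψ (u x, v x)) (hd1 : ∀ x, d1 x = fderiv ℝ ψ (u x, v x) (1, 0))
    (hd2 : ∀ x, d2 x = fderiv ℝ ψ (u x, v x) (0, 1)) :
    w' ∈ N.Dom ∧ ∀ w ∈ N.Dom, ∀ φ : C(Z, ℝ),
      N.Gam w' w φ = N.Gam u w (φ * d1) + N.Gam v w (φ * d2) := by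
  have a := Net.opt_spec hu
  have b := Net.opt_spec hv
  have c := Net.Opt.cmp hψ a b hw'
  refine ⟨c.mem, fun w hw φ => ?_⟩
  have e := Net.opt_spec hw
  have hd : ContDiff ℝ 1 (fderiv ℝ ψ) := hψ.fderiv_right (by norm_num)
  have hd1' : ContDiff ℝ 1 (fun x => fderiv ℝ ψ x (1, 0)) := hd.clm_apply contDiff_const
  have hd2' : ContDiff ℝ 1 (fun x => fderiv ℝ ψ x (0, 1)) := hd.clm_apply contDiff_const
  rw [Net.Gam_eq c e, Net.Gam_eq a e, Net.Gam_eq b e,
    Net.L_chain hψ a.1 b.1 e.1 a.2.1 b.2.1 (Net.TB_tz φ)]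
  have hA := Net.Adm.cmp hd1' a.1 b.1
  have hB := Net.Adm.cmp hd2' a.1 b.1
  rw [Net.L_coef_congr a.1 e.1 hA (Net.Conv.cmp hd1' a.1 b.1 a.2.1 b.2.1 hd1) (Net.TB_tz φ),
    Net.L_coef_congr b.1 e.1 hB (Net.Conv.cmp hd2' a.1 b.1 a.2.1 b.2.1 hd2) (Net.TB_tz φ)]
  rfl

theorem Net.Gam_mul [CompactSpace Z] {u v w : C(Z, ℝ)} (hu : u ∈ N.Dom) (hv : v ∈ N.Dom)
    (hw : w ∈ N.Dom) (φ : C(Z, ℝ)) :
    N.Gam (u * v) w φ = N.Gam u w (φ * v) + N.Gam v w (φ * u) := by
  have hfd : ∀ x : ℝ × ℝ, HasFDerivAt (fun x : ℝ × ℝ => x.1 * x.2)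
      (x.1 • ContinuousLinearMap.snd ℝ ℝ ℝ + x.2 • ContinuousLinearMap.fst ℝ ℝ ℝ) x := fun x =>
    (hasFDerivAt_fst).mul (hasFDerivAt_snd)
  exact (Net.Gam_chain (ψ := fun x : ℝ × ℝ => x.1 * x.2) (contDiff_fst.mul contDiff_snd) hu hv
    (w' := u * v) (d1 := v) (d2 := u) (fun x => rfl)
    (fun x => by rw [(hfd _).fderiv]; simp) (fun x => by rw [(hfd _).fderiv]; simp)).2 w hw φ

/-- diagonal sequences built from admissible functions are admissible -/
theorem Net.adm_of_diag {f : ℕ → G → ℝ} {C : ℝ} (hC : 0 ≤ C)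
    (h : ∀ k, (f k = fun _ => 0) ∨ ((∀ h, |f k h| ≤ C) ∧ FinE (N.W k) (N.dd (f k)) ∧
      wen (N.W k) (N.dd (f k)) ≤ C)) : N.Adm f := by
  have hd0 : N.dd (fun _ : G => (0 : ℝ)) = fun _ => 0 := by funext i; simp [Net.dd]
  refine ⟨C, fun k h' => ?_, fun k => ?_, fun k => ?_⟩
  · rcases h k with h0 | ⟨a1, a2, a3⟩
    · rw [h0, abs_zero]; exact hC
    · exact a1 h'
  · rcases h k with h0 | ⟨a1, a2, a3⟩
    · rw [h0, hd0]
      unfold FinE
      have : (fun i : N.I => N.W k i * (0 : ℝ) ^ 2) = fun _ => 0 := by funext i; ring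
      rw [this]
      exact summable_zero
    · exact a2
  · rcases h k with h0 | ⟨a1, a2, a3⟩
    · rw [h0, hd0]
      unfold wen
      simpa using hC
    · exact a3

/-- CLOSEDNESS (lower semicontinuity) -/
theorem Net.closed_mem [CompactSpace Z] {w : C(Z, ℝ)} {C : ℝ}
    (h : ∀ ε > 0, ∃ u ∈ N.Dom, ‖u - w‖ ≤ ε ∧ N.Gam u u 1 ≤ C) :
    w ∈ N.Dom ∧ N.Gam w w 1 ≤ C := by
  have hC : 0 ≤ C := by
    obtain ⟨u, hu, _, h2⟩ := h 1 one_pos
    exact (Net.Gam_nonneg hu fun x => by simp).trans h2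
  let P : ℕ → ℕ → (G → ℝ) → Prop := fun j k x => (∀ h, |x h - w (N.p h)| ≤ 2 / ((j : ℝ) + 1)) ∧
    FinE (N.W k) (N.dd x) ∧ wen (N.W k) (N.dd x) ≤ C + 1 / ((j : ℝ) + 1)
  have h1 : ∀ j : ℕ, 1 / (((j + 1 : ℕ) : ℝ) + 1) ≤ 1 / ((j : ℝ) + 1) := fun j => by
    push_cast
    exact one_div_le_one_div_of_le (by positivity) (by linarith)
  have h2' : ∀ j : ℕ, 2 / ((j : ℝ) + 1) = 2 * (1 / ((j : ℝ) + 1)) := fun j => by ring
  have hmono : ∀ j k x, P (j + 1) k x → P j k x := by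
    intro j k x ⟨a1, a2, a3⟩
    refine ⟨fun h => (a1 h).trans ?_, a2, a3.trans (by linarith [h1 j])⟩
    rw [h2', h2']
    linarith [h1 j]
  have hP : ∀ j, ∀ᶠ k in om, ∃ x, P j k x := by
    intro j
    have hjp : (0 : ℝ) < 1 / ((j : ℝ) + 1) := by positivity
    obtain ⟨u, hu, huw, hE⟩ := h _ hjp
    have a := Net.opt_spec hu
    obtain ⟨f', hf', hclose, hL⟩ := Net.modify a.1 a.2.1 hjp
    have hE' : N.L f' f' N.one < C + 1 / ((j : ℝ) + 1) := by
      rw [hL f' hf' _ Net.TB_one, Net.L_symm, hL _ a.1 _ Net.TB_one, ← Net.tz_one,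
        ← Net.Gam_eq a a]
      linarith
    have ht := (Net.tendsto_wen hf').eventually (gt_mem_nhds hE')
    filter_upwards [hclose, ht] with k hk1 hk2
    refine ⟨f' k, fun h => ?_, hf'.fin k, hk2.le⟩
    have e1 := hk1 h
    have e2 := (u - w).norm_coe_le_norm (N.p h)
    rw [Real.norm_eq_abs, ContinuousMap.sub_apply] at e2
    have : f' k h - w (N.p h) = (f' k h - u (N.p h)) + (u (N.p h) - w (N.p h)) := by ring
    rw [this, h2']
    exact (abs_add_le _ _).trans (by linarith)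
  obtain ⟨f, hf1, hf2⟩ := exists_diag (fun _ => (0 : ℝ)) P hmono hP
  have hadm : N.Adm f := by
    refine Net.adm_of_diag (C := ‖w‖ + C + 2) (by positivity) fun k => ?_
    rcases hf2 k with h0 | ⟨a1, a2, a3⟩
    · exact Or.inl h0
    · refine Or.inr ⟨fun h => ?_, a2, ?_⟩
      · have e1 := a1 h
        have e2 := w.norm_coe_le_norm (N.p h)
        rw [Real.norm_eq_abs] at e2
        have e3 : |f k h| ≤ |f k h - w (N.p h)| + |w (N.p h)| := by
          have := abs_add_le (f k h - w (N.p h)) (w (N.p h))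
          simpa using this
        norm_num at e1
        linarith
      · norm_num at a3
        linarith [norm_nonneg w]
  have hconv : N.Conv f w := by
    intro η hη
    obtain ⟨j, hj⟩ := exists_nat_one_div_lt (show 0 < η / 2 by linarith)
    refine ⟨0, (hf1 j).mono fun k hk h _ => (hk.1 h).trans ?_⟩
    rw [h2']
    linarith
  have hLle : N.L f f N.one ≤ C := by
    refine le_of_forall_pos_le_add fun η hη => ?_
    obtain ⟨j, hj⟩ := exists_nat_one_div_lt hη
    exact le_of_tendsto (Net.tendsto_wen hadm) ((hf1 j).mono fun k hk => hk.2.2.trans (by linarith))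
  exact ⟨⟨f, hadm, hconv⟩, (Net.Gam_self_le hadm hconv).trans hLle⟩

/-- WEAK CONTINUITY, test function `1` -/
theorem Net.weak_one [CompactSpace Z] {v : C(Z, ℝ)} (hv : v ∈ N.Dom) (C : ℝ) {ε : ℝ}
    (hε : 0 < ε) : ∃ δ > 0, ∀ w ∈ N.Dom, ‖w‖ ≤ δ → N.Gam w w 1 ≤ C → |N.Gam w v 1| ≤ ε := by
  by_contra hcon
  push Not at hcon
  have g := Net.opt_spec hv
  have hC : 0 ≤ C := by
    obtain ⟨w, hw, _, h2, _⟩ := hcon 1 one_pos
    exact (Net.Gam_nonneg hw fun x => by simp).trans h2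
  let P : ℕ → ℕ → (G → ℝ) → Prop := fun j k x => (∀ h, |x h| ≤ 2 / ((j : ℝ) + 1)) ∧
    FinE (N.W k) (N.dd x) ∧ wen (N.W k) (N.dd x) ≤ C + 1 ∧
    ε / 2 ≤ |wip (N.W k) (N.one k) (N.dd x) (N.dd (N.opt v k))|
  have h1 : ∀ j : ℕ, 1 / (((j + 1 : ℕ) : ℝ) + 1) ≤ 1 / ((j : ℝ) + 1) := fun j => by
    push_cast
    exact one_div_le_one_div_of_le (by positivity) (by linarith)
  have h2' : ∀ j : ℕ, 2 / ((j : ℝ) + 1) = 2 * (1 / ((j : ℝ) + 1)) := fun j => by ring
  have hmono : ∀ j k x, P (j + 1) k x → P j k x := by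
    intro j k x ⟨a1, a2, a3, a4⟩
    refine ⟨fun h => (a1 h).trans ?_, a2, a3, a4⟩
    rw [h2', h2']
    linarith [h1 j]
  have hP : ∀ j, ∀ᶠ k in om, ∃ x, P j k x := by
    intro j
    have hjp : (0 : ℝ) < 1 / ((j : ℝ) + 1) := by positivity
    obtain ⟨w, hw, hwn, hE, hbig⟩ := hcon _ hjp
    have a := Net.opt_spec hw
    obtain ⟨f', hf', hclose, hL⟩ := Net.modify a.1 a.2.1 hjp
    have hE' : N.L f' f' N.one < C + 1 := by
      rw [hL f' hf' _ Net.TB_one, Net.L_symm, hL _ a.1 _ Net.TB_one, ← Net.tz_one,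
        ← Net.Gam_eq a a]
      linarith
    have hb' : ε / 2 < |N.L f' (N.opt v) N.one| := by
      rw [hL _ g.1 _ Net.TB_one, ← Net.tz_one, ← Net.Gam_eq a g]
      linarith
    have ht := (Net.tendsto_wen hf').eventually (gt_mem_nhds hE')
    have ht2 := (Net.tendsto_L hf' g.1 Net.TB_one).abs.eventually (lt_mem_nhds hb')
    filter_upwards [hclose, ht, ht2] with k hk1 hk2 hk3
    refine ⟨f' k, fun h => ?_, hf'.fin k, hk2.le, hk3.le⟩
    have e1 := hk1 h
    have e2 := w.norm_coe_le_norm (N.p h)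
    rw [Real.norm_eq_abs] at e2
    have e3 : |f' k h| ≤ |f' k h - w (N.p h)| + |w (N.p h)| := by
      have := abs_add_le (f' k h - w (N.p h)) (w (N.p h))
      simpa using this
    rw [h2']
    linarith
  obtain ⟨f, hf1, hf2⟩ := exists_diag (fun _ => (0 : ℝ)) P hmono hP
  have hadm : N.Adm f := by
    refine Net.adm_of_diag (C := C + 2) (by positivity) fun k => ?_
    rcases hf2 k with h0 | ⟨a1, a2, a3, _⟩
    · exact Or.inl h0
    · refine Or.inr ⟨fun h => ?_, a2, by linarith⟩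
      have e1 := a1 h
      norm_num at e1
      linarith
  have hnul : N.Nul f := by
    refine ⟨hadm, fun η hη => ?_⟩
    obtain ⟨j, hj⟩ := exists_nat_one_div_lt (show 0 < η / 2 by linarith)
    refine ⟨0, (hf1 j).mono fun k hk h _ => (hk.1 h).trans ?_⟩
    rw [h2']
    linarith
  have h3 := g.2.2 f hnul
  rw [Net.L_symm] at h3
  have h4 := (Net.tendsto_L hadm g.1 Net.TB_one).abs
  rw [h3, abs_zero] at h4
  have h5 := ge_of_tendsto h4 ((hf1 0).mono fun k hk => hk.2.2.2)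
  linarith

end

end Crest.Agent.R193.AF
end

-- ▼ part R193/AF7
section

/-!
R193, block AF, part 7: exact invariance of the limit form under the group. (helper555)
-/

set_option autoImplicit false

namespace Crest.Agent.R193.AF

open Filter Topology InvForm

section
variable {G Z : Type} [Group G] [TopologicalSpace Z] [MulAction G Z] {N : Net G Z}

/-- left translation of edges -/
def Net.ml (N : Net G Z) (g : G) : N.I ≃ N.I := (Equiv.mulLeft g).prodCongr (Equiv.refl _)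

@[simp] theorem Net.ml_fst (g : G) (i : N.I) : (N.ml g i).1 = g * i.1 := rfl
@[simp] theorem Net.ml_snd (g : G) (i : N.I) : (N.ml g i).2 = i.2 := rfl
@[simp] theorem Net.ml_symm_fst (g : G) (i : N.I) : ((N.ml g).symm i).1 = g⁻¹ * i.1 := rfl
@[simp] theorem Net.ml_symm_snd (g : G) (i : N.I) : ((N.ml g).symm i).2 = i.2 := rfl

/-- left translation of sequences -/
def sh (g : G) (f : ℕ → G → ℝ) : ℕ → G → ℝ := fun k h => f k (g * h)

theorem Net.dd_sh (g : G) (f : ℕ → G → ℝ) (k : ℕ) :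
    N.dd (sh g f k) = fun i => N.dd (f k) (N.ml g i) := by
  funext i
  simp [Net.dd, sh, mul_assoc]

theorem sh_inv_sh (g : G) (f : ℕ → G → ℝ) : sh g (sh g⁻¹ f) = f := by
  funext k h
  simp [sh]

/-- the distortion factor of the weights -/
noncomputable def Net.ef (N : Net G Z) (g : G) (k : ℕ) : ℝ :=
  Real.exp ((N.len g : ℝ) / ((k : ℝ) + 1))

theorem Net.one_le_ef (g : G) (k : ℕ) : 1 ≤ N.ef g k := by
  unfold Net.ef
  exact Real.one_le_exp (by positivity)

theorem Net.ef_le (g : G) (k : ℕ) : N.ef g k ≤ Real.exp (N.len g) := by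
  unfold Net.ef
  rw [Real.exp_le_exp]
  have hk : (0 : ℝ) ≤ k := Nat.cast_nonneg k
  rw [div_le_iff₀ (by positivity)]
  have : (0 : ℝ) ≤ N.len g := Nat.cast_nonneg _
  nlinarith

theorem Net.tendsto_ef (g : G) : Tendsto (fun k => N.ef g k) atTop (𝓝 1) := by
  unfold Net.ef
  have h1 : Tendsto (fun k : ℕ => (N.len g : ℝ) / ((k : ℝ) + 1)) atTop (𝓝 0) :=
    tendsto_const_nhds.div_atTop
      (tendsto_atTop_add_const_right _ _ tendsto_natCast_atTop_atTop)
  have h2 := (Real.continuous_exp.tendsto 0).comp h1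
  rw [Real.exp_zero] at h2
  exact h2

theorem Net.W_ml_symm_le (g : G) (k : ℕ) (i : N.I) :
    N.W k ((N.ml g).symm i) ≤ N.ef g k * N.W k i := by
  unfold Net.W Net.ef
  rw [← mul_div_assoc, ← Real.exp_add]
  refine div_le_div_of_nonneg_right ?_ (by positivity)
  rw [Real.exp_le_exp, Net.ml_symm_fst]
  have h1 : N.len i.1 ≤ N.len (g⁻¹ * i.1) + N.len g := by
    have := N.len_le_mul' g⁻¹ i.1
    rwa [N.len_inv] at this
  have h2 : (N.len i.1 : ℝ) ≤ N.len (g⁻¹ * i.1) + N.len g := by exact_mod_cast h1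
  have h3 : (N.len i.1 : ℝ) / ((k : ℝ) + 1) ≤
      (N.len (g⁻¹ * i.1) + N.len g) / ((k : ℝ) + 1) :=
    div_le_div_of_nonneg_right h2 (by positivity)
  rw [add_div] at h3
  linarith

theorem Net.W_le_ml_symm (g : G) (k : ℕ) (i : N.I) :
    N.W k i ≤ N.ef g k * N.W k ((N.ml g).symm i) := by
  unfold Net.W Net.ef
  rw [← mul_div_assoc, ← Real.exp_add]
  refine div_le_div_of_nonneg_right ?_ (by positivity)
  rw [Real.exp_le_exp, Net.ml_symm_fst]
  have h1 : N.len (g⁻¹ * i.1) ≤ N.len g + N.len i.1 := by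
    have := N.len_mul g⁻¹ i.1
    rwa [N.len_inv] at this
  have h2 : (N.len (g⁻¹ * i.1) : ℝ) ≤ N.len g + N.len i.1 := by exact_mod_cast h1
  have h3 : (N.len (g⁻¹ * i.1) : ℝ) / ((k : ℝ) + 1) ≤
      (N.len g + N.len i.1) / ((k : ℝ) + 1) :=
    div_le_div_of_nonneg_right h2 (by positivity)
  rw [add_div] at h3
  linarith

theorem Net.abs_W_sub_le (g : G) (k : ℕ) (i : N.I) :
    |N.W k ((N.ml g).symm i) - N.W k i| ≤ (N.ef g k - 1) * N.W k i := by
  have h1 := N.W_ml_symm_le g k i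
  have h2 := N.W_le_ml_symm g k i
  have h3 := N.one_le_ef g k
  have h4 := N.W_nonneg k i
  have h5 := N.W_nonneg k ((N.ml g).symm i)
  rw [abs_le]
  constructor
  · -- W i - W' ≤ (E-1) W i
    have h6 : 0 ≤ (N.ef g k - 1) * (N.ef g k * N.W k ((N.ml g).symm i) - N.W k i) :=
      mul_nonneg (by linarith) (by linarith)
    by_contra hcon
    push Not at hcon
    -- W' < W - (E-1) W = (2 - E) W
    have h7 : N.ef g k * N.W k ((N.ml g).symm i) < N.ef g k * ((2 - N.ef g k) * N.W k i) :=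
      mul_lt_mul_of_pos_left (by linarith) (by linarith)
    nlinarith [mul_nonneg (sq_nonneg (N.ef g k - 1)) h4]
  · linarith

theorem Net.FinE_sh {f : ℕ → G → ℝ} (hf : N.Adm f) (g : G) (k : ℕ) :
    FinE (N.W k) (N.dd (sh g f k)) ∧
      wen (N.W k) (N.dd (sh g f k)) ≤ N.ef g k * wen (N.W k) (N.dd (f k)) := by
  rw [Net.dd_sh]
  set F : N.I → ℝ := fun j => N.W k ((N.ml g).symm j) * (N.dd (f k) j) ^ 2 with hF
  have h1 : (fun i => N.W k i * (N.dd (f k) (N.ml g i)) ^ 2) = F ∘ (N.ml g) := by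
    funext i
    simp only [hF, Function.comp, Equiv.symm_apply_apply]
  have h2 : Summable fun j => N.ef g k * (N.W k j * (N.dd (f k) j) ^ 2) := (hf.fin k).mul_left _
  have h3 : ∀ j, F j ≤ N.ef g k * (N.W k j * (N.dd (f k) j) ^ 2) := fun j => by
    have := mul_le_mul_of_nonneg_right (N.W_ml_symm_le g k j) (sq_nonneg (N.dd (f k) j))
    simp only [hF]
    linarith
  have h4 : Summable F := Summable.of_nonneg_of_le
    (fun j => mul_nonneg (N.W_nonneg _ _) (sq_nonneg _)) h3 h2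
  refine ⟨?_, ?_⟩
  · unfold FinE
    rw [h1]
    exact (Equiv.summable_iff (N.ml g)).mpr h4
  · unfold wen
    rw [h1, ← tsum_mul_left]
    have : ∑' i, (F ∘ (N.ml g)) i = ∑' j, F j := (N.ml g).tsum_eq F
    rw [this]
    exact Summable.tsum_le_tsum h3 h4 h2

theorem Net.Adm.sh {f : ℕ → G → ℝ} (hf : N.Adm f) (g : G) : N.Adm (sh g f) := by
  obtain ⟨C, hC0, h1, h2, h3⟩ := hf.exists_pos
  refine ⟨C + Real.exp (N.len g) * C, fun k h => ?_, fun k => (Net.FinE_sh hf g k).1,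
    fun k => ?_⟩
  · have := h1 k (g * h)
    have h5 : 0 ≤ Real.exp (N.len g) * C := by positivity
    show |f k (g * h)| ≤ _
    linarith
  · refine (Net.FinE_sh hf g k).2.trans ?_
    have h4 := mul_le_mul (N.ef_le g k) (h3 k) (wen_nonneg (N.W_nonneg k) _)
      (Real.exp_pos _).le
    linarith

/-- the functional is invariant -/
theorem Net.L_sh {f f' : ℕ → G → ℝ} (hf : N.Adm f) (hf' : N.Adm f') (g : G)
    {b : ℕ → N.I → ℝ} (hb : N.TB b) :
    N.L (sh g f) (sh g f') (fun k i => b k (N.ml g i)) = N.L f f' b := by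
  have hb' : N.TB (fun k i => b k (N.ml g i)) := by
    obtain ⟨C, hC⟩ := hb
    exact ⟨C, fun k i => hC k _⟩
  obtain ⟨M, hM0, hM⟩ := hb.exists_pos
  obtain ⟨C, hC0, h1, h2, h3⟩ := hf.exists_pos
  obtain ⟨D, hD0, g1, g2, g3⟩ := hf'.exists_pos
  have key : ∀ k, |wip (N.W k) (fun i => b k (N.ml g i)) (N.dd (sh g f k)) (N.dd (sh g f' k)) -
      wip (N.W k) (b k) (N.dd (f k)) (N.dd (f' k))| ≤
      (N.ef g k - 1) * (M * (Real.sqrt C * Real.sqrt D)) := by
    intro k
    rw [Net.dd_sh, Net.dd_sh]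
    set F : N.I → ℝ := fun j => N.W k ((N.ml g).symm j) * (b k j * (N.dd (f k) j * N.dd (f' k) j))
      with hF
    have e1 : wip (N.W k) (fun i => b k (N.ml g i)) (fun i => N.dd (f k) (N.ml g i))
        (fun i => N.dd (f' k) (N.ml g i)) = ∑' j, F j := by
      unfold wip
      rw [← (N.ml g).tsum_eq F]
      refine tsum_congr fun i => ?_
      simp only [hF, Equiv.symm_apply_apply]
    have hs := summable_abs (N.W_nonneg k) (h2 k) (g2 k)
    have hsF : Summable F := by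
      refine Summable.of_norm_bounded (hs.mul_left (N.ef g k * M)) fun j => ?_
      rw [Real.norm_eq_abs]
      simp only [hF]
      rw [abs_mul, abs_mul, abs_mul, abs_of_nonneg (N.W_nonneg _ _)]
      have a1 := N.W_ml_symm_le g k j
      have a2 : |b k j| * (|N.dd (f k) j| * |N.dd (f' k) j|) ≤
          M * (|N.dd (f k) j| * |N.dd (f' k) j|) :=
        mul_le_mul_of_nonneg_right (hM k j) (by positivity)
      have a3 := mul_le_mul a1 a2 (by positivity)
        (mul_nonneg (by linarith [N.one_le_ef g k]) (N.W_nonneg k j))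
      refine a3.trans (le_of_eq (by ring))
    have hs2 := summable_wip (N.W_nonneg k) (h2 k) (g2 k) (hM k)
    rw [e1]
    unfold wip
    rw [← hsF.tsum_sub hs2]
    have h8 : |∑' j, (F j - N.W k j * (b k j * (N.dd (f k) j * N.dd (f' k) j)))| ≤
        ∑' j, ((N.ef g k - 1) * M) * (N.W k j * (|N.dd (f k) j| * |N.dd (f' k) j|)) := by
      rw [← Real.norm_eq_abs]
      refine tsum_of_norm_bounded (hs.mul_left _).hasSum fun j => ?_
      rw [Real.norm_eq_abs]
      simp only [hF]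
      rw [← sub_mul, abs_mul, abs_mul, abs_mul]
      have a1 := N.abs_W_sub_le g k j
      have a2 : |b k j| * (|N.dd (f k) j| * |N.dd (f' k) j|) ≤
          M * (|N.dd (f k) j| * |N.dd (f' k) j|) :=
        mul_le_mul_of_nonneg_right (hM k j) (by positivity)
      have a3 := mul_le_mul a1 a2 (by positivity)
        (mul_nonneg (by linarith [N.one_le_ef g k]) (N.W_nonneg k j))
      refine a3.trans (le_of_eq (by ring))
    rw [tsum_mul_left] at h8
    refine h8.trans ?_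
    rw [mul_assoc]
    have h9 : ∑' j, N.W k j * (|N.dd (f k) j| * |N.dd (f' k) j|) ≤ Real.sqrt C * Real.sqrt D := by
      refine (tsum_abs_le (N.W_nonneg k) (h2 k) (g2 k)).trans ?_
      exact mul_le_mul (Real.sqrt_le_sqrt (h3 k)) (Real.sqrt_le_sqrt (g3 k))
        (Real.sqrt_nonneg _) (Real.sqrt_nonneg _)
    exact mul_le_mul_of_nonneg_left (mul_le_mul_of_nonneg_left h9 hM0.le)
      (by linarith [N.one_le_ef g k])
  have hlim : Tendsto (fun k => wip (N.W k) (fun i => b k (N.ml g i)) (N.dd (sh g f k))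
      (N.dd (sh g f' k)) - wip (N.W k) (b k) (N.dd (f k)) (N.dd (f' k))) atTop (𝓝 0) := by
    refine squeeze_zero_norm key ?_
    have h5 := ((N.tendsto_ef g).sub_const 1).mul_const (M * (Real.sqrt C * Real.sqrt D))
    rw [sub_self, zero_mul] at h5
    exact h5
  exact ulim_congr_of_sub (Net.bdd_wip (hf.sh g) (hf'.sh g) hb') (Net.bdd_wip hf hf' hb) hlim

theorem Net.Nul.sh {w : ℕ → G → ℝ} (hw : N.Nul w) (g : G) : N.Nul (sh g w) := by
  refine ⟨hw.1.sh g, fun η hη => ?_⟩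
  obtain ⟨K, hK⟩ := hw.2 η hη
  refine ⟨K + N.len g, hK.mono fun k hk h hh => hk (g * h) ?_⟩
  have := N.len_le_mul' g h
  omega

theorem Net.Conv.sh {f : ℕ → G → ℝ} {u u' : C(Z, ℝ)} (hf : N.Conv f u) (g : G)
    (hu' : ∀ x, u' x = u (g • x)) : N.Conv (sh g f) u' := by
  intro η hη
  obtain ⟨K, hK⟩ := hf (η / 2) (by linarith)
  obtain ⟨K', hK'⟩ := N.A2 g u (η / 2) (by linarith)
  refine ⟨max (K + N.len g) K', hK.mono fun k hk h hh => ?_⟩
  have h1 := N.len_le_mul' g h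
  have h2 : K + N.len g ≤ N.len h := le_trans (le_max_left _ _) hh
  have e1 := hk (g * h) (by omega)
  have e2 := hK' h (le_trans (le_max_right _ _) hh)
  show |f k (g * h) - u' (N.p h)| ≤ η
  rw [hu']
  have : f k (g * h) - u (g • N.p h) = (f k (g * h) - u (N.p (g * h))) -
      (u (g • N.p h) - u (N.p (g * h))) := by ring
  rw [this]
  exact (abs_sub _ _).trans (by linarith)

theorem Net.Opt.sh {f : ℕ → G → ℝ} {u u' : C(Z, ℝ)} (hf : N.Opt f u) (g : G)
    (hu' : ∀ x, u' x = u (g • x)) : N.Opt (sh g f) u' := by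
  refine ⟨hf.1.sh g, hf.2.1.sh g hu', fun w hw => ?_⟩
  have hw' := hw.sh g⁻¹
  have h1 := Net.L_sh hf.1 hw'.1 g Net.TB_one
  rw [sh_inv_sh, hf.2.2 _ hw'] at h1
  exact h1

/-- EXACT INVARIANCE of the limit form -/
theorem Net.Gam_inv [CompactSpace Z] (g : G) {u v φ u' v' φ' : C(Z, ℝ)} (hu : u ∈ N.Dom)
    (hv : v ∈ N.Dom) (hu' : ∀ x, u' x = u (g • x)) (hv' : ∀ x, v' x = v (g • x))
    (hφ' : ∀ x, φ' x = φ (g • x)) : u' ∈ N.Dom ∧ N.Gam u' v' φ' = N.Gam u v φ := by
  have a := Net.opt_spec hu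
  have b := Net.opt_spec hv
  have a' := a.sh g hu'
  have b' := b.sh g hv'
  refine ⟨a'.mem, ?_⟩
  rw [Net.Gam_eq a' b', Net.Gam_eq a b, ← Net.L_sh a.1 b.1 g (Net.TB_tz φ)]
  refine Net.L_congr_test a'.1 b'.1 (Net.TB_tz φ') ⟨‖φ‖, fun k i => φ.norm_coe_le_norm _⟩ ?_
  refine ⟨⟨‖φ'‖ + ‖φ‖, fun k i => (abs_sub _ _).trans
    (add_le_add (φ'.norm_coe_le_norm _) (φ.norm_coe_le_norm _))⟩, fun η hη => ?_⟩
  obtain ⟨K, hK⟩ := N.A2 g φ η hη
  refine ⟨K, Eventually.of_forall fun k i hi => ?_⟩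
  show |φ' (N.p i.1) - φ (N.p (g * i.1))| ≤ η
  rw [hφ']
  exact hK i.1 hi

end

end Crest.Agent.R193.AF
end

-- ▼ part R193/AF8
section

/-!
R193, block AF, part 8: shells; functions with bounded shell sums belong to the domain; every
function in the domain is approximated on some large shell with energy at most the limit energy.
(helper555)
-/

set_option autoImplicit false

namespace Crest.Agent.R193.AF

open Filter Topology InvForm

section
variable {G Z : Type} [Group G] [TopologicalSpace Z] [MulAction G Z] {N : Net G Z}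

/-- edges starting in the sphere of radius `n` -/
noncomputable def Net.shI (N : Net G Z) (n : ℕ) : Finset N.I :=
  ((N.finite_I (n + 1)).subset (fun i (hi : N.len i.1 = n) => Nat.lt_succ_of_le (le_of_eq hi))
    : {i : N.I | N.len i.1 = n}.Finite).toFinset

theorem Net.mem_shI {n : ℕ} {i : N.I} : i ∈ N.shI n ↔ N.len i.1 = n := by
  simp [Net.shI]

/-- value of the weight on a shell -/
noncomputable def wt (k n : ℕ) : ℝ := Real.exp (-((n : ℝ) / ((k : ℝ) + 1))) / ((k : ℝ) + 1)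

theorem Net.W_eq_wt {k : ℕ} {n : ℕ} {i : N.I} (hi : i ∈ N.shI n) : N.W k i = wt k n := by
  rw [Net.mem_shI] at hi
  unfold Net.W wt
  rw [hi]

theorem wt_nonneg (k n : ℕ) : 0 ≤ wt k n := by unfold wt; positivity

/-- the ratio -/
noncomputable def rr (k : ℕ) : ℝ := Real.exp (-(1 / ((k : ℝ) + 1)))

theorem wt_eq (k n : ℕ) : wt k n = rr k ^ n / ((k : ℝ) + 1) := by
  unfold wt rr
  rw [← Real.exp_nat_mul]
  congr 2
  ring

theorem rr_pos (k : ℕ) : 0 < rr k := Real.exp_pos _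

theorem rr_lt_one (k : ℕ) : rr k < 1 := by
  unfold rr
  rw [Real.exp_lt_one_iff]
  have : (0 : ℝ) < 1 / ((k : ℝ) + 1) := by positivity
  linarith

theorem one_sub_rr_le (k : ℕ) : 1 - rr k ≤ 1 / ((k : ℝ) + 1) := by
  unfold rr
  have := Real.add_one_le_exp (-(1 / ((k : ℝ) + 1)))
  linarith

theorem le_one_sub_rr (k : ℕ) : 1 / (2 * ((k : ℝ) + 1)) ≤ 1 - rr k := by
  unfold rr
  set x : ℝ := 1 / ((k : ℝ) + 1) with hx
  have hk : (0 : ℝ) ≤ k := Nat.cast_nonneg k
  have hx0 : 0 < x := by positivity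
  have hx1 : x ≤ 1 := by
    rw [hx, div_le_one (by positivity)]; linarith
  have h1 : Real.exp (-x) ≤ 1 - x / 2 := by
    have h2 := Real.abs_exp_sub_one_sub_id_le (x := -x) (by rw [abs_neg, abs_of_pos hx0]; exact hx1)
    have h3 := (abs_le.mp h2).2
    have h4 : Real.exp (-x) ≤ 1 - x + x ^ 2 := by nlinarith
    -- exp(-x) ≤ 1/(1+x) ≤ 1 - x/2
    have h5 : Real.exp (-x) ≤ 1 / (1 + x) := by
      rw [Real.exp_neg, ← one_div]
      exact one_div_le_one_div_of_le (by linarith) (by linarith [Real.add_one_le_exp x])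
    have h6 : 1 / (1 + x) ≤ 1 - x / 2 := by
      rw [div_le_iff₀ (by linarith)]
      nlinarith
    linarith
  have h7 : 1 / (2 * ((k : ℝ) + 1)) = x / 2 := by rw [hx]; field_simp
  rw [h7]
  linarith

theorem sum_wt_le (k m : ℕ) : ∑ n ∈ Finset.range m, wt k n ≤ 2 := by
  have h1 := rr_lt_one k
  have h2 := le_one_sub_rr k
  have h3 := rr_pos k
  have hk : (0 : ℝ) < (k : ℝ) + 1 := by positivity
  have h4 : ∑ n ∈ Finset.range m, wt k n = (∑ n ∈ Finset.range m, rr k ^ n) / ((k : ℝ) + 1) := by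
    rw [Finset.sum_div]
    exact Finset.sum_congr rfl fun n _ => wt_eq k n
  rw [h4, geom_sum_eq (ne_of_lt h1)]
  rw [div_le_iff₀ hk]
  have h5 : (rr k ^ m - 1) / (rr k - 1) = (1 - rr k ^ m) / (1 - rr k) := by
    rw [← neg_div_neg_eq]; congr 1 <;> ring
  rw [h5, div_le_iff₀ (by linarith)]
  have h6 : 1 ≤ 2 * ((k : ℝ) + 1) * (1 - rr k) := by
    rw [div_le_iff₀ (by positivity)] at h2
    linarith
  have h7 : 0 ≤ rr k ^ m := by positivity
  linarith

theorem le_sum_wt (k K m : ℕ) (hKm : K ≤ m) :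
    rr k ^ K - rr k ^ m ≤ ∑ n ∈ Finset.Ico K m, wt k n := by
  have h1 := rr_lt_one k
  have h2 := one_sub_rr_le k
  have h3 := rr_pos k
  have hk : (0 : ℝ) < (k : ℝ) + 1 := by positivity
  have h4 : ∑ n ∈ Finset.Ico K m, wt k n = (∑ n ∈ Finset.Ico K m, rr k ^ n) / ((k : ℝ) + 1) := by
    rw [Finset.sum_div]
    exact Finset.sum_congr rfl fun n _ => wt_eq k n
  rw [h4, geom_sum_Ico (ne_of_lt h1) hKm, le_div_iff₀ hk]
  have h5 : (rr k ^ m - rr k ^ K) / (rr k - 1) = (rr k ^ K - rr k ^ m) / (1 - rr k) := by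
    rw [← neg_div_neg_eq]; congr 1 <;> ring
  rw [h5, le_div_iff₀ (by linarith)]
  have h6 : ((k : ℝ) + 1) * (1 - rr k) ≤ 1 := by
    rw [le_div_iff₀ hk] at h2
    linarith
  have h7 : 0 ≤ rr k ^ K - rr k ^ m := by
    have := pow_le_pow_of_le_one h3.le h1.le hKm
    linarith
  nlinarith

/-- bounded shell sums give bounded Abel sums -/
theorem Net.summable_of_shell {a : N.I → ℝ} (ha : ∀ i, 0 ≤ a i) {C : ℝ}
    (hC : ∀ n, ∑ i ∈ N.shI n, a i ≤ C) (k : ℕ) :
    Summable (fun i => N.W k i * a i) ∧ ∑' i, N.W k i * a i ≤ 2 * C := by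
  classical
  have hC0 : 0 ≤ C := (Finset.sum_nonneg fun i _ => ha i).trans (hC 0)
  have key : ∀ F : Finset N.I, ∑ i ∈ F, N.W k i * a i ≤ 2 * C := by
    intro F
    set m := F.sup (fun i => N.len i.1) + 1 with hm
    have hsub : F ⊆ (Finset.range m).biUnion N.shI := by
      intro i hi
      rw [Finset.mem_biUnion]
      refine ⟨N.len i.1, Finset.mem_range.mpr ?_, Net.mem_shI.mpr rfl⟩
      have := Finset.le_sup (f := fun i : N.I => N.len i.1) hi
      omega
    have hdisj : (↑(Finset.range m) : Set ℕ).PairwiseDisjoint N.shI := by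
      intro x _ y _ hxy
      rw [Function.onFun, Finset.disjoint_left]
      intro i hi hi'
      rw [Net.mem_shI] at hi hi'
      exact hxy (hi.symm.trans hi')
    calc ∑ i ∈ F, N.W k i * a i ≤ ∑ i ∈ (Finset.range m).biUnion N.shI, N.W k i * a i :=
          Finset.sum_le_sum_of_subset_of_nonneg hsub fun i _ _ =>
            mul_nonneg (N.W_nonneg k i) (ha i)
      _ = ∑ n ∈ Finset.range m, ∑ i ∈ N.shI n, N.W k i * a i := Finset.sum_biUnion hdisj
      _ ≤ ∑ n ∈ Finset.range m, wt k n * C := by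
          refine Finset.sum_le_sum fun n _ => ?_
          have : ∑ i ∈ N.shI n, N.W k i * a i = wt k n * ∑ i ∈ N.shI n, a i := by
            rw [Finset.mul_sum]
            exact Finset.sum_congr rfl fun i hi => by rw [Net.W_eq_wt hi]
          rw [this]
          exact mul_le_mul_of_nonneg_left (hC n) (wt_nonneg k n)
      _ = (∑ n ∈ Finset.range m, wt k n) * C := by rw [Finset.sum_mul]
      _ ≤ 2 * C := mul_le_mul_of_nonneg_right (sum_wt_le k m) hC0
  have hs : Summable (fun i => N.W k i * a i) :=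
    summable_of_sum_le (fun i => mul_nonneg (N.W_nonneg k i) (ha i)) key
  exact ⟨hs, hs.tsum_le_of_sum_le key⟩

/-- MEMBERSHIP CRITERION -/
theorem Net.mem_of_shell [CompactSpace Z] {u : C(Z, ℝ)} {f : G → ℝ} {B : ℝ}
    (hB : ∀ h, |f h| ≤ B)
    (hf : ∀ η > 0, ∃ K : ℕ, ∀ h, K ≤ N.len h → |f h - u (N.p h)| ≤ η) {C : ℝ}
    (hC : ∀ n, ∑ i ∈ N.shI n, (N.dd f i) ^ 2 ≤ C) :
    u ∈ N.Dom ∧ N.Gam u u 1 ≤ 2 * C := by
  have h1 := fun k => Net.summable_of_shell (N := N) (fun i => sq_nonneg (N.dd f i)) hC k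
  have hC0 : 0 ≤ C := (Finset.sum_nonneg fun i _ => sq_nonneg _).trans (hC 0)
  have hadm : N.Adm (fun _ => f) := by
    refine ⟨|B| + 2 * C, fun k h => ?_, fun k => (h1 k).1, fun k => (h1 k).2.trans ?_⟩
    · have := (hB h).trans (le_abs_self B)
      linarith
    · linarith [abs_nonneg B]
  have hconv : N.Conv (fun _ => f) u := fun η hη => by
    obtain ⟨K, hK⟩ := hf η hη
    exact ⟨K, Eventually.of_forall fun _ => hK⟩
  refine ⟨⟨_, hadm, hconv⟩, (Net.Gam_self_le hadm hconv).trans ?_⟩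
  exact le_of_tendsto' (Net.tendsto_wen hadm) fun k => (h1 k).2

/-- SHELL LEMMA -/
theorem Net.exists_shell [CompactSpace Z] {u φ : C(Z, ℝ)} (hu : u ∈ N.Dom)
    (hφ : ∀ x, 0 ≤ φ x) {ε : ℝ} (hε : 0 < ε) (K : ℕ) :
    ∃ n, K ≤ n ∧ ∃ f : G → ℝ, (∀ h, |f h - u (N.p h)| ≤ ε) ∧
      ∑ i ∈ N.shI n, φ (N.p i.1) * (N.dd f i) ^ 2 ≤ N.Gam u u φ + ε := by
  classical
  by_contra hcon
  push Not at hcon
  have a := Net.opt_spec hu
  obtain ⟨f', hf', hclose, hL⟩ := Net.modify a.1 a.2.1 hε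
  have hval : N.L f' f' (N.tz φ) = N.Gam u u φ := by
    rw [hL f' hf' _ (Net.TB_tz φ), Net.L_symm, hL _ a.1 _ (Net.TB_tz φ), Net.Gam_eq a a]
  set Γ := N.Gam u u φ with hΓ
  have hΓ0 : 0 ≤ Γ := Net.Gam_nonneg hu hφ
  -- lower bound of the Abel sums
  have key : ∀ k, (∀ h, |f' k h - u (N.p h)| ≤ ε) →
      (Γ + ε) * rr k ^ K ≤ wip (N.W k) (N.tz φ k) (N.dd (f' k)) (N.dd (f' k)) := by
    intro k hk
    have hsum := summable_wip (N.W_nonneg k) (hf'.fin k) (hf'.fin k) (b := N.tz φ k) (M := ‖φ‖)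
      (fun i => φ.norm_coe_le_norm _)
    have hnn : ∀ i, 0 ≤ N.W k i * (N.tz φ k i * (N.dd (f' k) i * N.dd (f' k) i)) := fun i =>
      mul_nonneg (N.W_nonneg k i) (mul_nonneg (hφ _) (mul_self_nonneg _))
    have h1 : ∀ m, K ≤ m → (Γ + ε) * (rr k ^ K - rr k ^ m) ≤
        wip (N.W k) (N.tz φ k) (N.dd (f' k)) (N.dd (f' k)) := by
      intro m hm
      have hdisj : (↑(Finset.Ico K m) : Set ℕ).PairwiseDisjoint N.shI := by
        intro x _ y _ hxy
        rw [Function.onFun, Finset.disjoint_left]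
        intro i hi hi'
        rw [Net.mem_shI] at hi hi'
        exact hxy (hi.symm.trans hi')
      calc (Γ + ε) * (rr k ^ K - rr k ^ m) ≤ (Γ + ε) * ∑ n ∈ Finset.Ico K m, wt k n :=
            mul_le_mul_of_nonneg_left (le_sum_wt k K m hm) (by linarith)
        _ = ∑ n ∈ Finset.Ico K m, wt k n * (Γ + ε) := by
            rw [Finset.mul_sum]
            exact Finset.sum_congr rfl fun n _ => mul_comm _ _
        _ ≤ ∑ n ∈ Finset.Ico K m, ∑ i ∈ N.shI n,
              N.W k i * (N.tz φ k i * (N.dd (f' k) i * N.dd (f' k) i)) := by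
            refine Finset.sum_le_sum fun n hn => ?_
            have h2 := hcon n (Finset.mem_Ico.mp hn).1 (f' k) hk
            have h3 : ∑ i ∈ N.shI n, N.W k i * (N.tz φ k i * (N.dd (f' k) i * N.dd (f' k) i)) =
                wt k n * ∑ i ∈ N.shI n, φ (N.p i.1) * (N.dd (f' k) i) ^ 2 := by
              rw [Finset.mul_sum]
              refine Finset.sum_congr rfl fun i hi => ?_
              rw [Net.W_eq_wt hi]
              simp only [Net.tz]
              ring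
            rw [h3]
            exact mul_le_mul_of_nonneg_left h2.le (wt_nonneg k n)
        _ = ∑ i ∈ (Finset.Ico K m).biUnion N.shI,
              N.W k i * (N.tz φ k i * (N.dd (f' k) i * N.dd (f' k) i)) :=
            (Finset.sum_biUnion hdisj).symm
        _ ≤ _ := hsum.sum_le_tsum _ fun i _ => hnn i
    have h2 : Tendsto (fun m => (Γ + ε) * (rr k ^ K - rr k ^ m)) atTop
        (𝓝 ((Γ + ε) * (rr k ^ K - 0))) :=
      (tendsto_const_nhds.sub (tendsto_pow_atTop_nhds_zero_of_lt_one (rr_pos k).le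
        (rr_lt_one k))).const_mul _
    rw [sub_zero] at h2
    exact le_of_tendsto h2 ((eventually_ge_atTop K).mono h1)
  have hrr : Tendsto (fun k => (Γ + ε) * rr k ^ K) om (𝓝 ((Γ + ε) * 1 ^ K)) := by
    have h1 : Tendsto rr atTop (𝓝 1) := by
      unfold rr
      have h1 : Tendsto (fun k : ℕ => -((1 : ℝ) / ((k : ℝ) + 1))) atTop (𝓝 (-0)) :=
        tendsto_one_div_add_atTop_nhds_zero_nat.neg
      have h2 := (Real.continuous_exp.tendsto (-0)).comp h1
      rw [neg_zero, Real.exp_zero] at h2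
      exact h2
    have h3 : Tendsto rr om (𝓝 1) :=
      h1.mono_left (by rw [← Nat.cofinite_eq_atTop]; exact hyperfilter_le_cofinite)
    exact (h3.pow K).const_mul _
  rw [one_pow, mul_one] at hrr
  have hT := Net.tendsto_L hf' hf' (Net.TB_tz φ)
  rw [hval] at hT
  have := le_of_tendsto_of_tendsto hrr hT (hclose.mono key)
  linarith

end

end Crest.Agent.R193.AF
end

-- ▼ part R193/F_One

/-!
R193, block F, statement F1: the invariant form, from the Gamma-limit construction (AF1-AF8).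
(helper555)
-/

set_option autoImplicit false

namespace Crest.Agent.R193.F_One

open Filter Topology Crest.Agent.R193 Crest.Agent.R193.AF

section
variable {G Z : Type} [Group G] [TopologicalSpace Z] [MulAction G Z] {N : Net G Z}

/-- the domain as a subalgebra -/
def domAlg [CompactSpace Z] (N : Net G Z) : Subalgebra ℝ C(Z, ℝ) where
  carrier := N.Dom
  mul_mem' := fun ha hb => Net.mul_mem ha hb
  add_mem' := fun ha hb => Net.add_mem ha hb
  algebraMap_mem' := fun r => Net.const_mem r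

theorem dense_of_sep [CompactSpace Z] (hsep : ∀ x y : Z, x ≠ y → ∃ u ∈ N.Dom, u x ≠ u y)
    (φ : C(Z, ℝ)) {ε : ℝ} (hε : 0 < ε) : ∃ φ' ∈ N.Dom, ‖φ - φ'‖ ≤ ε := by
  have h1 : (domAlg N).SeparatesPoints := by
    intro x y hxy
    obtain ⟨u, hu, hne⟩ := hsep x y hxy
    exact ⟨u, ⟨u, hu, rfl⟩, hne⟩
  have h2 := ContinuousMap.subalgebra_topologicalClosure_eq_top_of_separatesPoints (domAlg N) h1
  have h3 : φ ∈ (domAlg N).topologicalClosure := by rw [h2]; trivial
  have h4 : φ ∈ closure (N.Dom) := h3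
  rw [Metric.mem_closure_iff] at h4
  obtain ⟨φ', hφ', hd⟩ := h4 ε hε
  exact ⟨φ', hφ', by rw [← dist_eq_norm]; exact hd.le⟩

/-- weak continuity with an arbitrary test function -/
theorem tendsto_Gam_zero [CompactSpace Z] (hsep : ∀ x y : Z, x ≠ y → ∃ u ∈ N.Dom, u x ≠ u y)
    {w : ℕ → C(Z, ℝ)} {C : ℝ} (hw : ∀ n, w n ∈ N.Dom) (hlim : Tendsto w atTop (𝓝 0))
    (hC : ∀ n, N.Gam (w n) (w n) 1 ≤ C) {v : C(Z, ℝ)} (hv : v ∈ N.Dom) (φ : C(Z, ℝ)) :
    Tendsto (fun n => N.Gam (w n) v φ) atTop (𝓝 0) := by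
  have hC0 : 0 ≤ C := (Net.Gam_nonneg (hw 0) fun x => by simp).trans (hC 0)
  have hnorm : Tendsto (fun n => ‖w n‖) atTop (𝓝 0) := by
    have := hlim.norm
    rwa [norm_zero] at this
  -- test functions in the domain
  have hdom : ∀ ψ ∈ N.Dom, Tendsto (fun n => N.Gam (w n) v ψ) atTop (𝓝 0) := by
    intro ψ hψ
    -- energies of ψ * w n are bounded
    have hB : ∃ B : ℝ, ∀ n, ‖w n‖ ≤ B := by
      obtain ⟨B, hB⟩ := hnorm.bddAbove_range
      exact ⟨B, fun n => hB ⟨n, rfl⟩⟩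
    obtain ⟨B, hB⟩ := hB
    have hB0 : 0 ≤ B := (norm_nonneg _).trans (hB 0)
    set E := N.Gam ψ ψ 1 with hE
    have hE0 : 0 ≤ E := Net.Gam_nonneg hψ fun x => by simp
    have hmul : ∀ n, w n * ψ ∈ N.Dom := fun n => Net.mul_mem (hw n) hψ
    have hexp : ∀ n, N.Gam (w n * ψ) (w n * ψ) 1 = N.Gam (w n) (w n) (ψ * ψ) +
        2 * N.Gam (w n) ψ (ψ * w n) + N.Gam ψ ψ (w n * w n) := by
      intro n
      rw [Net.Gam_mul (hw n) hψ (hmul n), Net.Gam_symm (w n), Net.Gam_symm ψ,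
        Net.Gam_mul (hw n) hψ (hw n), Net.Gam_mul (hw n) hψ hψ]
      simp only [one_mul]
      rw [Net.Gam_symm ψ (w n), mul_comm (w n) ψ]
      ring
    have hbd : ∀ n, N.Gam (w n * ψ) (w n * ψ) 1 ≤
        ‖ψ‖ ^ 2 * C + 2 * (‖ψ‖ * B * (Real.sqrt C * Real.sqrt E)) + B ^ 2 * E := by
      intro n
      rw [hexp n]
      have n1 : ‖ψ * ψ‖ ≤ ‖ψ‖ ^ 2 := by rw [sq]; exact norm_mul_le _ _
      have n2 : ‖ψ * w n‖ ≤ ‖ψ‖ * B :=
        (norm_mul_le _ _).trans (mul_le_mul_of_nonneg_left (hB n) (norm_nonneg _))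
      have n3 : ‖w n * w n‖ ≤ B ^ 2 := by
        rw [sq]
        exact (norm_mul_le _ _).trans (mul_le_mul (hB n) (hB n) (norm_nonneg _) hB0)
      have sC : Real.sqrt (N.Gam (w n) (w n) 1) ≤ Real.sqrt C := Real.sqrt_le_sqrt (hC n)
      have a1 : N.Gam (w n) (w n) (ψ * ψ) ≤ ‖ψ‖ ^ 2 * C := by
        refine (le_abs_self _).trans ((Net.abs_Gam_le (hw n) (hw n) _).trans ?_)
        have h0 : Real.sqrt (N.Gam (w n) (w n) 1) * Real.sqrt (N.Gam (w n) (w n) 1) ≤ C := by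
          rw [Real.mul_self_sqrt (Net.Gam_nonneg (hw n) fun x => by simp)]
          exact hC n
        exact mul_le_mul n1 h0 (by positivity) (by positivity)
      have a2 : N.Gam (w n) ψ (ψ * w n) ≤ ‖ψ‖ * B * (Real.sqrt C * Real.sqrt E) := by
        refine (le_abs_self _).trans ((Net.abs_Gam_le (hw n) hψ _).trans ?_)
        exact mul_le_mul n2 (mul_le_mul_of_nonneg_right sC (Real.sqrt_nonneg _))
          (by positivity) (by positivity)
      have a3 : N.Gam ψ ψ (w n * w n) ≤ B ^ 2 * E := by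
        refine (le_abs_self _).trans ((Net.abs_Gam_le hψ hψ _).trans ?_)
        rw [Real.mul_self_sqrt hE0]
        exact mul_le_mul_of_nonneg_right n3 hE0
      linarith
    set C' := ‖ψ‖ ^ 2 * C + 2 * (‖ψ‖ * B * (Real.sqrt C * Real.sqrt E)) + B ^ 2 * E with hC'
    have t1 : Tendsto (fun n => N.Gam (w n * ψ) v 1) atTop (𝓝 0) := by
      rw [Metric.tendsto_nhds]
      intro ε hε
      obtain ⟨δ, hδ, hδ'⟩ := Net.weak_one hv C' (show 0 < ε / 2 by linarith)
      have hsmall : Tendsto (fun n => ‖w n‖ * ‖ψ‖) atTop (𝓝 0) := by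
        have := hnorm.mul_const ‖ψ‖
        rwa [zero_mul] at this
      filter_upwards [hsmall.eventually (gt_mem_nhds hδ)] with n hn
      rw [Real.dist_eq, sub_zero]
      have := hδ' _ (hmul n) ((norm_mul_le _ _).trans hn.le) (hbd n)
      linarith
    have t2 : Tendsto (fun n => N.Gam ψ v (w n)) atTop (𝓝 0) := by
      have hs : Tendsto (fun n => ‖w n‖ * (Real.sqrt (N.Gam ψ ψ 1) * Real.sqrt (N.Gam v v 1)))
          atTop (𝓝 0) := by
        have := hnorm.mul_const (Real.sqrt (N.Gam ψ ψ 1) * Real.sqrt (N.Gam v v 1))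
        rwa [zero_mul] at this
      exact squeeze_zero_norm (fun n => by
        rw [Real.norm_eq_abs]; exact Net.abs_Gam_le hψ hv _) hs
    have t3 : ∀ n, N.Gam (w n) v ψ = N.Gam (w n * ψ) v 1 - N.Gam ψ v (w n) := by
      intro n
      rw [Net.Gam_mul (hw n) hψ hv]
      simp only [one_mul]
      ring
    have t4 := t1.sub t2
    rw [sub_zero] at t4
    exact t4.congr fun n => (t3 n).symm
  -- general test functions
  rw [Metric.tendsto_nhds]
  intro ε hε
  set M := Real.sqrt C * Real.sqrt (N.Gam v v 1) with hM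
  have hM0 : 0 ≤ M := by positivity
  obtain ⟨ψ, hψ, hψn⟩ := dense_of_sep hsep φ (show 0 < ε / (2 * (M + 1)) by positivity)
  have h1 := hdom ψ hψ
  rw [Metric.tendsto_nhds] at h1
  filter_upwards [h1 (ε / 2) (by linarith)] with n hn
  rw [Real.dist_eq, sub_zero] at hn ⊢
  have h2 : N.Gam (w n) v φ = N.Gam (w n) v ψ + N.Gam (w n) v (φ - ψ) := by
    rw [← Net.Gam_add_test (hw n) hv]
    congr 1
    ext x
    simp
  have h3 : |N.Gam (w n) v (φ - ψ)| ≤ ε / (2 * (M + 1)) * M := by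
    refine (Net.abs_Gam_le (hw n) hv _).trans ?_
    refine mul_le_mul hψn ?_ (by positivity) (by positivity)
    exact mul_le_mul_of_nonneg_right (Real.sqrt_le_sqrt (hC n)) (Real.sqrt_nonneg _)
  have h4 : ε / (2 * (M + 1)) * M ≤ ε / 2 := by
    rw [div_mul_eq_mul_div, div_le_div_iff₀ (by positivity) (by norm_num)]
    nlinarith
  rw [h2]
  exact (abs_add_le _ _).trans_lt (by linarith)

theorem closed_main [CompactSpace Z] (hsep : ∀ x y : Z, x ≠ y → ∃ u ∈ N.Dom, u x ≠ u y)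
    (u : ℕ → C(Z, ℝ)) (w : C(Z, ℝ)) (C : ℝ) (hu : ∀ n, u n ∈ N.Dom)
    (hlim : Tendsto u atTop (𝓝 w)) (hC : ∀ n, N.Gam (u n) (u n) 1 ≤ C) :
    w ∈ N.Dom ∧ ∀ v ∈ N.Dom, ∀ φ, Tendsto (fun n => N.Gam (u n) v φ) atTop (𝓝 (N.Gam w v φ)) := by
  have hw := Net.closed_mem (N := N) (w := w) (C := C) fun ε hε => by
    rw [Metric.tendsto_nhds] at hlim
    obtain ⟨n, hn⟩ := (hlim ε hε).exists
    exact ⟨u n, hu n, by rw [← dist_eq_norm]; exact hn.le, hC n⟩
  refine ⟨hw.1, fun v hv φ => ?_⟩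
  have h1 : ∀ n, u n - w ∈ N.Dom := fun n => Net.sub_mem (hu n) hw.1
  have h2 : Tendsto (fun n => u n - w) atTop (𝓝 0) := by
    have := hlim.sub_const w
    rwa [sub_self] at this
  have hC0 : 0 ≤ C := (Net.Gam_nonneg (hu 0) fun x => by simp).trans (hC 0)
  have h3 : ∀ n, N.Gam (u n - w) (u n - w) 1 ≤ 4 * C := by
    intro n
    rw [Net.Gam_sub_left (hu n) hw.1 (h1 n), Net.Gam_symm (u n), Net.Gam_symm w,
      Net.Gam_sub_left (hu n) hw.1 (hu n), Net.Gam_sub_left (hu n) hw.1 hw.1,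
      Net.Gam_symm w (u n)]
    have e1 := Net.abs_Gam_le (hu n) hw.1 (1 : C(Z, ℝ))
    have e2 : Real.sqrt (N.Gam (u n) (u n) 1) ≤ Real.sqrt C := Real.sqrt_le_sqrt (hC n)
    have e3 : Real.sqrt (N.Gam w w 1) ≤ Real.sqrt C := Real.sqrt_le_sqrt hw.2
    have e4 : Real.sqrt (N.Gam (u n) (u n) 1) * Real.sqrt (N.Gam w w 1) ≤ C := by
      refine (mul_le_mul e2 e3 (Real.sqrt_nonneg _) (Real.sqrt_nonneg _)).trans ?_
      rw [Real.mul_self_sqrt hC0]
    have e5 : ‖(1 : C(Z, ℝ))‖ ≤ 1 := by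
      refine (ContinuousMap.norm_le _ zero_le_one).mpr fun x => by simp
    have e6 : |N.Gam (u n) w 1| ≤ C :=
      e1.trans ((mul_le_mul e5 e4 (by positivity) zero_le_one).trans (by linarith))
    have e7 := (abs_le.mp e6).1
    linarith [hC n, hw.2]
  have h4 := tendsto_Gam_zero hsep h1 h2 h3 hv φ
  have h5 : ∀ n, N.Gam (u n) v φ = N.Gam (u n - w) v φ + N.Gam w v φ := fun n => by
    rw [Net.Gam_sub_left (hu n) hw.1 hv]; ring
  have h6 := h4.add_const (N.Gam w v φ)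
  rw [zero_add] at h6
  exact h6.congr fun n => (h5 n).symm

end

/-! ### from `Setup` to a `Net` -/

section
variable {G Z : Type} [Group G] [MetricSpace Z] [MulAction G Z]

/-- chosen boundary point in the shadow of `g` -/
noncomputable def pt (S : Setup G Z) (g : G) : Z := (S.star g).choose

theorem pt_spec (S : Setup G Z) (g : G) : (S.len g : ℝ) - S.δ ≤ S.s (pt S g) g :=
  (S.star g).choose_spec

theorem pt_mul_mem (S : Setup G Z) (h s : G) :
    (S.len h : ℝ) - (S.len s + 2 * S.δ) ≤ S.s (pt S (h * s)) h := by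
  have h1 := S.hyp_s1 (pt S (h * s)) (h * s) h
  have h2 := pt_spec S (h * s)
  have h3 : gpOf S.len (h * s) h = ((S.len (h * s) : ℝ) + S.len h - S.len s) / 2 := by
    unfold gpOf
    have : (h * s)⁻¹ * h = s⁻¹ := by group
    rw [this, S.len_inv]
  have h4 : (S.len h : ℝ) ≤ S.len (h * s) + S.len s := by
    have := S.len_mul (h * s) s⁻¹
    rw [mul_assoc, mul_inv_cancel, mul_one, S.len_inv] at this
    exact_mod_cast this
  have hδ := S.one_le_δ
  have hs : (0 : ℝ) ≤ S.len s := Nat.cast_nonneg _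
  have h5 : (S.len h : ℝ) - S.len s - S.δ ≤ min (S.s (pt S (h * s)) (h * s)) (gpOf S.len (h * s) h) := by
    refine le_min (by linarith) ?_
    rw [h3]
    linarith
  linarith

theorem exists_small (S : Setup G Z) (c : ℝ) {r : ℝ} (hr : 0 < r) :
    ∃ K : ℕ, ∀ n : ℕ, K ≤ n → Real.exp (-S.ε * (n - c)) < r := by
  have h1 : Tendsto (fun n : ℕ => Real.exp (-S.ε * ((n : ℝ) - c))) atTop (𝓝 0) := by
    refine Real.tendsto_exp_atBot.comp ?_
    have h2 : Tendsto (fun n : ℕ => ((n : ℝ) - c)) atTop atTop :=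
      tendsto_atTop_add_const_right _ (-c) tendsto_natCast_atTop_atTop
    exact h2.const_mul_atTop_of_neg (by linarith [S.ε_pos])
  obtain ⟨K, hK⟩ := eventually_atTop.mp (h1.eventually (gt_mem_nhds hr))
  exact ⟨K, fun n hn => hK n hn⟩

/-- the net of a `Setup` -/
noncomputable def net [CompactSpace Z] (S : Setup G Z) (st : Finset G) : Net G Z where
  len := S.len
  len_mul := S.len_mul
  len_inv := S.len_inv
  fin := S.finite_ball
  st := st
  p := pt S
  A1 := by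
    intro s _ u ε hε
    have hu : UniformContinuous u := CompactSpace.uniformContinuous_of_continuous u.continuous
    obtain ⟨r, hr, hr'⟩ := Metric.uniformContinuous_iff.mp hu ε hε
    obtain ⟨K, hK⟩ := exists_small S (S.len s + 3 * S.δ) hr
    refine ⟨K, fun h hh => ?_⟩
    have h1 := pt_spec S h
    have h2 := pt_mul_mem S h s
    have hδ := S.one_le_δ
    have hs : (0 : ℝ) ≤ S.len s := Nat.cast_nonneg _
    have h3 : dist (pt S h) (pt S (h * s)) < r := by
      refine (S.dist_le _ _ h).trans_lt (lt_of_le_of_lt ?_ (hK (S.len h) hh))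
      rw [Real.exp_le_exp]
      have h4 : (S.len h : ℝ) - (S.len s + 3 * S.δ) ≤
          min (S.s (pt S h) h) (S.s (pt S (h * s)) h) - S.δ := by
        have : (S.len h : ℝ) - (S.len s + 2 * S.δ) ≤ min (S.s (pt S h) h) (S.s (pt S (h * s)) h) :=
          le_min (by linarith) h2
        linarith
      have := mul_le_mul_of_nonneg_left h4 S.ε_pos.le
      linarith
    have h5 := hr' h3
    rw [Real.dist_eq] at h5
    exact h5.le
  A2 := by
    intro g u ε hε
    have hu : UniformContinuous u := CompactSpace.uniformContinuous_of_continuous u.continuous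
    obtain ⟨r, hr, hr'⟩ := Metric.uniformContinuous_iff.mp hu ε hε
    obtain ⟨K, hK⟩ := exists_small S (S.len g + 3 * S.δ) hr
    refine ⟨K, fun h hh => ?_⟩
    have h1 := pt_spec S h
    have h2 := pt_spec S (g * h)
    have hδ := S.one_le_δ
    have hg : (0 : ℝ) ≤ S.len g := Nat.cast_nonneg _
    have h6 := (abs_le.mp (S.cocycle (pt S h) h g)).1
    have h7 : S.s (pt S h) g⁻¹ ≤ S.len g := by
      have := S.s_le (pt S h) g⁻¹
      rwa [S.len_inv] at this
    have h8 : gpOf S.len h g⁻¹ ≤ S.len g := by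
      have := S_Basic.gp_le_right (S := S) h g⁻¹
      rw [S.len_inv] at this
      exact this
    have h9 : (S.len h : ℝ) ≤ S.len (g * h) + S.len g := by
      have := S.len_mul g⁻¹ (g * h)
      rw [inv_mul_cancel_left, S.len_inv] at this
      have h' : (S.len h : ℝ) ≤ S.len g + S.len (g * h) := by exact_mod_cast this
      linarith
    have h3 : dist (g • pt S h) (pt S (g * h)) < r := by
      refine (S.dist_le _ _ (g * h)).trans_lt (lt_of_le_of_lt ?_ (hK (S.len h) hh))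
      rw [Real.exp_le_exp]
      have h4 : (S.len h : ℝ) - (S.len g + 3 * S.δ) ≤
          min (S.s (g • pt S h) (g * h)) (S.s (pt S (g * h)) (g * h)) - S.δ := by
        have : (S.len h : ℝ) - (S.len g + 2 * S.δ) ≤
            min (S.s (g • pt S h) (g * h)) (S.s (pt S (g * h)) (g * h)) := by
          refine le_min ?_ (by linarith)
          linarith
        linarith
      have := mul_le_mul_of_nonneg_left h4 S.ε_pos.le
      linarith
    have h5 := hr' h3
    rw [Real.dist_eq] at h5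
    exact h5.le
  cont := S.cont

theorem sum_shI' (N : Net G Z) (n : ℕ) (sp : Finset G) (hsp : ∀ h, h ∈ sp ↔ N.len h = n)
    (F : G → G → ℝ) :
    ∑ i ∈ N.shI n, F i.1 i.2.1 = ∑ h ∈ sp, ∑ s ∈ N.st, F h s := by
  classical
  have h1 : N.shI n = sp ×ˢ (Finset.univ : Finset {s : G // s ∈ N.st}) := by
    ext i
    rw [Net.mem_shI, Finset.mem_product, hsp]
    simp only [Finset.mem_univ, and_true]
  rw [h1, Finset.sum_product]
  refine Finset.sum_congr rfl fun h _ => ?_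
  exact Finset.sum_coe_sort N.st (fun s => F h s)

theorem sum_shI [CompactSpace Z] (S : Setup G Z) (st : Finset G) (n : ℕ) (F : G → G → ℝ) :
    ∑ i ∈ (net S st).shI n, F i.1 i.2.1 = ∑ h ∈ S.sph n, ∑ s ∈ st, F h s :=
  sum_shI' (net S st) n (S.sph n) (fun h => by
    unfold Setup.sph
    rw [Set.Finite.mem_toFinset]
    rfl) F

theorem mem_of_oscBound [CompactSpace Z] (S : Setup G Z) (st : Finset G) {u : C(Z, ℝ)}
    (hu : OscBound S u) : u ∈ (net S st).Dom := by
  obtain ⟨c, hc⟩ := (net S st).exists_step_bound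
  have hδ := S.one_le_δ
  obtain ⟨C, hC⟩ := hu (c + 2 * S.δ)
  refine (Net.mem_of_shell (N := net S st) (f := fun h => u (pt S h)) (B := ‖u‖)
    (fun h => u.norm_coe_le_norm _)
    (fun η hη => ⟨0, fun h _ => by
      show |u (pt S h) - u (pt S h)| ≤ η
      rw [sub_self, abs_zero]; exact hη.le⟩) (C := st.card * C) fun n => ?_).1
  obtain ⟨o, ho, hoC⟩ := hC n
  have e1 : ∑ i ∈ (net S st).shI n, ((net S st).dd (fun h => u (pt S h)) i) ^ 2 =
      ∑ h ∈ S.sph n, ∑ s ∈ st, (u (pt S h) - u (pt S (h * s))) ^ 2 :=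
    sum_shI S st n (fun h s => (u (pt S h) - u (pt S (h * s))) ^ 2)
  rw [e1]
  have e2 : ∑ h ∈ S.sph n, ∑ s ∈ st, (u (pt S h) - u (pt S (h * s))) ^ 2 ≤
      ∑ h ∈ S.sph n, ∑ s ∈ st, o h ^ 2 := by
    refine Finset.sum_le_sum fun h hh => Finset.sum_le_sum fun s hs => ?_
    have hcs : ((net S st).len s : ℝ) ≤ c := by exact_mod_cast hc s hs
    have hcs' : (S.len s : ℝ) ≤ c := hcs
    have h0 : (0 : ℝ) ≤ c := Nat.cast_nonneg _
    have h1 : pt S h ∈ S.Sh (c + 2 * S.δ) h := by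
      have := pt_spec S h
      show (S.len h : ℝ) - (c + 2 * S.δ) ≤ S.s (pt S h) h
      linarith
    have h2 : pt S (h * s) ∈ S.Sh (c + 2 * S.δ) h := by
      have := pt_mul_mem S h s
      show (S.len h : ℝ) - (c + 2 * S.δ) ≤ S.s (pt S (h * s)) h
      linarith
    have h3 := ho h hh _ h1 _ h2
    rw [← sq_abs]
    exact pow_le_pow_left₀ (abs_nonneg _) h3 2
  refine e2.trans ?_
  simp only [Finset.sum_const, nsmul_eq_mul]
  rw [← Finset.mul_sum]
  exact mul_le_mul_of_nonneg_left hoC (Nat.cast_nonneg _)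

/-- F1 -/
theorem F1_main [CompactSpace Z] (S : Setup G Z) (T : Tiles S)
    (hsep : ∀ x y : Z, x ≠ y → ∃ u : C(Z, ℝ), OscBound S u ∧ u x ≠ u y) :
    Nonempty (FormCore T) := by
  classical
  let st : Finset G := S.bal ⌈2 * T.R + 2 * S.δ⌉₊
  have hsep' : ∀ x y : Z, x ≠ y → ∃ u ∈ (net S st).Dom, u x ≠ u y := fun x y hxy => by
    obtain ⟨u, hu, hne⟩ := hsep x y hxy
    exact ⟨u, mem_of_oscBound S st hu, hne⟩
  refine ⟨{
    Dom := (net S st).Dom
    Γ := (net S st).Gam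
    const_mem := fun c => Net.const_mem c
    add_mem := fun u hu v hv => Net.add_mem hu hv
    smul_mem := fun c u hu => Net.smul_mem c hu
    mul_mem := fun u hu v hv => Net.mul_mem hu hv
    symm := fun u _ v _ φ => Net.Gam_symm u v φ
    add_left := fun u hu u' hu' v hv φ => Net.Gam_add_left hu hu' hv φ
    smul_left := fun c u hu v hv φ => Net.Gam_smul_left c hu hv φ
    add_test := fun u hu v hv φ φ' => Net.Gam_add_test hu hv φ φ'
    smul_test := fun c u hu v hv φ => Net.Gam_smul_test c hu hv φ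
    nonneg := fun u hu φ hφ => Net.Gam_nonneg hu hφ
    chain := fun ψ hψ u hu v hv w' d1 d2 h1 h2 h3 => Net.Gam_chain hψ hu hv h1 h2 h3
    inv := fun g u v φ u' v' φ' hu hv h1 h2 h3 => Net.Gam_inv g hu hv h1 h2 h3
    closed := fun u w C hu hlim hC => closed_main hsep' u w C hu hlim hC
    mem := fun u hu => mem_of_oscBound S st hu
    p := pt S
    hp := pt_spec S
    S' := st
    hS' := ?_
    shell := ?_ }⟩
  · intro s hs
    show s ∈ S.bal _
    unfold Setup.bal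
    rw [Set.Finite.mem_toFinset]
    show S.len s ≤ _
    have := Nat.le_ceil (2 * T.R + 2 * S.δ)
    exact_mod_cast hs.trans this
  · intro u hu φ hφ η hη K
    obtain ⟨n, hn, f, hf, hsum⟩ := Net.exists_shell hu hφ hη K
    refine ⟨n, hn, f, fun h _ => hf h, ?_⟩
    have e1 := sum_shI S st n (fun h s => φ (pt S h) * (f h - f (h * s)) ^ 2)
    have e2 : ∑ h ∈ S.sph n, φ (pt S h) * ∑ s ∈ st, (f h - f (h * s)) ^ 2 =
        ∑ h ∈ S.sph n, ∑ s ∈ st, φ (pt S h) * (f h - f (h * s)) ^ 2 :=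
      Finset.sum_congr rfl fun h _ => Finset.mul_sum _ _ _
    rw [e2, ← e1]
    exact hsum

/-- F1 exactly as in `F_Spec` -/
theorem F1_spec (G Z : Type) [Group G] [MetricSpace Z] [MulAction G Z] : F_Spec.F1 G Z := by
  intro _ S T h
  exact F1_main S T h

end

end Crest.Agent.R193.F_One
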