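import Crest.Agent.R193.Defs

-- ▼ part R193/F_Sep1
section

/-!
R193 block F (helper283): consequences of `Setup`: identities for `(kx|k)`, metric distortion of the
action, comparability of tiles.
-/

set_option autoImplicit false

open Set Filter Topology

namespace Crest.Agent.R193.F_Sep1

open Crest.Agent.R193

variable {G Z : Type} [Group G] [MetricSpace Z] [MulAction G Z] (S : Setup G Z)

theorem len_inv_mul_comm (g h : G) : S.len (g⁻¹ * h) = S.len (h⁻¹ * g) := by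
  rw [← S.len_inv (g⁻¹ * h)]; simp

theorem gp_comm (g h : G) : gpOf S.len g h = gpOf S.len h g := by
  unfold gpOf; rw [len_inv_mul_comm S g h]; ring

theorem gp_one_left (h : G) : gpOf S.len 1 h = 0 := by
  unfold gpOf; simp [S.len_one]


theorem len_le_add (g h : G) : S.len g ≤ S.len h + S.len (h⁻¹ * g) := by
  have := S.len_mul h (h⁻¹ * g)
  simpa using this

theorem gp_le_right (g h : G) : gpOf S.len g h ≤ S.len h := by
  unfold gpOf
  have h1 : (S.len g : ℝ) ≤ S.len h + S.len (g⁻¹ * h) := by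
    have := len_le_add S g h
    rw [len_inv_mul_comm S h g] at this
    exact_mod_cast this
  linarith

theorem gp_le_left (g h : G) : gpOf S.len g h ≤ S.len g := by
  rw [gp_comm]; exact gp_le_right S h g


theorem s_one (x : Z) : S.s x 1 = 0 := by
  have h1 := S.s_nonneg x 1
  have h2 := S.s_le x 1
  rw [S.len_one] at h2
  norm_num at h2
  linarith

theorem δ_pos : 0 < S.δ := lt_of_lt_of_le one_pos S.one_le_δ

/-- `(kx|k) + (x|k⁻¹) = |k|` up to `δ`. -/
theorem smul_self (x : Z) (k : G) : |S.s (k • x) k - (S.len k - S.s x k⁻¹)| ≤ S.δ := by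
  have h := S.cocycle x 1 k
  rw [mul_one, s_one, gp_one_left] at h
  have e : S.s (k • x) k - (0 - S.s x k⁻¹ - 0 + S.len k) = S.s (k • x) k - (S.len k - S.s x k⁻¹) := by
    ring
  rwa [e] at h

theorem smul_self_le (x : Z) (k : G) : S.s (k • x) k ≤ S.len k - S.s x k⁻¹ + S.δ := by
  have := (abs_le.1 (smul_self S x k)).2; linarith

theorem le_smul_self (x : Z) (k : G) : S.len k - S.s x k⁻¹ - S.δ ≤ S.s (k • x) k := by
  have := (abs_le.1 (smul_self S x k)).1; linarith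


theorem le_smul_mul (x : Z) (g k : G) :
    S.s x g - S.s x k⁻¹ - gpOf S.len g k⁻¹ + S.len k - S.δ ≤ S.s (k • x) (k * g) := by
  have := (abs_le.1 (S.cocycle x g k)).1; linarith

theorem dist_le_exp_delta (x y : Z) : dist x y ≤ Real.exp (S.ε * S.δ) := by
  have := S.dist_le x y 1
  rw [s_one, s_one] at this
  convert this using 2
  simp

/-- depth at which the rays to `x`, `y` separate -/
theorem exists_common (x y : Z) (hxy : x ≠ y) : ∃ (n : ℕ) (g : G), S.len g = n ∧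
    (n : ℝ) - S.δ ≤ S.s x g ∧ (n : ℝ) - 2 * S.δ ≤ S.s y g ∧
    Real.exp (- S.ε * n) ≤ Real.exp (S.ε * S.δ) * dist x y ∧
    ((n : ℝ) ≤ max 0 (-Real.log (dist x y) / S.ε)) := by
  set t : ℝ := -Real.log (dist x y) / S.ε with ht
  have hd : 0 < dist x y := dist_pos.2 hxy
  have hδ := S.one_le_δ
  obtain ⟨g, hg, hxg⟩ := S.ray x ⌊max 0 t⌋₊
  have hn1 : ((⌊max 0 t⌋₊ : ℕ) : ℝ) ≤ max 0 t := Nat.floor_le (le_max_left _ _)
  have hn2 : max 0 t - 1 < ((⌊max 0 t⌋₊ : ℕ) : ℝ) := by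
    have := Nat.lt_floor_add_one (max 0 t); linarith
  refine ⟨⌊max 0 t⌋₊, g, hg, hxg, ?_, ?_, hn1⟩
  · by_cases h0 : 0 ≤ t
    · have h1 := S.le_s x y g hxy
      rw [max_eq_right h0] at hn1 hxg ⊢
      have h2 : ((⌊t⌋₊ : ℕ) : ℝ) - S.δ ≤ min (S.s x g) t := le_min hxg (by linarith)
      linarith
    · have h3 : max 0 t = 0 := max_eq_left (le_of_not_ge h0)
      rw [h3] at hn1 ⊢
      have := S.s_nonneg y g
      simp only [Nat.floor_zero, Nat.cast_zero]
      linarith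
  · have h1 : Real.exp (-S.ε * t) = dist x y := by
      rw [ht]
      have : -S.ε * (-Real.log (dist x y) / S.ε) = Real.log (dist x y) := by
        field_simp [S.ε_pos.ne']
      rw [this, Real.exp_log hd]
    rw [← h1, ← Real.exp_add, Real.exp_le_exp]
    have h4 : t ≤ max 0 t := le_max_right _ _
    nlinarith [S.ε_pos]

/-- `k⁻¹` is `C e^{ε|k|}`-Lipschitz. -/
theorem dist_inv_smul_le (k : G) (x y : Z) :
    dist (k⁻¹ • x) (k⁻¹ • y) ≤ Real.exp (S.ε * (S.len k + 5 * S.δ)) * dist x y := by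
  by_cases hxy : x = y
  · subst hxy; simp
  obtain ⟨n, g, hg, hx, hy, hn, -⟩ := exists_common S x y hxy
  have key : ∀ z : Z, (n : ℝ) - 2 * S.δ ≤ S.s z g →
      (n : ℝ) - S.len k - 3 * S.δ ≤ S.s (k⁻¹ • z) (k⁻¹ * g) := by
    intro z hz
    have h1 := le_smul_mul S z g k⁻¹
    rw [inv_inv, S.len_inv] at h1
    have h2 := S.s_le z k
    have h3 := gp_le_right S g k
    linarith
  have hδ := δ_pos S
  have h1 := key x (by linarith)
  have h2 := key y hy
  have h3 := S.dist_le (k⁻¹ • x) (k⁻¹ • y) (k⁻¹ * g)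
  refine h3.trans ?_
  have h4 : Real.exp (-S.ε * (min (S.s (k⁻¹ • x) (k⁻¹ * g)) (S.s (k⁻¹ • y) (k⁻¹ * g)) - S.δ))
      ≤ Real.exp (S.ε * (S.len k + 4 * S.δ)) * Real.exp (-S.ε * n) := by
    rw [← Real.exp_add, Real.exp_le_exp]
    have := le_min h1 h2
    nlinarith [S.ε_pos]
  refine h4.trans ?_
  calc Real.exp (S.ε * (S.len k + 4 * S.δ)) * Real.exp (-S.ε * n)
      ≤ Real.exp (S.ε * (S.len k + 4 * S.δ)) * (Real.exp (S.ε * S.δ) * dist x y) := by gcongr
    _ = Real.exp (S.ε * (S.len k + 5 * S.δ)) * dist x y := by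
        rw [← mul_assoc, ← Real.exp_add]; congr 2; ring

/-- away from the pole `k` contracts by `e^{-ε|k|}`. -/
theorem dist_smul_le {R : ℝ} {k : G} {x y : Z} (hx : x ∈ S.Gd R k) (hy : y ∈ S.Gd R k) :
    dist (k • x) (k • y) ≤ Real.exp (S.ε * (2 * R + 7 * S.δ - S.len k)) * dist x y := by
  by_cases hxy : x = y
  · subst hxy; simp
  have hx' : S.s x k⁻¹ ≤ R := hx
  have hy' : S.s y k⁻¹ ≤ R := hy
  have hδ := δ_pos S
  obtain ⟨n, g, hg, hxg, hyg, hn, -⟩ := exists_common S x y hxy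
  have hgp : gpOf S.len g k⁻¹ ≤ R + 2 * S.δ := by
    have h1 := S.hyp_s1 x g k⁻¹
    rcases le_total (S.s x g) (gpOf S.len g k⁻¹) with h | h
    · rw [min_eq_left h] at h1
      have h2 := gp_le_left S g k⁻¹
      rw [hg] at h2
      linarith
    · rw [min_eq_right h] at h1
      linarith
  have key : ∀ z : Z, S.s z k⁻¹ ≤ R → (n : ℝ) - 2 * S.δ ≤ S.s z g →
      (n : ℝ) + S.len k - 2 * R - 5 * S.δ ≤ S.s (k • z) (k * g) := by
    intro z hz hz2
    have h1 := le_smul_mul S z g k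
    linarith
  have h1 := key x hx' (by linarith)
  have h2 := key y hy' hyg
  refine (S.dist_le (k • x) (k • y) (k * g)).trans ?_
  have h4 : Real.exp (-S.ε * (min (S.s (k • x) (k * g)) (S.s (k • y) (k * g)) - S.δ))
      ≤ Real.exp (S.ε * (2 * R + 6 * S.δ - S.len k)) * Real.exp (-S.ε * n) := by
    rw [← Real.exp_add, Real.exp_le_exp]
    have := le_min h1 h2
    nlinarith [S.ε_pos]
  refine h4.trans ?_
  calc Real.exp (S.ε * (2 * R + 6 * S.δ - S.len k)) * Real.exp (-S.ε * n)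
      ≤ Real.exp (S.ε * (2 * R + 6 * S.δ - S.len k)) * (Real.exp (S.ε * S.δ) * dist x y) := by gcongr
    _ = Real.exp (S.ε * (2 * R + 7 * S.δ - S.len k)) * dist x y := by
        rw [← mul_assoc, ← Real.exp_add]; congr 2; ring



/-- comparability of tiles: a tile at level `n` over `k • z` and a tile at level `n - |k|` over `z`. -/
theorem len_le_of_mem {R R' : ℝ} (hR : 0 ≤ R) (hR' : 0 ≤ R') {k h h' : G} {z : Z}
    (hz : z ∈ S.Gd R k)
    (hh' : z ∈ S.Sh R' h') (hh : k • z ∈ S.Sh R' h) (hlen : S.len h = S.len h' + S.len k) :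
    (S.len (h'⁻¹ * (k⁻¹ * h)) : ℝ) ≤ 4 * R + 4 * R' + 8 * S.δ := by
  have hz' : S.s z k⁻¹ ≤ R := hz
  have hh1 : (S.len h' : ℝ) - R' ≤ S.s z h' := hh'
  have hh2 : (S.len h : ℝ) - R' ≤ S.s (k • z) h := hh
  have hδ := δ_pos S
  have hl : (S.len h : ℝ) = S.len h' + S.len k := by exact_mod_cast hlen
  -- `(kz|k) ≥ |k| - R - δ`
  have h3 := le_smul_self S z k
  -- `(h|k) ≥ |k| - R - R' - 2 δ`
  have h4 := S.hyp_s2 (k • z) h k
  have hl' : (0:ℝ) ≤ S.len h' := Nat.cast_nonneg _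
  have h5 : (S.len k : ℝ) - R - R' - 2 * S.δ ≤ gpOf S.len h k := by
    have : (S.len k : ℝ) - R - R' - S.δ ≤ min (S.s (k • z) h) (S.s (k • z) k) := by
      apply le_min <;> linarith
    linarith
  have h6 := gp_le_right S h k
  -- `(z|k⁻¹ h) ≥ m - R' - δ`
  have h7 := le_smul_mul S (k • z) h k⁻¹
  rw [inv_smul_smul, inv_inv, S.len_inv] at h7
  have h8 := S.s_le (k • z) k
  have h9 : (S.len h' : ℝ) - R' - S.δ ≤ S.s z (k⁻¹ * h) := by linarith
  -- `|k⁻¹ h| ≤ m + 2R + 2R' + 4δ`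
  have h10 : (S.len (k⁻¹ * h) : ℝ) ≤ S.len h' + 2 * R + 2 * R' + 4 * S.δ := by
    have : gpOf S.len h k = ((S.len h : ℝ) + S.len k - S.len (h⁻¹ * k)) / 2 := rfl
    rw [len_inv_mul_comm S k h]
    rw [this] at h5
    linarith
  -- Gromov product
  have h11 := S.hyp_s2 z h' (k⁻¹ * h)
  have h12 : (S.len h' : ℝ) - R' - 2 * S.δ ≤ gpOf S.len h' (k⁻¹ * h) := by
    have : (S.len h' : ℝ) - R' - S.δ ≤ min (S.s z h') (S.s z (k⁻¹ * h)) := by
      apply le_min <;> linarith
    linarith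
  have : gpOf S.len h' (k⁻¹ * h)
      = ((S.len h' : ℝ) + S.len (k⁻¹ * h) - S.len (h'⁻¹ * (k⁻¹ * h))) / 2 := rfl
  rw [this] at h12
  linarith

end Crest.Agent.R193.F_Sep1
end

-- ▼ part R193/F_Sep2

/-!
R193 block F (helper283): transport of `SepBound` by group elements.
-/

set_option autoImplicit false

open Set Filter Topology

namespace Crest.Agent.R193.F_Sep2

open Crest.Agent.R193 Crest.Agent.R193.F_Sep1

/-- the part of a closed separating set in the closure of `Eᶜ` separates. -/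
theorem separates_inter_closure {X : Type} [TopologicalSpace X] [LocallyPathConnectedSpace X]
    {K D E : Set X} (hK : IsClosed K) (hE : IsClosed E) (hDE : Disjoint D E)
    (h : Separates K D E) : Separates (K ∩ closure Eᶜ) D E := by
  rintro c hc ⟨a, hac, haD⟩ ⟨b, hbc, hbE⟩
  by_contra hcon
  rw [not_nonempty_iff_eq_empty] at hcon
  set O : Set X := (K ∩ closure Eᶜ)ᶜ with hO
  have hOo : IsOpen O := (hK.inter isClosed_closure).isOpen_compl
  have hcO : c ⊆ O := fun x hx hx2 => by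
    have : x ∈ c ∩ (K ∩ closure Eᶜ) := ⟨hx, hx2⟩
    rw [hcon] at this; exact this
  -- path in `O`
  have hU : IsOpen (connectedComponentIn O a) := hOo.connectedComponentIn
  have haU : a ∈ connectedComponentIn O a := mem_connectedComponentIn (hcO hac)
  have hbU : b ∈ connectedComponentIn O a := hc.subset_connectedComponentIn hac hcO hbc
  have hpc : IsPathConnected (connectedComponentIn O a) :=
    hU.isConnected_iff_isPathConnected.1
      ⟨⟨a, haU⟩, isPreconnected_connectedComponentIn⟩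
  obtain ⟨γ, hγ⟩ := hpc.joinedIn a haU b hbU
  -- first hitting time of `E`
  set A : Set unitInterval := {t | γ t ∈ E} with hA
  have hAc : IsCompact A := (hE.preimage γ.continuous).isCompact
  have hAne : A.Nonempty := ⟨1, by simp [hA, hbE]⟩
  obtain ⟨t0, ht0⟩ := hAc.exists_isLeast hAne
  have haE : a ∉ E := fun haE => (Set.disjoint_left.1 hDE) haD haE
  have ht0pos : 0 < t0 := by
    rcases (show (0:unitInterval) ≤ t0 from unitInterval.nonneg').eq_or_lt with h0 | h0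
    · exfalso
      apply haE
      have := ht0.1
      rw [← h0] at this
      simpa [hA] using this
    · exact h0
  have hlt : ∀ t < t0, γ t ∈ Eᶜ := fun t ht htE => absurd (ht0.2 htE) (not_le.2 ht)
  set c'' : Set X := γ '' Icc 0 t0 with hc''
  have hc''c : IsPreconnected c'' := (isPreconnected_Icc).image _ γ.continuous.continuousOn
  have hsub : c'' ⊆ closure Eᶜ := by
    rintro _ ⟨t, ht, rfl⟩
    have h1 : t ∈ closure (Iio t0) := by
      rw [closure_Iio' (⟨0, ht0pos⟩ : (Iio t0).Nonempty)]; exact ht.2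
    exact closure_mono (by rintro _ ⟨s, hs, rfl⟩; exact hlt s hs)
      ((image_closure_subset_closure_image γ.continuous) ⟨t, h1, rfl⟩)
  obtain ⟨z, hz1, hz2⟩ := h c'' hc''c ⟨a, ⟨0, ⟨le_rfl, ht0pos.le⟩, by simp⟩, haD⟩
    ⟨γ t0, ⟨t0, ⟨ht0pos.le, le_rfl⟩, rfl⟩, ht0.1⟩
  obtain ⟨t, ht, rfl⟩ := hz1
  exact (connectedComponentIn_subset O a (hγ t)) ⟨hz2, hsub ⟨t, ht, rfl⟩⟩

variable {G Z : Type} [Group G] [MetricSpace Z] [MulAction G Z] {S : Setup G Z}

theorem isClosed_un (T : Tiles S) (A : Finset G) : IsClosed (T.un A) :=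
  isClosed_biUnion_finset fun h _ => T.isClosed h

theorem mem_sph {n : ℕ} {g : G} : g ∈ S.sph n ↔ S.len g = n := by
  unfold Setup.sph
  rw [Set.Finite.mem_toFinset]
  rfl

theorem mem_bal {n : ℕ} {g : G} : g ∈ S.bal n ↔ S.len g ≤ n := by
  unfold Setup.bal
  rw [Set.Finite.mem_toFinset]
  rfl

/-- tiles of level `n` cover. -/
theorem exists_tile (T : Tiles S) (x : Z) (n : ℕ) : ∃ h ∈ S.sph n, x ∈ T.U h := by
  obtain ⟨g, hg, hx⟩ := S.ray x n
  refine ⟨g, mem_sph.2 hg, T.cover g ?_⟩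
  show (S.len g : ℝ) - S.δ ≤ S.s x g
  rw [hg]; exact hx

/-- the number of elements comparable to a given one -/
theorem card_filter_le {P : G → Prop} [DecidablePred P] (A : Finset G) (f : G → G)
    (hf : Function.Injective f) (N : ℕ) (h : ∀ g ∈ A, P g → S.len (f g) ≤ N) :
    (A.filter P).card ≤ (S.bal N).card := by
  apply Finset.card_le_card_of_injOn f
  · intro g hg
    rw [Finset.mem_coe, Finset.mem_filter] at hg
    exact mem_bal.2 (h g hg.1 hg.2)
  · exact hf.injOn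

/-- double counting / Cauchy-Schwarz for a relation with bounded multiplicities. -/
theorem sum_sq_le {α β : Type*} (A : Finset α) (B : Finset β) (P : α → β → Prop)
    [∀ a, DecidablePred (P a)] [∀ b, DecidablePred fun a => P a b] (N : ℕ) (ρ : β → ℝ)
    (h1 : ∀ a ∈ A, (B.filter (P a)).card ≤ N) (h2 : ∀ b ∈ B, (A.filter fun a => P a b).card ≤ N) :
    ∑ a ∈ A, (∑ b ∈ B.filter (P a), ρ b) ^ 2 ≤ (N : ℝ) ^ 2 * ∑ b ∈ B, ρ b ^ 2 := by
  have hN : (0:ℝ) ≤ N := Nat.cast_nonneg _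
  calc ∑ a ∈ A, (∑ b ∈ B.filter (P a), ρ b) ^ 2
      ≤ ∑ a ∈ A, (N : ℝ) * ∑ b ∈ B.filter (P a), ρ b ^ 2 := by
        apply Finset.sum_le_sum
        intro a ha
        have := sq_sum_le_card_mul_sum_sq (s := B.filter (P a)) (f := ρ)
        refine this.trans ?_
        have h3 : ((B.filter (P a)).card : ℝ) ≤ N := by exact_mod_cast h1 a ha
        have h4 : 0 ≤ ∑ b ∈ B.filter (P a), ρ b ^ 2 := Finset.sum_nonneg fun _ _ => sq_nonneg _
        gcongr
    _ = (N : ℝ) * ∑ b ∈ B, ((A.filter fun a => P a b).card : ℝ) * ρ b ^ 2 := by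
        rw [← Finset.mul_sum]
        congr 1
        simp_rw [Finset.sum_filter]
        rw [Finset.sum_comm]
        apply Finset.sum_congr rfl
        intro b _
        rw [← Finset.sum_filter, Finset.sum_const, nsmul_eq_mul]
    _ ≤ (N : ℝ) * ∑ b ∈ B, (N : ℝ) * ρ b ^ 2 := by
        gcongr with b hb
        exact_mod_cast h2 b hb
    _ = (N : ℝ) ^ 2 * ∑ b ∈ B, ρ b ^ 2 := by
        rw [← Finset.mul_sum]; ring

/-- multiplicity constant of the transport at "distance" `R` from the poles. -/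
noncomputable def mult (T : Tiles S) (R : ℝ) : ℕ :=
  (S.bal ⌊4 * R + 4 * T.R + 8 * S.δ⌋₊).card

/-- **Transport of `SepBound`.** -/
theorem sepBound_smul [LocallyPathConnectedSpace Z] (T : Tiles S) {m : ℕ} {k : G} {R : ℝ}
    (hR : 0 ≤ R) {D E : Set Z} (hE : IsClosed E) (hDE : Disjoint D E)
    (hB : closure Eᶜ ⊆ S.Gd R k) {L : ℝ} (hL : 0 ≤ L) (h : SepBound T m D E L) :
    SepBound T (m + S.len k) ((fun x => k • x) '' D) ((fun x => k • x) '' E)
      (L * (mult T R : ℝ) ^ 2) := by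
  classical
  intro ρ hρ
  set n := m + S.len k with hn
  let P : G → G → Prop := fun h' h => ∃ z ∈ closure Eᶜ, z ∈ T.U h' ∧ k • z ∈ T.U h
  have hP : ∀ h' ∈ S.sph m, ∀ h ∈ S.sph n, P h' h →
      S.len (h'⁻¹ * (k⁻¹ * h)) ≤ ⌊4 * R + 4 * T.R + 8 * S.δ⌋₊ := by
    intro h' hh' g hg ⟨z, hz, hz1, hz2⟩
    rw [mem_sph] at hh' hg
    apply Nat.le_floor
    exact len_le_of_mem S hR T.R_pos.le (hB hz) (T.sub _ hz1) (T.sub _ hz2) (by rw [hh', hg])
  let ρ' : G → ℝ := fun h' => ∑ g ∈ (S.sph n).filter (P h'), ρ g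
  obtain ⟨A', hA'1, hA'2, hA'3⟩ := h ρ' (fun h' => Finset.sum_nonneg fun g _ => hρ g)
  refine ⟨(S.sph n).filter (fun g => ∃ h' ∈ A', P h' g), Finset.filter_subset _ _, ?_, ?_⟩
  · have hsep := separates_inter_closure (isClosed_un T A') hE hDE hA'2
    rintro c hc ⟨a, hac, ⟨a', ha', rfl⟩⟩ ⟨b, hbc, ⟨b', hb', rfl⟩⟩
    have hc' : IsPreconnected ((fun x => k⁻¹ • x) '' c) := hc.image _ (S.cont k⁻¹).continuousOn
    obtain ⟨_, ⟨w, hw, rfl⟩, hz1, hz2⟩ := hsep _ hc'
      ⟨a', ⟨k • a', hac, by simp⟩, ha'⟩ ⟨b', ⟨k • b', hbc, by simp⟩, hb'⟩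
    refine ⟨w, hw, ?_⟩
    obtain ⟨g, hg, hwg⟩ := exists_tile T w n
    simp only [Tiles.un, mem_iUnion, exists_prop] at hz1
    obtain ⟨h', hh', hz1⟩ := hz1
    simp only [Tiles.un, mem_iUnion, exists_prop]
    refine ⟨g, ?_, hwg⟩
    rw [Finset.mem_filter]
    refine ⟨hg, h', hh', k⁻¹ • w, hz2, hz1, ?_⟩
    rwa [smul_inv_smul]
  · have h1 : ∑ g ∈ (S.sph n).filter (fun g => ∃ h' ∈ A', P h' g), ρ g ≤ ∑ h' ∈ A', ρ' h' := by
      calc ∑ g ∈ (S.sph n).filter (fun g => ∃ h' ∈ A', P h' g), ρ g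
          ≤ ∑ g ∈ (S.sph n).filter (fun g => ∃ h' ∈ A', P h' g),
              ((A'.filter fun h' => P h' g).card : ℝ) * ρ g := by
            apply Finset.sum_le_sum
            intro g hg
            rw [Finset.mem_filter] at hg
            obtain ⟨h', hh', hPg⟩ := hg.2
            have : 1 ≤ (A'.filter fun h' => P h' g).card :=
              Finset.card_pos.2 ⟨h', Finset.mem_filter.2 ⟨hh', hPg⟩⟩
            have h2 : (1:ℝ) ≤ ((A'.filter fun h' => P h' g).card : ℝ) := by exact_mod_cast this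
            nlinarith [hρ g]
        _ ≤ ∑ g ∈ S.sph n, ((A'.filter fun h' => P h' g).card : ℝ) * ρ g := by
            apply Finset.sum_le_sum_of_subset_of_nonneg (Finset.filter_subset _ _)
            intro g _ _
            exact mul_nonneg (Nat.cast_nonneg _) (hρ g)
        _ = ∑ h' ∈ A', ρ' h' := by
            simp only [ρ']
            simp_rw [Finset.sum_filter]
            rw [Finset.sum_comm]
            apply Finset.sum_congr rfl
            intro g _
            rw [← Finset.sum_filter, Finset.sum_const, nsmul_eq_mul]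
    have h0 : 0 ≤ ∑ g ∈ (S.sph n).filter (fun g => ∃ h' ∈ A', P h' g), ρ g :=
      Finset.sum_nonneg fun g _ => hρ g
    have h2 : ∑ h' ∈ S.sph m, (ρ' h') ^ 2 ≤ (mult T R : ℝ) ^ 2 * ∑ g ∈ S.sph n, ρ g ^ 2 := by
      refine sum_sq_le (S.sph m) (S.sph n) P (mult T R) ρ ?_ ?_
      · intro h' hh'
        exact card_filter_le (S := S) (S.sph n) (fun g => h'⁻¹ * (k⁻¹ * g))
          (fun a b hab => by simpa using hab) _ (fun g hg hPg => hP h' hh' g hg hPg)
      · intro g hg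
        refine card_filter_le (S := S) (S.sph m) (fun h' => h'⁻¹ * (k⁻¹ * g))
          (fun a b hab => by simpa using hab) _ (fun h' hh' hPg => hP h' hh' g hg hPg)
    calc (∑ g ∈ (S.sph n).filter (fun g => ∃ h' ∈ A', P h' g), ρ g) ^ 2
        ≤ (∑ h' ∈ A', ρ' h') ^ 2 := by gcongr
      _ ≤ L * ∑ h' ∈ S.sph m, (ρ' h') ^ 2 := hA'3
      _ ≤ L * ((mult T R : ℝ) ^ 2 * ∑ g ∈ S.sph n, ρ g ^ 2) := by gcongr
      _ = L * (mult T R : ℝ) ^ 2 * ∑ g ∈ S.sph n, ρ g ^ 2 := by ring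

theorem SepBound.mono {T : Tiles S} {n : ℕ} {D E D' E' : Set Z} {L L' : ℝ}
    (h : SepBound T n D E L) (hD : D' ⊆ D) (hE : E' ⊆ E) (hL : L ≤ L') : SepBound T n D' E' L' := by
  intro ρ hρ
  obtain ⟨A, h1, h2, h3⟩ := h ρ hρ
  refine ⟨A, h1, fun c hc hcD hcE => h2 c hc (hcD.mono (inter_subset_inter_right _ hD))
    (hcE.mono (inter_subset_inter_right _ hE)), h3.trans ?_⟩
  have : 0 ≤ ∑ h ∈ S.sph n, (ρ h) ^ 2 := Finset.sum_nonneg fun _ _ => sq_nonneg _
  gcongr

end Crest.Agent.R193.F_Sep2
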