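import Crest.Agent.R193.F_Sep2
import Crest.Agent.R193.CH_Chart

/-!
R193 block F (helper283): uniform `SepBound` for all small metric annuli.
-/

set_option autoImplicit false

open Set Filter Topology Metric

namespace Crest.Agent.R193.F_Sep3

open Crest.Agent.R193 Crest.Agent.R193.F_Sep1 Crest.Agent.R193.F_Sep2

theorem locallyPathConnectedSpace_of_homeo {Z : Type} [TopologicalSpace Z] (Φ : Z ≃ₜ S2) :
    LocallyPathConnectedSpace Z := by
  have h1 : LocallyPathConnectedSpace S2 := by
    haveI : Fact (Module.finrank ℝ (EuclideanSpace ℝ (Fin 3)) = 2 + 1) := ⟨by simp⟩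
    exact ChartedSpace.locallyPathConnectedSpace (EuclideanSpace ℝ (Fin 2)) S2
  exact Φ.isOpenEmbedding.locallyPathConnectedSpace

variable {G Z : Type} [Group G] [MetricSpace Z] [MulAction G Z] {S : Setup G Z}

theorem isClosed_E (ψ : Chart Z) (r : ℝ) : IsClosed (ψ.E r) :=
  (ψ.emb.isOpenMap _ isOpen_ball).isClosed_compl

theorem disjoint_D_E (ψ : Chart Z) {r r' : ℝ} (h : r < r') : Disjoint (ψ.D r) (ψ.E r') := by
  rw [Set.disjoint_left]
  rintro _ ⟨p, hp, rfl⟩ hE
  exact hE ⟨p, closedBall_subset_ball h hp, rfl⟩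

theorem closure_compl_E (ψ : Chart Z) (r : ℝ) : closure (ψ.E r)ᶜ ⊆ ψ.f '' closedBall 0 r := by
  unfold Chart.E
  rw [compl_compl]
  apply closure_minimal (image_mono ball_subset_closedBall)
  exact ((isCompact_closedBall _ _).image ψ.emb.continuous).isClosed


end Crest.Agent.R193.F_Sep3
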