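import Mathlib
import Crest.Agent.R193.M_Defs
import Crest.Agent.R193.Planar3
import Crest.Agent.R193.Planar4
import Crest.Agent.R193.P_Comp
import Crest.Agent.R193.T_Comp

-- ▼ part R193/M_Spec
section

/-!
# R193, block M: the interfaces between the sub-blocks as Props (no sorry).

`M1Stmt` (260 + 878), `M2Stmt` (818), `M3Stmt` (878), `M5Stmt` (578, 635).
The assembly `M_main_of : M1Stmt T → M2Stmt T → M5Stmt T → ...` is in `M_Asm.lean`.
-/

set_option autoImplicit false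

noncomputable section

open Set Filter Topology MeasureTheory

namespace Crest.Agent.R193

section
variable {G Z : Type} [Group G] [MetricSpace Z] [MulAction G Z] {S : Setup G Z}



/-- M3: at large record levels every component of a level chain reaches `T = Z \ Qo`. -/
def M3Stmt (T : Tiles S) : Prop :=
  ∀ P : Rec T, ∀ n ∈ P.recs, ∀ t : ℝ, 0 ≤ t → t < 1 → ∀ h ∈ T.lev P.χ n (P.u n) t,
    ∃ h', Relation.ReflTransGen (fun a b => a ∈ T.lev P.χ n (P.u n) t ∧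
        b ∈ T.lev P.χ n (P.u n) t ∧ T.adj a b) h h' ∧
      h' ∈ T.lev P.χ n (P.u n) t ∧ (T.U h' ∩ P.χ.T).Nonempty

/-- number of `g2 ∈ Γ` whose pole disc is hit by the level `t` seen from `g` -/
def mcount (S : Setup G Z) (Γ : Finset G) (Tm : Set Z) (w : Z → ℝ) (I0 : ℕ) (g : G) (t : ℝ) : ℝ :=
  by
  classical
  exact ((Γ.filter fun g2 => S.len (g * g2⁻¹) < I0 ∨
    t ∈ w '' ((fun y => (g * g2⁻¹) • y) '' Tm)).card : ℝ)


end

end Crest.Agent.R193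
end
end

-- ▼ part R193/M3_Level

/-!
# R193, M3 (helper878): every component of a level chain reaches `T = Z \ Qo`
-/

set_option autoImplicit false

noncomputable section

open Set Filter Topology MeasureTheory

namespace Crest.Agent.R193.M3_Level

section chart
variable {Z : Type} [TopologicalSpace Z]

theorem isOpen_Qo (χ : Chart Z) : IsOpen χ.Qo :=
  χ.emb.isOpenMap _ (isOpen_Ioo.prod isOpen_Ioo)

theorem isClosed_T (χ : Chart Z) : IsClosed χ.T := (isOpen_Qo χ).isClosed_compl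

theorem Qo_sub_Q (χ : Chart Z) : χ.Qo ⊆ χ.Q :=
  image_mono (prod_mono Ioo_subset_Icc_self Ioo_subset_Icc_self)

theorem left_sub_T (χ : Chart Z) : χ.left ⊆ χ.T := by
  rintro _ ⟨p, hp, rfl⟩ ⟨q, hq, hqp⟩
  have h := χ.emb.injective hqp
  subst h
  have h1 : q.1 = 0 := hp.1
  have h2 : 0 < q.1 := hq.1.1
  linarith

theorem right_sub_T (χ : Chart Z) : χ.right ⊆ χ.T := by
  rintro _ ⟨p, hp, rfl⟩ ⟨q, hq, hqp⟩
  have h := χ.emb.injective hqp
  subst h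
  have h1 : q.1 = 1 := hp.1
  have h2 : q.1 < 1 := hq.1.2
  linarith

theorem T_nonempty (χ : Chart Z) : χ.T.Nonempty :=
  ⟨χ.f (0, 0), left_sub_T χ ⟨(0, 0), ⟨rfl, by simp⟩, rfl⟩⟩

/-- the boundary of the unit square is connected -/
theorem bd_square : IsPreconnected ((Icc (0 : ℝ) 1 ×ˢ Icc (0 : ℝ) 1) \
    (Ioo (0 : ℝ) 1 ×ˢ Ioo (0 : ℝ) 1)) := by
  have h01 : (0 : ℝ) ∈ Icc (0 : ℝ) 1 := by simp
  have h11 : (1 : ℝ) ∈ Icc (0 : ℝ) 1 := by simp
  have e : ((Icc (0 : ℝ) 1 ×ˢ Icc (0 : ℝ) 1) \ (Ioo (0 : ℝ) 1 ×ˢ Ioo (0 : ℝ) 1)) =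
      (({0} ×ˢ Icc (0 : ℝ) 1 ∪ Icc (0 : ℝ) 1 ×ˢ {1}) ∪
        ({1} ×ˢ Icc (0 : ℝ) 1 ∪ Icc (0 : ℝ) 1 ×ˢ {0})) := by
    ext ⟨x, y⟩
    simp only [Set.mem_sdiff, mem_prod, mem_Icc, mem_Ioo, mem_union, mem_singleton_iff, not_and, not_lt]
    constructor
    · rintro ⟨⟨⟨h1, h2⟩, h3, h4⟩, h5⟩
      by_cases hx0 : x = 0
      · exact Or.inl (Or.inl ⟨hx0, h3, h4⟩)
      by_cases hx1 : x = 1
      · exact Or.inr (Or.inl ⟨hx1, h3, h4⟩)
      have h6 : 0 < x := lt_of_le_of_ne h1 (Ne.symm hx0)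
      have h7 : x < 1 := lt_of_le_of_ne h2 hx1
      by_cases hy0 : y = 0
      · exact Or.inr (Or.inr ⟨⟨h1, h2⟩, hy0⟩)
      have h8 : 0 < y := lt_of_le_of_ne h3 (Ne.symm hy0)
      exact Or.inl (Or.inr ⟨⟨h1, h2⟩, le_antisymm h4 (h5 ⟨h6, h7⟩ h8)⟩)
    · rintro ((⟨rfl, h3, h4⟩ | ⟨⟨h1, h2⟩, rfl⟩) | (⟨rfl, h3, h4⟩ | ⟨⟨h1, h2⟩, rfl⟩))
      · exact ⟨⟨⟨le_rfl, zero_le_one⟩, h3, h4⟩, fun h => absurd h.1 (lt_irrefl _)⟩
      · exact ⟨⟨⟨h1, h2⟩, zero_le_one, le_rfl⟩, fun _ _ => le_rfl⟩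
      · exact ⟨⟨⟨zero_le_one, le_rfl⟩, h3, h4⟩, fun h => absurd h.2 (lt_irrefl _)⟩
      · exact ⟨⟨⟨h1, h2⟩, le_rfl, zero_le_one⟩, fun _ h => absurd h (lt_irrefl _)⟩
  rw [e]
  have c : ∀ a : ℝ, IsPreconnected (({a} : Set ℝ) ×ˢ Icc (0 : ℝ) 1) := fun a =>
    isPreconnected_singleton.prod isPreconnected_Icc
  have c' : ∀ a : ℝ, IsPreconnected (Icc (0 : ℝ) 1 ×ˢ ({a} : Set ℝ)) := fun a =>
    isPreconnected_Icc.prod isPreconnected_singleton
  refine IsPreconnected.union (1, 1) (Or.inr ⟨h11, rfl⟩) (Or.inl ⟨rfl, h11⟩) ?_ ?_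
  · exact IsPreconnected.union (0, 1) ⟨rfl, h11⟩ ⟨h01, rfl⟩ (c 0) (c' 1)
  · exact IsPreconnected.union (1, 0) ⟨rfl, h01⟩ ⟨h11, rfl⟩ (c 1) (c' 0)

theorem isPreconnected_T [T2Space Z] [PreconnectedSpace Z] (χ : Chart Z) :
    IsPreconnected χ.T := by
  refine P_Comp.isPreconnected_compl_of_frontier (isOpen_Qo χ) ?_
  have h1 : frontier χ.Qo = χ.f '' ((Icc (0 : ℝ) 1 ×ˢ Icc (0 : ℝ) 1) \
      (Ioo (0 : ℝ) 1 ×ˢ Ioo (0 : ℝ) 1)) := by
    have hcl : closure χ.Qo = χ.Q := by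
      apply subset_antisymm
      · exact closure_minimal (Qo_sub_Q χ)
          (((isCompact_Icc.prod isCompact_Icc).image χ.emb.continuous).isClosed)
      · have h2 : (Icc (0 : ℝ) 1 ×ˢ Icc (0 : ℝ) 1) = closure (Ioo (0 : ℝ) 1 ×ˢ Ioo (0 : ℝ) 1) := by
          rw [closure_prod_eq, closure_Ioo (zero_ne_one)]
        show χ.f '' (Icc (0 : ℝ) 1 ×ˢ Icc (0 : ℝ) 1) ⊆ _
        rw [h2]
        exact image_closure_subset_closure_image χ.emb.continuous
    rw [(isOpen_Qo χ).frontier_eq, hcl, image_sdiff χ.emb.injective]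
    rfl
  rw [h1]
  exact bd_square.image _ χ.emb.continuous.continuousOn

end chart

section
variable {G Z : Type} [Group G] [MetricSpace Z] [MulAction G Z] {S : Setup G Z}

/-- union of a connected set `T0` with preconnected sets each of which is joined by a chain (inside
the family `A`) to a set meeting `T0` -/
theorem isPreconnected_union_chains {X ι : Type*} [TopologicalSpace X] {T0 : Set X}
    (hT0 : IsPreconnected T0) {U : ι → Set X} {A : Set ι} (hU : ∀ a ∈ A, IsPreconnected (U a))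
    (hne : T0.Nonempty)
    (hch : ∀ a ∈ A, ∃ b, Relation.ReflTransGen
      (fun x y => x ∈ A ∧ y ∈ A ∧ (U x ∩ U y).Nonempty) a b ∧ b ∈ A ∧ (U b ∩ T0).Nonempty) :
    IsPreconnected (T0 ∪ ⋃ a ∈ A, U a) := by
  obtain ⟨x0, hx0⟩ := hne
  -- every tile of `A` lies in a preconnected subset containing `T0`
  have key : ∀ b, b ∈ A → (U b ∩ T0).Nonempty → ∀ a, Relation.ReflTransGen
      (fun x y => x ∈ A ∧ y ∈ A ∧ (U x ∩ U y).Nonempty) a b →
      ∃ W : Set X, IsPreconnected W ∧ T0 ⊆ W ∧ U a ⊆ W ∧ W ⊆ T0 ∪ ⋃ a ∈ A, U a := by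
    intro b hb hbT a hab
    induction hab using Relation.ReflTransGen.head_induction_on with
    | refl =>
      refine ⟨T0 ∪ U b, ?_, subset_union_left, subset_union_right, ?_⟩
      · obtain ⟨x, hx1, hx2⟩ := hbT
        exact IsPreconnected.union x hx2 hx1 hT0 (hU b hb)
      · exact union_subset_union_right _ (subset_biUnion_of_mem (u := fun a => U a) hb)
    | @head a' c' h' _ ih =>
      obtain ⟨W, hW, hTW, hcW, hWs⟩ := ih
      obtain ⟨ha, _, x, hx1, hx2⟩ := h'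
      refine ⟨W ∪ U a', ?_, hTW.trans subset_union_left, subset_union_right, ?_⟩
      · exact IsPreconnected.union x (hcW hx2) hx1 hW (hU _ ha)
      · exact union_subset hWs ((subset_biUnion_of_mem (u := fun a => U a) ha).trans
          subset_union_right)
  refine isPreconnected_of_forall x0 ?_
  intro y hy
  rcases hy with hy | hy
  · exact ⟨T0, subset_union_left, hx0, hy, hT0⟩
  · obtain ⟨a, ha, hya⟩ := mem_iUnion₂.1 hy
    obtain ⟨b, hab, hb, hbT⟩ := hch a ha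
    obtain ⟨W, hW, hTW, haW, hWs⟩ := key b hb hbT a hab
    exact ⟨W, hWs, hTW hx0, haW hya, hW⟩

/-- from `ConnIn` in the tile graph to chains of tiles -/
theorem chain_of_connIn {T : Tiles S} {χ : Chart Z} {n : ℕ} {B : Set (T.V χ n)} {A : Set G}
    (hBA : ∀ v ∈ B, (v : G) ∈ A) {v w : T.V χ n} (h : FG.ConnIn (T.gr χ n) B v w) :
    Relation.ReflTransGen (fun x y : G => x ∈ A ∧ y ∈ A ∧ (T.U x ∩ T.U y).Nonempty)
      (v : G) (w : G) := by
  induction h with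
  | refl => exact Relation.ReflTransGen.refl
  | tail _ h ih => exact ih.tail ⟨hBA _ h.2.1, hBA _ h.2.2, h.1.2⟩

/-- **M3.** -/
theorem M3 (T : Tiles S) (Φ : Z ≃ₜ S2) : M3Stmt T := by
  classical
  intro P n hn t ht0 ht1 h hh
  have hpre : PreconnectedSpace Z := ⟨(T_Main.connectedSpace_of_homeo Φ).isPreconnected⟩
  have hX : Planar.Splits Z := Planar.splits_S2.of_homeo Φ
  set χ := P.χ with hχ
  set u := P.u n with hu
  have hsol := P.sol n hn
  have hTp : IsPreconnected χ.T := isPreconnected_T χ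
  -- threshold for `{u ≤ t}`
  obtain ⟨t', htt', ht'1, ht'⟩ : ∃ t', t < t' ∧ t' ≤ 1 ∧ ∀ a ∈ T.V χ n, u a ≤ t ∨ t' ≤ u a := by
    set F := insert (1 : ℝ) (((T.V χ n).image u).filter (fun x => t < x)) with hF
    have hne : F.Nonempty := ⟨1, Finset.mem_insert_self _ _⟩
    refine ⟨F.min' hne, ?_, F.min'_le _ (Finset.mem_insert_self _ _), ?_⟩
    · rw [Finset.lt_min'_iff]
      intro y hy
      rcases Finset.mem_insert.1 hy with rfl | hy
      · exact ht1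
      · exact (Finset.mem_filter.1 hy).2
    · intro a ha
      by_cases h1 : u a ≤ t
      · exact Or.inl h1
      · right
        refine F.min'_le _ (Finset.mem_insert_of_mem (Finset.mem_filter.2
          ⟨Finset.mem_image_of_mem _ ha, not_le.1 h1⟩))
  have hUp : ∀ a : G, IsPreconnected (T.U a) := fun a => (T.isConnected a).isPreconnected
  -- the two colour classes
  have hP : IsPreconnected (χ.T ∪ ⋃ a ∈ {a | a ∈ T.V χ n ∧ t < u a}, T.U a) := by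
    refine isPreconnected_union_chains hTp (fun a _ => hUp a) (T_nonempty χ) ?_
    intro a ha
    obtain ⟨r, hr, hc⟩ := hsol.conn_above ht0 (v := ⟨a, ha.1⟩) ha.2
    have hrt : r ∈ {x : T.V χ n | t < u x} := FG.ConnIn.mem hc ha.2
    refine ⟨r, chain_of_connIn (A := {a | a ∈ T.V χ n ∧ t < u a})
      (fun v hv => ⟨v.2, hv⟩) hc, ⟨r.2, hrt⟩, ?_⟩
    obtain ⟨x, hx1, hx2⟩ := hr
    exact ⟨x, hx1, right_sub_T χ hx2⟩
  have hN : IsPreconnected (χ.T ∪ ⋃ a ∈ {a | a ∈ T.V χ n ∧ ¬ t < u a}, T.U a) := by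
    refine isPreconnected_union_chains hTp (fun a _ => hUp a) (T_nonempty χ) ?_
    intro a ha
    have ha2 : u a < t' := (not_lt.1 ha.2).trans_lt htt'
    obtain ⟨r, hr, hc⟩ := hsol.conn_below ht'1 (v := ⟨a, ha.1⟩) ha2
    have hrt : r ∈ {x : T.V χ n | u x < t'} := FG.ConnIn.mem hc ha2
    have hcl : ∀ v : T.V χ n, u v < t' → ¬ t < u v := fun v hv =>
      not_lt.2 ((ht' v v.2).resolve_right (not_le.2 hv))
    refine ⟨r, chain_of_connIn (A := {a | a ∈ T.V χ n ∧ ¬ t < u a})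
      (fun v hv => ⟨v.2, hcl v hv⟩) hc, ⟨r.2, hcl r hrt⟩, ?_⟩
    obtain ⟨x, hx1, hx2⟩ := hr
    exact ⟨x, hx1, left_sub_T χ hx2⟩
  have hcov : χ.T ∪ (⋃ a ∈ T.V χ n, T.U a) = univ := by
    rw [eq_univ_iff_forall]
    intro x
    by_cases hx : x ∈ χ.Qo
    · right
      obtain ⟨g, hg, hxg⟩ := T_Comp.exists_mem T x n
      refine mem_iUnion₂.2 ⟨g, Tiles.mem_V.2 ⟨Setup.mem_sph.1 hg, x, hxg, Qo_sub_Q χ hx⟩, hxg⟩
    · exact Or.inl hx
  have hlam : ∀ a, a ∈ Planar.Lam (T.V χ n) T.U (fun a => t < u a) ↔ a ∈ T.lev χ n u t := by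
    intro a
    simp only [Planar.Lam, Tiles.lev, Set.mem_ofPred_eq, Tiles.adj]
    constructor
    · rintro ⟨h1, h', h2, h3, h4⟩
      refine ⟨h1, h', h2, h4, ?_⟩
      by_cases ha : t < u a
      · exact Or.inr ⟨not_lt.1 (h3.1 ha), ha⟩
      · exact Or.inl ⟨not_lt.1 ha, by_contra fun h5 => ha (h3.2 h5)⟩
    · rintro ⟨h1, h', h2, h4, h3⟩
      refine ⟨h1, h', h2, ?_, h4⟩
      rcases h3 with ⟨h5, h6⟩ | ⟨h5, h6⟩
      · exact ⟨fun h7 => absurd h5 (not_le.2 h7), fun h7 => absurd h6 h7⟩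
      · exact ⟨fun _ => not_lt.2 h5, fun _ => h6⟩
  have hh' : h ∈ Planar.Lam (T.V χ n) T.U (fun a => t < u a) := (hlam h).2 hh
  obtain ⟨h', hc, hh1, hh2⟩ := hX.level_reaches (fun a _ => T.isClosed a) (isClosed_T χ)
    (T_nonempty χ) hcov (fun a => t < u a) hP hN hh'
  refine ⟨h', ?_, (hlam h').1 hh1, hh2⟩
  refine Relation.ReflTransGen.mono ?_ _ _ hc
  rintro a b ⟨h1, h2, h3⟩
  exact ⟨(hlam a).1 h1, (hlam b).1 h2, h3⟩

/-- M3 in the form used by M5 (helper578). -/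
theorem M3_adj (T : Tiles S) (Φ : Z ≃ₜ S2) (P : Rec T) {n : ℕ} (hn : n ∈ P.recs) {t : ℝ}
    (ht0 : 0 ≤ t) (ht1 : t < 1) {h : G} (hh : h ∈ T.lev P.χ n (P.u n) t) :
    ∃ h1 ∈ T.lev P.χ n (P.u n) t, Relation.ReflTransGen
      (fun a b => T.adj a b ∧ b ∈ T.lev P.χ n (P.u n) t) h h1 ∧
      (T.U h1 ∩ P.χ.T).Nonempty := by
  obtain ⟨h1, hc, hh1, hT⟩ := M3 T Φ P n hn t ht0 ht1 h hh
  refine ⟨h1, hh1, Relation.ReflTransGen.mono ?_ _ _ hc, hT⟩
  rintro a b ⟨_, h2, h3⟩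
  exact ⟨h3, h2⟩

end

end Crest.Agent.R193.M3_Level
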