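import Mathlib
import Crest.Agent.R193.Defs
import Crest.Agent.R193.Planar1
import Crest.Agent.R193.M_Defs
import Crest.Agent.R193.CH_Chart
import Crest.Agent.R193.F_Sep3
import Crest.Agent.R193.T_Comp
import Crest.Agent.R193.D1_Loop
import Crest.Agent.R193.FG1e
import Crest.Agent.R193.Planar4
import Crest.Agent.R193.M3_Level
import Crest.Agent.R193.M7_Glue
import Crest.Agent.R193.P_Comp
import Crest.Agent.R193.M1_Main

-- ▼ part R193/M2_Loop
section

/-!
# R193, block M2 (helper818): the loop lemma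

Finite families of closed connected tiles covering a connected space; a graph-connected family
`Σ` of tiles whose union separates `A` from `E`; a function `u` on the tiles that is harmonic at
the tiles missing `E` (or takes there a value also taken on `Σ`).  Then the oscillation of `u` over
the tiles meeting `A` is at most `3 ∑_{σ ∈ Σ} r σ`, where `r σ` bounds `|u h - u σ|` over the
neighbours `h` of `σ`.
-/

set_option autoImplicit false

open Set Filter Topology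

namespace Crest.Agent.R193.M2_Loop

open Crest.Agent.R193

section Graph

variable {ι : Type*}

/-- Along a graph-connected family the oscillation is at most the sum of the local oscillations. -/
theorem famConn_osc {X : Type*} [DecidableEq ι] {U : ι → Set X} {c : Finset ι}
    [TopologicalSpace X] (hc : Planar.FamConn U c) (u r : ι → ℝ) (hr0 : ∀ σ ∈ c, 0 ≤ r σ)
    (hr : ∀ σ ∈ c, ∀ τ ∈ c, (U σ ∩ U τ).Nonempty → |u τ - u σ| ≤ r σ) :
    ∀ σ ∈ c, ∀ τ ∈ c, |u τ - u σ| ≤ ∑ k ∈ c, r k := by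
  intro σ hσ
  set Fam : Finset (Finset ι) := c.powerset.filter
    (fun d => σ ∈ d ∧ ∀ τ ∈ d, |u τ - u σ| ≤ ∑ k ∈ d, r k) with hFam
  have hne : Fam.Nonempty := by
    refine ⟨{σ}, ?_⟩
    simp only [hFam, Finset.mem_filter, Finset.mem_powerset, Finset.singleton_subset_iff,
      Finset.mem_singleton, Finset.sum_singleton, forall_eq, sub_self, abs_zero]
    exact ⟨hσ, trivial, hr0 σ hσ⟩
  obtain ⟨d, hd, hmax⟩ := Finset.exists_max_image _ Finset.card hne
  simp only [hFam, Finset.mem_filter, Finset.mem_powerset] at hd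
  obtain ⟨hdc, hσd, hdo⟩ := hd
  by_cases hdeq : d = c
  · intro τ hτ
    have := hdo τ (hdeq ▸ hτ)
    rwa [hdeq] at this
  exfalso
  obtain ⟨h, hh, h', hh', hh'd, hadj⟩ := hc d hdc ⟨σ, hσd⟩ hdeq
  have hmem : insert h' d ∈ Fam := by
    simp only [hFam, Finset.mem_filter, Finset.mem_powerset]
    refine ⟨Finset.insert_subset hh' hdc, Finset.mem_insert_of_mem hσd, ?_⟩
    intro τ hτ
    rw [Finset.sum_insert hh'd]
    have hr' : 0 ≤ r h' := hr0 h' hh'
    rcases Finset.mem_insert.1 hτ with rfl | hτ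
    · have h1 : |u h - u τ| ≤ r τ := hr τ hh' h (hdc hh) (by rwa [inter_comm])
      have h2 := hdo h hh
      calc |u τ - u σ| = |(u τ - u h) + (u h - u σ)| := by ring_nf
        _ ≤ |u τ - u h| + |u h - u σ| := abs_add_le _ _
        _ ≤ r τ + ∑ k ∈ d, r k := by
            rw [abs_sub_comm (u τ)]
            exact add_le_add h1 h2
    · exact (hdo τ hτ).trans (by linarith)
  have := hmax _ hmem
  rw [Finset.card_insert_of_notMem hh'd] at this
  omega

/-- Maximum principle. `C` finite set of vertices; every vertex of `C` is harmonic (with respect to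
all its neighbours in `P`) or has value `≤ M`; neighbours in `P` outside `C` have values `≤ M`;
no nonempty subset of `C` is closed under taking neighbours. -/
theorem max_le [DecidableEq ι] (P C : Finset ι) (adj : ι → ι → Prop) [DecidableRel adj]
    (u : ι → ℝ) (M : ℝ)
    (hcl : ∀ C' ⊆ C, C'.Nonempty → ∃ h ∈ C', ∃ h' ∈ P, h' ∉ C' ∧ adj h h')
    (hC : ∀ h ∈ C, (∑ h' ∈ P with adj h h', (u h' - u h) = 0) ∨ u h ≤ M)
    (hN : ∀ h ∈ C, ∀ h' ∈ P, adj h h' → h' ∉ C → u h' ≤ M) :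
    ∀ h ∈ C, u h ≤ M := by
  intro h0 hh0
  by_contra hcon
  push Not at hcon
  obtain ⟨k, hk, hmax⟩ := Finset.exists_max_image C u ⟨h0, hh0⟩
  have hkM : M < u k := hcon.trans_le (hmax h0 hh0)
  set C' := C.filter (fun h => u h = u k) with hC'
  have hC'C : C' ⊆ C := Finset.filter_subset _ _
  obtain ⟨h, hh, h', hh'P, hh'C', hadj⟩ := hcl C' hC'C ⟨k, by simp [hC', hk]⟩
  have hhC : h ∈ C := hC'C hh
  have hhk : u h = u k := (Finset.mem_filter.1 hh).2
  have hharm : ∑ h' ∈ P with adj h h', (u h' - u h) = 0 := by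
    rcases hC h hhC with h1 | h1
    · exact h1
    · exact absurd h1 (by rw [hhk]; exact not_le.2 hkM)
  have hle : ∀ x ∈ P.filter (fun h' => adj h h'), u x - u h ≤ 0 := by
    intro x hx
    obtain ⟨hxP, hxa⟩ := Finset.mem_filter.1 hx
    by_cases hxC : x ∈ C
    · have := hmax x hxC
      linarith
    · have := hN h hhC x hxP hxa hxC
      linarith
  have hz := (Finset.sum_eq_zero_iff_of_nonpos hle).1 hharm h' (Finset.mem_filter.2 ⟨hh'P, hadj⟩)
  have hval : u h' = u k := by linarith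
  have hh'C : h' ∉ C := fun hc => hh'C' (Finset.mem_filter.2 ⟨hc, hval⟩)
  have := hN h hhC h' hh'P hadj hh'C
  linarith

theorem le_min [DecidableEq ι] (P C : Finset ι) (adj : ι → ι → Prop) [DecidableRel adj]
    (u : ι → ℝ) (m : ℝ)
    (hcl : ∀ C' ⊆ C, C'.Nonempty → ∃ h ∈ C', ∃ h' ∈ P, h' ∉ C' ∧ adj h h')
    (hC : ∀ h ∈ C, (∑ h' ∈ P with adj h h', (u h' - u h) = 0) ∨ m ≤ u h)
    (hN : ∀ h ∈ C, ∀ h' ∈ P, adj h h' → h' ∉ C → m ≤ u h') :
    ∀ h ∈ C, m ≤ u h := by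
  have := max_le P C adj (fun h => - u h) (-m) hcl ?_ ?_
  · intro h hh
    have := this h hh
    linarith
  · intro h hh
    rcases hC h hh with h1 | h1
    · left
      have : ∑ h' ∈ P with adj h h', (-u h' - -u h) = - ∑ h' ∈ P with adj h h', (u h' - u h) := by
        rw [← Finset.sum_neg_distrib]
        exact Finset.sum_congr rfl fun x _ => by ring
      rw [this, h1, neg_zero]
    · right
      linarith
  · intro h hh h' hh' ha hc
    have := hN h hh h' hh' ha hc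
    linarith

end Graph

section Loop

variable {ι X : Type*} [TopologicalSpace X]

open Classical in
/-- **Loop lemma.** -/
theorem loop_osc [PreconnectedSpace X] (U : ι → Set X) (P : Finset ι)
    (hcl : ∀ h ∈ P, IsClosed (U h)) (hpc : ∀ h ∈ P, IsPreconnected (U h))
    (hne : ∀ h ∈ P, (U h).Nonempty) (hcov : ⋃ h ∈ P, U h = univ)
    (Sg : Finset ι) (hSP : Sg ⊆ P) (hSne : Sg.Nonempty) (hfam : Planar.FamConn U Sg)
    (A E : Set X)
    (hsep : ∀ c : Set X, IsPreconnected c → (c ∩ A).Nonempty → (c ∩ E).Nonempty →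
      (c ∩ ⋃ σ ∈ Sg, U σ).Nonempty)
    (u r : ι → ℝ) (hr0 : ∀ σ ∈ Sg, 0 ≤ r σ)
    (hr : ∀ σ ∈ Sg, ∀ h ∈ P, (U σ ∩ U h).Nonempty → |u h - u σ| ≤ r σ)
    (hharm : ∀ h ∈ P, U h ∩ E = ∅ →
      (∑ h' ∈ P with (U h ∩ U h').Nonempty, (u h' - u h) = 0) ∨ (∃ σ ∈ Sg, u h = u σ)) :
    ∀ h ∈ P, ∀ h' ∈ P, (U h ∩ A).Nonempty → (U h' ∩ A).Nonempty →
      |u h - u h'| ≤ 3 * ∑ σ ∈ Sg, r σ := by
  set K : Set X := ⋃ σ ∈ Sg, U σ with hK
  set NS : Finset ι := P.filter (fun h => (U h ∩ K).Nonempty) with hNS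
  set C : Finset ι := P.filter (fun h => U h ∩ K = ∅ ∧
    ∃ S : Set X, IsPreconnected S ∧ S ∩ K = ∅ ∧ (S ∩ A).Nonempty ∧ (S ∩ U h).Nonempty) with hCdef
  have hsum0 : 0 ≤ ∑ σ ∈ Sg, r σ := Finset.sum_nonneg hr0
  -- elements of `Sg` belong to `NS`
  have hSN : ∀ σ ∈ Sg, σ ∈ NS := by
    intro σ hσ
    refine Finset.mem_filter.2 ⟨hSP hσ, ?_⟩
    obtain ⟨x, hx⟩ := hne σ (hSP hσ)
    exact ⟨x, hx, mem_biUnion (by exact_mod_cast hσ) hx⟩
  -- the oscillation on `Sg`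
  have hosc : ∀ σ ∈ Sg, ∀ τ ∈ Sg, |u τ - u σ| ≤ ∑ k ∈ Sg, r k :=
    famConn_osc hfam u r hr0 fun σ hσ τ hτ h => hr σ hσ τ (hSP hτ) h
  -- elements of `NS` are close to elements of `Sg`
  have hNnear : ∀ h ∈ NS, ∃ σ ∈ Sg, |u h - u σ| ≤ r σ := by
    intro h hh
    obtain ⟨hhP, x, hx1, hx2⟩ := Finset.mem_filter.1 hh
    obtain ⟨σ, hσ, hxσ⟩ := mem_iUnion₂.1 hx2
    exact ⟨σ, hσ, hr σ hσ h hhP ⟨x, hxσ, hx1⟩⟩
  have hNosc : ∀ h ∈ NS, ∀ h' ∈ NS, |u h - u h'| ≤ 3 * ∑ k ∈ Sg, r k := by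
    intro h hh h' hh'
    obtain ⟨σ, hσ, h1⟩ := hNnear h hh
    obtain ⟨τ, hτ, h2⟩ := hNnear h' hh'
    have h3 := hosc τ hτ σ hσ
    have h4 : r σ ≤ ∑ k ∈ Sg, r k := Finset.single_le_sum hr0 hσ
    have h5 : r τ ≤ ∑ k ∈ Sg, r k := Finset.single_le_sum hr0 hτ
    rw [abs_le] at *
    constructor <;> linarith [h1.1, h1.2, h2.1, h2.2, h3.1, h3.2]
  have hNSne : NS.Nonempty := by
    obtain ⟨σ, hσ⟩ := hSne
    exact ⟨σ, hSN σ hσ⟩
  obtain ⟨hM, hhM, hMmax⟩ := Finset.exists_max_image NS u hNSne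
  obtain ⟨hm, hhm, hmmin⟩ := Finset.exists_min_image NS u hNSne
  -- tiles of `C` miss `E`
  have hCE : ∀ h ∈ C, U h ∩ E = ∅ := by
    intro h hh
    obtain ⟨hhP, hhK, S, hS, hSK, hSA, hSU⟩ := Finset.mem_filter.1 hh
    by_contra hcon
    have hcon' : (U h ∩ E).Nonempty := nonempty_iff_ne_empty.2 hcon
    obtain ⟨y, hy1, hy2⟩ := hSU
    have hconn : IsPreconnected (S ∪ U h) := hS.union y hy1 hy2 (hpc h hhP)
    obtain ⟨z, hz1, hz2⟩ := hsep (S ∪ U h) hconn (hSA.mono (by gcongr; exact subset_union_left))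
      (hcon'.mono (by gcongr; exact subset_union_right))
    rcases hz1 with hz1 | hz1
    · exact (hSK ▸ (⟨hz1, hz2⟩ : z ∈ S ∩ K) : z ∈ (∅ : Set X))
    · exact (hhK ▸ (⟨hz1, hz2⟩ : z ∈ U h ∩ K) : z ∈ (∅ : Set X))
  -- neighbours of `C` outside `C` are in `NS`
  have hCN : ∀ h ∈ C, ∀ h' ∈ P, (U h ∩ U h').Nonempty → h' ∉ C → h' ∈ NS := by
    intro h hh h' hh'P hadj hh'C
    obtain ⟨hhP, hhK, S, hS, hSK, hSA, hSU⟩ := Finset.mem_filter.1 hh
    refine Finset.mem_filter.2 ⟨hh'P, ?_⟩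
    by_contra hcon
    rw [not_nonempty_iff_eq_empty] at hcon
    apply hh'C
    refine Finset.mem_filter.2 ⟨hh'P, hcon, S ∪ U h, ?_, ?_, ?_, ?_⟩
    · obtain ⟨y, hy1, hy2⟩ := hSU
      exact hS.union y hy1 hy2 (hpc h hhP)
    · rw [union_inter_distrib_right, hSK, hhK, union_empty]
    · exact hSA.mono (by gcongr; exact subset_union_left)
    · exact hadj.mono (by gcongr; exact subset_union_right)
  -- connectivity
  have hcl' : ∀ C' ⊆ C, C'.Nonempty → ∃ h ∈ C', ∃ h' ∈ P, h' ∉ C' ∧ (U h ∩ U h').Nonempty := by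
    intro C' hC' hC'ne
    by_contra hcon
    push Not at hcon
    set A1 : Set X := ⋃ h ∈ C', U h with hA1
    set A2 : Set X := ⋃ h ∈ P \ C', U h with hA2
    have hC'P : C' ⊆ P := hC'.trans (Finset.filter_subset _ _)
    have h1 : IsClosed A1 := by
      apply Set.Finite.isClosed_biUnion C'.finite_toSet
      intro h hh
      exact hcl h (hC'P (by exact_mod_cast hh))
    have h2 : IsClosed A2 := by
      apply Set.Finite.isClosed_biUnion (P \ C').finite_toSet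
      intro h hh
      exact hcl h (Finset.mem_sdiff.1 (by exact_mod_cast hh)).1
    have h12 : univ ⊆ A1 ∪ A2 := by
      rw [← hcov]
      intro x hx
      obtain ⟨h, hh, hxh⟩ := mem_iUnion₂.1 hx
      by_cases hhC : h ∈ C'
      · left; exact mem_biUnion (by exact_mod_cast hhC) hxh
      · right; exact mem_iUnion₂.2 ⟨h, Finset.mem_sdiff.2 ⟨hh, hhC⟩, hxh⟩
    obtain ⟨h0, hh0⟩ := hC'ne
    obtain ⟨x0, hx0⟩ := hne h0 (hC'P hh0)
    obtain ⟨σ, hσ⟩ := hSne
    obtain ⟨x1, hx1⟩ := hne σ (hSP hσ)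
    have hσC' : σ ∉ C' := by
      intro hc
      obtain ⟨-, hK', -⟩ := Finset.mem_filter.1 (hC' hc)
      have : x1 ∈ U σ ∩ K := ⟨hx1, mem_iUnion₂.2 ⟨σ, hσ, hx1⟩⟩
      rw [hK'] at this
      exact this
    have hpre := (isPreconnected_closed_iff.1 (isPreconnected_univ (α := X))) A1 A2 h1 h2 h12
      ⟨x0, mem_univ _, mem_iUnion₂.2 ⟨h0, hh0, hx0⟩⟩
      ⟨x1, mem_univ _, mem_iUnion₂.2 ⟨σ, Finset.mem_sdiff.2 ⟨hSP hσ, hσC'⟩, hx1⟩⟩
    obtain ⟨x, -, hxa, hxb⟩ := hpre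
    obtain ⟨h, hh, hxh⟩ := mem_iUnion₂.1 hxa
    obtain ⟨h', hh', hxh'⟩ := mem_iUnion₂.1 hxb
    obtain ⟨hh'P, hh'C⟩ := Finset.mem_sdiff.1 hh'
    have := hcon h hh h' hh'P hh'C
    exact (this ▸ (⟨hxh, hxh'⟩ : x ∈ U h ∩ U h') : x ∈ (∅ : Set X))
  -- `u` is between min and max on `C`
  have hup : ∀ h ∈ C, u h ≤ u hM := by
    refine max_le P C (fun a b => (U a ∩ U b).Nonempty) u (u hM) hcl' ?_ ?_
    · intro h hh
      rcases hharm h (Finset.mem_filter.1 hh).1 (hCE h hh) with h1 | ⟨σ, hσ, h1⟩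
      · exact Or.inl h1
      · right; rw [h1]; exact hMmax σ (hSN σ hσ)
    · intro h hh h' hh' ha hc
      exact hMmax h' (hCN h hh h' hh' ha hc)
  have hlo : ∀ h ∈ C, u hm ≤ u h := by
    refine le_min P C (fun a b => (U a ∩ U b).Nonempty) u (u hm) hcl' ?_ ?_
    · intro h hh
      rcases hharm h (Finset.mem_filter.1 hh).1 (hCE h hh) with h1 | ⟨σ, hσ, h1⟩
      · exact Or.inl h1
      · right; rw [h1]; exact hmmin σ (hSN σ hσ)
    · intro h hh h' hh' ha hc
      exact hmmin h' (hCN h hh h' hh' ha hc)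
  have hbd : ∀ h ∈ P, (U h ∩ A).Nonempty → u hm ≤ u h ∧ u h ≤ u hM := by
    intro h hh hA
    by_cases hhK : U h ∩ K = ∅
    · have hhC : h ∈ C := by
        refine Finset.mem_filter.2 ⟨hh, hhK, U h, hpc h hh, hhK, hA, ?_⟩
        rw [inter_self]
        exact hne h hh
      exact ⟨hlo h hhC, hup h hhC⟩
    · have hhN : h ∈ NS := Finset.mem_filter.2 ⟨hh, nonempty_iff_ne_empty.2 hhK⟩
      exact ⟨hmmin h hhN, hMmax h hhN⟩
  intro h hh h' hh' hA hA'
  have h1 := hbd h hh hA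
  have h2 := hbd h' hh' hA'
  have h3 := hNosc hM hhM hm hhm
  rw [abs_le] at *
  constructor <;> linarith [h1.1, h1.2, h2.1, h2.2, h3.1, h3.2]

end Loop

end Crest.Agent.R193.M2_Loop
end

-- ▼ part R193/M2_Ring
section

/-!
# R193, block M2 (helper818): rings around points

* `SChart`: chart with range the complement of a point; the complements of its squares are connected.
* `ring`: every small square of every chart contains a smaller square such that the pair satisfies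
  `SepBound` at all large levels with the universal constant `C * L n`.
* `nested`: nested sequences of rings.
* `loops`: connected separating tile families in a ring.
-/

set_option autoImplicit false

noncomputable section

open Set Filter Topology Metric

namespace Crest.Agent.R193.M2_Ring

open Crest.Agent.R193

section Plane

/-- complement of an open square -/
theorem isConnected_compl_ball {s : ℝ} (hs : 0 < s) :
    IsConnected ((ball (0 : ℝ × ℝ) s)ᶜ) := by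
  have hrank : 1 < Module.rank ℝ (ℝ × ℝ) := by
    rw [rank_prod', Module.rank_self, one_add_one_eq_two]
    exact_mod_cast one_lt_two
  have h1 : IsConnected (Ici s ×ˢ sphere (0 : ℝ × ℝ) 1) :=
    isConnected_Ici.prod (isConnected_sphere hrank 0 zero_le_one)
  have h2 := h1.image (fun q : ℝ × (ℝ × ℝ) => q.1 • q.2) (by fun_prop)
  convert h2 using 1
  ext p
  simp only [mem_compl_iff, mem_ball, dist_zero_right, not_lt, mem_image, mem_prod, mem_Ici,
    mem_sphere, Prod.exists]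
  constructor
  · intro hp
    have hp0 : 0 < ‖p‖ := hs.trans_le hp
    refine ⟨‖p‖, (‖p‖⁻¹ • p).1, (‖p‖⁻¹ • p).2, ⟨hp, ?_⟩, ?_⟩
    · show ‖‖p‖⁻¹ • p‖ = 1
      rw [norm_smul, norm_inv, norm_norm, inv_mul_cancel₀ hp0.ne']
    · show ‖p‖ • (‖p‖⁻¹ • p) = p
      rw [smul_smul, mul_inv_cancel₀ hp0.ne', one_smul]
  · rintro ⟨t, a, b, ⟨ht, hab⟩, rfl⟩
    rw [norm_smul, hab, mul_one, Real.norm_eq_abs]
    exact ht.trans (le_abs_self t)

end Plane

section Top

variable {Z : Type} [TopologicalSpace Z]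

/-- For a chart whose range is the complement of one point, complements of squares are connected. -/
theorem isConnected_E [T2Space Z] [PreconnectedSpace Z] (φ : Chart Z) (p0 : Z)
    (hr : range φ.f = {p0}ᶜ) {s : ℝ} (hs : 0 < s) : IsConnected (φ.E s) := by
  have h1 : IsConnected (φ.f '' (ball (0 : ℝ × ℝ) s)ᶜ) :=
    (isConnected_compl_ball hs).image _ φ.emb.continuous.continuousOn
  have hE : φ.E s = insert p0 (φ.f '' (ball (0 : ℝ × ℝ) s)ᶜ) := by
    ext z
    simp only [Chart.E, mem_compl_iff, mem_insert_iff]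
    constructor
    · intro hz
      by_cases hzp : z = p0
      · exact Or.inl hzp
      · right
        have : z ∈ range φ.f := by rw [hr]; exact hzp
        obtain ⟨q, rfl⟩ := this
        exact ⟨q, fun hq => hz ⟨q, hq, rfl⟩, rfl⟩
    · rintro (rfl | ⟨q, hq, rfl⟩) ⟨q', hq', he⟩
      · have : φ.f q' ∈ range φ.f := mem_range_self _
        rw [hr, he] at this
        exact this rfl
      · rw [φ.emb.injective he] at hq'
        exact hq hq'
  rw [hE]
  -- `p0` is in the closure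
  have hcl : p0 ∈ closure (φ.f '' (ball (0 : ℝ × ℝ) s)ᶜ) := by
    by_contra hcon
    -- then `{p0}` is open
    have hopen : IsOpen ({p0} : Set Z) := by
      have e : ({p0} : Set Z) = (closure (φ.f '' (ball (0 : ℝ × ℝ) s)ᶜ))ᶜ ∩
          (φ.f '' (closedBall (0 : ℝ × ℝ) s))ᶜ := by
        ext z
        simp only [mem_singleton_iff, mem_inter_iff, mem_compl_iff]
        constructor
        · rintro rfl
          refine ⟨hcon, ?_⟩
          rintro ⟨q, -, hq⟩
          have : φ.f q ∈ range φ.f := mem_range_self _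
          rw [hr, hq] at this
          exact this rfl
        · rintro ⟨h3, h4⟩
          by_contra hz
          have : z ∈ range φ.f := by rw [hr]; exact hz
          obtain ⟨q, rfl⟩ := this
          by_cases hq : q ∈ ball (0 : ℝ × ℝ) s
          · exact h4 ⟨q, ball_subset_closedBall hq, rfl⟩
          · exact h3 (subset_closure ⟨q, hq, rfl⟩)
      rw [e]
      exact isClosed_closure.isOpen_compl.inter
        (((isCompact_closedBall (0 : ℝ × ℝ) s).image φ.emb.continuous).isClosed.isOpen_compl)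
    have hclopen : IsClopen ({p0} : Set Z) := ⟨isClosed_singleton, hopen⟩
    rcases isClopen_iff.1 hclopen with h | h
    · exact (singleton_ne_empty p0) h
    · have : φ.f 0 ∈ ({p0} : Set Z) := by rw [h]; trivial
      have h' : φ.f 0 ∈ range φ.f := mem_range_self _
      rw [hr] at h'
      exact h' this
  exact h1.subset_closure (subset_insert _ _) (insert_subset hcl subset_closure)

theorem isConnected_D (φ : Chart Z) {s : ℝ} (hs : 0 ≤ s) : IsConnected (φ.D s) :=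
  ((convex_closedBall (0 : ℝ × ℝ) s).isConnected ⟨0, by simp [hs]⟩).image _
    φ.emb.continuous.continuousOn

theorem D_mono (φ : Chart Z) {r s : ℝ} (h : r ≤ s) : φ.D r ⊆ φ.D s :=
  image_mono (closedBall_subset_closedBall h)

theorem E_anti (φ : Chart Z) {r s : ℝ} (h : r ≤ s) : φ.E s ⊆ φ.E r :=
  compl_subset_compl.2 (image_mono (ball_subset_ball h))

/-- centred chart with range the complement of a point -/
theorem exists_schart (e : Z ≃ₜ S2) (x : Z) :
    ∃ (φ : Chart Z) (p0 : Z), range φ.f = {p0}ᶜ ∧ φ.f 0 = x := by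
  obtain ⟨y, hy⟩ := CHx.exists_two_points e x
  obtain ⟨φ, h1, h2⟩ := CHx.exists_chart e y
  have : x ∈ range φ := by rw [h2]; exact hy.symm
  obtain ⟨a, ha⟩ := this
  refine ⟨(⟨φ, h1⟩ : Chart Z).comp (Homeomorph.addRight a), y, ?_, ?_⟩
  · show range (φ ∘ _) = _
    rw [(Homeomorph.addRight a).surjective.range_comp, h2]
  · simp [ha]

end Top

section Ring

variable {G Z : Type} [Group G] [MetricSpace Z] [MulAction G Z] {S : Setup G Z} {T : Tiles S}

/-- **Rings.** With a universal constant `C`: inside every square `φ.D r` around the centre of a chart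
there is a smaller square such that the pair satisfies `SepBound` with constant `C * L n` at all
large levels `n`. -/
theorem ring [LocallyPathConnectedSpace Z] (P : Rec T) :
    ∃ C : ℝ, 0 < C ∧ ∀ (φ : Chart Z) (r : ℝ), 0 < r → ∃ r' : ℝ, 0 < r' ∧ r' < r ∧ ∃ n0 : ℕ,
      ∀ n, n0 ≤ n → SepBound T n (φ.D r') (φ.E r) (C * P.L n) := by
  have hR1 : (0 : ℝ) ≤ max P.R0 P.R1 := le_max_of_le_right P.R1_pos.le
  refine ⟨(F_Sep2.mult T (max P.R0 P.R1) : ℝ) ^ 2 + 1, by positivity, ?_⟩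
  intro φ r hr
  set x : Z := φ.f 0 with hx
  have hO : IsOpen (φ.f '' ball (0 : ℝ × ℝ) r) := φ.emb.isOpenMap _ isOpen_ball
  have hxO : x ∈ φ.f '' ball (0 : ℝ × ℝ) r := ⟨0, by simpa using hr, rfl⟩
  obtain ⟨e1, he1, hball⟩ := Metric.isOpen_iff.1 hO x hxO
  -- choose the level
  have hlim : Tendsto (fun m : ℕ => Real.exp (S.ε * (2 * max P.R0 P.R1 + 7 * S.δ - m)) *
      Real.exp (S.ε * S.δ)) atTop (𝓝 0) := by
    have h0 : Tendsto (fun m : ℕ => S.ε * (2 * max P.R0 P.R1 + 7 * S.δ - m)) atTop atBot := by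
      apply Tendsto.const_mul_atBot S.ε_pos
      have : Tendsto (fun m : ℕ => (m : ℝ)) atTop atTop := tendsto_natCast_atTop_atTop
      exact tendsto_atBot_add_const_left _ _ (tendsto_neg_atTop_atBot.comp this)
    have := (Real.tendsto_exp_atBot.comp h0).mul_const (Real.exp (S.ε * S.δ))
    simpa using this
  obtain ⟨m, hm⟩ := ((tendsto_order.1 hlim).2 e1 he1).exists
  obtain ⟨g, hgm, hgs⟩ := S.ray x m
  have hy : g⁻¹ • x ∈ S.Gd P.R0 g := by
    have h1 := F_Sep1.smul_self_le S x g⁻¹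
    rw [inv_inv, S.len_inv, hgm] at h1
    have h2 := P.hR0
    have h3 := S.one_le_δ
    have h4 := T.R_pos
    show S.s (g⁻¹ • x) g⁻¹ ≤ P.R0
    linarith
  obtain ⟨i, hi1, hi2⟩ := P.fam g (g⁻¹ • x) hy
  have hi2' : closure ((P.ψ i).E 2)ᶜ ⊆ S.Gd (max P.R0 P.R1) g :=
    hi2.trans (T_Comp.Gd_mono S (le_max_right _ _) g)
  have hy' : g⁻¹ • x ∈ S.Gd (max P.R0 P.R1) g := T_Comp.Gd_mono S (le_max_left _ _) g hy
  -- the outer set
  have hE : φ.E r ⊆ (fun z => g • z) '' (P.ψ i).E 2 := by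
    intro z' hz'
    refine ⟨g⁻¹ • z', ?_, by simp⟩
    by_contra hcon
    have hz : g⁻¹ • z' ∈ closure ((P.ψ i).E 2)ᶜ := subset_closure hcon
    have hd := F_Sep1.dist_smul_le S (hi2' hz) hy'
    rw [smul_inv_smul, smul_inv_smul, hgm] at hd
    have hd2 := F_Sep1.dist_le_exp_delta S (g⁻¹ • z') (g⁻¹ • x)
    have hd3 : dist z' x < e1 := by
      refine lt_of_le_of_lt (hd.trans ?_) hm
      gcongr
    exact hz' (hball hd3)
  -- the inner set
  have hcont : Continuous (fun p : ℝ × ℝ => g⁻¹ • φ.f p) :=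
    (S.cont g⁻¹).comp φ.emb.continuous
  have hnhds : (fun p : ℝ × ℝ => g⁻¹ • φ.f p) ⁻¹' ball (g⁻¹ • x) P.η ∈ 𝓝 (0 : ℝ × ℝ) :=
    hcont.continuousAt.preimage_mem_nhds (ball_mem_nhds _ P.η_pos)
  obtain ⟨r1, hr1, hr1s⟩ := Metric.nhds_basis_closedBall.mem_iff.1 hnhds
  have hD : φ.D (min r1 (r / 2)) ⊆ (fun z => g • z) '' (P.ψ i).D 1 := by
    rintro _ ⟨p, hp, rfl⟩
    refine ⟨g⁻¹ • φ.f p, hi1 (hr1s (closedBall_subset_closedBall (min_le_left _ _) hp)), by simp⟩
  refine ⟨min r1 (r / 2), by positivity, by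
    refine lt_of_le_of_lt (min_le_right _ _) (by linarith), m, ?_⟩
  intro n hn
  have h1 := P.sep i (n - m) n (Nat.sub_le _ _)
  have h2 := F_Sep2.sepBound_smul T (k := g) hR1 (F_Sep3.isClosed_E (P.ψ i) 2)
    (F_Sep3.disjoint_D_E (P.ψ i) (by norm_num)) hi2' (by linarith [P.one_le n]) h1
  rw [hgm, Nat.sub_add_cancel hn] at h2
  refine F_Sep2.SepBound.mono h2 hD hE ?_
  have := P.one_le n
  nlinarith [sq_nonneg (F_Sep2.mult T (max P.R0 P.R1) : ℝ)]

/-- Nested rings around the centre of a chart. -/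
theorem nested [LocallyPathConnectedSpace Z] (P : Rec T) :
    ∃ C : ℝ, 0 < C ∧ ∀ (φ : Chart Z) (s0 : ℝ), 0 < s0 → ∀ I : ℕ, ∃ s r r' : ℕ → ℝ,
      s 0 = s0 ∧ (∀ k, 0 < s k) ∧ (∀ k, s (k + 1) < r' k ∧ r' k < r k ∧ r k < s k) ∧
      ∃ n0 : ℕ, ∀ n, n0 ≤ n → ∀ k < I, SepBound T n (φ.D (r' k)) (φ.E (r k)) (C * P.L n) := by
  obtain ⟨C, hC, hring⟩ := ring P
  refine ⟨C, hC, ?_⟩
  intro φ s0 hs0 I
  have hring' : ∀ r : {r : ℝ // 0 < r}, ∃ r' : {r : ℝ // 0 < r}, (r' : ℝ) < r ∧ ∃ n0 : ℕ,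
      ∀ n, n0 ≤ n → SepBound T n (φ.D r') (φ.E r) (C * P.L n) := by
    rintro ⟨r, hr⟩
    obtain ⟨r', h1, h2, h3⟩ := hring φ r hr
    exact ⟨⟨r', h1⟩, h2, h3⟩
  choose F hF n1 hn1 using hring'
  let half : {r : ℝ // 0 < r} → {r : ℝ // 0 < r} := fun r => ⟨(r : ℝ) / 2, half_pos r.2⟩
  let s : ℕ → {r : ℝ // 0 < r} := fun k => Nat.rec ⟨s0, hs0⟩ (fun _ a => half (F (half a))) k
  refine ⟨fun k => Subtype.val (s k), fun k => Subtype.val (half (s k)),
    fun k => Subtype.val (F (half (s k))), rfl, fun k => (s k).2, ?_, ?_⟩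
  · intro k
    refine ⟨?_, hF _, ?_⟩
    · show ((F (half (s k)) : ℝ)) / 2 < _
      exact half_lt_self (F (half (s k))).2
    · exact half_lt_self (s k).2
  · refine ⟨(Finset.range I).sup fun k => n1 (half (s k)), ?_⟩
    intro n hn k hk
    apply hn1
    exact (Finset.le_sup (f := fun k => n1 (half (s k))) (Finset.mem_range.2 hk)).trans hn

/-- Tiles of high level meeting a compact set are contained in a given neighbourhood of it. -/
theorem small {K O : Set Z} (hK : IsCompact K) (hO : IsOpen O) (hKO : K ⊆ O) :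
    ∃ n0 : ℕ, ∀ n, n0 ≤ n → ∀ h ∈ S.sph n, (T.U h ∩ K).Nonempty → T.U h ⊆ O := by
  obtain ⟨e, he, hth⟩ := hK.exists_thickening_subset_open hO hKO
  have hlim : Tendsto (fun m : ℕ => Real.exp (-S.ε * ((m : ℝ) - T.R - S.δ))) atTop (𝓝 0) := by
    apply Real.tendsto_exp_atBot.comp
    have h1 : Tendsto (fun m : ℕ => (m : ℝ) - T.R - S.δ) atTop atTop :=
      tendsto_atTop_add_const_right _ _ (tendsto_atTop_add_const_right _ _
        tendsto_natCast_atTop_atTop)
    have h2 := h1.const_mul_atTop_of_neg (r := -S.ε) (by linarith [S.ε_pos])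
    exact h2
  obtain ⟨n0, hn0⟩ := eventually_atTop.1 ((tendsto_order.1 hlim).2 e he)
  refine ⟨n0, fun n hn h hh hne z hz => hth ?_⟩
  obtain ⟨y, hy1, hy2⟩ := hne
  rw [Setup.mem_sph] at hh
  have h1 := T_Comp.dist_le_of_Sh S (T.sub h hz) (T.sub h hy1)
  rw [hh] at h1
  exact Metric.mem_thickening_iff.2 ⟨y, hy2, h1.trans_lt (hn0 n hn)⟩

open Classical in
/-- tiles of level `n` inside the ring between `φ.D a` and `φ.E b` -/
def ringTiles (T : Tiles S) (φ : Chart Z) (n : ℕ) (a b : ℝ) : Finset G :=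
  (S.sph n).filter (fun h => Disjoint (T.U h) (φ.D a) ∧ Disjoint (T.U h) (φ.E b))

theorem mem_ringTiles {φ : Chart Z} {n : ℕ} {a b : ℝ} {h : G} :
    h ∈ ringTiles T φ n a b ↔ h ∈ S.sph n ∧ Disjoint (T.U h) (φ.D a) ∧ Disjoint (T.U h) (φ.E b) := by
  classical
  simp [ringTiles]

/-- **Connected separating families of tiles in a ring.** -/
theorem loops [LocallyPathConnectedSpace Z] [PreconnectedSpace Z] (hX : Planar.Splits Z)
    (φ : Chart Z) (p0 : Z) (hr0 : range φ.f = {p0}ᶜ) {a r' r b : ℝ} (ha : 0 < a) (har : a < r')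
    (hrr : r' < r) (hrb : r < b) :
    ∃ n0 : ℕ, ∀ n, n0 ≤ n → ∀ L : ℝ, SepBound T n (φ.D r') (φ.E r) L →
      ∀ ρ : G → ℝ, (∀ h, 0 ≤ ρ h) → ∃ B : Finset G, B ⊆ ringTiles T φ n a b ∧ B.Nonempty ∧
        Planar.FamConn T.U B ∧ Separates (T.un B) (φ.D a) (φ.E b) ∧
        (∑ h ∈ B, ρ h) ^ 2 ≤ L * ∑ h ∈ ringTiles T φ n a b, ρ h ^ 2 := by
  classical
  set K : Set Z := φ.f '' (closedBall (0 : ℝ × ℝ) r \ ball 0 r') with hK
  set O : Set Z := φ.f '' (ball (0 : ℝ × ℝ) b \ closedBall 0 a) with hO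
  have hKc : IsCompact K :=
    (((isCompact_closedBall (0 : ℝ × ℝ) r).diff isOpen_ball).image φ.emb.continuous)
  have hOo : IsOpen O := φ.emb.isOpenMap _ (isOpen_ball.sdiff isClosed_closedBall)
  have hKO : K ⊆ O := by
    apply image_mono
    rintro p ⟨h1, h2⟩
    refine ⟨closedBall_subset_ball hrb h1, fun h3 => h2 ?_⟩
    exact closedBall_subset_ball har h3
  have hclos : closure (φ.D r' ∪ φ.E r)ᶜ ⊆ K := by
    apply closure_minimal _ hKc.isClosed
    intro z hz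
    rw [compl_union] at hz
    obtain ⟨h1, h2⟩ := hz
    have h3 : z ∈ φ.f '' ball (0 : ℝ × ℝ) r := not_not.1 h2
    obtain ⟨p, hp, rfl⟩ := h3
    exact ⟨p, ⟨ball_subset_closedBall hp, fun h4 => h1 ⟨p, ball_subset_closedBall h4, rfl⟩⟩, rfl⟩
  obtain ⟨n0, hn0⟩ := small (T := T) hKc hOo hKO
  refine ⟨n0, ?_⟩
  intro n hn L hsep ρ hρ
  set R := ringTiles T φ n a b with hR
  have hin : ∀ h ∈ S.sph n, (T.U h ∩ closure (φ.D r' ∪ φ.E r)ᶜ).Nonempty → h ∈ R := by
    intro h hh hne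
    have h1 := hn0 n hn h hh (hne.mono (inter_subset_inter_right _ hclos))
    rw [hR, mem_ringTiles]
    refine ⟨hh, ?_, ?_⟩
    · rw [Set.disjoint_left]
      intro z hz
      obtain ⟨p, ⟨-, hp⟩, rfl⟩ := h1 hz
      rintro ⟨q, hq, he⟩
      rw [φ.emb.injective he] at hq
      exact hp hq
    · rw [Set.disjoint_left]
      intro z hz
      obtain ⟨p, ⟨hp, -⟩, rfl⟩ := h1 hz
      intro h2
      exact h2 ⟨p, hp, rfl⟩
  obtain ⟨A, hA, hAs, hAb⟩ := hsep (fun h => if h ∈ R then ρ h else 0)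
    (fun h => by split_ifs; exacts [hρ h, le_rfl])
  have hs1 : Separates (⋃ h ∈ A.filter (fun h => h ∈ R), T.U h) (φ.D r') (φ.E r) := by
    refine D1_Loop.separates_filter T.U T.isClosed ?_ (F_Sep3.isClosed_E φ r)
      (F_Sep3.disjoint_D_E φ hrr) A _ ?_ hAs
    · exact ((isCompact_closedBall (0 : ℝ × ℝ) r').image φ.emb.continuous).isClosed
    · intro h hh hne
      exact Finset.mem_filter.2 ⟨hh, hin h (hA hh) hne⟩
  have hs2 : Separates (⋃ h ∈ A.filter (fun h => h ∈ R), T.U h) (φ.D a) (φ.E b) := by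
    intro c hc h1 h2
    exact hs1 c hc (h1.mono (inter_subset_inter_right _ (D_mono φ har.le)))
      (h2.mono (inter_subset_inter_right _ (E_anti φ hrb.le)))
  obtain ⟨B, hBA, hBs, hBf, hBn⟩ := D1_Loop.exists_famConn hX T.U T.isClosed
    (isConnected_D φ ha.le) (isConnected_E φ p0 hr0 (ha.trans (har.trans (hrr.trans hrb))))
    (A.filter (fun h => h ∈ R)) hs2
    (fun h hh => (mem_ringTiles.1 (Finset.mem_filter.1 hh).2).2.1)
    (fun h hh => (mem_ringTiles.1 (Finset.mem_filter.1 hh).2).2.2)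
  refine ⟨B, fun h hh => (Finset.mem_filter.1 (hBA hh)).2, hBn, hBf, hBs, ?_⟩
  have e1 : ∑ h ∈ B, ρ h ≤ ∑ h ∈ A, (if h ∈ R then ρ h else 0) := by
    calc ∑ h ∈ B, ρ h = ∑ h ∈ B, (if h ∈ R then ρ h else 0) := by
          refine Finset.sum_congr rfl fun h hh => ?_
          rw [if_pos (Finset.mem_filter.1 (hBA hh)).2]
      _ ≤ _ := by
          refine Finset.sum_le_sum_of_subset_of_nonneg
            (fun h hh => (Finset.mem_filter.1 (hBA hh)).1) ?_
          intro h _ _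
          split_ifs
          exacts [hρ h, le_rfl]
  have e2 : ∑ h ∈ S.sph n, (if h ∈ R then ρ h else 0) ^ 2 = ∑ h ∈ R, ρ h ^ 2 := by
    have : ∀ h ∈ S.sph n, (if h ∈ R then ρ h else 0) ^ 2 = if h ∈ R then ρ h ^ 2 else 0 := by
      intro h _
      split_ifs
      · rfl
      · norm_num
    rw [Finset.sum_congr rfl this, ← Finset.sum_filter]
    congr 1
    ext h
    simp only [Finset.mem_filter]
    constructor
    · exact fun h1 => h1.2
    · exact fun h1 => ⟨(mem_ringTiles.1 h1).1, h1⟩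
  calc (∑ h ∈ B, ρ h) ^ 2 ≤ (∑ h ∈ A, (if h ∈ R then ρ h else 0)) ^ 2 := by
        apply pow_le_pow_left₀ (Finset.sum_nonneg fun h _ => hρ h) e1
    _ ≤ _ := hAb
    _ = _ := by rw [e2]

end Ring

end Crest.Agent.R193.M2_Ring
end
end

-- ▼ part R193/M2_Equi
section

/-!
# R193, block M2 (helper818): equicontinuity of the discrete potentials
-/

set_option autoImplicit false

noncomputable section

open Set Filter Topology Metric

namespace Crest.Agent.R193.M2_Equi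

open Crest.Agent.R193 M2_Ring

variable {G Z : Type} [Group G] [MetricSpace Z] [MulAction G Z] {S : Setup G Z} {T : Tiles S}

open Classical in
/-- local variation of `v` at the tile `h` -/
def vr (T : Tiles S) (n : ℕ) (v : G → ℝ) (h : G) : ℝ :=
  ∑ k ∈ (S.sph n).filter (fun k => (T.U h ∩ T.U k).Nonempty), |v k - v h|

theorem vr_nonneg (n : ℕ) (v : G → ℝ) (h : G) : 0 ≤ vr T n v h :=
  Finset.sum_nonneg fun _ _ => abs_nonneg _

open Classical in
/-- `v` is harmonic at `h` with respect to all tiles of level `n` -/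
def Hm (T : Tiles S) (n : ℕ) (v : G → ℝ) (h : G) : Prop :=
  ∑ k ∈ (S.sph n).filter (fun k => (T.U h ∩ T.U k).Nonempty), (v k - v h) = 0

open Classical in
/-- **Oscillation through `I` nested rings.** -/
theorem osc_rings [PreconnectedSpace Z] (φ : Chart Z) (n I : ℕ) (hI : 0 < I) (s : ℕ → ℝ)
    (hs : Antitone s) (v : G → ℝ) (L F : ℝ) (hL : 0 ≤ L) (Γc : Prop)
    (hΓ : Γc → ∃ Γ : Set Z, IsPreconnected Γ ∧ φ.f 0 ∈ Γ ∧ (Γ ∩ φ.E (s 0)).Nonempty ∧
      ∀ h ∈ S.sph n, (T.U h ∩ Γ).Nonempty → v h = 0)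
    (hspos : ∀ k, 0 < s k)
    (hH : ∀ h ∈ S.sph n, Disjoint (T.U h) (φ.E (s 0)) → Hm T n v h ∨ (v h = 0 ∧ Γc))
    (hF : ∑ h ∈ (S.sph n).filter (fun h => Disjoint (T.U h) (φ.E (s 0))), vr T n v h ^ 2 ≤ F)
    (hl : ∀ k < I, ∃ B : Finset G, B ⊆ ringTiles T φ n (s (k + 1)) (s k) ∧ B.Nonempty ∧
        Planar.FamConn T.U B ∧ Separates (T.un B) (φ.D (s (k + 1))) (φ.E (s k)) ∧
        (∑ h ∈ B, vr T n v h) ^ 2 ≤ L * ∑ h ∈ ringTiles T φ n (s (k + 1)) (s k), vr T n v h ^ 2) :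
    ∀ h ∈ S.sph n, ∀ h' ∈ S.sph n, (T.U h ∩ φ.D (s I)).Nonempty → (T.U h' ∩ φ.D (s I)).Nonempty →
      (v h - v h') ^ 2 ≤ 9 * (L * (F / I)) := by
  -- pigeonhole
  have hpig : ∃ k < I, ∑ h ∈ ringTiles T φ n (s (k + 1)) (s k), vr T n v h ^ 2 ≤ F / I := by
    by_contra hcon
    push Not at hcon
    have h1 : ∑ k ∈ Finset.range I, (F / I) <
        ∑ k ∈ Finset.range I, ∑ h ∈ ringTiles T φ n (s (k + 1)) (s k), vr T n v h ^ 2 := by
      apply Finset.sum_lt_sum_of_nonempty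
      · exact ⟨0, Finset.mem_range.2 hI⟩
      · intro k hk
        exact hcon k (Finset.mem_range.1 hk)
    rw [Finset.sum_const, Finset.card_range, nsmul_eq_mul, mul_div_cancel₀ _ (by positivity)] at h1
    have hdisj : Set.PairwiseDisjoint (Finset.range I : Set ℕ)
        (fun k => ringTiles T φ n (s (k + 1)) (s k)) := by
      have key : ∀ k l : ℕ, k < l → ∀ h, h ∈ ringTiles T φ n (s (k + 1)) (s k) →
          h ∉ ringTiles T φ n (s (l + 1)) (s l) := by
        intro k l hkl h h1 h2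
        rw [mem_ringTiles] at h1 h2
        obtain ⟨z, hz⟩ := (T.isConnected h).nonempty
        have h3 := Set.disjoint_left.1 h2.2.2 hz
        have h4 := Set.disjoint_left.1 h1.2.1 hz
        simp only [Chart.E, mem_compl_iff, not_not] at h3
        obtain ⟨p, hp, rfl⟩ := h3
        exact h4 ⟨p, ball_subset_closedBall (ball_subset_ball (hs hkl) hp), rfl⟩
      intro k _ l _ hkl
      rw [Function.onFun, Finset.disjoint_left]
      intro h h1 h2
      rcases lt_or_gt_of_ne hkl with h3 | h3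
      · exact key k l h3 h h1 h2
      · exact key l k h3 h h2 h1
    rw [← Finset.sum_biUnion hdisj] at h1
    have h2 : ∑ h ∈ (Finset.range I).biUnion (fun k => ringTiles T φ n (s (k + 1)) (s k)),
        vr T n v h ^ 2 ≤
        ∑ h ∈ (S.sph n).filter (fun h => Disjoint (T.U h) (φ.E (s 0))), vr T n v h ^ 2 := by
      apply Finset.sum_le_sum_of_subset_of_nonneg
      · intro h hh
        obtain ⟨k, -, hk⟩ := Finset.mem_biUnion.1 hh
        rw [mem_ringTiles] at hk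
        refine Finset.mem_filter.2 ⟨hk.1, hk.2.2.mono_right ?_⟩
        exact E_anti φ (hs (Nat.zero_le k))
      · intro _ _ _
        positivity
    linarith
  obtain ⟨k, hkI, hk⟩ := hpig
  obtain ⟨B, hBR, hBn, hBf, hBs, hBb⟩ := hl k hkI
  have hBP : B ⊆ S.sph n := fun h hh => (mem_ringTiles.1 (hBR hh)).1
  have hcov : ⋃ h ∈ S.sph n, T.U h = univ := T_Comp.un_sph T n
  have hmain := M2_Loop.loop_osc T.U (S.sph n) (fun h _ => T.isClosed h)
    (fun h _ => (T.isConnected h).isPreconnected) (fun h _ => (T.isConnected h).nonempty) hcov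
    B hBP hBn hBf (φ.D (s (k + 1))) (φ.E (s k)) hBs v (vr T n v) (fun σ _ => vr_nonneg n v σ) ?_ ?_
  · intro h hh h' hh' h1 h2
    have hsub : φ.D (s I) ⊆ φ.D (s (k + 1)) := D_mono φ (hs hkI)
    have h3 := hmain h hh h' hh' (h1.mono (inter_subset_inter_right _ hsub))
      (h2.mono (inter_subset_inter_right _ hsub))
    have h4 : 0 ≤ ∑ σ ∈ B, vr T n v σ := Finset.sum_nonneg fun σ _ => vr_nonneg n v σ
    calc (v h - v h') ^ 2 = |v h - v h'| ^ 2 := (sq_abs _).symm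
      _ ≤ (3 * ∑ σ ∈ B, vr T n v σ) ^ 2 := pow_le_pow_left₀ (abs_nonneg _) h3 2
      _ = 9 * (∑ σ ∈ B, vr T n v σ) ^ 2 := by ring
      _ ≤ 9 * (L * (F / I)) := by
          have := hBb.trans (mul_le_mul_of_nonneg_left hk hL)
          linarith
  · intro σ hσ h hh hne
    unfold vr
    exact Finset.single_le_sum (f := fun k => |v k - v σ|) (fun _ _ => abs_nonneg _)
      (Finset.mem_filter.2 ⟨hh, hne⟩)
  · intro h hh hhE
    have hd : Disjoint (T.U h) (φ.E (s 0)) := by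
      rw [← disjoint_iff_inter_eq_empty] at hhE
      exact hhE.mono_right (E_anti φ (hs (Nat.zero_le k)))
    rcases hH h hh hd with h1 | ⟨h1, h2⟩
    · left
      exact h1
    · right
      obtain ⟨Γ, hΓ1, hΓ2, hΓ3, hΓ4⟩ := hΓ h2
      have h3 : (Γ ∩ φ.D (s (k + 1))).Nonempty :=
        ⟨φ.f 0, hΓ2, ⟨0, by simpa using (hspos (k + 1)).le, rfl⟩⟩
      obtain ⟨z, hz1, hz2⟩ := hBs Γ hΓ1 h3
        (hΓ3.mono (inter_subset_inter_right _ (E_anti φ (hs (Nat.zero_le k)))))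
      simp only [Tiles.un, mem_iUnion, exists_prop] at hz2
      obtain ⟨σ, hσ, hzσ⟩ := hz2
      exact ⟨σ, hσ, by rw [h1, hΓ4 σ (hBP hσ) ⟨z, hzσ, hz1⟩]⟩

/-- valence constant -/
def val (T : Tiles S) : ℕ := T_Comp.Nb S (2 * T.R + 2 * S.δ)

theorem degree_le (χ : Chart Z) (n : ℕ) (a : T.V χ n) :
    {w | (T.gr χ n).Adj a w}.ncard ≤ val T := by
  classical
  have h1 : {w | (T.gr χ n).Adj a w}.ncard =
      (Finset.univ.filter (fun w => (T.gr χ n).Adj a w)).card := by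
    rw [Set.ncard_eq_toFinset_card']
    congr 1
    ext w; simp
  rw [h1, ← Finset.card_map (Function.Embedding.subtype _)]
  apply T_Comp.card_adj_le T (a : G)
  intro h hh
  rw [Finset.mem_map] at hh
  obtain ⟨w, hw, rfl⟩ := hh
  have ha := (Tiles.mem_V.1 a.2).1
  have hw' := (Tiles.mem_V.1 w.2).1
  refine ⟨by rw [ha]; exact hw', ((Finset.mem_filter.1 hw).2).2⟩

open Classical in
theorem sum_V {χ : Chart Z} {n : ℕ} (h : G) (hh : h ∈ T.V χ n) (f : G → ℝ) (hf : f h = 0) :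
    ∑ k ∈ (T.V χ n).filter (fun k => (T.U h ∩ T.U k).Nonempty), f k =
      ∑ w : T.V χ n, if (T.gr χ n).Adj ⟨h, hh⟩ w then f w else 0 := by
  rw [Finset.sum_filter, ← Finset.sum_coe_sort (T.V χ n)]
  refine Finset.sum_congr rfl fun w _ => ?_
  by_cases hw : (w : G) = h
  · have : ¬ (T.gr χ n).Adj ⟨h, hh⟩ w := by
      rintro ⟨h1, -⟩
      exact h1 (Subtype.ext hw.symm)
    rw [if_neg this, hw, hf, ite_self]
  · have : (T.gr χ n).Adj ⟨h, hh⟩ w ↔ (T.U h ∩ T.U (w : G)).Nonempty := by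
      constructor
      · exact fun h1 => h1.2
      · exact fun h1 => ⟨fun h2 => hw (by rw [← h2]), h1⟩
    simp only [this]

theorem left_sub_Q (χ : Chart Z) : χ.left ⊆ χ.Q := by
  apply image_mono
  rintro ⟨a, b⟩ ⟨ha, hb⟩
  have : a = 0 := ha
  subst this
  exact ⟨⟨le_rfl, zero_le_one⟩, hb⟩

theorem right_sub_Q (χ : Chart Z) : χ.right ⊆ χ.Q := by
  apply image_mono
  rintro ⟨a, b⟩ ⟨ha, hb⟩
  have : a = 1 := ha
  subst this
  exact ⟨⟨zero_le_one, le_rfl⟩, hb⟩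

theorem Qo_sub_Q (χ : Chart Z) : χ.Qo ⊆ χ.Q :=
  image_mono (prod_mono Ioo_subset_Icc_self Ioo_subset_Icc_self)

theorem Qo_disj_left (χ : Chart Z) : Disjoint χ.Qo χ.left := by
  rw [Set.disjoint_left]
  rintro _ ⟨p, ⟨hp, -⟩, rfl⟩ ⟨q, ⟨hq, -⟩, he⟩
  rw [χ.emb.injective he] at hq
  have : p.1 = 0 := hq
  rw [this] at hp
  exact lt_irrefl _ hp.1

theorem Qo_disj_right (χ : Chart Z) : Disjoint χ.Qo χ.right := by
  rw [Set.disjoint_left]
  rintro _ ⟨p, ⟨hp, -⟩, rfl⟩ ⟨q, ⟨hq, -⟩, he⟩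
  rw [χ.emb.injective he] at hq
  have : p.1 = 1 := hq
  rw [this] at hp
  exact lt_irrefl _ hp.2

open Classical in
/-- **Local estimate.** `O` is an open set containing all tiles of level `n` meeting the outer
square `φ.f '' ball 0 (s 0)`; in `O` every tile is either inside `Qo` or has `v = 0`; `v = ± u + c`
on `V`, `v = 0` off `V`. -/
theorem local_osc [PreconnectedSpace Z] {χ : Chart Z} {n : ℕ} {u : G → ℝ}
    (hsol : FG.Sol (T.gr χ n) (T.Lt χ n) (T.Rt χ n) (fun h => u (h : G)))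
    (φ : Chart Z) (I : ℕ) (hI : 0 < I) (s : ℕ → ℝ)
    (hs : Antitone s) (hspos : ∀ k, 0 < s k) (v : G → ℝ) (L F : ℝ) (hL : 0 ≤ L)
    (hen : FG.en (T.gr χ n) (fun h => u (h : G)) ≤ F)
    (Γc : Prop)
    (hΓ : Γc → ∃ Γ : Set Z, IsPreconnected Γ ∧ φ.f 0 ∈ Γ ∧ (Γ ∩ φ.E (s 0)).Nonempty ∧
      ∀ h ∈ S.sph n, (T.U h ∩ Γ).Nonempty → v h = 0)
    (c : ℝ) (σ : ℝ) (hσ : |σ| = 1) (hv : ∀ h ∈ T.V χ n, v h = c + σ * u h)
    (hv0 : ∀ h ∈ S.sph n, h ∉ T.V χ n → v h = 0)
    (O : Set Z) (hO : ∀ h ∈ S.sph n, (T.U h ∩ (φ.E (s 0))ᶜ).Nonempty → T.U h ⊆ O)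
    (ha : ∀ h ∈ S.sph n, T.U h ⊆ O → T.U h ⊆ χ.Qo ∨ (v h = 0 ∧ Γc))
    (hl : ∀ k < I, ∀ ρ : G → ℝ, (∀ h, 0 ≤ ρ h) → ∃ B : Finset G,
        B ⊆ ringTiles T φ n (s (k + 1)) (s k) ∧ B.Nonempty ∧
        Planar.FamConn T.U B ∧ Separates (T.un B) (φ.D (s (k + 1))) (φ.E (s k)) ∧
        (∑ h ∈ B, ρ h) ^ 2 ≤ L * ∑ h ∈ ringTiles T φ n (s (k + 1)) (s k), ρ h ^ 2) :
    ∀ h ∈ S.sph n, ∀ h' ∈ S.sph n, (T.U h ∩ φ.D (s I)).Nonempty → (T.U h' ∩ φ.D (s I)).Nonempty →
      (v h - v h') ^ 2 ≤ 9 * (L * ((2 * val T * F) / I)) := by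
  have hVsub : T.V χ n ⊆ S.sph n := by
    intro h hh
    rw [Setup.mem_sph]; exact (Tiles.mem_V.1 hh).1
  have hQoV : ∀ h ∈ S.sph n, (T.U h ∩ χ.Qo).Nonempty → h ∈ T.V χ n := by
    intro h hh hne
    rw [Tiles.mem_V]
    exact ⟨Setup.mem_sph.1 hh, hne.mono (inter_subset_inter_right _ (Qo_sub_Q χ))⟩
  -- tiles inside
  have hin : ∀ h ∈ S.sph n, Disjoint (T.U h) (φ.E (s 0)) → T.U h ⊆ O := by
    intro h hh hd
    obtain ⟨z, hz⟩ := (T.isConnected h).nonempty
    exact hO h hh ⟨z, hz, Set.disjoint_left.1 hd hz⟩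
  have hnbin : ∀ h ∈ S.sph n, Disjoint (T.U h) (φ.E (s 0)) → ∀ k ∈ S.sph n,
      (T.U h ∩ T.U k).Nonempty → T.U k ⊆ O := by
    intro h hh hd k hk hne
    obtain ⟨z, hz1, hz2⟩ := hne
    exact hO k hk ⟨z, hz2, Set.disjoint_left.1 hd hz1⟩
  -- neighbours of a tile inside `Qo`
  have hnbV : ∀ h, T.U h ⊆ χ.Qo → ∀ k ∈ S.sph n, (T.U h ∩ T.U k).Nonempty → k ∈ T.V χ n := by
    intro h hh k hk hne
    obtain ⟨z, hz1, hz2⟩ := hne
    exact hQoV k hk ⟨z, hz2, hh hz1⟩
  refine osc_rings φ n I hI s hs v L (2 * val T * F) hL Γc hΓ hspos ?_ ?_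
    (fun k hk => hl k hk (vr T n v) (vr_nonneg n v))
  · -- harmonicity
    intro h hh hd
    rcases ha h hh (hin h hh hd) with h1 | h1
    · left
      have hhV : h ∈ T.V χ n := by
        obtain ⟨z, hz⟩ := (T.isConnected h).nonempty
        exact hQoV h hh ⟨z, hz, h1 hz⟩
      have e1 : (S.sph n).filter (fun k => (T.U h ∩ T.U k).Nonempty) =
          (T.V χ n).filter (fun k => (T.U h ∩ T.U k).Nonempty) := by
        ext k
        simp only [Finset.mem_filter]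
        constructor
        · rintro ⟨h2, h3⟩
          exact ⟨hnbV h h1 k h2 h3, h3⟩
        · rintro ⟨h2, h3⟩
          exact ⟨hVsub h2, h3⟩
      have h2 : FG.lap (T.gr χ n) (fun h => u (h : G)) ⟨h, hhV⟩ = 0 := by
        apply hsol.harm
        · rintro ⟨z, hz1, hz2⟩
          exact Set.disjoint_left.1 (Qo_disj_left χ) (h1 hz1) hz2
        · rintro ⟨z, hz1, hz2⟩
          exact Set.disjoint_left.1 (Qo_disj_right χ) (h1 hz1) hz2
      rw [FG.lap_def] at h2
      rw [Hm, e1]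
      have e2 : ∑ k ∈ (T.V χ n).filter (fun k => (T.U h ∩ T.U k).Nonempty), (v k - v h) =
          σ * ∑ k ∈ (T.V χ n).filter (fun k => (T.U h ∩ T.U k).Nonempty), (u k - u h) := by
        rw [Finset.mul_sum]
        refine Finset.sum_congr rfl fun k hk => ?_
        rw [hv k (Finset.mem_filter.1 hk).1, hv h hhV]
        ring
      rw [e2, sum_V h hhV (fun k => u k - u h) (by ring)]
      rw [h2, mul_zero]
    · exact Or.inr h1
  · -- energy
    have hgr := FG.sum_grad_sq_le (T.gr χ n) (fun h => u (h : G)) (val T) (degree_le χ n)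
    have hΔ : (0 : ℝ) ≤ 2 * val T := by positivity
    refine le_trans ?_ (mul_le_mul_of_nonneg_left hen hΔ)
    refine le_trans ?_ hgr
    -- pointwise bound
    have hpt : ∀ h ∈ (S.sph n).filter (fun h => Disjoint (T.U h) (φ.E (s 0))),
        vr T n v h ^ 2 ≤ (if hh : h ∈ T.V χ n then
          FG.grad (T.gr χ n) (fun h => u (h : G)) ⟨h, hh⟩ else 0) ^ 2 := by
      intro h hh
      obtain ⟨hhS, hd⟩ := Finset.mem_filter.1 hh
      have hhO := hin h hhS hd
      by_cases hhV : h ∈ T.V χ n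
      · rw [dif_pos hhV]
        apply pow_le_pow_left₀ (vr_nonneg n v h)
        have e1 : vr T n v h ≤
            ∑ k ∈ (T.V χ n).filter (fun k => (T.U h ∩ T.U k).Nonempty), |v k - v h| := by
          unfold vr
          apply le_of_eq
          symm
          apply Finset.sum_subset
          · exact Finset.filter_subset_filter _ hVsub
          · intro k hk hk'
            obtain ⟨hk1, hk2⟩ := Finset.mem_filter.1 hk
            have hkV : k ∉ T.V χ n := fun h2 => hk' (Finset.mem_filter.2 ⟨h2, hk2⟩)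
            rcases ha h hhS hhO with h1 | h1
            · exact absurd (hnbV h h1 k hk1 hk2) hkV
            · rw [h1.1, hv0 k hk1 hkV, sub_self, abs_zero]
        refine e1.trans (le_of_eq ?_)
        rw [FG.grad_def, sum_V h hhV (fun k => |v k - v h|) (by simp)]
        refine Finset.sum_congr rfl fun w _ => ?_
        split_ifs
        · rw [hv w w.2, hv h hhV]
          have : c + σ * u w - (c + σ * u h) = σ * (u w - u h) := by ring
          rw [this, abs_mul, hσ, one_mul, abs_sub_comm]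
        · rfl
      · rw [dif_neg hhV]
        have e1 : vr T n v h = 0 := by
          unfold vr
          apply Finset.sum_eq_zero
          intro k hk
          obtain ⟨hk1, hk2⟩ := Finset.mem_filter.1 hk
          rw [hv0 h hhS hhV, sub_zero]
          by_cases hkV : k ∈ T.V χ n
          · rcases ha k hk1 (hnbin h hhS hd k hk1 hk2) with h1 | h1
            · obtain ⟨z, hz1, hz2⟩ := hk2
              exact absurd (hQoV h hhS ⟨z, hz1, h1 hz2⟩) hhV
            · rw [h1.1, abs_zero]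
          · rw [hv0 k hk1 hkV, abs_zero]
        rw [e1]
    refine (Finset.sum_le_sum hpt).trans ?_
    calc _ ≤ ∑ h ∈ S.sph n, (if hh : h ∈ T.V χ n then
          FG.grad (T.gr χ n) (fun h => u (h : G)) ⟨h, hh⟩ else 0) ^ 2 := by
          apply Finset.sum_le_sum_of_subset_of_nonneg (Finset.filter_subset _ _)
          intro _ _ _
          positivity
      _ = ∑ h ∈ T.V χ n, (if hh : h ∈ T.V χ n then
          FG.grad (T.gr χ n) (fun h => u (h : G)) ⟨h, hh⟩ else 0) ^ 2 := by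
          symm
          apply Finset.sum_subset hVsub
          intro h _ hh
          rw [dif_neg hh]; norm_num
      _ = ∑ x : T.V χ n, FG.grad (T.gr χ n) (fun h => u (h : G)) x ^ 2 := by
          rw [← Finset.sum_coe_sort (T.V χ n)]
          refine Finset.sum_congr rfl fun x _ => ?_
          rw [dif_pos x.2]
      _ ≤ _ := le_rfl

/-- the closed rectangle without its top and bottom sides -/
def Qs (χ : Chart Z) : Set Z := χ.f '' (Icc (0 : ℝ) 1 ×ˢ Ioo (0 : ℝ) 1)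

/-- A connected set close to a point of the left (`c = 0`) or right (`c = 1`) side, meeting `Q` but
not the line of this side, is inside `Qo`. -/
theorem sub_Qo_of_side (χ : Chart Z) {c b ε0 : ℝ} (hc : c = 0 ∨ c = 1) (h1 : ε0 ≤ b)
    (h2 : ε0 ≤ 1 - b) (h3 : ε0 ≤ 1) {U : Set Z} (hU : IsPreconnected U)
    (hUO : U ⊆ χ.f '' ball ((c, b) : ℝ × ℝ) ε0) (hUQ : (U ∩ χ.Q).Nonempty)
    (hUl : Disjoint U (χ.f '' ({c} ×ˢ Icc (0 : ℝ) 1))) : U ⊆ χ.Qo := by
  set W : Set (ℝ × ℝ) := χ.f ⁻¹' U with hW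
  have hWU : χ.f '' W = U := by
    rw [hW, image_preimage_eq_inter_range]
    apply inter_eq_left.2
    exact hUO.trans (image_subset_range _ _)
  have hWc : IsPreconnected W := by
    rw [← hWU] at hU
    exact χ.emb.isInducing.isPreconnected_image.1 hU
  have hWb : ∀ p ∈ W, |p.1 - c| < ε0 ∧ |p.2 - b| < ε0 := by
    intro p hp
    obtain ⟨q, hq, he⟩ := hUO (show χ.f p ∈ U from hp)
    rw [χ.emb.injective he] at hq
    rw [mem_ball, Prod.dist_eq, max_lt_iff, Real.dist_eq, Real.dist_eq] at hq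
    exact hq
  have hJ : IsPreconnected (Prod.fst '' W) := hWc.image _ continuous_fst.continuousOn
  have hJc : c ∉ Prod.fst '' W := by
    rintro ⟨p, hp, hpc⟩
    have h4 := (hWb p hp).2
    rw [abs_lt] at h4
    apply Set.disjoint_left.1 hUl (show χ.f p ∈ U from hp)
    exact ⟨p, ⟨hpc, by constructor <;> linarith [h4.1, h4.2]⟩, rfl⟩
  obtain ⟨z, hz1, q, hq, rfl⟩ := hUQ
  have hqW : q ∈ W := hz1
  have hqJ : q.1 ∈ Prod.fst '' W := ⟨q, hqW, rfl⟩
  have hqc : q.1 ≠ c := fun h => hJc (h ▸ hqJ)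
  have hord := hJ.ordConnected
  have key : ∀ p ∈ W, 0 < p.1 ∧ p.1 < 1 := by
    intro p hp
    have hpJ : p.1 ∈ Prod.fst '' W := ⟨p, hp, rfl⟩
    have h4 := (hWb p hp).1
    rw [abs_lt] at h4
    rcases hc with rfl | rfl
    · have hq0 : 0 < q.1 := lt_of_le_of_ne hq.1.1 (Ne.symm hqc)
      refine ⟨?_, by linarith [h4.2]⟩
      by_contra hcon
      push Not at hcon
      exact hJc (hord.out hpJ hqJ ⟨hcon, hq0.le⟩)
    · have hq0 : q.1 < 1 := lt_of_le_of_ne hq.1.2 hqc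
      refine ⟨by linarith [h4.1], ?_⟩
      by_contra hcon
      push Not at hcon
      exact hJc (hord.out hqJ hpJ ⟨hq0.le, hcon⟩)
  rw [← hWU]
  apply image_mono
  intro p hp
  have h4 := (hWb p hp).2
  rw [abs_lt] at h4
  exact ⟨key p hp, by constructor <;> linarith [h4.1, h4.2]⟩

theorem isPreconnected_side (χ : Chart Z) (c : ℝ) :
    IsPreconnected (χ.f '' ({c} ×ˢ Icc (0 : ℝ) 1)) :=
  (isPreconnected_singleton.prod isPreconnected_Icc).image _ χ.emb.continuous.continuousOn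

theorem preconnectedSpace_of_homeo (Φ : Z ≃ₜ S2) : PreconnectedSpace Z := by
  have h1 : ConnectedSpace Planar.S2 := Planar.S2_connected
  have h2 : PreconnectedSpace Planar.S2 := h1.toPreconnectedSpace
  have h3 : Continuous (Φ.symm : Planar.S2 → Z) := Φ.symm.continuous
  exact Φ.symm.surjective.denseRange.preconnectedSpace h3

open Classical in
/-- equicontinuity, abstract form: `O` a neighbourhood of `x`, `v` modification of `u`. -/
theorem equi_aux (Φ : Z ≃ₜ S2) (P : Rec T) :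
    ∃ C : ℝ, 0 < C ∧ ∀ (x : Z) (O : Set Z), IsOpen O → x ∈ O → ∀ (Γc : Prop) (Γ : Set Z),
      (Γc → IsPreconnected Γ ∧ x ∈ Γ ∧ ¬ (Γ ⊆ O)) → ∀ (c σ : ℝ), |σ| = 1 →
      (∀ n ∈ P.recs, ∀ v : G → ℝ, (∀ h ∈ T.V P.χ n, v h = c + σ * P.u n h) →
        (∀ h ∈ S.sph n, h ∉ T.V P.χ n → v h = 0) →
        (Γc → ∀ h ∈ S.sph n, (T.U h ∩ Γ).Nonempty → v h = 0) ∧
        (∀ h ∈ S.sph n, T.U h ⊆ O → T.U h ⊆ P.χ.Qo ∨ (v h = 0 ∧ Γc))) →
      ∀ I : ℕ, 0 < I → ∃ N ∈ 𝓝 x, ∃ n0 : ℕ, ∀ n, n0 ≤ n → n ∈ P.recs → ∀ h ∈ T.V P.χ n,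
        ∀ h' ∈ T.V P.χ n, (T.U h ∩ N).Nonempty → (T.U h' ∩ N).Nonempty →
          (P.u n h - P.u n h') ^ 2 ≤ C / I := by
  have hLP : LocallyPathConnectedSpace Z := F_Sep3.locallyPathConnectedSpace_of_homeo Φ
  have hPC : PreconnectedSpace Z := preconnectedSpace_of_homeo Φ
  have hX : Planar.Splits Z := Planar.Splits.of_homeo Planar.splits_S2 Φ
  obtain ⟨C, hC, hnest⟩ := nested P
  refine ⟨9 * (C * (2 * val T * P.C)) + 1, by have := P.C_pos; positivity, ?_⟩
  intro x O hO hxO Γc Γ hΓ c σ hσ hyp I hI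
  obtain ⟨φ, p0, hrange, hφ0⟩ := exists_schart Φ x
  -- first radius
  have hnh : φ.f ⁻¹' O ∈ 𝓝 (0 : ℝ × ℝ) := by
    apply φ.emb.continuous.continuousAt.preimage_mem_nhds
    rw [hφ0]
    exact hO.mem_nhds hxO
  obtain ⟨s0, hs0, hs0O⟩ := Metric.nhds_basis_closedBall.mem_iff.1 hnh
  obtain ⟨s, r, r', hs_0, hspos, hsr, n1, hn1⟩ := hnest φ s0 hs0 I
  have hanti : Antitone s := by
    apply antitone_nat_of_succ_le
    intro k
    have := hsr k
    linarith [this.1, this.2.1, this.2.2]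
  set K : Set Z := φ.f '' closedBall (0 : ℝ × ℝ) s0 with hK
  have hKc : IsCompact K := (isCompact_closedBall _ _).image φ.emb.continuous
  have hKO : K ⊆ O := by
    rintro _ ⟨p, hp, rfl⟩
    exact hs0O hp
  obtain ⟨n2, hn2⟩ := small (T := T) hKc hO hKO
  have hloops : ∀ k : ℕ, ∃ n3 : ℕ, ∀ n, n3 ≤ n → ∀ L : ℝ, SepBound T n (φ.D (r' k)) (φ.E (r k)) L →
      ∀ ρ : G → ℝ, (∀ h, 0 ≤ ρ h) → ∃ B : Finset G, B ⊆ ringTiles T φ n (s (k + 1)) (s k) ∧
        B.Nonempty ∧ Planar.FamConn T.U B ∧ Separates (T.un B) (φ.D (s (k + 1))) (φ.E (s k)) ∧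
        (∑ h ∈ B, ρ h) ^ 2 ≤ L * ∑ h ∈ ringTiles T φ n (s (k + 1)) (s k), ρ h ^ 2 :=
    fun k => loops hX φ p0 hrange (hspos (k + 1)) (hsr k).1 (hsr k).2.1 (hsr k).2.2
  choose n3 hn3 using hloops
  refine ⟨φ.f '' ball (0 : ℝ × ℝ) (s I), ?_, max n1 (max n2 ((Finset.range I).sup n3)), ?_⟩
  · apply (φ.emb.isOpenMap _ isOpen_ball).mem_nhds
    exact ⟨0, by simpa using hspos I, hφ0⟩
  intro n hn hrec h hh h' hh' hN hN'
  have hnn1 : n1 ≤ n := (le_max_left _ _).trans hn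
  have hnn2 : n2 ≤ n := ((le_max_left _ _).trans (le_max_right _ _)).trans hn
  have hnn3 : ∀ k < I, n3 k ≤ n := by
    intro k hk
    have h1 : n3 k ≤ (Finset.range I).sup n3 := Finset.le_sup (Finset.mem_range.2 hk)
    exact h1.trans (((le_max_right _ _).trans (le_max_right _ _)).trans hn)
  let v : G → ℝ := fun k => if k ∈ T.V P.χ n then c + σ * P.u n k else 0
  have hv : ∀ h ∈ T.V P.χ n, v h = c + σ * P.u n h := fun k hk => if_pos hk
  have hv0 : ∀ h ∈ S.sph n, h ∉ T.V P.χ n → v h = 0 := fun k _ hk => if_neg hk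
  obtain ⟨hy1, hy2⟩ := hyp n hrec v hv hv0
  have hLn : 0 < P.L n := lt_of_lt_of_le one_pos (P.one_le n)
  have hVs : ∀ h ∈ T.V P.χ n, h ∈ S.sph n := fun k hk => Setup.mem_sph.2 (Tiles.mem_V.1 hk).1
  have hDs : φ.f '' ball (0 : ℝ × ℝ) (s I) ⊆ φ.D (s I) := image_mono ball_subset_closedBall
  have hmain := local_osc (P.sol n hrec) φ I hI s hanti hspos v (C * P.L n) (P.C / P.L n)
    (by positivity) (P.en_le n hrec) Γc ?_ c σ hσ hv hv0 O ?_ hy2
    (fun k hk => hn3 k n (hnn3 k hk) _ (hn1 n hnn1 k hk)) h (hVs h hh) h' (hVs h' hh')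
    (hN.mono (inter_subset_inter_right _ hDs)) (hN'.mono (inter_subset_inter_right _ hDs))
  · rw [hv h hh, hv h' hh'] at hmain
    have e1 : (c + σ * P.u n h - (c + σ * P.u n h')) ^ 2 = (P.u n h - P.u n h') ^ 2 := by
      have h1 : σ ^ 2 = 1 := by rw [← sq_abs, hσ]; norm_num
      have h2 : (c + σ * P.u n h - (c + σ * P.u n h')) ^ 2 =
        σ ^ 2 * (P.u n h - P.u n h') ^ 2 := by ring
      rw [h2, h1, one_mul]
    rw [e1] at hmain
    refine hmain.trans ?_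
    have e2 : 9 * (C * P.L n * (2 * (val T : ℝ) * (P.C / P.L n) / I)) =
        9 * (C * (2 * val T * P.C)) / I := by
      field_simp
    rw [e2]
    gcongr
    linarith
  · intro hc
    obtain ⟨h1, h2, h3⟩ := hΓ hc
    refine ⟨Γ, h1, hφ0 ▸ h2, ?_, hy1 hc⟩
    obtain ⟨z, hz1, hz2⟩ := not_subset.1 h3
    refine ⟨z, hz1, ?_⟩
    intro h4
    rw [hs_0] at h4
    exact hz2 (hKO ((image_mono ball_subset_closedBall) h4))
  · intro k hk hne
    apply hn2 n hnn2 k hk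
    apply hne.mono
    apply inter_subset_inter_right
    rw [hs_0]
    intro z hz
    exact (image_mono ball_subset_closedBall) (not_not.1 hz)

/-- **Equicontinuity** on `Qs`. -/
theorem equi (Φ : Z ≃ₜ S2) (P : Rec T) (x : Z) (hx : x ∈ Qs P.χ) (e : ℝ) (he : 0 < e) :
    ∃ N ∈ 𝓝 x, ∃ n0 : ℕ, ∀ n, n0 ≤ n → n ∈ P.recs → ∀ h ∈ T.V P.χ n, ∀ h' ∈ T.V P.χ n,
      (T.U h ∩ N).Nonempty → (T.U h' ∩ N).Nonempty → |P.u n h - P.u n h'| ≤ e := by
  obtain ⟨C, hC, haux⟩ := equi_aux Φ P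
  obtain ⟨I, hI⟩ := exists_nat_gt (C / e ^ 2)
  have hIpos : (0 : ℝ) < I := lt_of_le_of_lt (by positivity) hI
  have hI0 : 0 < I := by exact_mod_cast hIpos
  have hCI : C / I ≤ e ^ 2 := by
    rw [div_lt_iff₀ (by positivity)] at hI
    rw [div_le_iff₀ hIpos]
    linarith
  suffices h : ∃ N ∈ 𝓝 x, ∃ n0 : ℕ, ∀ n, n0 ≤ n → n ∈ P.recs → ∀ h ∈ T.V P.χ n,
        ∀ h' ∈ T.V P.χ n, (T.U h ∩ N).Nonempty → (T.U h' ∩ N).Nonempty →
          (P.u n h - P.u n h') ^ 2 ≤ C / I by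
    obtain ⟨N, hN, n0, h1⟩ := h
    refine ⟨N, hN, n0, fun n hn hr h hh h' hh' a b => ?_⟩
    exact abs_le_of_sq_le_sq ((h1 n hn hr h hh h' hh' a b).trans hCI) he.le
  obtain ⟨⟨a, b⟩, ⟨ha, hb⟩, rfl⟩ := hx
  have ha : 0 ≤ a ∧ a ≤ 1 := ha
  have hb : 0 < b ∧ b < 1 := hb
  set ε0 : ℝ := min b (1 - b) with hε0
  have hε0pos : 0 < ε0 := lt_min hb.1 (by linarith [hb.2])
  have hε1 : ε0 ≤ b := min_le_left _ _
  have hε2 : ε0 ≤ 1 - b := min_le_right _ _
  rcases eq_or_lt_of_le ha.1 with h0 | h0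
  · -- left side
    subst h0
    refine haux (P.χ.f (0, b)) (P.χ.f '' ball ((0, b) : ℝ × ℝ) ε0) (P.χ.emb.isOpenMap _ isOpen_ball)
      ⟨(0, b), mem_ball_self hε0pos, rfl⟩ True P.χ.left ?_ 0 1 (by simp) ?_ I hI0
    · intro _
      refine ⟨isPreconnected_side P.χ 0, ⟨(0, b), ⟨rfl, hb.1.le, hb.2.le⟩, rfl⟩, ?_⟩
      intro hcon
      have h1 : P.χ.f (0, 0) ∈ P.χ.left := ⟨(0, 0), ⟨rfl, le_rfl, zero_le_one⟩, rfl⟩
      obtain ⟨q, hq, hqe⟩ := hcon h1
      rw [P.χ.emb.injective hqe, mem_ball, Prod.dist_eq, max_lt_iff, Real.dist_eq, Real.dist_eq] at hq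
      have h2 : |(0 : ℝ) - b| < ε0 := hq.2
      rw [zero_sub, abs_neg, abs_of_pos hb.1] at h2
      linarith
    · intro n hn v hv hv0
      have hl : ∀ h ∈ S.sph n, (T.U h ∩ P.χ.left).Nonempty → v h = 0 := by
        intro h hh hne
        have hV : h ∈ T.V P.χ n :=
          Tiles.mem_V.2 ⟨Setup.mem_sph.1 hh, hne.mono (inter_subset_inter_right _ (left_sub_Q _))⟩
        have h1 := (P.sol n hn).bc.1 ⟨h, hV⟩ hne
        rw [hv h hV, zero_add, one_mul]
        exact h1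
      refine ⟨fun _ => hl, ?_⟩
      intro h hh hO
      by_cases h1 : (T.U h ∩ P.χ.Q).Nonempty
      · by_cases h2 : (T.U h ∩ P.χ.left).Nonempty
        · exact Or.inr ⟨hl h hh h2, trivial⟩
        · left
          rw [not_nonempty_iff_eq_empty, ← disjoint_iff_inter_eq_empty] at h2
          exact sub_Qo_of_side P.χ (Or.inl rfl) hε1 hε2 (by linarith [hb.2])
            (T.isConnected h).isPreconnected hO h1 h2
      · right
        refine ⟨hv0 h hh ?_, trivial⟩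
        intro h2
        exact h1 (Tiles.mem_V.1 h2).2
  rcases eq_or_lt_of_le ha.2 with h1 | h1
  · -- right side
    subst h1
    refine haux (P.χ.f (1, b)) (P.χ.f '' ball ((1, b) : ℝ × ℝ) ε0) (P.χ.emb.isOpenMap _ isOpen_ball)
      ⟨(1, b), mem_ball_self hε0pos, rfl⟩ True P.χ.right ?_ 1 (-1) (by simp) ?_ I hI0
    · intro _
      refine ⟨isPreconnected_side P.χ 1, ⟨(1, b), ⟨rfl, hb.1.le, hb.2.le⟩, rfl⟩, ?_⟩
      intro hcon
      have h1 : P.χ.f (1, 0) ∈ P.χ.right := ⟨(1, 0), ⟨rfl, le_rfl, zero_le_one⟩, rfl⟩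
      obtain ⟨q, hq, hqe⟩ := hcon h1
      rw [P.χ.emb.injective hqe, mem_ball, Prod.dist_eq, max_lt_iff, Real.dist_eq, Real.dist_eq] at hq
      have h2 : |(0 : ℝ) - b| < ε0 := hq.2
      rw [zero_sub, abs_neg, abs_of_pos hb.1] at h2
      linarith
    · intro n hn v hv hv0
      have hl : ∀ h ∈ S.sph n, (T.U h ∩ P.χ.right).Nonempty → v h = 0 := by
        intro h hh hne
        have hV : h ∈ T.V P.χ n :=
          Tiles.mem_V.2 ⟨Setup.mem_sph.1 hh, hne.mono (inter_subset_inter_right _ (right_sub_Q _))⟩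
        have h1 := (P.sol n hn).bc.2 ⟨h, hV⟩ hne
        have h1' : P.u n h = 1 := h1
        rw [hv h hV, h1']
        ring
      refine ⟨fun _ => hl, ?_⟩
      intro h hh hO
      by_cases h1 : (T.U h ∩ P.χ.Q).Nonempty
      · by_cases h2 : (T.U h ∩ P.χ.right).Nonempty
        · exact Or.inr ⟨hl h hh h2, trivial⟩
        · left
          rw [not_nonempty_iff_eq_empty, ← disjoint_iff_inter_eq_empty] at h2
          exact sub_Qo_of_side P.χ (Or.inr rfl) hε1 hε2 (by linarith [hb.2])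
            (T.isConnected h).isPreconnected hO h1 h2
      · right
        refine ⟨hv0 h hh ?_, trivial⟩
        intro h2
        exact h1 (Tiles.mem_V.1 h2).2
  · -- interior
    refine haux (P.χ.f (a, b)) P.χ.Qo (P.χ.emb.isOpenMap _ (isOpen_Ioo.prod isOpen_Ioo))
      ⟨(a, b), ⟨⟨h0, h1⟩, hb⟩, rfl⟩ False ∅ (fun h => h.elim) 0 1 (by simp) ?_ I hI0
    intro n hn v hv hv0
    refine ⟨fun h => h.elim, ?_⟩
    intro h hh hO
    exact Or.inl hO

end Crest.Agent.R193.M2_Equi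
end
end

-- ▼ part R193/M2_Lim
section

/-!
# R193, block M2 (helper818): the limit function
-/

set_option autoImplicit false

noncomputable section

open Set Filter Topology Metric

namespace Crest.Agent.R193.M2_Lim

open Crest.Agent.R193 M2_Ring M2_Equi

variable {G Z : Type} [Group G] [MetricSpace Z] [MulAction G Z] {S : Setup G Z} {T : Tiles S}

/-- an ultrafilter on the levels along which everything happens -/
theorem exists_ultra (P : Rec T) : ∃ l : Ultrafilter ℕ, (l : Filter ℕ) ≤ atTop ∧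
    P.recs ∈ (l : Filter ℕ) ∧ Tendsto P.L l atTop := by
  have h := fun k : ℕ => P.unbdd (k : ℝ) k
  choose m hm1 hm2 hm3 using h
  have hmt : Tendsto m atTop atTop := tendsto_atTop_mono hm2 tendsto_id
  set F : Filter ℕ := map m atTop with hF
  have hFne : F.NeBot := inferInstance
  refine ⟨Ultrafilter.of F, (Ultrafilter.of_le F).trans hmt, ?_, ?_⟩
  · apply Ultrafilter.of_le F
    rw [hF, mem_map]
    exact Eventually.of_forall hm1
  · refine Tendsto.mono_left ?_ (Ultrafilter.of_le F)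
    rw [hF, tendsto_map'_iff]
    exact tendsto_atTop_mono hm3 tendsto_natCast_atTop_atTop

/-- a tile of level `n` containing `y` -/
def tl (T : Tiles S) (n : ℕ) (y : Z) : G := (T_Comp.exists_mem T y n).choose

theorem tl_mem (n : ℕ) (y : Z) : tl T n y ∈ S.sph n ∧ y ∈ T.U (tl T n y) :=
  (T_Comp.exists_mem T y n).choose_spec

theorem tl_V {χ : Chart Z} (n : ℕ) {y : Z} (hy : y ∈ χ.Q) : tl T n y ∈ T.V χ n := by
  rw [Tiles.mem_V]
  exact ⟨Setup.mem_sph.1 (tl_mem n y).1, ⟨y, (tl_mem n y).2, hy⟩⟩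

theorem Qs_sub_Q (χ : Chart Z) : Qs χ ⊆ χ.Q :=
  image_mono (prod_mono Subset.rfl Ioo_subset_Icc_self)

theorem u_mem {P : Rec T} {n : ℕ} (hn : n ∈ P.recs) {h : G} (hh : h ∈ T.V P.χ n) :
    P.u n h ∈ Icc (0 : ℝ) 1 := by
  have := (P.sol n hn).nonneg_le_one ⟨h, hh⟩
  exact this

/-- the pointwise limits -/
theorem exists_pt (P : Rec T) (l : Ultrafilter ℕ) (hrec : P.recs ∈ (l : Filter ℕ)) (y : Z)
    (hy : y ∈ Qs P.χ) : ∃ c ∈ Icc (0 : ℝ) 1, Tendsto (fun n => P.u n (tl T n y)) l (𝓝 c) := by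
  have hmem : Icc (0 : ℝ) 1 ∈ l.map (fun n => P.u n (tl T n y)) := by
    rw [Ultrafilter.mem_map]
    refine mem_of_superset hrec ?_
    intro n hn
    exact u_mem hn (tl_V n (Qs_sub_Q _ hy))
  obtain ⟨c, hc1, hc2⟩ := isCompact_Icc.ultrafilter_le_nhds' _ hmem
  exact ⟨c, hc1, hc2⟩

open Classical in
/-- **The limit function** on the rectangle without top and bottom sides. -/
theorem exists_limit (Φ : Z ≃ₜ S2) (P : Rec T) : ∃ (l : Ultrafilter ℕ) (w : Z → ℝ),
    (l : Filter ℕ) ≤ atTop ∧ P.recs ∈ (l : Filter ℕ) ∧ Tendsto P.L l atTop ∧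
    (∀ x, 0 ≤ w x ∧ w x ≤ 1) ∧ ContinuousOn w (Qs P.χ) ∧
    (∀ b ∈ Ioo (0 : ℝ) 1, w (P.χ.f (0, b)) = 0) ∧ (∀ b ∈ Ioo (0 : ℝ) 1, w (P.χ.f (1, b)) = 1) ∧
    ∀ K : Set Z, IsCompact K → K ⊆ Qs P.χ → ∀ e > 0, ∀ᶠ n in (l : Filter ℕ),
      ∀ h ∈ T.V P.χ n, ∀ y ∈ T.U h ∩ K, |P.u n h - w y| ≤ e := by
  obtain ⟨l, hl1, hl2, hl3⟩ := exists_ultra P
  choose! c hc1 hc2 using exists_pt P l hl2
  set w : Z → ℝ := fun y => if y ∈ Qs P.χ then c y else 0 with hw
  have hwc : ∀ y ∈ Qs P.χ, Tendsto (fun n => P.u n (tl T n y)) l (𝓝 (w y)) := by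
    intro y hy
    have : w y = c y := if_pos hy
    rw [this]
    exact hc2 y hy
  -- closeness of nearby values
  have hclose : ∀ y ∈ Qs P.χ, ∀ e > 0, ∃ N ∈ 𝓝 y, (∀ z ∈ N ∩ Qs P.χ, |w z - w y| ≤ e) ∧
      ∃ n0 : ℕ, ∀ n, n0 ≤ n → n ∈ P.recs → ∀ h ∈ T.V P.χ n, ∀ h' ∈ T.V P.χ n,
      (T.U h ∩ N).Nonempty → (T.U h' ∩ N).Nonempty → |P.u n h - P.u n h'| ≤ e := by
    intro y hy e he
    obtain ⟨N, hN, n0, h0⟩ := equi Φ P y hy e he
    refine ⟨N, hN, ?_, n0, h0⟩
    intro z hz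
    have h1 : Tendsto (fun n => |P.u n (tl T n z) - P.u n (tl T n y)|) l (𝓝 |w z - w y|) :=
      ((hwc z hz.2).sub (hwc y hy)).abs
    refine le_of_tendsto h1 ?_
    have h2 : ∀ᶠ n in (l : Filter ℕ), n0 ≤ n := hl1 (eventually_ge_atTop n0)
    filter_upwards [h2, hl2] with n hn hr
    exact h0 n hn hr _ (tl_V n (Qs_sub_Q _ hz.2)) _ (tl_V n (Qs_sub_Q _ hy))
      ⟨z, (tl_mem n z).2, hz.1⟩ ⟨y, (tl_mem n y).2, mem_of_mem_nhds hN⟩
  refine ⟨l, w, hl1, hl2, hl3, ?_, ?_, ?_, ?_, ?_⟩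
  · intro x
    by_cases hx : x ∈ Qs P.χ
    · have : w x = c x := if_pos hx
      rw [this]
      exact hc1 x hx
    · have : w x = 0 := if_neg hx
      rw [this]
      exact ⟨le_rfl, zero_le_one⟩
  · intro y hy
    rw [ContinuousWithinAt, Metric.tendsto_nhds]
    intro e he
    obtain ⟨N, hN, h1, -⟩ := hclose y hy (e / 2) (half_pos he)
    have h2 : ∀ᶠ z in 𝓝[Qs P.χ] y, z ∈ N ∩ Qs P.χ :=
      (eventually_nhdsWithin_of_eventually_nhds hN).and self_mem_nhdsWithin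
    filter_upwards [h2] with z hz
    rw [Real.dist_eq]
    exact (h1 z hz).trans_lt (half_lt_self he)
  · intro b hb
    have hy : P.χ.f (0, b) ∈ Qs P.χ := ⟨(0, b), ⟨⟨le_rfl, zero_le_one⟩, hb⟩, rfl⟩
    refine tendsto_nhds_unique (hwc _ hy) ?_
    refine tendsto_const_nhds.congr' ?_
    filter_upwards [hl2] with n hn
    have h1 := (P.sol n hn).bc.1 ⟨tl T n (P.χ.f (0, b)), tl_V n (Qs_sub_Q _ hy)⟩
      ⟨_, (tl_mem n _).2, ⟨(0, b), ⟨rfl, hb.1.le, hb.2.le⟩, rfl⟩⟩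
    exact h1.symm
  · intro b hb
    have hy : P.χ.f (1, b) ∈ Qs P.χ := ⟨(1, b), ⟨⟨zero_le_one, le_rfl⟩, hb⟩, rfl⟩
    refine tendsto_nhds_unique (hwc _ hy) ?_
    refine tendsto_const_nhds.congr' ?_
    filter_upwards [hl2] with n hn
    have h1 := (P.sol n hn).bc.2 ⟨tl T n (P.χ.f (1, b)), tl_V n (Qs_sub_Q _ hy)⟩
      ⟨_, (tl_mem n _).2, ⟨(1, b), ⟨rfl, hb.1.le, hb.2.le⟩, rfl⟩⟩
    exact h1.symm
  · intro K hK hKQ e he
    have hcl := fun y : Z => fun hy : y ∈ Qs P.χ => hclose y hy (e / 3) (by positivity)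
    choose! N hN hN1 n0 hn0 using hcl
    obtain ⟨t, htK, hcov⟩ := hK.elim_nhds_subcover N (fun y hy => hN y (hKQ hy))
    have hev : ∀ᶠ n in (l : Filter ℕ), ∀ y ∈ t, |P.u n (tl T n y) - w y| ≤ e / 3 ∧ n0 y ≤ n := by
      rw [Filter.eventually_all_finset]
      intro y hy
      have h1 : ∀ᶠ n in (l : Filter ℕ), |P.u n (tl T n y) - w y| ≤ e / 3 := by
        have h2 := (Metric.tendsto_nhds.1 (hwc y (hKQ (htK y hy)))) (e / 3) (by positivity)
        filter_upwards [h2] with n hn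
        rw [Real.dist_eq] at hn
        exact hn.le
      exact h1.and (hl1 (eventually_ge_atTop (n0 y)))
    filter_upwards [hev, hl2] with n hn hr
    intro h hh z hz
    obtain ⟨y, hy, hzy⟩ := mem_iUnion₂.1 (hcov hz.2)
    have hyQ := hKQ (htK y hy)
    have h1 := hn0 y hyQ n (hn y hy).2 hr h hh (tl T n y) (tl_V n (Qs_sub_Q _ hyQ))
      ⟨z, hz.1, hzy⟩ ⟨y, (tl_mem n y).2, mem_of_mem_nhds (hN y hyQ)⟩
    have h2 := (hn y hy).1
    have h3 := hN1 y hyQ z ⟨hzy, hKQ hz.2⟩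
    rw [abs_le] at h1 h2 h3 ⊢
    constructor <;> linarith [h1.1, h1.2, h2.1, h2.2, h3.1, h3.2]

end Crest.Agent.R193.M2_Lim
end
end

-- ▼ part R193/M2_Level

/-!
# R193, M2_Level (helper878): size of the level sets of the limit function (field `low` of `Lim`)
-/

set_option autoImplicit false

noncomputable section

open Set Filter Topology MeasureTheory

namespace Crest.Agent.R193.M2_Level

variable {G Z : Type} [Group G] [MetricSpace Z] [MulAction G Z] {S : Setup G Z}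

/-- a chain from `P` to `¬ P` has a step from `P` to `¬ P` -/
theorem exists_step {α : Type*} {r : α → α → Prop} {p : α → Prop} {a b : α}
    (h : Relation.ReflTransGen r a b) (ha : p a) (hb : ¬ p b) :
    ∃ x y, Relation.ReflTransGen r a x ∧ r x y ∧ p x ∧ ¬ p y := by
  induction h with
  | refl => exact absurd ha hb
  | @tail c d hac hcd ih =>
    by_cases hc : p c
    · exact ⟨c, d, hac, hcd, hc, hb⟩
    · exact ih hc

/-- the union of the sets reachable from `x` is preconnected -/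
theorem isPreconnected_reach {X ι : Type*} [TopologicalSpace X] {U : ι → Set X} {A : Set ι}
    (hU : ∀ a ∈ A, IsPreconnected (U a)) {x : ι} (hx : x ∈ A) :
    IsPreconnected (⋃ a ∈ {a | Relation.ReflTransGen
      (fun a b => a ∈ A ∧ b ∈ A ∧ (U a ∩ U b).Nonempty) x a}, U a) := by
  set r := fun a b => a ∈ A ∧ b ∈ A ∧ (U a ∩ U b).Nonempty with hr
  have hmem : ∀ a, Relation.ReflTransGen r x a → a ∈ A := by
    intro a ha
    rcases Relation.ReflTransGen.cases_tail ha with rfl | ⟨c, _, hc⟩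
    · exact hx
    · exact hc.2.1
  -- for each reachable `a` there is a preconnected subset containing `U x` and `U a`
  have key : ∀ a, Relation.ReflTransGen r x a → ∃ W, IsPreconnected W ∧ U x ⊆ W ∧ U a ⊆ W ∧
      W ⊆ ⋃ a ∈ {a | Relation.ReflTransGen r x a}, U a := by
    intro a ha
    induction ha with
    | refl =>
      exact ⟨U x, hU x hx, Subset.rfl, Subset.rfl, subset_biUnion_of_mem
        (u := fun a => U a) (show x ∈ {a | Relation.ReflTransGen r x a} from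
          Relation.ReflTransGen.refl)⟩
    | @tail c d hac hcd ih =>
      obtain ⟨W, hW, hxW, hcW, hWs⟩ := ih
      obtain ⟨y, hy1, hy2⟩ := hcd.2.2
      refine ⟨W ∪ U d, IsPreconnected.union y (hcW hy1) hy2 hW (hU d hcd.2.1),
        hxW.trans subset_union_left, subset_union_right, union_subset hWs ?_⟩
      exact subset_biUnion_of_mem (u := fun a => U a)
        (show d ∈ {a | Relation.ReflTransGen r x a} from hac.tail hcd)
  rcases (U x).eq_empty_or_nonempty with he | ⟨x0, hx0⟩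
  · have : (⋃ a ∈ {a | Relation.ReflTransGen r x a}, U a) = ∅ := by
      rw [eq_empty_iff_forall_notMem]
      intro y hy
      obtain ⟨a, ha, hya⟩ := mem_iUnion₂.1 hy
      rcases Relation.ReflTransGen.cases_head ha with rfl | ⟨c, hc, _⟩
      · rw [he] at hya; exact hya
      · obtain ⟨z, hz, _⟩ := hc.2.2
        rw [he] at hz; exact hz
    rw [this]
    exact isPreconnected_empty
  · refine isPreconnected_of_forall x0 ?_
    intro y hy
    obtain ⟨a, ha, hya⟩ := mem_iUnion₂.1 hy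
    obtain ⟨W, hW, hxW, haW, hWs⟩ := key a ha
    exact ⟨W, hWs, hxW hx0, haW hya, hW⟩

/-- the midline segment -/
def seg (χ : Chart Z) (a b : ℝ) : Set Z := χ.f '' (Icc a b ×ˢ {(1 / 2 : ℝ)})

theorem low_pointwise (T : Tiles S) (Φ : Z ≃ₜ S2) (P : Rec T) (l : Filter ℕ) [l.NeBot]
    (hl : l ≤ atTop) (hrec : P.recs ∈ l) (w : Z → ℝ) (cont : ContinuousOn w P.χ.Qo)
    (unif : ∀ K : Set Z, IsCompact K → K ⊆ P.χ.Qo → ∀ e > 0, ∀ᶠ n in l,
      ∀ h ∈ T.V P.χ n, ∀ y ∈ T.U h ∩ K, |P.u n h - w y| ≤ e)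
    {a b : ℝ} (ha : 0 < a) (hab : a < b) (hb : b < 1)
    (hwa : w (P.χ.f (a, 1 / 2)) < 1 / 4) (hwb : 3 / 4 < w (P.χ.f (b, 1 / 2))) :
    ∃ s0 > 0, s0 < 1 / 2 ∧ ∃ c > 0, ∀ i : ℕ, ∀ t ∈ Icc (1 / 4 : ℝ) (3 / 4),
      c * Real.exp (S.ε * i) ≤ zc T P.χ w s0 i t := by
  classical
  have hcompact : CompactSpace Z := Φ.symm.compactSpace
  have hpre : PreconnectedSpace Z := ⟨(T_Main.connectedSpace_of_homeo Φ).isPreconnected⟩
  set χ := P.χ with hχ
  set s0 : ℝ := min (min a (1 - b)) (1 / 2) / 2 with hs0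
  have hm1 : min (min a (1 - b)) (1 / 2) ≤ a := (min_le_left _ _).trans (min_le_left _ _)
  have hm2 : min (min a (1 - b)) (1 / 2) ≤ 1 - b := (min_le_left _ _).trans (min_le_right _ _)
  have hm3 : min (min a (1 - b)) (1 / 2) ≤ 1 / 2 := min_le_right _ _
  have hm4 : 0 < min (min a (1 - b)) (1 / 2) := by
    refine lt_min (lt_min ha (by linarith)) (by norm_num)
  have hs0pos : 0 < s0 := by positivity
  have hs0a : s0 < a := by rw [hs0]; linarith
  have hs0b : s0 < 1 - b := by rw [hs0]; linarith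
  have hs0h : s0 < 1 / 2 := by rw [hs0]; linarith
  -- the segment
  have hsegc : IsCompact (seg χ a b) :=
    (isCompact_Icc.prod isCompact_singleton).image χ.emb.continuous
  have hsegp : IsPreconnected (seg χ a b) :=
    (isPreconnected_Icc.prod isPreconnected_singleton).image _ χ.emb.continuous.continuousOn
  have hseg : seg χ a b ⊆ χ.coreO s0 := by
    refine image_mono ?_
    rintro ⟨x, y⟩ ⟨hx, hy⟩
    have hy' : y = 1 / 2 := hy
    have hx1 : a ≤ x := hx.1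
    have hx2 : x ≤ b := hx.2
    refine ⟨⟨?_, ?_⟩, ⟨?_, ?_⟩⟩ <;> simp only <;> linarith
  have hO : IsOpen (χ.coreO s0) := M7_Glue.coreO_isOpen χ s0
  have hcoreK : IsCompact (χ.core s0) := M7_Glue.core_isCompact χ s0
  have hclO : closure (χ.coreO s0) ⊆ χ.core s0 :=
    closure_minimal (M7_Glue.coreO_subset_core χ s0) hcoreK.isClosed
  -- distance from the segment to the frontier
  obtain ⟨d0, hd0, hd⟩ := M7_Glue.exists_collar hsegc hO hseg
  refine ⟨s0, hs0pos, hs0h, d0 * Real.exp (-S.ε * (T.R + S.δ)), by positivity, ?_⟩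
  intro i t ht
  -- collar of the core
  obtain ⟨d1, hd1, hdc⟩ := M7_Glue.exists_collar hcoreK (M7_Glue.coreO_isOpen χ (s0 / 2))
    (M7_Glue.core_subset_coreO χ (by linarith))
  -- gap at level `t`
  have hgap : ∀ h ∈ S.sph i, t ∉ w '' (T.U h ∩ χ.core s0) →
      ∃ e > 0, ∀ z ∈ T.U h ∩ χ.core s0, e ≤ |w z - t| := by
    intro h _ hnt
    have hK : IsCompact (T.U h ∩ χ.core s0) := hcoreK.inter_left (T.isClosed h)
    have hcw : ContinuousOn (fun z => |w z - t|) (T.U h ∩ χ.core s0) :=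
      ((cont.mono (inter_subset_right.trans (M7_Glue.core_subset_Qo χ hs0pos))).sub
        continuousOn_const).abs
    rcases (T.U h ∩ χ.core s0).eq_empty_or_nonempty with he | hne
    · exact ⟨1, one_pos, fun z hz => by rw [he] at hz; exact absurd hz (notMem_empty _)⟩
    · obtain ⟨z0, hz0, hmin⟩ := hK.exists_isMinOn hne hcw
      refine ⟨|w z0 - t|, ?_, fun z hz => hmin hz⟩
      refine abs_pos.2 (sub_ne_zero.2 ?_)
      intro heq
      exact hnt ⟨z0, hz0, heq⟩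
  obtain ⟨e0, he0, hgap0⟩ : ∃ e0 > 0, ∀ h ∈ S.sph i, t ∉ w '' (T.U h ∩ χ.core s0) →
      ∀ z ∈ T.U h ∩ χ.core s0, e0 ≤ |w z - t| := by
    choose! e he1 he2 using hgap
    set F := insert (1 : ℝ) (((S.sph i).filter
      (fun h => t ∉ w '' (T.U h ∩ χ.core s0))).image e) with hF
    have hne : F.Nonempty := ⟨1, Finset.mem_insert_self _ _⟩
    refine ⟨F.min' hne, ?_, ?_⟩
    · rw [gt_iff_lt, Finset.lt_min'_iff]
      intro y hy
      rcases Finset.mem_insert.1 hy with rfl | hy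
      · exact one_pos
      · obtain ⟨h, hh, rfl⟩ := Finset.mem_image.1 hy
        exact he1 h (Finset.mem_filter.1 hh).1 (Finset.mem_filter.1 hh).2
    · intro h hh hnt z hz
      refine (F.min'_le _ (Finset.mem_insert_of_mem (Finset.mem_image_of_mem _
        (Finset.mem_filter.2 ⟨hh, hnt⟩)))).trans (he2 h hh hnt z hz)
  -- choose the tolerance and the level
  set e : ℝ := min (e0 / 4) (min ((1 / 4 - w (χ.f (a, 1 / 2))) / 2)
    ((w (χ.f (b, 1 / 2)) - 3 / 4) / 2)) with he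
  have hepos : 0 < e := by
    refine lt_min (by positivity) (lt_min (by linarith) (by linarith))
  have he1 : e ≤ e0 / 4 := min_le_left _ _
  have he2 : e ≤ (1 / 4 - w (χ.f (a, 1 / 2))) / 2 := (min_le_right _ _).trans (min_le_left _ _)
  have he3 : e ≤ (w (χ.f (b, 1 / 2)) - 3 / 4) / 2 := (min_le_right _ _).trans (min_le_right _ _)
  obtain ⟨N, hN⟩ := M1x.tile_small T hd1
  have hev := unif (χ.core (s0 / 2)) (M7_Glue.core_isCompact χ _)
    (M7_Glue.core_subset_Qo χ (by linarith)) e hepos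
  obtain ⟨n, ⟨hunif, hnrec⟩, hnN⟩ := ((hev.and hrec).and (hl (eventually_ge_atTop N))).exists
  have hsmall := hN n hnN
  set u := P.u n with hu
  have hcore2 : χ.core s0 ⊆ χ.core (s0 / 2) := M7_Glue.core_mono χ (by linarith)
  have hQcore : χ.core (s0 / 2) ⊆ χ.Q :=
    (M7_Glue.core_subset_Qo χ (by linarith)).trans (M3_Level.Qo_sub_Q χ)
  have hVmem : ∀ h ∈ S.sph n, ∀ z ∈ T.U h, z ∈ χ.core (s0 / 2) → h ∈ T.V χ n := by
    intro h hh z hz hzc
    exact Tiles.mem_V.2 ⟨Setup.mem_sph.1 hh, z, hz, hQcore hzc⟩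
  -- end points of the segment
  have hpa : χ.f (a, 1 / 2) ∈ seg χ a b := ⟨(a, 1 / 2), ⟨⟨le_rfl, hab.le⟩, rfl⟩, rfl⟩
  have hpb : χ.f (b, 1 / 2) ∈ seg χ a b := ⟨(b, 1 / 2), ⟨⟨hab.le, le_rfl⟩, rfl⟩, rfl⟩
  have hsegcore : seg χ a b ⊆ χ.core (s0 / 2) :=
    hseg.trans ((M7_Glue.coreO_subset_core χ s0).trans hcore2)
  obtain ⟨h1, hh1, hph1⟩ := T_Comp.exists_mem T (χ.f (a, 1 / 2)) n
  obtain ⟨h2, hh2, hph2⟩ := T_Comp.exists_mem T (χ.f (b, 1 / 2)) n
  have hu1 : u h1 ≤ t := by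
    have := hunif h1 (hVmem h1 hh1 _ hph1 (hsegcore hpa)) _ ⟨hph1, hsegcore hpa⟩
    have h3 := (abs_le.1 this).2
    have h4 := ht.1
    linarith
  have hu2 : ¬ u h2 ≤ t := by
    have := hunif h2 (hVmem h2 hh2 _ hph2 (hsegcore hpb)) _ ⟨hph2, hsegcore hpb⟩
    have h3 := (abs_le.1 this).1
    have h4 := ht.2
    rw [not_le]
    linarith
  have hchain := T_Comp.chain_of_preconnected T (F := S.sph n) hsegp
    (by rw [T_Comp.un_sph]; exact subset_univ _) hh1 hh2 ⟨_, hph1, hpa⟩ ⟨_, hph2, hpb⟩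
  obtain ⟨x, y, _, hxy, hxt, hyt⟩ := exists_step (p := fun h => u h ≤ t) hchain hu1 hu2
  obtain ⟨hxF, hyF, p0, ⟨hp0x, hp0y⟩, hp0s⟩ := hxy
  have hxV : x ∈ T.V χ n := hVmem x hxF _ hp0x (hsegcore hp0s)
  have hyV : y ∈ T.V χ n := hVmem y hyF _ hp0y (hsegcore hp0s)
  have hxlev : x ∈ T.lev χ n u t :=
    ⟨hxV, y, hyV, ⟨p0, hp0x, hp0y⟩, Or.inl ⟨hxt, not_le.1 hyt⟩⟩
  -- the component of the level chain
  have ht0 : (0 : ℝ) ≤ t := by have := ht.1; linarith
  have ht1 : t < 1 := by have := ht.2; linarith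
  obtain ⟨h3, hc3, hh3, hT3⟩ := M3_Level.M3 T Φ P n hnrec t ht0 ht1 x hxlev
  set A : Set G := {c | Relation.ReflTransGen (fun a b => a ∈ T.lev χ n u t ∧
    b ∈ T.lev χ n u t ∧ (T.U a ∩ T.U b).Nonempty) x c} with hA
  have hAlev : A ⊆ T.lev χ n u t := by
    intro c hc
    rcases Relation.ReflTransGen.cases_tail hc with rfl | ⟨c', _, hc'⟩
    · exact hxlev
    · exact hc'.2.1
  have hAfin : A.Finite := (T.V χ n).finite_toSet.subset (fun c hc => (hAlev hc).1)
  set C : Set Z := ⋃ c ∈ A, T.U c with hC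
  have hCp : IsPreconnected C :=
    isPreconnected_reach (fun c _ => (T.isConnected c).isPreconnected) hxlev
  have hCc : IsCompact C := (hAfin.isClosed_biUnion (fun c _ => T.isClosed c)).isCompact
  have hxA : x ∈ A := Relation.ReflTransGen.refl
  have hp0C : p0 ∈ C := mem_biUnion hxA hp0x
  have hCT : ¬ C ⊆ χ.coreO s0 := by
    intro hsub
    obtain ⟨z, hz, hzT⟩ := hT3
    have hzC : z ∈ C := mem_biUnion (show h3 ∈ A from hc3) hz
    exact hzT (M7_Glue.core_subset_Qo χ hs0pos (M7_Glue.coreO_subset_core χ s0 (hsub hzC)))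
  obtain ⟨y0, hy0E, hy0f⟩ := P_Comp.boundary_bumping hCc hCp hO hp0C (hseg hp0s) hCT
  set E := connectedComponentIn (C ∩ closure (χ.coreO s0)) p0 with hE
  have hEsub : E ⊆ C ∩ closure (χ.coreO s0) := connectedComponentIn_subset _ _
  have hEp : IsPreconnected E := isPreconnected_connectedComponentIn
  have hp0E : p0 ∈ E := mem_connectedComponentIn ⟨hp0C, subset_closure (hseg hp0s)⟩
  have hEcore : E ⊆ χ.core s0 := fun z hz => hclO (hEsub hz).2
  -- distance
  have hdist : d0 ≤ dist p0 y0 := by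
    by_contra hlt
    rw [not_le] at hlt
    have : y0 ∈ χ.coreO s0 := hd p0 hp0s y0 hlt
    rw [hO.frontier_eq] at hy0f
    exact hy0f.2 this
  -- values of `w` on `E`
  have hwE : ∀ z ∈ E, |w z - t| ≤ 3 * e := by
    intro z hz
    obtain ⟨c, hcA, hzc⟩ := mem_iUnion₂.1 (hEsub hz).1
    have hclev := hAlev hcA
    obtain ⟨hcV, c', hc'V, ⟨q, hqc, hqc'⟩, hcc⟩ := hclev
    have hzcore : z ∈ χ.core s0 := hEcore hz
    have hcs : c ∈ S.sph n := Setup.mem_sph.2 (Tiles.mem_V.1 hcV).1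
    have hq : q ∈ χ.core (s0 / 2) :=
      M7_Glue.coreO_subset_core χ _ (hdc z hzcore q (hsmall c hcs z hzc q hqc))
    have e1 := abs_le.1 (hunif c hcV q ⟨hqc, hq⟩)
    have e2 := abs_le.1 (hunif c' hc'V q ⟨hqc', hq⟩)
    have e3 := abs_le.1 (hunif c hcV z ⟨hzc, hcore2 hzcore⟩)
    rw [abs_le]
    rcases hcc with ⟨h5, h6⟩ | ⟨h5, h6⟩ <;> constructor <;> linarith [e1.1, e1.2, e2.1, e2.2]
  -- counting
  set F := (S.sph i).filter (fun h => (T.U h ∩ E).Nonempty) with hF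
  have hEF : E ⊆ T.un F := by
    intro z hz
    obtain ⟨h, hh, hzh⟩ := T_Comp.exists_mem T z i
    exact (T_Comp.mem_un T).2 ⟨h, Finset.mem_filter.2 ⟨hh, z, hzh, hz⟩, hzh⟩
  have hcard := T_Comp.card_ge T (F := F) (n := i)
    (fun h hh => Setup.mem_sph.1 (Finset.mem_filter.1 hh).1) hEp hEF hp0E hy0E
  have hFZ : F ⊆ M7_Glue.ZC T χ w s0 i t := by
    intro h hh
    obtain ⟨hhi, z, hzh, hzE⟩ := Finset.mem_filter.1 hh
    rw [M7_Glue.mem_ZC]
    refine ⟨Setup.mem_sph.1 hhi, ⟨z, hzh, hEcore hzE⟩, ?_⟩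
    have hin : t ∈ w '' (T.U h ∩ χ.core s0) := by
      by_contra hnt
      have h6 := hgap0 h hhi hnt z ⟨hzh, hEcore hzE⟩
      have h7 := hwE z hzE
      linarith
    exact subset_closure (image_mono (inter_subset_inter_right _
      (M7_Glue.core_subset_Qo χ hs0pos)) hin)
  rw [M7_Glue.zc_eq]
  have hFle : (F.card : ℝ) ≤ ((M7_Glue.ZC T χ w s0 i t).card : ℝ) := by
    exact_mod_cast Finset.card_le_card hFZ
  refine le_trans ?_ (hcard.trans hFle)
  have h8 : 0 ≤ Real.exp (-S.ε * (T.R + S.δ)) * Real.exp (S.ε * i) := by positivity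
  nlinarith

/-- **Level size** (field `low` of `Lim`). -/
theorem low (T : Tiles S) (Φ : Z ≃ₜ S2) (P : Rec T) (l : Filter ℕ) [l.NeBot]
    (hl : l ≤ atTop) (hrec : P.recs ∈ l) (w : Z → ℝ) (cont : ContinuousOn w P.χ.Qo)
    (unif : ∀ K : Set Z, IsCompact K → K ⊆ P.χ.Qo → ∀ e > 0, ∀ᶠ n in l,
      ∀ h ∈ T.V P.χ n, ∀ y ∈ T.U h ∩ K, |P.u n h - w y| ≤ e)
    {a b : ℝ} (ha : 0 < a) (hab : a < b) (hb : b < 1)
    (hwa : w (P.χ.f (a, 1 / 2)) < 1 / 4) (hwb : 3 / 4 < w (P.χ.f (b, 1 / 2))) :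
    ∃ s0 > 0, s0 < 1 / 2 ∧ ∃ c > 0, ∃ a > 0, ∀ᶠ i : ℕ in atTop,
      c * Real.exp (a * i) ≤ ∫ t in Icc (1 / 4 : ℝ) (3 / 4), zc T P.χ w s0 i t := by
  obtain ⟨s0, hs0, hs1, c, hc, hlow⟩ := low_pointwise T Φ P l hl hrec w cont unif ha hab hb hwa hwb
  refine ⟨s0, hs0, hs1, c / 2, by positivity, S.ε, S.ε_pos, Eventually.of_forall fun i => ?_⟩
  have hint : IntegrableOn (fun t => zc T P.χ w s0 i t) (Icc (1 / 4 : ℝ) (3 / 4)) := by
    refine Measure.integrableOn_of_bounded (M := Real.exp (S.v * i)) (by simp)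
      (M7_Glue.zc_measurable T P.χ w s0 i).aestronglyMeasurable ?_
    refine Eventually.of_forall fun t => ?_
    rw [Real.norm_eq_abs, abs_of_nonneg (M7_Glue.zc_nonneg T P.χ w s0 i t)]
    exact M7_Glue.zc_le T P.χ w s0 i t
  have h1 : ∫ _ in Icc (1 / 4 : ℝ) (3 / 4), c * Real.exp (S.ε * i) ≤
      ∫ t in Icc (1 / 4 : ℝ) (3 / 4), zc T P.χ w s0 i t := by
    refine setIntegral_mono_on (integrableOn_const (by simp)) hint measurableSet_Icc ?_
    intro t ht
    exact hlow i t ht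
  rw [setIntegral_const] at h1
  refine le_trans (le_of_eq ?_) h1
  rw [Real.volume_real_Icc, smul_eq_mul]
  norm_num
  ring

end Crest.Agent.R193.M2_Level
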