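import Crest.Agent.R193.FG1b
import Mathlib
import Crest.Agent.R193.M_Defs
import Crest.Agent.R193.FG1e
import Crest.Agent.R193.T_Comp
import Crest.Agent.R193.Defs
import Crest.Agent.R193.M3_Level
import Crest.Agent.R193.Dual
import Crest.Agent.R193.F_Sep2
import Crest.Agent.R193.F_Sep3

-- ▼ part R193/FG1c
section

/-!
R193, block FG1 (third part): measure form of the flux identity, the level-set estimate and the
comparison "energy of the discrete harmonic function ≤ const · vertex modulus".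
-/

set_option autoImplicit false

namespace Crest.Agent.R193.FG

open Finset MeasureTheory

variable {V : Type*} [Fintype V]

open Classical in
/-- Measure form of the flux identity: for measurable `Θ`,
`∑_{v ~ w} (u v - u w)⁺ |Θ ∩ [u w, u v)| = en u * |Θ ∩ [0,1)|`. -/
theorem Sol.flux_measure {G : SimpleGraph V} {L R : Set V} {u : V → ℝ} (h : Sol G L R u)
    {Θ : Set ℝ} (hΘ : MeasurableSet Θ) (hΘ1 : Θ ⊆ Set.Ico 0 1) :
    (∑ v, ∑ w, if G.Adj v w then (u v - u w) * (volume.real (Θ ∩ Set.Ico (u w) (u v))) else 0)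
      = en G u * volume.real Θ := by
  have hfin : volume Θ ≠ ⊤ := ne_top_of_le_ne_top (by simp) (measure_mono hΘ1)
  have key : ∀ v w : V, (if G.Adj v w then
      (u v - u w) * (volume.real (Θ ∩ Set.Ico (u w) (u v))) else 0)
      = ∫ t in Θ, (if G.Adj v w ∧ u w ≤ t ∧ t < u v then (u v - u w) else 0) := by
    intro v w
    by_cases ha : G.Adj v w
    · rw [if_pos ha]
      have e1 : (fun t => if G.Adj v w ∧ u w ≤ t ∧ t < u v then (u v - u w) else 0)
          = Set.indicator (Set.Ico (u w) (u v)) (fun _ => u v - u w) := by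
        funext t
        by_cases ht : t ∈ Set.Ico (u w) (u v)
        · rw [Set.indicator_of_mem ht, if_pos ⟨ha, ht.1, ht.2⟩]
        · rw [Set.indicator_of_notMem ht, if_neg (fun h => ht ⟨h.2.1, h.2.2⟩)]
      rw [e1, setIntegral_indicator measurableSet_Ico, setIntegral_const, smul_eq_mul, mul_comm]
    · rw [if_neg ha]
      have : (fun t => if G.Adj v w ∧ u w ≤ t ∧ t < u v then (u v - u w) else 0)
          = fun _ => (0 : ℝ) := by
        funext t
        rw [if_neg (fun h => ha h.1)]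
      rw [this]
      simp
  have hint : ∀ v w : V, Integrable
      (fun t => if G.Adj v w ∧ u w ≤ t ∧ t < u v then (u v - u w) else (0 : ℝ))
      (volume.restrict Θ) := by
    intro v w
    have : IsFiniteMeasure (volume.restrict Θ) := ⟨by
      rw [Measure.restrict_apply_univ]; exact lt_top_iff_ne_top.2 hfin⟩
    refine Integrable.of_bound (C := |u v - u w|) ?_ ?_
    · refine Measurable.aestronglyMeasurable ?_
      refine Measurable.ite ?_ measurable_const measurable_const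
      by_cases ha : G.Adj v w
      · have : {a : ℝ | G.Adj v w ∧ u w ≤ a ∧ a < u v} = Set.Ico (u w) (u v) := by
          ext a
          simp [ha]
        rw [this]
        exact measurableSet_Ico
      · have : {a : ℝ | G.Adj v w ∧ u w ≤ a ∧ a < u v} = ∅ := by
          ext a
          simp [ha]
        rw [this]
        exact MeasurableSet.empty
    · refine Filter.Eventually.of_forall fun t => ?_
      split_ifs
      · exact le_rfl
      · simp
  simp_rw [key]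
  have : ∀ v : V, (∑ w, ∫ t in Θ, (if G.Adj v w ∧ u w ≤ t ∧ t < u v then (u v - u w) else 0))
      = ∫ t in Θ, ∑ w, (if G.Adj v w ∧ u w ≤ t ∧ t < u v then (u v - u w) else 0) := by
    intro v
    rw [integral_finsetSum]
    intro w _
    exact hint v w
  simp_rw [this]
  rw [← integral_finsetSum]
  · have e2 : ∀ t ∈ Θ, (∑ v, ∑ w, if G.Adj v w ∧ u w ≤ t ∧ t < u v then (u v - u w) else 0)
        = en G u := by
      intro t ht
      have h01 := hΘ1 ht
      exact h.flux h01.1 h01.2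
    rw [setIntegral_congr_fun hΘ e2, setIntegral_const, smul_eq_mul, mul_comm]
  · intro v _
    exact integrable_finsetSum _ fun w _ => hint v w

/-- The level set (both sides) of `u` at `t`: vertices with an incident edge crossing `t`. -/
def lev (G : SimpleGraph V) (u : V → ℝ) (t : ℝ) : Set V :=
  {v | ∃ w, G.Adj v w ∧ ((u v ≤ t ∧ t < u w) ∨ (u w ≤ t ∧ t < u v))}

/-- `∑_h |{t ∈ Θ : h ∈ λ_t}|² ≤ 2 Δ · en u · |Θ|`, when all degrees are at most `Δ`. -/
theorem Sol.sum_lev_sq_le {G : SimpleGraph V} {L R : Set V} {u : V → ℝ} (h : Sol G L R u)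
    {Θ : Set ℝ} (hΘ : MeasurableSet Θ) (hΘ1 : Θ ⊆ Set.Ico 0 1) (Δ : ℕ)
    (hΔ : ∀ v, {w | G.Adj v w}.ncard ≤ Δ) :
    (∑ v, (volume.real {t ∈ Θ | v ∈ lev G u t}) ^ 2) ≤ 2 * Δ * en G u * volume.real Θ := by
  classical
  have hfin : volume Θ ≠ ⊤ := ne_top_of_le_ne_top (by simp) (measure_mono hΘ1)
  -- symmetric interval
  let I : V → V → Set ℝ := fun v w => Θ ∩ (Set.Ico (u w) (u v) ∪ Set.Ico (u v) (u w))
  have hIfin : ∀ v w, volume (I v w) ≠ ⊤ := fun v w =>
    ne_top_of_le_ne_top hfin (measure_mono Set.inter_subset_left)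
  have hdeg : ∀ v, ((Finset.univ.filter (fun w => G.Adj v w)).card : ℝ) ≤ Δ := by
    intro v
    have := hΔ v
    rw [Set.ncard_eq_toFinset_card'] at this
    have e : (Set.toFinset {w | G.Adj v w}) = Finset.univ.filter (fun w => G.Adj v w) := by
      ext w; simp
    rw [e] at this
    exact_mod_cast this
  have h1 : ∀ v, volume.real {t ∈ Θ | v ∈ lev G u t}
      ≤ ∑ w ∈ Finset.univ.filter (fun w => G.Adj v w), volume.real (I v w) := by
    intro v
    refine (measureReal_mono ?_ ?_).trans (measureReal_biUnion_finset_le _ _)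
    · intro t ht
      obtain ⟨ht1, w, hw, ht2⟩ := ht
      simp only [Set.mem_iUnion]
      refine ⟨w, by simp [hw], ht1, ?_⟩
      rcases ht2 with ht2 | ht2
      · right; exact ht2
      · left; exact ht2
    · refine ne_top_of_le_ne_top hfin (measure_mono ?_)
      intro t ht
      simp only [Set.mem_iUnion] at ht
      obtain ⟨w, _, ht⟩ := ht
      exact ht.1
  have hvol : ∀ v w, volume.real (I v w) ≤ |u v - u w| := by
    intro v w
    rcases le_total (u v) (u w) with hvw | hvw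
    · have e : Set.Ico (u w) (u v) = ∅ := Set.Ico_eq_empty (not_lt.2 hvw)
      have : volume.real (I v w) ≤ volume.real (Set.Ico (u v) (u w)) := by
        refine measureReal_mono ?_ (by simp)
        intro t ht
        rcases ht.2 with h | h
        · rw [e] at h; exact absurd h (Set.notMem_empty _)
        · exact h
      refine this.trans ?_
      rw [Real.volume_real_Ico_of_le hvw, abs_sub_comm]
      exact le_abs_self _
    · have e : Set.Ico (u v) (u w) = ∅ := Set.Ico_eq_empty (not_lt.2 hvw)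
      have : volume.real (I v w) ≤ volume.real (Set.Ico (u w) (u v)) := by
        refine measureReal_mono ?_ (by simp)
        intro t ht
        rcases ht.2 with h | h
        · exact h
        · rw [e] at h; exact absurd h (Set.notMem_empty _)
      refine this.trans ?_
      rw [Real.volume_real_Ico_of_le hvw]
      exact le_abs_self _
  have h2 : ∀ v, (volume.real {t ∈ Θ | v ∈ lev G u t}) ^ 2
      ≤ Δ * ∑ w, if G.Adj v w then |u v - u w| * volume.real (I v w) else 0 := by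
    intro v
    have ha : (volume.real {t ∈ Θ | v ∈ lev G u t}) ^ 2
        ≤ (∑ w ∈ Finset.univ.filter (fun w => G.Adj v w), volume.real (I v w)) ^ 2 :=
      pow_le_pow_left₀ measureReal_nonneg (h1 v) 2
    have hb := sq_sum_le_card_mul_sum_sq
      (s := Finset.univ.filter (fun w => G.Adj v w)) (f := fun w => volume.real (I v w))
    have hc : (∑ w ∈ Finset.univ.filter (fun w => G.Adj v w), volume.real (I v w) ^ 2)
        ≤ ∑ w, if G.Adj v w then |u v - u w| * volume.real (I v w) else 0 := by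
      rw [Finset.sum_filter]
      refine Finset.sum_le_sum fun w _ => ?_
      split_ifs
      · rw [sq]
        exact mul_le_mul_of_nonneg_right (hvol v w) measureReal_nonneg
      · exact le_rfl
    have hd : (0 : ℝ) ≤ ∑ w, if G.Adj v w then |u v - u w| * volume.real (I v w) else 0 := by
      refine Finset.sum_nonneg fun w _ => ?_
      split_ifs
      · exact mul_nonneg (abs_nonneg _) measureReal_nonneg
      · exact le_rfl
    calc (volume.real {t ∈ Θ | v ∈ lev G u t}) ^ 2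
        ≤ _ := ha
      _ ≤ _ := hb
      _ ≤ (Finset.univ.filter (fun w => G.Adj v w)).card *
            ∑ w, (if G.Adj v w then |u v - u w| * volume.real (I v w) else 0) :=
          mul_le_mul_of_nonneg_left hc (Nat.cast_nonneg _)
      _ ≤ _ := mul_le_mul_of_nonneg_right (hdeg v) hd
  have h3 : (∑ v, ∑ w, if G.Adj v w then |u v - u w| * volume.real (I v w) else 0)
      = 2 * (en G u * volume.real Θ) := by
    have e1 : ∀ v w : V, (if G.Adj v w then |u v - u w| * volume.real (I v w) else 0)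
        = (if G.Adj v w then (u v - u w) * (volume.real (Θ ∩ Set.Ico (u w) (u v))) else 0)
          + (if G.Adj v w then (u w - u v) * (volume.real (Θ ∩ Set.Ico (u v) (u w))) else 0) := by
      intro v w
      by_cases ha : G.Adj v w
      · simp only [if_pos ha]
        rcases le_total (u v) (u w) with hvw | hvw
        · have e : Set.Ico (u w) (u v) = ∅ := Set.Ico_eq_empty (not_lt.2 hvw)
          simp only [I, e, Set.empty_union, Set.inter_empty, measureReal_empty, mul_zero, zero_add]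
          rw [abs_of_nonpos (by linarith)]
          ring
        · have e : Set.Ico (u v) (u w) = ∅ := Set.Ico_eq_empty (not_lt.2 hvw)
          simp only [I, e, Set.union_empty, Set.inter_empty, measureReal_empty, mul_zero, add_zero]
          rw [abs_of_nonneg (by linarith)]
      · simp [ha]
    simp_rw [e1, Finset.sum_add_distrib]
    have e2 : (∑ v, ∑ w, if G.Adj v w then
          (u w - u v) * (volume.real (Θ ∩ Set.Ico (u v) (u w))) else 0)
        = ∑ v, ∑ w, if G.Adj v w then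
          (u v - u w) * (volume.real (Θ ∩ Set.Ico (u w) (u v))) else 0 := by
      rw [Finset.sum_comm]
      refine Finset.sum_congr rfl fun v _ => Finset.sum_congr rfl fun w _ => ?_
      rw [G.adj_comm]
    rw [e2, h.flux_measure hΘ hΘ1]
    ring
  calc (∑ v, (volume.real {t ∈ Θ | v ∈ lev G u t}) ^ 2)
      ≤ ∑ v, Δ * ∑ w, (if G.Adj v w then |u v - u w| * volume.real (I v w) else 0) :=
        Finset.sum_le_sum fun v _ => h2 v
    _ = Δ * (2 * (en G u * volume.real Θ)) := by rw [← Finset.mul_sum, h3]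
    _ = 2 * Δ * en G u * volume.real Θ := by ring

end Crest.Agent.R193.FG
end

-- ▼ part R193/M4_Chain
section

/-!
# R193, block M4 (helper578): chain-connected finite families

`Chained r A` : no nonempty proper subfamily of the finite family `A` is closed under `r`.
-/

set_option autoImplicit false

open MeasureTheory Set

namespace Crest.Agent.R193.M4

/-- `A` is chain-connected for the relation `r`: the only nonempty `r`-closed subfamily is `A`. -/
def Chained {ι : Type*} (r : ι → ι → Prop) (A : Finset ι) : Prop :=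
  ∀ c : Finset ι, c ⊆ A → c.Nonempty → (∀ h ∈ c, ∀ h' ∈ A, r h h' → h' ∈ c) → c = A

section chain
variable {ι : Type*} {r : ι → ι → Prop} {A : Finset ι}

/-- Edge across a cut. -/
theorem Chained.exists_edge (hA : Chained r A) (P : ι → Prop) {a b : ι} (ha : a ∈ A) (hb : b ∈ A)
    (hPa : P a) (hPb : ¬ P b) : ∃ h ∈ A, ∃ h' ∈ A, r h h' ∧ P h ∧ ¬ P h' := by
  classical
  by_contra hcon
  push Not at hcon
  have h1 : A.filter P = A := by
    refine hA _ (Finset.filter_subset _ _) ⟨a, Finset.mem_filter.2 ⟨ha, hPa⟩⟩ ?_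
    intro h hh h' hh' hr
    rw [Finset.mem_filter] at hh ⊢
    exact ⟨hh', hcon h hh.1 h' hh' hr hh.2⟩
  have h2 : b ∈ A.filter P := by rw [h1]; exact hb
  exact hPb (Finset.mem_filter.1 h2).2

/-- Total variation bound on a chain-connected family. -/
theorem Chained.var_le (hA : Chained r A) (val w : ι → ℝ)
    (h : ∀ a ∈ A, ∀ b ∈ A, r a b → |val a - val b| ≤ w a + w b)
    (hw : ∀ a ∈ A, 0 ≤ w a)
    {a b : ι} (ha : a ∈ A) (hb : b ∈ A) :
    val b - val a ≤ 2 * ∑ c ∈ A, w c := by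
  have hsum : 0 ≤ ∑ c ∈ A, w c := Finset.sum_nonneg hw
  by_cases hab : val a < val b
  swap
  · linarith
  have hsub : Ioo (val a) (val b) ⊆ ⋃ c ∈ A, Icc (val c - w c) (val c + w c) := by
    intro s hs
    obtain ⟨x, hx, y, hy, hr, h1, h2⟩ := hA.exists_edge (fun c => val c ≤ s) ha hb hs.1.le
      (not_le.2 hs.2)
    have h2 := not_le.1 h2
    have h3 := h x hx y hy hr
    rw [abs_le] at h3
    simp only [mem_iUnion, mem_Icc, exists_prop]
    by_cases h4 : s ≤ val x + w x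
    · exact ⟨x, hx, by linarith [hw x hx], h4⟩
    · refine ⟨y, hy, ?_, by linarith [hw y hy]⟩
      push Not at h4
      linarith
  have h1 : volume (Ioo (val a) (val b)) ≤ ∑ c ∈ A, volume (Icc (val c - w c) (val c + w c)) :=
    (measure_mono hsub).trans (measure_biUnion_finset_le _ _)
  simp only [Real.volume_Ioo, Real.volume_Icc] at h1
  rw [← ENNReal.ofReal_sum_of_nonneg (fun c hc => by linarith [hw c hc])] at h1
  have h2 := (ENNReal.ofReal_le_ofReal_iff (Finset.sum_nonneg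
    (fun c hc => by linarith [hw c hc]))).1 h1
  have h3 : ∑ c ∈ A, (val c + w c - (val c - w c)) = 2 * ∑ c ∈ A, w c := by
    rw [Finset.mul_sum]
    exact Finset.sum_congr rfl (fun c _ => by ring)
  linarith

theorem Chained.abs_sub_le (hA : Chained r A) (val w : ι → ℝ)
    (h : ∀ a ∈ A, ∀ b ∈ A, r a b → |val a - val b| ≤ w a + w b)
    (hw : ∀ a ∈ A, 0 ≤ w a)
    {a b : ι} (ha : a ∈ A) (hb : b ∈ A) :
    |val a - val b| ≤ 2 * ∑ c ∈ A, w c := by
  rw [abs_le]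
  have h1 := hA.var_le val w h hw ha hb
  have h2 := hA.var_le val w h hw hb ha
  constructor <;> linarith

open Relation in
/-- the chain component of `a` in `A` -/
noncomputable def comp (r : ι → ι → Prop) (A : Finset ι) (a : ι) : Finset ι :=
  open Classical in A.filter (fun b => ReflTransGen (fun i j => r i j ∧ i ∈ A ∧ j ∈ A) a b)

open Relation

theorem mem_comp {a b : ι} : b ∈ comp r A a ↔
    b ∈ A ∧ ReflTransGen (fun i j => r i j ∧ i ∈ A ∧ j ∈ A) a b := by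
  classical
  unfold comp
  rw [Finset.mem_filter]

theorem comp_subset (a : ι) : comp r A a ⊆ A := fun _ hb => (mem_comp.1 hb).1

theorem self_mem_comp {a : ι} (ha : a ∈ A) : a ∈ comp r A a :=
  mem_comp.2 ⟨ha, ReflTransGen.refl⟩

theorem comp_closed (a : ι) : ∀ h ∈ comp r A a, ∀ h' ∈ A, r h h' → h' ∈ comp r A a := by
  intro h hh h' hh' hr
  rw [mem_comp] at hh ⊢
  exact ⟨hh', hh.2.tail ⟨hr, hh.1, hh'⟩⟩

theorem comp_chained (hr : ∀ i j, r i j → r j i) (a : ι) :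
    Chained r (comp r A a) := by
  intro c hc ⟨i, hi⟩ hcl
  refine Finset.Subset.antisymm hc ?_
  intro j hj
  have hia := mem_comp.1 (hc hi)
  have hja := mem_comp.1 hj
  have hsymm : ∀ x y : ι, ReflTransGen (fun i j => r i j ∧ i ∈ A ∧ j ∈ A) x y →
      ReflTransGen (fun i j => r i j ∧ i ∈ A ∧ j ∈ A) y x := by
    intro x y hxy
    induction hxy with
    | refl => exact ReflTransGen.refl
    | tail h1 h2 ih => exact ReflTransGen.head ⟨hr _ _ h2.1, h2.2.2, h2.2.1⟩ ih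
  have hij : ReflTransGen (fun i j => r i j ∧ i ∈ A ∧ j ∈ A) i j :=
    (hsymm _ _ hia.2).trans hja.2
  have key : ∀ k, ReflTransGen (fun i j => r i j ∧ i ∈ A ∧ j ∈ A) i k → k ∈ c := by
    intro k hk
    induction hk with
    | refl => exact hi
    | tail h1 h2 ih =>
      refine hcl _ ih _ ?_ h2.1
      exact comp_closed a _ (hc ih) _ h2.2.2 h2.1
  exact key j hij

/-- A chain-connected family satisfies the `ReflTransGen` form of connectedness. -/
theorem Chained.reflTransGen (hA : Chained r A) {i j : ι} (hi : i ∈ A) (hj : j ∈ A) :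
    ReflTransGen (fun i j => r i j ∧ i ∈ A) i j := by
  have h1 : comp r A i = A :=
    hA _ (comp_subset i) ⟨i, self_mem_comp hi⟩ (comp_closed i)
  have h2 : j ∈ comp r A i := by rw [h1]; exact hj
  exact ReflTransGen.mono (fun a b hab => ⟨hab.1, hab.2.1⟩) _ _ (mem_comp.1 h2).2

end chain

section top
variable {ι Z : Type*} [TopologicalSpace Z] {U : ι → Set Z}

/-- two tiles touch -/
def Touch (U : ι → Set Z) (h h' : ι) : Prop := (U h ∩ U h').Nonempty

omit [TopologicalSpace Z] in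
theorem Touch.symm {h h' : ι} (H : Touch U h h') : Touch U h' h := by
  unfold Touch at *
  rwa [inter_comm]

/-- The tiles of a finite closed cover of a preconnected set `A` that meet `A` form a chain-connected
family. -/
theorem star_chained (hU : ∀ h, IsClosed (U h)) {A : Set Z} (hA : IsPreconnected A)
    (S : Finset ι) (hcov : A ⊆ ⋃ k ∈ S, U k) (hS : ∀ k ∈ S, (U k ∩ A).Nonempty) :
    Chained (Touch U) S := by
  classical
  intro c hc ⟨i, hi⟩ hcl
  by_contra hne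
  have hss : ∃ j ∈ S, j ∉ c := by
    by_contra hcon
    push Not at hcon
    exact hne (Finset.Subset.antisymm hc hcon)
  obtain ⟨j, hjS, hjc⟩ := hss
  have hF1 : IsClosed (⋃ k ∈ c, U k) := isClosed_biUnion_finset (fun k _ => hU k)
  have hF2 : IsClosed (⋃ k ∈ S \ c, U k) := isClosed_biUnion_finset (fun k _ => hU k)
  have h1 := isPreconnected_closed_iff.1 hA _ _ hF1 hF2 ?_ ?_ ?_
  · obtain ⟨z, hzA, hz1, hz2⟩ := h1
    simp only [mem_iUnion, exists_prop] at hz1 hz2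
    obtain ⟨k, hk, hzk⟩ := hz1
    obtain ⟨k', hk', hzk'⟩ := hz2
    rw [Finset.mem_sdiff] at hk'
    exact hk'.2 (hcl k hk k' hk'.1 ⟨z, hzk, hzk'⟩)
  · intro z hz
    obtain ⟨k, hk, hzk⟩ := by simpa using hcov hz
    by_cases hkc : k ∈ c
    · exact Or.inl (by simp only [mem_iUnion, exists_prop]; exact ⟨k, hkc, hzk⟩)
    · refine Or.inr ?_
      simp only [mem_iUnion, exists_prop]
      exact ⟨k, Finset.mem_sdiff.2 ⟨hk, hkc⟩, hzk⟩
  · obtain ⟨z, hz1, hz2⟩ := hS i (hc hi)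
    refine ⟨z, hz2, ?_⟩
    simp only [mem_iUnion, exists_prop]
    exact ⟨i, hi, hz1⟩
  · obtain ⟨z, hz1, hz2⟩ := hS j hjS
    refine ⟨z, hz2, ?_⟩
    simp only [mem_iUnion, exists_prop]
    exact ⟨j, Finset.mem_sdiff.2 ⟨hjS, hjc⟩, hz1⟩

/-- The union of a chain-connected family of preconnected sets is preconnected. -/
theorem Chained.isPreconnected {c : Finset ι} (hc : Chained (Touch U) c)
    (hU : ∀ h ∈ c, IsPreconnected (U h)) : IsPreconnected (⋃ k ∈ c, U k) := by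
  refine IsPreconnected.biUnion_of_reflTransGen (t := (c : Set ι)) (s := U) (fun i hi => hU i hi) ?_
  intro i hi j hj
  exact hc.reflTransGen hi hj

end top

end Crest.Agent.R193.M4
end

-- ▼ part R193/M4_Pack
section

/-!
# R193, block M5 (helper578): the packing inequality on one level, abstract form
-/

set_option autoImplicit false

open MeasureTheory Set

namespace Crest.Agent.R193.M4

section
variable {G Z : Type*}

open Classical in
/-- level chain: the tiles of `V` having a neighbour in `V` on the other side of `t` -/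
noncomputable def leaf (U : G → Set Z) (V : Finset G) (u : G → ℝ) (t : ℝ) : Finset G :=
  V.filter (fun h => ∃ h' ∈ V, Touch U h h' ∧ ((u h ≤ t ∧ t < u h') ∨ (u h' ≤ t ∧ t < u h)))

variable {U : G → Set Z} {V : Finset G} {u : G → ℝ}

theorem mem_leaf {h : G} {t : ℝ} : h ∈ leaf U V u t ↔ h ∈ V ∧ ∃ h' ∈ V, Touch U h h' ∧
    ((u h ≤ t ∧ t < u h') ∨ (u h' ≤ t ∧ t < u h)) := by
  classical
  unfold leaf
  rw [Finset.mem_filter]

theorem leaf_subset (t : ℝ) : leaf U V u t ⊆ V := fun _ h => (mem_leaf.1 h).1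

theorem setOf_mem_leaf (h : G) : {t : ℝ | h ∈ leaf U V u t} =
    ⋃ h' ∈ V, {t | h ∈ V ∧ Touch U h h'} ∩ (Ico (u h) (u h') ∪ Ico (u h') (u h)) := by
  ext t
  simp only [mem_ofPred_eq, mem_leaf, mem_iUnion, mem_inter_iff, mem_union, mem_Ico, exists_prop]
  constructor
  · rintro ⟨h1, h', h2, h3, h4⟩
    exact ⟨h', h2, ⟨h1, h3⟩, h4⟩
  · rintro ⟨h', h2, ⟨h1, h3⟩, h4⟩
    exact ⟨h1, h', h2, h3, h4⟩

theorem measurableSet_leaf (h : G) : MeasurableSet {t : ℝ | h ∈ leaf U V u t} := by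
  rw [setOf_mem_leaf]
  refine Finset.measurableSet_biUnion V (fun h' _ => ?_)
  exact (MeasurableSet.const _).inter (measurableSet_Ico.union measurableSet_Ico)

variable [Group G] [MulAction G Z]

/-- the leaf `g⁻¹ λ_t` touches the tile `h'` -/
def tch (U : G → Set Z) (V : Finset G) (u : G → ℝ) (g : G) (t : ℝ) (h' : G) : Prop :=
  ∃ h ∈ leaf U V u t, ∃ x ∈ U h', g • x ∈ U h

theorem setOf_tch (g h' : G) : {t : ℝ | tch U V u g t h'} =
    ⋃ h ∈ V, {t | ∃ x ∈ U h', g • x ∈ U h} ∩ {t | h ∈ leaf U V u t} := by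
  ext t
  simp only [tch, mem_ofPred_eq, mem_iUnion, mem_inter_iff, exists_prop]
  constructor
  · rintro ⟨h, h1, h2⟩
    exact ⟨h, leaf_subset t h1, h2, h1⟩
  · rintro ⟨h, _, h2, h1⟩
    exact ⟨h, h1, h2⟩

theorem measurableSet_tch (g h' : G) : MeasurableSet {t : ℝ | tch U V u g t h'} := by
  rw [setOf_tch]
  exact Finset.measurableSet_biUnion V
    (fun h _ => (MeasurableSet.const _).inter (measurableSet_leaf h))

open Classical in
/-- **Packing inequality on one level.** -/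
theorem packing_level (I P : Finset G) (μ : G → ℝ)
    (Θ : Set ℝ) (Θg : G → Set ℝ) (K N1 N2 : ℝ) (Φ : ℝ) (hK0 : 0 ≤ K) (hN10 : 0 ≤ N1) (hN20 : 0 ≤ N2)
    (hΘ : volume Θ ≠ ⊤) (hsub : ∀ g ∈ I, Θg g ⊆ Θ) (hmeas : ∀ g ∈ I, MeasurableSet (Θg g))
    (hadm : ∀ g ∈ I, ∀ t ∈ Θg g, 1 ≤ ∑ h' ∈ P with tch U V u g t h', μ h')
    (htour : ∀ h' ∈ P, ((I.filter (fun g => ∃ t ∈ Θg g, tch U V u g t h')).card : ℝ) ≤ K)
    (hN1 : ∀ g ∈ I, ∀ h' ∈ P, ((V.filter (fun h => ∃ x ∈ U h', g • x ∈ U h)).card : ℝ) ≤ N1)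
    (hN2 : ∀ h ∈ V, ((∑ g ∈ I, (P.filter (fun h' => ∃ x ∈ U h', g • x ∈ U h)).card : ℕ) : ℝ) ≤ N2)
    (hΦ : ∑ h ∈ V, (volume.real (Θ ∩ {t | h ∈ leaf U V u t})) ^ 2 ≤ Φ) :
    (∑ g ∈ I, volume.real (Θg g)) ^ 2 ≤ (∑ h' ∈ P, μ h' ^ 2) * (K * (N1 * (N2 * Φ))) := by
  set α : G → ℝ := fun h => volume.real (Θ ∩ {t | h ∈ leaf U V u t}) with hα
  set ω : G → G → ℝ := fun g h' => volume.real (Θg g ∩ {t | tch U V u g t h'}) with hω
  have hα0 : ∀ h, 0 ≤ α h := fun h => measureReal_nonneg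
  have hω0 : ∀ g h, 0 ≤ ω g h := fun g h => measureReal_nonneg
  have hfin : ∀ g ∈ I, volume (Θg g) ≠ ⊤ := fun g hg => measure_ne_top_of_subset (hsub g hg) hΘ
  -- Step A
  have hA : ∀ g ∈ I, volume.real (Θg g) ≤ ∑ h' ∈ P, μ h' * ω g h' := by
    intro g hg
    have h1 : volume.real (Θg g) = ∫ _ in Θg g, (1 : ℝ) := by
      rw [setIntegral_const, smul_eq_mul, mul_one]
    have h2 : ∀ h' ∈ P, μ h' * ω g h' =
        ∫ t in Θg g, μ h' * ({t | tch U V u g t h'}.indicator (fun _ => (1 : ℝ)) t) := by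
      intro h' _
      rw [integral_const_mul, setIntegral_indicator (measurableSet_tch g h'), setIntegral_const,
        smul_eq_mul, mul_one]
    have hint : ∀ h' ∈ P, Integrable (fun t => μ h' *
        ({t | tch U V u g t h'}.indicator (fun _ => (1 : ℝ)) t)) (volume.restrict (Θg g)) := by
      intro h' _
      refine Integrable.const_mul ?_ _
      refine IntegrableOn.integrable ?_
      refine Integrable.indicator ?_ (measurableSet_tch g h')
      exact integrableOn_const (hfin g hg)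
    rw [h1, Finset.sum_congr rfl h2, ← integral_finsetSum _ hint]
    refine setIntegral_mono_on (integrableOn_const (hfin g hg))
      (integrable_finsetSum _ hint) (hmeas g hg) ?_
    intro t ht
    refine (hadm g hg t ht).trans (le_of_eq ?_)
    rw [Finset.sum_filter]
    refine Finset.sum_congr rfl (fun h' _ => ?_)
    by_cases h3 : tch U V u g t h'
    · simp [Set.indicator, h3]
    · simp [Set.indicator, h3]
  -- Step C
  have hC : ∀ h' ∈ P, (∑ g ∈ I, ω g h') ^ 2 ≤ K * ∑ g ∈ I, ω g h' ^ 2 := by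
    intro h' hh'
    set F := I.filter (fun g => ∃ t ∈ Θg g, tch U V u g t h') with hF
    have h1 : ∑ g ∈ I, ω g h' = ∑ g ∈ F, ω g h' := by
      rw [hF, Finset.sum_filter]
      refine Finset.sum_congr rfl (fun g _ => ?_)
      split_ifs with h2
      · rfl
      · have h3 : Θg g ∩ {t | tch U V u g t h'} = ∅ := by
          rw [Set.eq_empty_iff_forall_notMem]
          rintro t ⟨ht1, ht2⟩
          exact h2 ⟨t, ht1, ht2⟩
        simp only [hω, h3, measureReal_empty]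
    have h2 : (∑ g ∈ F, ω g h') ^ 2 ≤ (F.card : ℝ) * ∑ g ∈ F, ω g h' ^ 2 :=
      sq_sum_le_card_mul_sum_sq
    have h3 : ∑ g ∈ F, ω g h' ^ 2 ≤ ∑ g ∈ I, ω g h' ^ 2 :=
      Finset.sum_le_sum_of_subset_of_nonneg (Finset.filter_subset _ _) (fun _ _ _ => sq_nonneg _)
    have h4 : 0 ≤ ∑ g ∈ F, ω g h' ^ 2 := Finset.sum_nonneg (fun _ _ => sq_nonneg _)
    rw [h1]
    calc (∑ g ∈ F, ω g h') ^ 2 ≤ (F.card : ℝ) * ∑ g ∈ F, ω g h' ^ 2 := h2
      _ ≤ K * ∑ g ∈ F, ω g h' ^ 2 := mul_le_mul_of_nonneg_right (htour h' hh') h4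
      _ ≤ K * ∑ g ∈ I, ω g h' ^ 2 := mul_le_mul_of_nonneg_left h3 hK0
  -- Step D
  have hD : ∀ g ∈ I, ∀ h' ∈ P,
      ω g h' ^ 2 ≤ N1 * ∑ h ∈ V with (∃ x ∈ U h', g • x ∈ U h), α h ^ 2 := by
    intro g hg h' hh'
    have h1 : ω g h' ≤ ∑ h ∈ V with (∃ x ∈ U h', g • x ∈ U h), α h := by
      have h2 : Θg g ∩ {t | tch U V u g t h'} ⊆
          ⋃ h ∈ V.filter (fun h => ∃ x ∈ U h', g • x ∈ U h), (Θ ∩ {t | h ∈ leaf U V u t}) := by
        rintro t ⟨ht1, h, hh, x, hx, hgx⟩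
        simp only [mem_iUnion, exists_prop]
        exact ⟨h, Finset.mem_filter.2 ⟨leaf_subset t hh, x, hx, hgx⟩, hsub g hg ht1, hh⟩
      refine (measureReal_mono h2 ?_).trans (measureReal_biUnion_finset_le _ _)
      refine ne_top_of_le_ne_top hΘ (measure_mono ?_)
      intro t ht
      simp only [mem_iUnion, exists_prop] at ht
      obtain ⟨h, _, ht2⟩ := ht
      exact ht2.1
    have h3 : (∑ h ∈ V with (∃ x ∈ U h', g • x ∈ U h), α h) ^ 2 ≤
        ((V.filter (fun h => ∃ x ∈ U h', g • x ∈ U h)).card : ℝ) *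
        ∑ h ∈ V with (∃ x ∈ U h', g • x ∈ U h), α h ^ 2 := sq_sum_le_card_mul_sum_sq
    calc ω g h' ^ 2 ≤ (∑ h ∈ V with (∃ x ∈ U h', g • x ∈ U h), α h) ^ 2 :=
          pow_le_pow_left₀ (hω0 g h') h1 2
      _ ≤ _ := h3
      _ ≤ _ := mul_le_mul_of_nonneg_right (hN1 g hg h' hh')
          (Finset.sum_nonneg (fun _ _ => sq_nonneg _))
  -- Step E
  have hE : ∑ h' ∈ P, (∑ g ∈ I, ω g h') ^ 2 ≤ K * (N1 * (N2 * Φ)) := by
    have h1 : ∑ g ∈ I, ∑ h' ∈ P, ∑ h ∈ V with (∃ x ∈ U h', g • x ∈ U h), α h ^ 2 ≤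
        N2 * ∑ h ∈ V, α h ^ 2 := by
      have h2 : ∑ g ∈ I, ∑ h' ∈ P, ∑ h ∈ V with (∃ x ∈ U h', g • x ∈ U h), α h ^ 2 =
          ∑ h ∈ V, ((∑ g ∈ I, (P.filter (fun h' => ∃ x ∈ U h', g • x ∈ U h)).card : ℕ) : ℝ)
            * α h ^ 2 := by
        have h3 : ∀ g ∈ I, ∑ h' ∈ P, ∑ h ∈ V with (∃ x ∈ U h', g • x ∈ U h), α h ^ 2 =
            ∑ h ∈ V, ((P.filter (fun h' => ∃ x ∈ U h', g • x ∈ U h)).card : ℝ) * α h ^ 2 := by
          intro g _
          have h4 : ∀ h' ∈ P, ∑ h ∈ V with (∃ x ∈ U h', g • x ∈ U h), α h ^ 2 =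
              ∑ h ∈ V, if (∃ x ∈ U h', g • x ∈ U h) then α h ^ 2 else 0 :=
            fun h' _ => Finset.sum_filter _ _
          rw [Finset.sum_congr rfl h4, Finset.sum_comm]
          refine Finset.sum_congr rfl (fun h _ => ?_)
          rw [← Finset.sum_filter, Finset.sum_const, nsmul_eq_mul]
        rw [Finset.sum_congr rfl h3, Finset.sum_comm]
        refine Finset.sum_congr rfl (fun h _ => ?_)
        rw [← Finset.sum_mul, Nat.cast_sum]
      rw [h2, Finset.mul_sum]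
      exact Finset.sum_le_sum (fun h hh => mul_le_mul_of_nonneg_right (hN2 h hh) (sq_nonneg _))
    have h5 : 0 ≤ N2 * ∑ h ∈ V, α h ^ 2 := le_trans (Finset.sum_nonneg (fun _ _ =>
      Finset.sum_nonneg (fun _ _ => Finset.sum_nonneg (fun _ _ => sq_nonneg _)))) h1
    have h6 : N2 * ∑ h ∈ V, α h ^ 2 ≤ N2 * Φ := mul_le_mul_of_nonneg_left hΦ hN20
    calc ∑ h' ∈ P, (∑ g ∈ I, ω g h') ^ 2 ≤ ∑ h' ∈ P, K * ∑ g ∈ I, ω g h' ^ 2 :=
          Finset.sum_le_sum hC
      _ = K * ∑ g ∈ I, ∑ h' ∈ P, ω g h' ^ 2 := by rw [← Finset.mul_sum, Finset.sum_comm]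
      _ ≤ K * ∑ g ∈ I, ∑ h' ∈ P, N1 * ∑ h ∈ V with (∃ x ∈ U h', g • x ∈ U h), α h ^ 2 :=
          mul_le_mul_of_nonneg_left
            (Finset.sum_le_sum fun g hg => Finset.sum_le_sum fun h' hh' => hD g hg h' hh') hK0
      _ = K * (N1 * ∑ g ∈ I, ∑ h' ∈ P, ∑ h ∈ V with (∃ x ∈ U h', g • x ∈ U h), α h ^ 2) := by
          simp_rw [← Finset.mul_sum]
      _ ≤ K * (N1 * (N2 * ∑ h ∈ V, α h ^ 2)) :=
          mul_le_mul_of_nonneg_left (mul_le_mul_of_nonneg_left h1 hN10) hK0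
      _ ≤ K * (N1 * (N2 * Φ)) :=
          mul_le_mul_of_nonneg_left (mul_le_mul_of_nonneg_left h6 hN10) hK0
  have hB : ∑ g ∈ I, volume.real (Θg g) ≤ ∑ h' ∈ P, μ h' * ∑ g ∈ I, ω g h' := by
    calc ∑ g ∈ I, volume.real (Θg g) ≤ ∑ g ∈ I, ∑ h' ∈ P, μ h' * ω g h' := Finset.sum_le_sum hA
      _ = ∑ h' ∈ P, μ h' * ∑ g ∈ I, ω g h' := by
          rw [Finset.sum_comm]
          exact Finset.sum_congr rfl (fun h' _ => (Finset.mul_sum _ _ _).symm)
  have hS0 : 0 ≤ ∑ g ∈ I, volume.real (Θg g) := Finset.sum_nonneg (fun _ _ => measureReal_nonneg)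
  calc (∑ g ∈ I, volume.real (Θg g)) ^ 2 ≤ (∑ h' ∈ P, μ h' * ∑ g ∈ I, ω g h') ^ 2 :=
        pow_le_pow_left₀ hS0 hB 2
    _ ≤ (∑ h' ∈ P, μ h' ^ 2) * ∑ h' ∈ P, (∑ g ∈ I, ω g h') ^ 2 :=
        Finset.sum_mul_sq_le_sq_mul_sq _ _ _
    _ ≤ (∑ h' ∈ P, μ h' ^ 2) * (K * (N1 * (N2 * Φ))) :=
        mul_le_mul_of_nonneg_left hE (Finset.sum_nonneg (fun _ _ => sq_nonneg _))

end

end Crest.Agent.R193.M4
end

-- ▼ part R193/M4_Dich
section

/-!
# R193, block M4 (helper578): following a leaf of `w_g` with `w_{g₂}` (area zero + dichotomy)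
-/

set_option autoImplicit false

open MeasureTheory Set

namespace Crest.Agent.R193.M4

section
variable {G Z : Type*} [Group G] [TopologicalSpace Z] [MulAction G Z]
variable (U : G → Set Z) (V : Finset G) (u : G → ℝ) (T : Set Z)

open Classical in
/-- tiles `k` of `V` meeting `f⁻¹ U_h` -/
noncomputable def star (f h : G) : Finset G := V.filter (fun k => ∃ x ∈ U k, f • x ∈ U h)

open Classical in
/-- total variation of `u` at the tile `k` -/
noncomputable def dlt (k : G) : ℝ := ∑ k' ∈ V with Touch U k k', |u k - u k'|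

/-- the tile `U_h` does not meet `f T` -/
def Off (f h : G) : Prop := ∀ x : Z, f • x ∈ U h → x ∉ T

open Classical in
/-- bound for the oscillation of `u ∘ f⁻¹` on the tile `h` (`0` if the tile meets `f T`) -/
noncomputable def osf (f h : G) : ℝ :=
  if Off U T f h then 2 * ∑ k ∈ star U V f h, dlt U V u k else 0

/-- total variation of `u ∘ f⁻¹` along the level chain of level `t` off `f T` -/
noncomputable def tvar (f : G) (t : ℝ) : ℝ := ∑ h ∈ leaf U V u t, osf U V u T f h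

variable {U V u T}

omit [TopologicalSpace Z] in
theorem mem_star {f h k : G} : k ∈ star U V f h ↔ k ∈ V ∧ ∃ x ∈ U k, f • x ∈ U h := by
  classical
  unfold star
  rw [Finset.mem_filter]

omit [Group G] [TopologicalSpace Z] [MulAction G Z] in
theorem dlt_nonneg (k : G) : 0 ≤ dlt U V u k := Finset.sum_nonneg (fun _ _ => abs_nonneg _)

omit [TopologicalSpace Z] in
theorem osf_nonneg (f h : G) : 0 ≤ osf U V u T f h := by
  unfold osf
  split_ifs
  · exact mul_nonneg (by norm_num) (Finset.sum_nonneg (fun k _ => dlt_nonneg k))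
  · exact le_rfl

omit [Group G] [TopologicalSpace Z] [MulAction G Z] in
theorem abs_sub_le_dlt {k k' : G} (hk' : k' ∈ V) (h : Touch U k k') :
    |u k - u k'| ≤ dlt U V u k := by
  classical
  unfold dlt
  exact Finset.single_le_sum (f := fun k' => |u k - u k'|) (fun _ _ => abs_nonneg _)
    (Finset.mem_filter.2 ⟨hk', h⟩)

/-- Oscillation of `u` on the star of a tile off `f T`. -/
theorem star_osc (hc : ∀ g : G, Continuous (fun x : Z => g • x)) (hU : ∀ h, IsClosed (U h))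
    (hUp : ∀ h, IsPreconnected (U h)) (hV : ∀ z ∉ T, ∃ k ∈ V, z ∈ U k)
    {f h : G} (hoff : Off U T f h) {k k' : G} (hk : k ∈ star U V f h) (hk' : k' ∈ star U V f h) :
    |u k - u k'| ≤ osf U V u T f h := by
  have h1 : IsPreconnected ((fun x : Z => f⁻¹ • x) '' U h) :=
    (hUp h).image _ (hc f⁻¹).continuousOn
  have hmem : ∀ x : Z, x ∈ (fun x : Z => f⁻¹ • x) '' U h ↔ f • x ∈ U h := by
    intro x
    constructor
    · rintro ⟨y, hy, rfl⟩
      simpa using hy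
    · intro hx
      exact ⟨f • x, hx, by simp⟩
  have h2 : Chained (Touch U) (star U V f h) := by
    refine star_chained hU h1 _ ?_ ?_
    · intro x hx
      have hx' := (hmem x).1 hx
      obtain ⟨k, hk, hxk⟩ := hV x (hoff x hx')
      simp only [mem_iUnion, exists_prop]
      exact ⟨k, mem_star.2 ⟨hk, x, hxk, hx'⟩, hxk⟩
    · intro k hk
      obtain ⟨_, x, hx, hx'⟩ := mem_star.1 hk
      exact ⟨x, hx, (hmem x).2 hx'⟩
  have h3 := h2.abs_sub_le u (fun k => dlt U V u k) ?_ (fun k _ => dlt_nonneg k) hk hk'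
  · unfold osf
    rw [if_pos hoff]
    exact h3
  · intro a _ b hb hab
    have := abs_sub_le_dlt (u := u) (mem_star.1 hb).1 hab
    linarith [dlt_nonneg (U := U) (V := V) (u := u) b]

/-- **Following a leaf.**  If no tile of the level chain `λ_t` meets `f T`, the value of `u ∘ f⁻¹` at a
tile of the chain is almost taken at `f⁻¹ T`. -/
theorem follow (hc : ∀ g : G, Continuous (fun x : Z => g • x)) (hU : ∀ h, IsClosed (U h))
    (hUp : ∀ h, IsConnected (U h)) (hV : ∀ z ∉ T, ∃ k ∈ V, z ∈ U k)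
    {f : G} {t : ℝ} (hoff : ∀ h ∈ leaf U V u t, Off U T f h)
    (hT : ∀ c : Finset G, c ⊆ leaf U V u t → c.Nonempty →
      (∀ h ∈ c, ∀ h' ∈ leaf U V u t, Touch U h h' → h' ∈ c) → ∃ h ∈ c, (U h ∩ T).Nonempty)
    {h : G} (hh : h ∈ leaf U V u t) {k : G} (hk : k ∈ star U V f h) :
    ∃ z : Z, f • z ∈ T ∧ ∃ k' ∈ V, z ∈ U k' ∧ |u k - u k'| ≤ 4 * tvar U V u T f t := by
  classical
  set A := leaf U V u t with hA
  set c := comp (Touch U) A h with hcdef
  have hcA : c ⊆ A := comp_subset h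
  have hcc : Chained (Touch U) c := comp_chained (fun i j H => Touch.symm H) h
  have hstar : ∀ a ∈ A, ∃ k, k ∈ star U V f a := by
    intro a ha
    obtain ⟨x, hx⟩ := (hUp a).nonempty
    have hx' : f • (f⁻¹ • x) ∈ U a := by simpa using hx
    obtain ⟨k, hk, hxk⟩ := hV _ (hoff a ha _ hx')
    exact ⟨k, mem_star.2 ⟨hk, _, hxk, hx'⟩⟩
  choose! κ hκ using hstar
  have hosc : ∀ a ∈ A, ∀ k ∈ star U V f a, ∀ k' ∈ star U V f a,
      |u k - u k'| ≤ osf U V u T f a := fun a ha k hk k' hk' =>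
    star_osc hc hU (fun h => (hUp h).isPreconnected) hV (hoff a ha) hk hk'
  have hsum : ∑ a ∈ c, osf U V u T f a ≤ tvar U V u T f t :=
    Finset.sum_le_sum_of_subset_of_nonneg hcA (fun a _ _ => osf_nonneg f a)
  have hle : ∀ a ∈ A, osf U V u T f a ≤ tvar U V u T f t := fun a ha =>
    Finset.single_le_sum (f := fun a => osf U V u T f a) (fun a _ => osf_nonneg f a) ha
  obtain ⟨h', hh', z, hz, hzT⟩ := hT c hcA ⟨h, self_mem_comp hh⟩ (comp_closed h)
  have hvar := hcc.abs_sub_le (fun a => u (κ a)) (fun a => osf U V u T f a) ?_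
    (fun a _ => osf_nonneg f a) (self_mem_comp hh) hh'
  · have hz' : f • (f⁻¹ • z) ∈ U h' := by simpa using hz
    obtain ⟨k', hk', hzk'⟩ := hV _ (hoff h' (hcA hh') _ hz')
    refine ⟨f⁻¹ • z, by simpa using hzT, k', hk', hzk', ?_⟩
    have h1 := hosc h hh k hk (κ h) (hκ h hh)
    have h2 := hosc h' (hcA hh') (κ h') (hκ h' (hcA hh')) k' (mem_star.2 ⟨hk', _, hzk', hz'⟩)
    have h3 := hle h hh
    have h4 := hle h' (hcA hh')
    have h5 := abs_sub_le (u k) (u (κ h)) (u k')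
    have h6 := abs_sub_le (u (κ h)) (u (κ h')) (u k')
    linarith
  · intro a ha b hb ⟨x, hxa, hxb⟩
    have hx' : f • (f⁻¹ • x) ∈ U a := by simpa using hxa
    have hx'' : f • (f⁻¹ • x) ∈ U b := by simpa using hxb
    obtain ⟨k, hk, hxk⟩ := hV _ (hoff a (hcA ha) _ hx')
    have h1 := hosc a (hcA ha) (κ a) (hκ a (hcA ha)) k (mem_star.2 ⟨hk, _, hxk, hx'⟩)
    have h2 := hosc b (hcA hb) k (mem_star.2 ⟨hk, _, hxk, hx''⟩) (κ b) (hκ b (hcA hb))
    have h3 := abs_sub_le (u (κ a)) (u k) (u (κ b))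
    linarith

end

/-! ### area zero -/
section
variable {G Z : Type*} [Group G] [MulAction G Z]
variable {U : G → Set Z} {V : Finset G} {u : G → ℝ} {T : Set Z}

theorem measurable_tvar (f : G) : Measurable (fun t => tvar U V u T f t) := by
  classical
  have h1 : (fun t => tvar U V u T f t) = fun t => ∑ h ∈ V,
      ({t | h ∈ leaf U V u t}.indicator (fun _ => osf U V u T f h) t) := by
    funext t
    unfold tvar
    rw [← Finset.sum_filter_add_sum_filter_not V (fun h => h ∈ leaf U V u t)]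
    have h2 : V.filter (fun h => h ∈ leaf U V u t) = leaf U V u t := by
      ext h
      rw [Finset.mem_filter]
      exact ⟨fun h => h.2, fun h => ⟨leaf_subset t h, h⟩⟩
    rw [h2]
    have h3 : ∑ h ∈ V with h ∉ leaf U V u t,
        ({t | h ∈ leaf U V u t}.indicator (fun _ => osf U V u T f h) t) = 0 := by
      refine Finset.sum_eq_zero (fun h hh => ?_)
      exact Set.indicator_of_notMem (s := {t | h ∈ leaf U V u t}) (Finset.mem_filter.1 hh).2 _
    rw [h3, add_zero]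
    refine Finset.sum_congr rfl (fun h hh => ?_)
    exact (Set.indicator_of_mem (s := {t | h ∈ leaf U V u t}) (a := t) hh
      (fun _ => osf U V u T f h)).symm
  rw [h1]
  exact Finset.measurable_sum V (fun h _ => measurable_const.indicator (measurableSet_leaf h))

omit [Group G] [MulAction G Z] in
theorem volume_leaf_le (h : G) : volume {t : ℝ | h ∈ leaf U V u t} ≤ ENNReal.ofReal (dlt U V u h) := by
  classical
  have h1 : {t : ℝ | h ∈ leaf U V u t} ⊆
      ⋃ h' ∈ V.filter (fun h' => Touch U h h'), Icc (min (u h) (u h')) (max (u h) (u h')) := by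
    intro t ht
    obtain ⟨h1, h', h2, h3, h4⟩ := mem_leaf.1 ht
    simp only [mem_iUnion, exists_prop]
    refine ⟨h', Finset.mem_filter.2 ⟨h2, h3⟩, ?_⟩
    rcases h4 with h4 | h4
    · exact ⟨(min_le_left _ _).trans h4.1, h4.2.le.trans (le_max_right _ _)⟩
    · exact ⟨(min_le_right _ _).trans h4.1, h4.2.le.trans (le_max_left _ _)⟩
  refine (measure_mono h1).trans ((measure_biUnion_finset_le _ _).trans ?_)
  unfold dlt
  rw [ENNReal.ofReal_sum_of_nonneg (fun _ _ => abs_nonneg _)]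
  refine Finset.sum_le_sum (fun h' _ => ?_)
  rw [Real.volume_Icc, max_sub_min_eq_abs, abs_sub_comm]

/-- integral of the total variation along the level chains (`ENNReal` form) -/
theorem lintegral_tvar_le (f : G) : ∫⁻ t, ENNReal.ofReal (tvar U V u T f t) ≤
    ENNReal.ofReal (∑ h ∈ V, dlt U V u h * osf U V u T f h) := by
  classical
  have h1 : ∀ t, ENNReal.ofReal (tvar U V u T f t) = ∑ h ∈ V,
      ({t | h ∈ leaf U V u t}.indicator (fun _ => ENNReal.ofReal (osf U V u T f h)) t) := by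
    intro t
    unfold tvar
    rw [ENNReal.ofReal_sum_of_nonneg (fun h _ => osf_nonneg f h),
      ← Finset.sum_filter_add_sum_filter_not V (fun h => h ∈ leaf U V u t)]
    have h2 : V.filter (fun h => h ∈ leaf U V u t) = leaf U V u t := by
      ext h
      rw [Finset.mem_filter]
      exact ⟨fun h => h.2, fun h => ⟨leaf_subset t h, h⟩⟩
    rw [h2]
    have h3 : ∑ h ∈ V with h ∉ leaf U V u t,
        ({t | h ∈ leaf U V u t}.indicator (fun _ => ENNReal.ofReal (osf U V u T f h)) t) = 0 := by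
      refine Finset.sum_eq_zero (fun h hh => ?_)
      exact Set.indicator_of_notMem (s := {t | h ∈ leaf U V u t}) (Finset.mem_filter.1 hh).2 _
    rw [h3, add_zero]
    refine Finset.sum_congr rfl (fun h hh => ?_)
    exact (Set.indicator_of_mem (s := {t | h ∈ leaf U V u t}) (a := t) hh
      (fun _ => ENNReal.ofReal (osf U V u T f h))).symm
  simp_rw [h1]
  rw [lintegral_finsetSum _ (fun h _ => measurable_const.indicator (measurableSet_leaf h)),
    ENNReal.ofReal_sum_of_nonneg (fun h _ => mul_nonneg (dlt_nonneg h) (osf_nonneg f h))]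
  refine Finset.sum_le_sum (fun h _ => ?_)
  rw [lintegral_indicator_const (measurableSet_leaf h), ENNReal.ofReal_mul (dlt_nonneg h), mul_comm]
  exact mul_le_mul_left (volume_leaf_le h) _

open Classical in
/-- fixed-`j` comparability gives the area-zero estimate -/
theorem sum_dlt_osf_le (f : G) (K : ℝ)
    (hK1 : ∀ h ∈ V, ((star U V f h).card : ℝ) ≤ K)
    (hK2 : ∀ k ∈ V, ((V.filter (fun h => k ∈ star U V f h)).card : ℝ) ≤ K) :
    ∑ h ∈ V, dlt U V u h * osf U V u T f h ≤ 2 * K * ∑ h ∈ V, dlt U V u h ^ 2 := by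
  have h0 : ∀ h, osf U V u T f h ≤ 2 * ∑ k ∈ star U V f h, dlt U V u k := by
    intro h
    unfold osf
    split_ifs
    · exact le_rfl
    · exact mul_nonneg (by norm_num) (Finset.sum_nonneg (fun k _ => dlt_nonneg k))
  have h1 : ∑ h ∈ V, dlt U V u h * osf U V u T f h ≤
      ∑ h ∈ V, ∑ k ∈ star U V f h, (dlt U V u h ^ 2 + dlt U V u k ^ 2) := by
    refine Finset.sum_le_sum (fun h _ => ?_)
    calc dlt U V u h * osf U V u T f h ≤ dlt U V u h * (2 * ∑ k ∈ star U V f h, dlt U V u k) :=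
          mul_le_mul_of_nonneg_left (h0 h) (dlt_nonneg h)
      _ = ∑ k ∈ star U V f h, 2 * dlt U V u h * dlt U V u k := by
          rw [← Finset.mul_sum]; ring
      _ ≤ _ := Finset.sum_le_sum (fun k _ => two_mul_le_add_sq _ _)
  refine h1.trans ?_
  simp_rw [Finset.sum_add_distrib]
  have h2 : ∑ h ∈ V, ∑ _ ∈ star U V f h, dlt U V u h ^ 2 ≤ K * ∑ h ∈ V, dlt U V u h ^ 2 := by
    rw [Finset.mul_sum]
    refine Finset.sum_le_sum (fun h hh => ?_)
    rw [Finset.sum_const, nsmul_eq_mul]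
    exact mul_le_mul_of_nonneg_right (hK1 h hh) (sq_nonneg _)
  have h3 : ∑ h ∈ V, ∑ k ∈ star U V f h, dlt U V u k ^ 2 ≤ K * ∑ h ∈ V, dlt U V u h ^ 2 := by
    have h4 : ∀ h ∈ V, ∑ k ∈ star U V f h, dlt U V u k ^ 2 =
        ∑ k ∈ V, if k ∈ star U V f h then dlt U V u k ^ 2 else 0 := by
      intro h _
      rw [← Finset.sum_filter]
      refine Finset.sum_congr ?_ (fun _ _ => rfl)
      ext k
      rw [Finset.mem_filter]
      exact ⟨fun hk => ⟨(mem_star.1 hk).1, hk⟩, fun hk => hk.2⟩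
    rw [Finset.sum_congr rfl h4, Finset.sum_comm, Finset.mul_sum]
    refine Finset.sum_le_sum (fun k hk => ?_)
    rw [← Finset.sum_filter, Finset.sum_const, nsmul_eq_mul]
    exact mul_le_mul_of_nonneg_right (hK2 k hk) (sq_nonneg _)
  linarith

open Classical in
/-- **Area zero.**  The levels along which `u ∘ f⁻¹` varies by more than `η` have small measure. -/
theorem volume_exc_le (f : G) (K D η : ℝ) (hK0 : 0 ≤ K) (hη : 0 < η)
    (hK1 : ∀ h ∈ V, ((star U V f h).card : ℝ) ≤ K)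
    (hK2 : ∀ k ∈ V, ((V.filter (fun h => k ∈ star U V f h)).card : ℝ) ≤ K)
    (hD : ∑ h ∈ V, dlt U V u h ^ 2 ≤ D) :
    volume {t : ℝ | η ≤ tvar U V u T f t} ≤ ENNReal.ofReal (2 * K * D / η) := by
  have h1 := mul_meas_ge_le_lintegral (μ := volume)
    (f := fun t => ENNReal.ofReal (tvar U V u T f t)) (measurable_tvar f).ennreal_ofReal
    (ENNReal.ofReal η)
  have h2 := sum_dlt_osf_le (T := T) (u := u) f K hK1 hK2
  have h3 : ENNReal.ofReal η * volume {t : ℝ | η ≤ tvar U V u T f t} ≤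
      ENNReal.ofReal (2 * K * D) := by
    have h4 : {t : ℝ | η ≤ tvar U V u T f t} ⊆
        {t | ENNReal.ofReal η ≤ ENNReal.ofReal (tvar U V u T f t)} :=
      fun t ht => ENNReal.ofReal_le_ofReal ht
    refine (mul_le_mul_right (measure_mono h4) _).trans (h1.trans ((lintegral_tvar_le f).trans ?_))
    refine ENNReal.ofReal_le_ofReal (h2.trans ?_)
    exact mul_le_mul_of_nonneg_left hD (by positivity)
  rw [ENNReal.ofReal_div_of_pos hη]
  rw [ENNReal.le_div_iff_mul_le (Or.inl (by simpa using hη)) (Or.inl ENNReal.ofReal_ne_top)]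
  rwa [mul_comm]

end

end Crest.Agent.R193.M4
end

-- ▼ part R193/M5_Energy
section

/-!
# R193, block M5 (helper578): energy estimates for the leaves of a discrete harmonic function
-/

set_option autoImplicit false

open MeasureTheory Set

namespace Crest.Agent.R193.M5E

open Crest.Agent.R193 Crest.Agent.R193.M4

variable {G Z : Type} [Group G] [MetricSpace Z] [MulAction G Z] {S : Setup G Z}

/-- degree bound of the tile graph -/
noncomputable def Dg (T : Tiles S) : ℕ := T_Comp.Nb S (2 * T.R + 2 * S.δ)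

theorem ncard_adj_le (T : Tiles S) (χ : Chart Z) (n : ℕ) (v : T.V χ n) :
    {w | (T.gr χ n).Adj v w}.ncard ≤ Dg T := by
  classical
  have h1 : {w | (T.gr χ n).Adj v w}.ncard =
      (Finset.univ.filter (fun w => (T.gr χ n).Adj v w)).card := by
    rw [Set.ncard_eq_toFinset_card']
    congr 1
    ext w; simp
  rw [h1, ← Finset.card_map (Function.Embedding.subtype _)]
  refine T_Comp.card_adj_le T (v : G) ?_
  intro h hh
  rw [Finset.mem_map] at hh
  obtain ⟨a, ha, rfl⟩ := hh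
  rw [Finset.mem_filter] at ha
  refine ⟨?_, ha.2.2⟩
  have h2 := (Tiles.mem_V.1 a.2).1
  have h3 := (Tiles.mem_V.1 v.2).1
  simp only [Function.Embedding.coe_subtype]
  rw [h2, h3]

theorem mem_leaf_iff (T : Tiles S) (χ : Chart Z) (n : ℕ) (u : G → ℝ) (t : ℝ) (v : T.V χ n) :
    (v : G) ∈ leaf T.U (T.V χ n) u t ↔ v ∈ FG.lev (T.gr χ n) (fun h => u (h : G)) t := by
  rw [mem_leaf]
  constructor
  · rintro ⟨_, h', hh', htouch, h4⟩
    refine ⟨⟨h', hh'⟩, ⟨?_, htouch⟩, h4⟩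
    intro he
    rw [he] at h4
    rcases h4 with h4 | h4
    · exact absurd h4.2 (not_lt.2 h4.1)
    · exact absurd h4.2 (not_lt.2 h4.1)
  · rintro ⟨w, hw, h4⟩
    exact ⟨v.2, w, w.2, hw.2, h4⟩

theorem mem_leaf_iff_lev (T : Tiles S) (χ : Chart Z) (n : ℕ) (u : G → ℝ) (t : ℝ) (h : G) :
    h ∈ leaf T.U (T.V χ n) u t ↔ h ∈ T.lev χ n u t := by
  rw [mem_leaf]
  rfl

/-- energy inequality for the leaves -/
theorem sum_leaf_sq_le (T : Tiles S) (χ : Chart Z) (n : ℕ) (u : G → ℝ)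
    (h : FG.Sol (T.gr χ n) (T.Lt χ n) (T.Rt χ n) (fun h => u (h : G)))
    {Θ : Set ℝ} (hΘ : MeasurableSet Θ) (hΘ1 : Θ ⊆ Set.Ico 0 1) :
    ∑ h ∈ T.V χ n, (volume.real (Θ ∩ {t | h ∈ leaf T.U (T.V χ n) u t})) ^ 2 ≤
      2 * Dg T * FG.en (T.gr χ n) (fun h => u (h : G)) * volume.real Θ := by
  refine le_trans (le_of_eq ?_) (h.sum_lev_sq_le hΘ hΘ1 (Dg T) (ncard_adj_le T χ n))
  rw [← Finset.sum_coe_sort (T.V χ n)]
  refine Finset.sum_congr rfl (fun v _ => ?_)
  congr 2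
  ext t
  simp only [mem_inter_iff, mem_ofPred_eq, mem_leaf_iff]

theorem dlt_eq_grad (T : Tiles S) (χ : Chart Z) (n : ℕ) (u : G → ℝ) (v : T.V χ n) :
    dlt T.U (T.V χ n) u v = FG.grad (T.gr χ n) (fun h => u (h : G)) v := by
  classical
  rw [dlt, FG.grad_def, Finset.sum_filter, ← Finset.sum_coe_sort (T.V χ n)]
  refine Finset.sum_congr rfl (fun w _ => ?_)
  by_cases h1 : (T.gr χ n).Adj v w
  · rw [if_pos h1, if_pos (show Touch T.U (v : G) (w : G) from h1.2)]
  · rw [if_neg h1]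
    split_ifs with h2
    · by_cases h3 : v = w
      · rw [h3, sub_self, abs_zero]
      · exact absurd ⟨h3, h2⟩ h1
    · rfl

theorem sum_dlt_sq_le (T : Tiles S) (χ : Chart Z) (n : ℕ) (u : G → ℝ) :
    ∑ h ∈ T.V χ n, dlt T.U (T.V χ n) u h ^ 2 ≤
      2 * Dg T * FG.en (T.gr χ n) (fun h => u (h : G)) := by
  refine le_trans (le_of_eq ?_) (FG.sum_grad_sq_le _ _ (Dg T) (ncard_adj_le T χ n))
  rw [← Finset.sum_coe_sort (T.V χ n)]
  exact Finset.sum_congr rfl (fun v _ => by rw [dlt_eq_grad])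

end Crest.Agent.R193.M5E
end

-- ▼ part R193/M5_Count
section

/-!
# R193 block M5: the counting inputs (N1), (N2), (K) of the packing inequality

All statements are for arbitrary finsets `A` satisfying pointwise conditions (so that no
decidability instance matters).
-/

set_option autoImplicit false
set_option linter.style.haveILetI false
set_option linter.deprecated false

noncomputable section

open Set Filter Topology MeasureTheory

namespace Crest.Agent.R193.M5_Count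

open Crest.Agent.R193 Crest.Agent.R193.T_Main Crest.Agent.R193.T_Comp

variable {G Z : Type} [Group G] [MetricSpace Z] [MulAction G Z] {S : Setup G Z} (T : Tiles S)

/-- a small tile meeting `Gd R g` is contained in `Gd (R + 2δ) g` -/
theorem tile_subset_Gd {R : ℝ} {g h' : G} (hm : R + T.R + 2 * S.δ < S.len h')
    (hne : (T.U h' ∩ S.Gd R g).Nonempty) : T.U h' ⊆ S.Gd (R + 2 * S.δ) g := by
  obtain ⟨y, hy, hyR⟩ := hne
  intro x hx
  simp only [Setup.Gd, mem_setOf_eq] at hyR ⊢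
  by_contra hcon
  push Not at hcon
  have h1 := T.sub h' hx
  have h2 := T.sub h' hy
  simp only [Setup.Sh, mem_setOf_eq] at h1 h2
  have hδ := S.one_le_δ
  have h3 := S.hyp_s2 x h' g⁻¹
  have h4 : R + 2 * S.δ < min (S.s x h') (S.s x g⁻¹) := lt_min (by linarith) hcon
  have h5 := S.hyp_s1 y h' g⁻¹
  have h6 : R + S.δ < min (S.s y h') (gpOf S.len h' g⁻¹) := lt_min (by linarith) (by linarith)
  linarith

/-- the constant of (N1) -/
def N1c (T : Tiles S) (R : ℝ) : ℕ := Nb S (Kc T (R + 2 * S.δ))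

/-- (N1): tiles `h` of level `|g| + |h'|` meeting `g • U h'` -/
theorem N1 {R : ℝ} {g h' : G} (hm : R + T.R + 2 * S.δ < S.len h')
    (hne : (T.U h' ∩ S.Gd R g).Nonempty) {A : Finset G}
    (hA : ∀ h ∈ A, S.len h = S.len g + S.len h' ∧ ∃ x ∈ T.U h', g • x ∈ T.U h) :
    A.card ≤ N1c T R := by
  apply card_comp_le T (R := R + 2 * S.δ) (g := g) (h' := h')
  intro h hh
  obtain ⟨h1, x, hx, hgx⟩ := hA h hh
  exact ⟨h1, x, tile_subset_Gd T hm hne hx, hgx, hx⟩

/-- the constant of (N2) -/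
def N2c (T : Tiles S) (R : ℝ) : ℕ :=
  Nb S (2 * (|R + 2 * S.δ| + T.R + 2 * S.δ) + 2 * S.δ) * Nb S (Kc T (R + 2 * S.δ))

/-- (N2): total number of pairs `(g, h')`, `|g| = j`, `|h'| = m`, `U h'` meeting `Gd R g`, such that
`g • U h'` meets the tile `h` of level `j + m` -/
theorem N2 {R : ℝ} {j m : ℕ} (hm : R + T.R + 2 * S.δ < m) {h : G} (hh : S.len h = j + m)
    {Γ : Finset G} (hΓ : ∀ g ∈ Γ, S.len g = j) {A : G → Finset G}
    (hA : ∀ g ∈ Γ, ∀ h' ∈ A g, S.len h' = m ∧ (T.U h' ∩ S.Gd R g).Nonempty ∧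
      ∃ x ∈ T.U h', g • x ∈ T.U h) :
    ∑ g ∈ Γ, (A g).card ≤ N2c T R := by
  classical
  set Γ' := Γ.filter (fun g => (A g).Nonempty) with hΓ'
  have h1 : ∑ g ∈ Γ, (A g).card = ∑ g ∈ Γ', (A g).card := by
    rw [hΓ', Finset.sum_filter]
    apply Finset.sum_congr rfl
    intro g _
    by_cases hne : (A g).Nonempty
    · rw [if_pos hne]
    · rw [if_neg hne]
      rw [Finset.not_nonempty_iff_eq_empty] at hne
      rw [hne, Finset.card_empty]
  rw [h1]
  have h2 : Γ'.card ≤ Nb S (2 * (|R + 2 * S.δ| + T.R + 2 * S.δ) + 2 * S.δ) := by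
    apply card_overlap_tile_le T (R := R + 2 * S.δ) (j := j) (h := h) (by omega)
    intro g hg
    rw [hΓ', Finset.mem_filter] at hg
    obtain ⟨hg1, h', hh'⟩ := hg
    obtain ⟨e1, e2, x, hx, hgx⟩ := hA g hg1 h' hh'
    refine ⟨hΓ g hg1, x, tile_subset_Gd T ?_ e2 hx, hgx⟩
    rw [e1]
    exact hm
  have h3 : ∀ g ∈ Γ', (A g).card ≤ Nb S (Kc T (R + 2 * S.δ)) := by
    intro g hg
    rw [hΓ', Finset.mem_filter] at hg
    apply card_comp_le' T (R := R + 2 * S.δ) (g := g) (h := h)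
    intro h' hh'
    obtain ⟨e1, e2, x, hx, hgx⟩ := hA g hg.1 h' hh'
    refine ⟨by rw [hh, hΓ g hg.1, e1], x, tile_subset_Gd T ?_ e2 hx, hgx, hx⟩
    rw [e1]
    exact hm
  calc ∑ g ∈ Γ', (A g).card ≤ ∑ _g ∈ Γ', Nb S (Kc T (R + 2 * S.δ)) := Finset.sum_le_sum h3
    _ = Γ'.card * Nb S (Kc T (R + 2 * S.δ)) := by rw [Finset.sum_const, smul_eq_mul]
    _ ≤ N2c T R := Nat.mul_le_mul_right _ h2

/-- (K): for a fixed `f`, tiles `h` of level `n` meeting `f • U k` -/
theorem K1 {f k : G} {A : Finset G}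
    (hA : ∀ h ∈ A, S.len h = S.len k ∧ ∃ x ∈ T.U k, f • x ∈ T.U h) :
    A.card ≤ Nb S (5 * S.len f + 2 * T.R + 4 * S.δ) := by
  apply card_fixed_le T (g := f) (h' := k)
  intro h hh
  obtain ⟨h1, x, hx, hfx⟩ := hA h hh
  exact ⟨h1, x, hfx, hx⟩

/-- (K'): for a fixed `f`, tiles `k` of level `n` such that `f • U k` meets `U h` -/
theorem K2 {f h : G} {A : Finset G}
    (hA : ∀ k ∈ A, S.len h = S.len k ∧ ∃ x ∈ T.U k, f • x ∈ T.U h) :
    A.card ≤ Nb S (5 * S.len f + 2 * T.R + 4 * S.δ) := by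
  apply card_fixed_le' T (g := f) (h := h)
  intro k hk
  obtain ⟨h1, x, hx, hfx⟩ := hA k hk
  exact ⟨h1, x, hfx, hx⟩

/-! ### existential forms -/



theorem exists_K (f : G) : ∃ N : ℕ, ∀ n : ℕ, ∀ h ∈ S.sph n, ∀ A : Finset G, A ⊆ S.sph n →
    ((∀ k ∈ A, ∃ x ∈ T.U k, f • x ∈ T.U h) ∨ (∀ k ∈ A, ∃ x ∈ T.U h, f • x ∈ T.U k)) →
    A.card ≤ N := by
  refine ⟨Nb S (5 * S.len f + 2 * T.R + 4 * S.δ), ?_⟩
  intro n h hh A hAs hA
  have hlen : ∀ k ∈ A, S.len h = S.len k := fun k hk => by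
    rw [(T_Comp.mem_sph S).mp hh, (T_Comp.mem_sph S).mp (hAs hk)]
  rcases hA with hA | hA
  · exact K2 T (fun k hk => ⟨hlen k hk, hA k hk⟩)
  · exact K1 T (fun k hk => ⟨(hlen k hk).symm, hA k hk⟩)

end Crest.Agent.R193.M5_Count
end
end

-- ▼ part R193/Pack
section

/-!
# R193, block FG3: tournament count, abstract packing inequality, Courant-Lebesgue selection
(helper246). Pure finite combinatorics / measure theory.
-/

set_option autoImplicit false

namespace Crest.Agent.R193.Pack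

open Finset MeasureTheory

/-- **Tournament count.** If for all distinct `a, b ∈ A` one has `P a b` or `P b a`, and every
`a ∈ A` has at most `M` many `b ∈ A` (`b ≠ a`) with `P a b`, then `#A ≤ 2 M + 1`. -/
theorem tournament {α : Type*} (A : Finset α) (P : α → α → Prop) (M : ℝ) (hM0 : 0 ≤ M)
    (hP : ∀ a ∈ A, ∀ b ∈ A, a ≠ b → P a b ∨ P b a)
    (hM : ∀ a ∈ A, ∀ B : Finset α, B ⊆ A → (∀ b ∈ B, P a b) → (B.card : ℝ) ≤ M) :
    (A.card : ℝ) ≤ 2 * M + 1 := by
  classical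
  rcases A.eq_empty_or_nonempty with rfl | hne
  · simp only [Finset.card_empty, Nat.cast_zero]; linarith
  -- ordered pairs
  have h1 : A.offDiag ⊆ (A ×ˢ A).filter (fun p => P p.1 p.2) ∪ (A ×ˢ A).filter (fun p => P p.2 p.1) := by
    intro p hp
    rw [Finset.mem_offDiag] at hp
    rcases hP p.1 hp.1 p.2 hp.2.1 hp.2.2 with h | h
    · exact Finset.mem_union_left _ (by simp [hp.1, hp.2.1, h])
    · exact Finset.mem_union_right _ (by simp [hp.1, hp.2.1, h])
  have h2 : ((A ×ˢ A).filter (fun p => P p.1 p.2)).card = ∑ a ∈ A, (A.filter fun b => P a b).card := by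
    rw [Finset.card_filter, Finset.sum_product]
    refine Finset.sum_congr rfl fun a _ => ?_
    rw [Finset.card_filter]
  have h3 : ((A ×ˢ A).filter (fun p => P p.2 p.1)).card = ∑ a ∈ A, (A.filter fun b => P a b).card := by
    rw [Finset.card_filter, Finset.sum_product_right]
    refine Finset.sum_congr rfl fun a _ => ?_
    rw [Finset.card_filter]
  have h4 : (A.offDiag.card : ℝ) ≤ 2 * ∑ a ∈ A, ((A.filter fun b => P a b).card : ℝ) := by
    have := (Finset.card_le_card h1).trans (Finset.card_union_le _ _)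
    rw [h2, h3] at this
    have h' : (A.offDiag.card : ℝ) ≤ ((∑ a ∈ A, (A.filter fun b => P a b).card
      + ∑ a ∈ A, (A.filter fun b => P a b).card : ℕ) : ℝ) := by exact_mod_cast this
    push_cast at h'
    linarith
  have h5 : ∑ a ∈ A, ((A.filter fun b => P a b).card : ℝ) ≤ A.card * M := by
    calc _ ≤ ∑ a ∈ A, M := Finset.sum_le_sum fun a ha =>
          hM a ha _ (Finset.filter_subset _ _) fun b hb => (Finset.mem_filter.1 hb).2
      _ = _ := by simp
  have h6 : (A.offDiag.card : ℝ) = A.card * (A.card - 1) := by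
    rw [Finset.offDiag_card, Nat.cast_sub (Nat.le_mul_self _)]
    push_cast; ring
  have h7 : (0 : ℝ) < A.card := by exact_mod_cast hne.card_pos
  have h8 : (A.card : ℝ) * (A.card - 1) ≤ A.card * (2 * M) := by rw [← h6]; linarith
  have := le_of_mul_le_mul_left h8 h7
  linarith

/-- `(∑_{g∈Γ} x g)² ≤ #{g : x g ≠ 0} * ∑ x²`. -/
theorem sq_sum_le_card_mul {ι : Type*} (Γ : Finset ι) (x : ι → ℝ) [DecidablePred fun g => x g ≠ 0] :
    (∑ g ∈ Γ, x g) ^ 2 ≤ ((Γ.filter fun g => x g ≠ 0).card : ℝ) * ∑ g ∈ Γ, x g ^ 2 := by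
  rw [← Finset.sum_filter_ne_zero (s := Γ) (f := x)]
  have h1 := Finset.sum_mul_sq_le_sq_mul_sq (Γ.filter fun g => x g ≠ 0) (fun _ => (1 : ℝ)) x
  simp only [one_mul, one_pow, Finset.sum_const, nsmul_eq_mul, mul_one] at h1
  refine h1.trans (mul_le_mul_of_nonneg_left ?_ (by positivity))
  exact Finset.sum_le_sum_of_subset_of_nonneg (Finset.filter_subset _ _) fun g _ _ => sq_nonneg _

/-- **Abstract packing inequality (step 5 of Part M).**
`Γ` = group elements of level `j`, `X` = tiles of level `m`, `Θ g` = selected levels,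
`W g h` = levels `t` whose leaf `(g,t)` touches the tile `h`, `μ` = dual measure. -/
theorem packing {ι H T : Type*} [MeasurableSpace T] (P : Measure T) [IsFiniteMeasure P]
    (Γ : Finset ι) (X : Finset H) (Θ : ι → Set T) (W : ι → H → Set T)
    (hΘ : ∀ g ∈ Γ, MeasurableSet (Θ g)) (hW : ∀ g ∈ Γ, ∀ h ∈ X, MeasurableSet (W g h))
    (μ : H → ℝ) (L K B : ℝ) (hL : ∑ h ∈ X, μ h ^ 2 ≤ L) (hK : 0 ≤ K)
    (hcross : ∀ g ∈ Γ, ∀ t ∈ Θ g, 1 ≤ ∑ h ∈ X, (W g h).indicator (fun _ => μ h) t)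
    (hmult : ∀ h ∈ X, ∀ A : Finset ι, A ⊆ Γ → (∀ g ∈ A, P.real (Θ g ∩ W g h) ≠ 0) →
      (A.card : ℝ) ≤ K)
    (hB : ∑ g ∈ Γ, ∑ h ∈ X, (P.real (Θ g ∩ W g h)) ^ 2 ≤ B) :
    (∑ g ∈ Γ, P.real (Θ g)) ^ 2 ≤ L * K * B := by
  classical
  set ω : ι → H → ℝ := fun g h => P.real (Θ g ∩ W g h) with hω
  have hω0 : ∀ g h, 0 ≤ ω g h := fun g h => measureReal_nonneg
  -- step 1
  have h1 : ∀ g ∈ Γ, P.real (Θ g) ≤ ∑ h ∈ X, μ h * ω g h := by
    intro g hg
    have e1 : ∀ h ∈ X, ∫ t in Θ g, (W g h).indicator (fun _ => μ h) t ∂P = μ h * ω g h := by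
      intro h hh
      rw [integral_indicator (hW g hg h hh), Measure.restrict_restrict (hW g hg h hh),
        setIntegral_const, smul_eq_mul, Set.inter_comm, mul_comm]
    have hint : ∀ h ∈ X, IntegrableOn (fun t => (W g h).indicator (fun _ => μ h) t) (Θ g) P := by
      intro h hh
      exact ((integrable_const (μ h)).indicator (hW g hg h hh)).integrableOn
    calc P.real (Θ g) = ∫ t in Θ g, (1:ℝ) ∂P := by simp
      _ ≤ ∫ t in Θ g, ∑ h ∈ X, (W g h).indicator (fun _ => μ h) t ∂P := by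
          refine setIntegral_mono_on (integrable_const _).integrableOn ?_ (hΘ g hg) (hcross g hg)
          exact integrable_finsetSum _ hint
      _ = ∑ h ∈ X, ∫ t in Θ g, (W g h).indicator (fun _ => μ h) t ∂P :=
          integral_finsetSum _ hint
      _ = _ := Finset.sum_congr rfl e1
  have h2 : ∑ g ∈ Γ, P.real (Θ g) ≤ ∑ h ∈ X, μ h * ∑ g ∈ Γ, ω g h := by
    refine (Finset.sum_le_sum h1).trans (le_of_eq ?_)
    rw [Finset.sum_comm]
    exact Finset.sum_congr rfl fun h _ => by rw [Finset.mul_sum]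
  have h0 : 0 ≤ ∑ g ∈ Γ, P.real (Θ g) := Finset.sum_nonneg fun g _ => measureReal_nonneg
  have h3 : ∀ h ∈ X, (∑ g ∈ Γ, ω g h) ^ 2 ≤ K * ∑ g ∈ Γ, ω g h ^ 2 := by
    intro h hh
    refine (sq_sum_le_card_mul Γ (fun g => ω g h)).trans ?_
    refine mul_le_mul_of_nonneg_right ?_ (Finset.sum_nonneg fun g _ => sq_nonneg _)
    exact hmult h hh _ (Finset.filter_subset _ _) fun g hg => (Finset.mem_filter.1 hg).2
  calc (∑ g ∈ Γ, P.real (Θ g)) ^ 2 ≤ (∑ h ∈ X, μ h * ∑ g ∈ Γ, ω g h) ^ 2 :=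
        pow_le_pow_left₀ h0 h2 2
    _ ≤ (∑ h ∈ X, μ h ^ 2) * ∑ h ∈ X, (∑ g ∈ Γ, ω g h) ^ 2 :=
        Finset.sum_mul_sq_le_sq_mul_sq _ _ _
    _ ≤ L * ∑ h ∈ X, (∑ g ∈ Γ, ω g h) ^ 2 :=
        mul_le_mul_of_nonneg_right hL (Finset.sum_nonneg fun h _ => sq_nonneg _)
    _ ≤ L * (K * B) := by
        refine mul_le_mul_of_nonneg_left ?_
          ((Finset.sum_nonneg fun h _ => sq_nonneg _).trans hL)
        calc ∑ h ∈ X, (∑ g ∈ Γ, ω g h) ^ 2 ≤ ∑ h ∈ X, K * ∑ g ∈ Γ, ω g h ^ 2 :=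
              Finset.sum_le_sum h3
          _ = K * ∑ g ∈ Γ, ∑ h ∈ X, ω g h ^ 2 := by
              rw [← Finset.mul_sum, Finset.sum_comm]
          _ ≤ K * B := mul_le_mul_of_nonneg_left hB hK
    _ = L * K * B := by ring




end Crest.Agent.R193.Pack
end

-- ▼ part R193/M5_Level
section

/-!
# R193, block M5 (helper578): the packing inequality at one level with a limit function
-/

set_option autoImplicit false

open MeasureTheory Set

namespace Crest.Agent.R193.M5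

open Crest.Agent.R193.M4

section
variable {G Z : Type*} [Group G] [TopologicalSpace Z] [MulAction G Z]

/-- All the data and approximation properties at one level (tile radius small, `u ≈ w` up to `e`). -/
structure Lev (U : G → Set Z) (V : Finset G) (u : G → ℝ) (w : Z → ℝ) (T Tm K1 K2 : Set Z)
    (Γ P : Finset G) (near : G → Prop) (Bin Bout : Set Z) (e : ℝ) : Prop where
  e_pos : 0 < e
  hc : ∀ g : G, Continuous (fun x : Z => g • x)
  hU : ∀ h, IsClosed (U h)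
  hUp : ∀ h, IsConnected (U h)
  hV : ∀ z ∉ T, ∃ k ∈ V, z ∈ U k
  hTm : T ⊆ Tm
  hclose : ∀ k ∈ V, ∀ z ∈ U k, z ∈ K2 → |u k - w z| ≤ e
  hsm : ∀ k ∈ V, (U k ∩ K1).Nonempty → U k ⊆ K2
  hfar : ∀ g ∈ Γ, ∀ g2 ∈ Γ, ¬ near (g * g2⁻¹) → ∀ z ∈ Tm, (g * g2⁻¹) • z ∈ K1
  hnear : ∀ g ∈ Γ, ∀ g2 ∈ Γ, near (g * g2⁻¹) → near (g2 * g⁻¹)
  hPK : ∀ g ∈ Γ, ∀ h' ∈ P, ∀ x ∈ U h', g • x ∈ K1
  hUC : ∀ g ∈ Γ, ∀ h' ∈ P, ∀ x ∈ U h', ∀ y ∈ U h', |w (g • x) - w (g • y)| ≤ e
  hBin : IsPreconnected Bin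
  hBinK : ∀ g ∈ Γ, ∀ x ∈ Bin, g • x ∈ K1
  hBinT : ∀ g ∈ Γ, ∀ x ∈ Bin, g • x ∉ T
  hBout : ∀ g ∈ Γ, ∀ z ∈ T, g⁻¹ • z ∈ Bout

variable {U : G → Set Z} {V : Finset G} {u : G → ℝ} {w : Z → ℝ} {T Tm K1 K2 : Set Z}
  {Γ P : Finset G} {near : G → Prop} {Bin Bout : Set Z} {e : ℝ}

/-- level components reach `T` -/
def Reach (U : G → Set Z) (V : Finset G) (u : G → ℝ) (T : Set Z) (t : ℝ) : Prop :=
  ∀ c : Finset G, c ⊆ leaf U V u t → c.Nonempty →
    (∀ h ∈ c, ∀ h' ∈ leaf U V u t, Touch U h h' → h' ∈ c) → ∃ h ∈ c, (U h ∩ T).Nonempty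

theorem Lev.abs_sub_le (L : Lev U V u w T Tm K1 K2 Γ P near Bin Bout e) {k : G} {t : ℝ}
    (hk : k ∈ leaf U V u t) (hK : (U k ∩ K1).Nonempty) : |u k - t| ≤ 2 * e := by
  obtain ⟨h1, k', h2, ⟨z, hz1, hz2⟩, h4⟩ := mem_leaf.1 hk
  have hz : z ∈ K2 := L.hsm k h1 hK hz1
  have a1 := L.hclose k h1 z hz1 hz
  have a2 := L.hclose k' h2 z hz2 hz
  rw [abs_le] at a1 a2 ⊢
  rcases h4 with h4 | h4
  · constructor <;> linarith [h4.1, h4.2, a1.1, a1.2, a2.1, a2.2]
  · constructor <;> linarith [h4.1, h4.2, a1.1, a1.2, a2.1, a2.2]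

/-- the leaf avoids `f T` when `t` is not close to `w (f Tm)` -/
theorem Lev.off (L : Lev U V u w T Tm K1 K2 Γ P near Bin Bout e) {g g2 : G} (hg : g ∈ Γ)
    (hg2 : g2 ∈ Γ) (hn : ¬ near (g * g2⁻¹)) {t : ℝ}
    (ht : ∀ z ∈ Tm, 3 * e < |w ((g * g2⁻¹) • z) - t|) :
    ∀ h ∈ leaf U V u t, Off U T (g * g2⁻¹) h := by
  intro h hh x hx hxT
  have hxm := L.hTm hxT
  have h1 : (g * g2⁻¹) • x ∈ K1 := L.hfar g hg g2 hg2 hn x hxm
  have h2 := L.abs_sub_le hh ⟨_, hx, h1⟩
  have h3 := L.hclose h (leaf_subset t hh) _ hx (L.hsm h (leaf_subset t hh) ⟨_, hx, h1⟩ hx)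
  have h4 := ht x hxm
  have h5 := _root_.abs_sub_le (w ((g * g2⁻¹) • x)) (u h) t
  rw [abs_sub_comm] at h3
  linarith

/-- **Dichotomy.** -/
theorem Lev.dichotomy (L : Lev U V u w T Tm K1 K2 Γ P near Bin Bout e) {g g2 : G} (hg : g ∈ Γ)
    (hg2 : g2 ∈ Γ) (hn : ¬ near (g * g2⁻¹)) {t t2 : ℝ} (hR : Reach U V u T t)
    (ht : ∀ z ∈ Tm, 3 * e < |w ((g * g2⁻¹) • z) - t|) (hvar : tvar U V u T (g * g2⁻¹) t ≤ e)
    {h' : G} (hh' : h' ∈ P) (h1 : tch U V u g t h') (h2 : tch U V u g2 t2 h') :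
    ∃ z ∈ Tm, |w ((g2 * g⁻¹) • z) - t2| ≤ 10 * e := by
  have hinv : (g * g2⁻¹)⁻¹ = g2 * g⁻¹ := by group
  have hn2 : ¬ near (g2 * g⁻¹) := by
    intro h
    exact hn (L.hnear g2 hg2 g hg h)
  have hoff := L.off hg hg2 hn ht
  obtain ⟨h, hh, x, hx, hgx⟩ := h1
  have e1 : (g * g2⁻¹) • (g2 • x) = g • x := by rw [smul_smul]; congr 1; group
  have hx1 : (g * g2⁻¹) • (g2 • x) ∈ U h := by rw [e1]; exact hgx
  obtain ⟨k1, hk1, hxk1⟩ := L.hV _ (hoff h hh _ hx1)
  have hst : k1 ∈ M4.star U V (g * g2⁻¹) h := mem_star.2 ⟨hk1, _, hxk1, hx1⟩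
  obtain ⟨z, hzT, k', hk', hzk', hle⟩ := follow L.hc L.hU L.hUp L.hV hoff hR hh hst
  have e2 : (g2 * g⁻¹) • ((g * g2⁻¹) • z) = z := by rw [smul_smul]; simp
  refine ⟨(g * g2⁻¹) • z, L.hTm hzT, ?_⟩
  rw [e2]
  have hzK1 : z ∈ K1 := by
    have := L.hfar g2 hg2 g hg hn2 _ (L.hTm hzT)
    rwa [e2] at this
  have b1 := L.hclose k' hk' z hzk' (L.hsm k' hk' ⟨z, hzk', hzK1⟩ hzk')
  obtain ⟨k, hk, y, hy, hgy⟩ := h2
  have hyK := L.hPK g2 hg2 h' hh' y hy
  have hxK := L.hPK g2 hg2 h' hh' x hx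
  have b2 := L.abs_sub_le hk ⟨_, hgy, hyK⟩
  have hkV := leaf_subset t2 hk
  have b3 := L.hclose k hkV _ hgy (L.hsm k hkV ⟨_, hgy, hyK⟩ hgy)
  have b4 := L.hUC g2 hg2 h' hh' x hx y hy
  have b5 := L.hclose k1 hk1 _ hxk1 (L.hsm k1 hk1 ⟨_, hxk1, hxK⟩ hxk1)
  rw [abs_le] at *
  constructor <;> linarith [b1.1, b1.2, b2.1, b2.2, b3.1, b3.2, b4.1, b4.2, b5.1, b5.2, hle.1, hle.2]

/-- levels strictly inside `w (g Bin)` have a leaf tile meeting `g Bin` -/
theorem Lev.exists_leaf (L : Lev U V u w T Tm K1 K2 Γ P near Bin Bout e) {g : G} (hg : g ∈ Γ)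
    {t : ℝ} {x y : Z} (hx : x ∈ Bin) (hy : y ∈ Bin) (h1 : w (g • x) + e < t)
    (h2 : t < w (g • y) - e) : ∃ h ∈ leaf U V u t, ∃ x ∈ Bin, g • x ∈ U h := by
  classical
  set Sg := V.filter (fun k => ∃ x ∈ Bin, g • x ∈ U k) with hSg
  have himg : IsPreconnected ((fun x : Z => g • x) '' Bin) := L.hBin.image _ (L.hc g).continuousOn
  have hch : Chained (Touch U) Sg := by
    refine star_chained L.hU himg _ ?_ ?_
    · rintro _ ⟨x, hx, rfl⟩
      obtain ⟨k, hk, hxk⟩ := L.hV _ (L.hBinT g hg x hx)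
      simp only [mem_iUnion, exists_prop]
      exact ⟨k, Finset.mem_filter.2 ⟨hk, x, hx, hxk⟩, hxk⟩
    · intro k hk
      obtain ⟨_, x, hx, hxk⟩ := Finset.mem_filter.1 hk
      exact ⟨_, hxk, x, hx, rfl⟩
  have hmem : ∀ x ∈ Bin, ∃ k ∈ Sg, g • x ∈ U k ∧ |u k - w (g • x)| ≤ e := by
    intro x hx
    obtain ⟨k, hk, hxk⟩ := L.hV _ (L.hBinT g hg x hx)
    exact ⟨k, Finset.mem_filter.2 ⟨hk, x, hx, hxk⟩, hxk, L.hclose k hk _ hxk
      (L.hsm k hk ⟨_, hxk, L.hBinK g hg x hx⟩ hxk)⟩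
  obtain ⟨a, ha, _, ha2⟩ := hmem x hx
  obtain ⟨b, hb, _, hb2⟩ := hmem y hy
  rw [abs_le] at ha2 hb2
  obtain ⟨h, hh, h', hh', htouch, h3, h4⟩ := hch.exists_edge (fun k => u k ≤ t) ha hb
    (by linarith [ha2.2]) (by rw [not_le]; linarith [hb2.1])
  obtain ⟨hhV, x, hx, hxh⟩ := Finset.mem_filter.1 hh
  exact ⟨h, mem_leaf.2 ⟨hhV, h', (Finset.mem_filter.1 hh').1, htouch, Or.inl ⟨h3, not_le.1 h4⟩⟩,
    x, hx, hxh⟩

/-- a leaf meeting `g Bin` touches every separating family -/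
theorem Lev.touch_sep (L : Lev U V u w T Tm K1 K2 Γ P near Bin Bout e) {g : G} (hg : g ∈ Γ)
    {t : ℝ} (hR : Reach U V u T t) (h0 : ∃ h ∈ leaf U V u t, ∃ x ∈ Bin, g • x ∈ U h)
    (A : Finset G)
    (hA : ∀ c : Set Z, IsPreconnected c → (c ∩ Bin).Nonempty → (c ∩ Bout).Nonempty →
      (c ∩ ⋃ h ∈ A, U h).Nonempty) :
    ∃ h' ∈ A, tch U V u g t h' := by
  obtain ⟨h, hh, x, hx, hgx⟩ := h0
  set c := comp (Touch U) (leaf U V u t) h with hc
  have hcc : Chained (Touch U) c := comp_chained (fun i j H => Touch.symm H) h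
  obtain ⟨h1, hh1, z, hz, hzT⟩ := hR c (comp_subset h) ⟨h, self_mem_comp hh⟩ (comp_closed h)
  have hpre : IsPreconnected (⋃ k ∈ c, U k) :=
    hcc.isPreconnected (fun h _ => (L.hUp h).isPreconnected)
  have himg : IsPreconnected ((fun x : Z => g⁻¹ • x) '' ⋃ k ∈ c, U k) :=
    hpre.image _ (L.hc g⁻¹).continuousOn
  obtain ⟨y, ⟨p, hp, hpy⟩, hyA⟩ := hA _ himg
    ⟨x, ⟨g • x, by simp only [mem_iUnion, exists_prop]; exact ⟨h, self_mem_comp hh, hgx⟩,
      by simp⟩, hx⟩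
    ⟨g⁻¹ • z, ⟨z, by simp only [mem_iUnion, exists_prop]; exact ⟨h1, hh1, hz⟩, rfl⟩,
      L.hBout g hg z hzT⟩
  simp only [mem_iUnion, exists_prop] at hp hyA
  obtain ⟨k, hk, hpk⟩ := hp
  obtain ⟨h', hh', hyh'⟩ := hyA
  refine ⟨h', hh', k, comp_subset h hk, y, hyh', ?_⟩
  have : g • y = p := by rw [← hpy]; simp
  rw [this]
  exact hpk

open Classical in
/-- number of `g2 ∈ Γ` with `t ∈ J_{g,g2}` -/
noncomputable def mcount (w : Z → ℝ) (Tm : Set Z) (Γ : Finset G) (near : G → Prop) (g : G) (t : ℝ) :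
    ℝ :=
  ((Γ.filter (fun g2 => near (g * g2⁻¹) ∨ ∃ z ∈ Tm, w ((g * g2⁻¹) • z) = t)).card : ℝ)

open Classical in
/-- **Packing at one level.**  `Ex` is the exceptional set of levels. -/
theorem Lev.packing (L : Lev U V u w T Tm K1 K2 Γ P near Bin Bout e)
    (μ : G → ℝ) (Θ : Set ℝ) (Θg : G → Set ℝ) (M N1 N2 : ℝ) (Φ : ℝ) (hM0 : 0 ≤ M)
    (hN10 : 0 ≤ N1) (hN20 : 0 ≤ N2)
    (hΘ : volume Θ ≠ ⊤) (hsub : ∀ g ∈ Γ, Θg g ⊆ Θ) (hmeas : ∀ g ∈ Γ, MeasurableSet (Θg g))
    (hR : ∀ t ∈ Θ, Reach U V u T t)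
    (hM : ∀ g ∈ Γ, ∀ t ∈ Θg g, mcount w Tm Γ near g t ≤ M)
    (hin : ∀ g ∈ Γ, ∀ t ∈ Θg g, (∃ x ∈ Bin, w (g • x) + e < t) ∧ ∃ y ∈ Bin, t < w (g • y) - e)
    (hex1 : ∀ g ∈ Γ, ∀ g2 ∈ Γ, ¬ near (g * g2⁻¹) → ∀ g' ∈ Γ, ∀ t ∈ Θg g',
      tvar U V u T (g * g2⁻¹) t ≤ e)
    (hex2 : ∀ g ∈ Γ, ∀ g2 ∈ Γ, ¬ near (g * g2⁻¹) → ∀ g' ∈ Γ, ∀ t ∈ Θg g',
      (∃ z ∈ Tm, |w ((g * g2⁻¹) • z) - t| ≤ 10 * e) → ∃ z ∈ Tm, w ((g * g2⁻¹) • z) = t)
    (hadm : ∀ S' : Finset G, S' ⊆ P → (∀ A ⊆ P, (∀ c : Set Z, IsPreconnected c →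
      (c ∩ Bin).Nonempty → (c ∩ Bout).Nonempty → (c ∩ ⋃ h ∈ A, U h).Nonempty) →
      ∃ h ∈ A, h ∈ S') → 1 ≤ ∑ h' ∈ S', μ h')
    (hN1 : ∀ g ∈ Γ, ∀ h' ∈ P, ((V.filter (fun h => ∃ x ∈ U h', g • x ∈ U h)).card : ℝ) ≤ N1)
    (hN2 : ∀ h ∈ V, ((∑ g ∈ Γ, (P.filter (fun h' => ∃ x ∈ U h', g • x ∈ U h)).card : ℕ) : ℝ) ≤ N2)
    (hΦ : ∑ h ∈ V, (volume.real (Θ ∩ {t | h ∈ leaf U V u t})) ^ 2 ≤ Φ) :
    (∑ g ∈ Γ, volume.real (Θg g)) ^ 2 ≤
      (∑ h' ∈ P, μ h' ^ 2) * ((2 * M + 1) * (N1 * (N2 * Φ))) := by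
  refine packing_level Γ P μ Θ Θg (2 * M + 1) N1 N2 Φ (by linarith) hN10 hN20 hΘ hsub hmeas
    ?_ ?_ hN1 hN2 hΦ
  · intro g hg t ht
    refine hadm _ (Finset.filter_subset _ _) ?_
    intro A hAP hA
    obtain ⟨⟨x, hx, hx1⟩, y, hy, hy1⟩ := hin g hg t ht
    obtain ⟨h', hh', h2⟩ := L.touch_sep hg (hR t (hsub g hg ht))
      (L.exists_leaf hg hx hy hx1 hy1) A hA
    exact ⟨h', hh', Finset.mem_filter.2 ⟨hAP hh', h2⟩⟩
  · intro h' hh'
    have hsel : ∀ g ∈ Γ.filter (fun g => ∃ t ∈ Θg g, tch U V u g t h'),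
        ∃ t, t ∈ Θg g ∧ tch U V u g t h' := fun g hg => (Finset.mem_filter.1 hg).2
    choose! τ hτ using hsel
    refine Crest.Agent.R193.Pack.tournament _
      (fun g g2 => near (g * g2⁻¹) ∨ ∃ z ∈ Tm, w ((g * g2⁻¹) • z) = τ g) M hM0 ?_ ?_
    · intro g hg g2 hg2 _
      have hgΓ := (Finset.mem_filter.1 hg).1
      have hg2Γ := (Finset.mem_filter.1 hg2).1
      obtain ⟨hτ1, hτ2⟩ := hτ g hg
      obtain ⟨hτ3, hτ4⟩ := hτ g2 hg2
      by_cases hn : near (g * g2⁻¹)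
      · exact Or.inl (Or.inl hn)
      by_cases ht : ∃ z ∈ Tm, |w ((g * g2⁻¹) • z) - τ g| ≤ 10 * e
      · exact Or.inl (Or.inr (hex2 g hgΓ g2 hg2Γ hn g hgΓ _ hτ1 ht))
      · push Not at ht
        have hn2 : ¬ near (g2 * g⁻¹) := fun h => hn (L.hnear g2 hg2Γ g hgΓ h)
        have h3 := L.dichotomy hgΓ hg2Γ hn (hR _ (hsub g hgΓ hτ1))
          (fun z hz => lt_of_le_of_lt (by linarith [L.e_pos]) (ht z hz))
          (hex1 g hgΓ g2 hg2Γ hn g hgΓ _ hτ1) hh' hτ2 hτ4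
        exact Or.inr (Or.inr (hex2 g2 hg2Γ g hgΓ hn2 g2 hg2Γ _ hτ3 h3))
    · intro g hg B hB hBP
      have hgΓ := (Finset.mem_filter.1 hg).1
      obtain ⟨hτ1, _⟩ := hτ g hg
      refine le_trans ?_ (hM g hgΓ _ hτ1)
      unfold mcount
      have : B ⊆ Γ.filter (fun g2 => near (g * g2⁻¹) ∨ ∃ z ∈ Tm, w ((g * g2⁻¹) • z) = τ g) := by
        intro b hb
        exact Finset.mem_filter.2 ⟨(Finset.mem_filter.1 (hB hb)).1, hBP b hb⟩
      exact_mod_cast Finset.card_le_card this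

end

end Crest.Agent.R193.M5
end

-- ▼ part R193/M5_Ev
section

/-!
# R193, block M5 (helper578): the approximation properties hold eventually along the records
-/

set_option autoImplicit false

open MeasureTheory Set Filter Topology

namespace Crest.Agent.R193.M5

open Crest.Agent.R193 Crest.Agent.R193.M4 Crest.Agent.R193.M5E

variable {G Z : Type} [Group G] [MetricSpace Z] [MulAction G Z] {S : Setup G Z}

theorem ev_tile (T : Tiles S) {r : ℝ} (hr : 0 < r) :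
    ∀ᶠ n : ℕ in atTop, ∀ h ∈ S.sph n, ∀ x ∈ T.U h, ∀ y ∈ T.U h, dist x y < r := by
  have h2 : Tendsto (fun n : ℕ => -S.ε * ((n : ℝ) - T.R - S.δ)) atTop atBot := by
    refine Tendsto.const_mul_atTop_of_neg (by linarith [S.ε_pos]) ?_
    exact tendsto_atTop_add_const_right _ _
      (tendsto_atTop_add_const_right _ _ tendsto_natCast_atTop_atTop)
  have h1 : Tendsto (fun n : ℕ => Real.exp (-S.ε * ((n : ℝ) - T.R - S.δ))) atTop (𝓝 0) :=
    Real.tendsto_exp_atBot.comp h2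
  filter_upwards [h1.eventually (gt_mem_nhds hr)] with n hn h hh x hx y hy
  have h3 := T_Comp.dist_le_of_mem T hx hy
  rw [(T_Comp.mem_sph S).1 hh] at h3
  exact lt_of_le_of_lt h3 hn

open Classical in
/-- the tiles of level `m` meeting the closed region `closure (E 2)ᶜ` of the pair `i` -/
noncomputable def Pm {T : Tiles S} (P : Rec T) (i : P.ι) (m : ℕ) : Finset G :=
  (S.sph m).filter (fun h => (T.U h ∩ closure ((P.ψ i).E 2)ᶜ).Nonempty)

theorem mem_Pm {T : Tiles S} {P : Rec T} {i : P.ι} {m : ℕ} {h : G} :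
    h ∈ Pm P i m ↔ S.len h = m ∧ (T.U h ∩ closure ((P.ψ i).E 2)ᶜ).Nonempty := by
  classical
  unfold Pm
  rw [Finset.mem_filter, T_Comp.mem_sph]

theorem D_subset (ψ : Chart Z) : ψ.D 1 ⊆ (ψ.E 2)ᶜ := by
  rintro _ ⟨p, hp, rfl⟩
  simp only [Chart.E, compl_compl]
  refine ⟨p, ?_, rfl⟩
  rw [Metric.mem_ball]
  rw [Metric.mem_closedBall] at hp
  linarith

theorem isPreconnected_D (ψ : Chart Z) (r : ℝ) : IsPreconnected (ψ.D r) :=
  (convex_closedBall (0 : ℝ × ℝ) r).isPreconnected.image _ ψ.emb.continuous.continuousOn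


theorem isCompact_D (ψ : Chart Z) (r : ℝ) : IsCompact (ψ.D r) :=
  (isCompact_closedBall (0 : ℝ × ℝ) r).image ψ.emb.continuous

theorem D_nonempty (ψ : Chart Z) : (ψ.D 1).Nonempty :=
  ⟨ψ.f 0, 0, by simp, rfl⟩

theorem isClosed_E (ψ : Chart Z) (r : ℝ) : IsClosed (ψ.E r) :=
  (ψ.emb.isOpenMap _ Metric.isOpen_ball).isClosed_compl

theorem disjoint_DE (ψ : Chart Z) : Disjoint (ψ.D 1) (ψ.E 2) :=
  disjoint_left.2 (fun _ hx hx2 => D_subset ψ hx hx2)

/-- `Reach` from `M3`. -/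
theorem reach_of_M3 (T : Tiles S) (Φ : Z ≃ₜ S2) (P : Rec T) {n : ℕ} (hn : n ∈ P.recs) {t : ℝ}
    (ht0 : 0 ≤ t) (ht1 : t < 1) : Reach T.U (T.V P.χ n) (P.u n) P.χ.T t := by
  intro c hc hne hcl
  obtain ⟨h, hh⟩ := hne
  have hlev : ∀ a, a ∈ leaf T.U (T.V P.χ n) (P.u n) t ↔ a ∈ T.lev P.χ n (P.u n) t :=
    fun a => mem_leaf_iff_lev T P.χ n (P.u n) t a
  obtain ⟨h1, hh1, hrel, hT⟩ := M3_Level.M3_adj T Φ P hn ht0 ht1 ((hlev h).1 (hc hh))
  have key : ∀ k, Relation.ReflTransGen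
      (fun a b => T.adj a b ∧ b ∈ T.lev P.χ n (P.u n) t) h k → k ∈ c := by
    intro k hk
    induction hk with
    | refl => exact hh
    | tail _ h2 ih => exact hcl _ ih _ ((hlev _).2 h2.2) h2.1
  exact ⟨h1, key h1 hrel, hT⟩

/-- The approximation properties hold eventually. -/
theorem eventually_lev (T : Tiles S) (Φ : Z ≃ₜ S2) (P : Rec T) (Λ : Lim P) {K1 Tm : Set Z}
    (hTm : P.χ.T ⊆ Tm) (hK1 : IsCompact K1)
    (hK1Q : K1 ⊆ P.χ.Qo) (hdisj : Disjoint K1 Tm) (j : ℕ) (i : P.ι) (Γ : Finset G) (I0 : ℕ)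
    (hE : ∀ g ∈ Γ, ∀ y ∈ closure (((P.ψ i).E 2)ᶜ), g • y ∈ K1)
    (hfar : ∀ g ∈ Γ, ∀ g2 ∈ Γ, I0 ≤ S.len (g * g2⁻¹) → ∀ y ∈ Tm, (g * g2⁻¹) • y ∈ K1)
    {e : ℝ} (he : 0 < e) :
    ∃ K1' K2 : Set Z, ∀ᶠ n in Λ.l, Lev T.U (T.V P.χ n) (P.u n) Λ.w P.χ.T Tm K1' K2 Γ
      (Pm P i (n - j)) (fun f => S.len f < I0) ((P.ψ i).D 1) ((P.ψ i).E 2) e := by
  have hcs : CompactSpace Z := Φ.symm.compactSpace
  obtain ⟨d, hd, hdQ⟩ := hK1.exists_cthickening_subset_open (M3_Level.isOpen_Qo P.χ) hK1Q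
  set K1' := Metric.cthickening (d / 2) K1 with hK1'
  set K2 := Metric.cthickening d K1 with hK2
  have hK11' : K1 ⊆ K1' := Metric.self_subset_cthickening _
  have hK1'2 : K1' ⊆ K2 := Metric.cthickening_mono (by linarith) _
  have hK2c : IsCompact K2 := Metric.isClosed_cthickening.isCompact
  have huc := hK2c.uniformContinuousOn_of_continuous (Λ.cont.mono hdQ)
  rw [Metric.uniformContinuousOn_iff] at huc
  obtain ⟨r, hr, hwr⟩ := huc e he
  refine ⟨K1', K2, ?_⟩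
  have ev1 : ∀ᶠ n in Λ.l, ∀ h ∈ T.V P.χ n, ∀ y ∈ T.U h ∩ K2, |P.u n h - Λ.w y| ≤ e :=
    Λ.unif K2 hK2c hdQ e he
  have ev2 : ∀ᶠ n in Λ.l, ∀ h ∈ S.sph n, ∀ x ∈ T.U h, ∀ y ∈ T.U h, dist x y < d / 2 :=
    (ev_tile T (half_pos hd)).filter_mono Λ.le
  have ev3 : ∀ᶠ n in Λ.l, ∀ g ∈ Γ, ∀ h' ∈ S.sph (n - j), ∀ x ∈ T.U h', ∀ y ∈ T.U h',
      dist (g • x) (g • y) < min (d / 2) r := by
    rw [Filter.eventually_all_finset]
    intro g _
    have hg := CompactSpace.uniformContinuous_of_continuous (S.cont g)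
    rw [Metric.uniformContinuous_iff] at hg
    obtain ⟨r', hr', hgr'⟩ := hg (min (d / 2) r) (lt_min (half_pos hd) hr)
    have : ∀ᶠ n : ℕ in atTop, ∀ h' ∈ S.sph (n - j), ∀ x ∈ T.U h', ∀ y ∈ T.U h', dist x y < r' :=
      (tendsto_sub_atTop_nat j).eventually (ev_tile T hr')
    filter_upwards [this.filter_mono Λ.le] with n hn h' hh' x hx y hy
    exact hgr' (hn h' hh' x hx y hy)
  filter_upwards [ev1, ev2, ev3] with n hn1 hn2 hn3
  have hnotT : ∀ x ∈ K1, x ∉ P.χ.T := fun x hx hxT =>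
    disjoint_left.1 hdisj hx (hTm hxT)
  refine ⟨he, S.cont, T.isClosed, T.isConnected, ?_, hTm, ?_, ?_, ?_, ?_, ?_, ?_,
    isPreconnected_D _ _, ?_, ?_, ?_⟩
  · intro z hz
    obtain ⟨k, hk, hzk⟩ := T_Comp.exists_mem T z n
    refine ⟨k, Tiles.mem_V.2 ⟨(T_Comp.mem_sph S).1 hk, z, hzk, ?_⟩, hzk⟩
    have : z ∈ P.χ.Qo := by
      by_contra hcon
      exact hz hcon
    exact M3_Level.Qo_sub_Q _ this
  · intro k hk z hz hzK
    exact hn1 k hk z ⟨hz, hzK⟩
  · intro k hk ⟨y, hy, hyK⟩ x hx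
    have hks : k ∈ S.sph n := (T_Comp.mem_sph S).2 (Tiles.mem_V.1 hk).1
    have hxy := hn2 k hks x hx y hy
    have h1 : x ∈ Metric.cthickening (d / 2) K1' :=
      Metric.mem_cthickening_of_dist_le x y _ _ hyK hxy.le
    have h2 := Metric.cthickening_cthickening_subset (half_pos hd).le (half_pos hd).le K1 h1
    rwa [add_halves] at h2
  · intro g hg g2 hg2 hn z hz
    exact hK11' (hfar g hg g2 hg2 (not_lt.1 hn) z hz)
  · intro g _ g2 _ hn
    have h1 : g2 * g⁻¹ = (g * g2⁻¹)⁻¹ := by group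
    rw [h1, S.len_inv]
    exact hn
  · intro g hg h' hh' x hx
    obtain ⟨hlen, y, hy, hyE⟩ := mem_Pm.1 hh'
    have h1 := hn3 g hg h' ((T_Comp.mem_sph S).2 hlen) x hx y hy
    exact Metric.mem_cthickening_of_dist_le _ (g • y) _ _ (hE g hg y hyE)
      (h1.le.trans (min_le_left _ _))
  · intro g hg h' hh' x hx y hy
    obtain ⟨hlen, z, hz, hzE⟩ := mem_Pm.1 hh'
    have hs := (T_Comp.mem_sph S).2 hlen
    have hxz := hn3 g hg h' hs x hx z hz
    have hyz := hn3 g hg h' hs y hy z hz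
    have hx2 : g • x ∈ K2 := hK1'2 (Metric.mem_cthickening_of_dist_le _ (g • z) _ _
      (hE g hg z hzE) (hxz.le.trans (min_le_left _ _)))
    have hy2 : g • y ∈ K2 := hK1'2 (Metric.mem_cthickening_of_dist_le _ (g • z) _ _
      (hE g hg z hzE) (hyz.le.trans (min_le_left _ _)))
    have h1 := hwr _ hx2 _ hy2 ((hn3 g hg h' hs x hx y hy).trans_le (min_le_right _ _))
    rw [Real.dist_eq] at h1
    exact h1.le
  · intro g hg x hx
    exact hK11' (hE g hg x (subset_closure (D_subset _ hx)))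
  · intro g hg x hx
    exact hnotT _ (hE g hg x (subset_closure (D_subset _ hx)))
  · intro g hg z hz
    by_contra hcon
    have h1 := hE g hg (g⁻¹ • z) (subset_closure hcon)
    rw [smul_inv_smul] at h1
    exact hnotT _ h1 hz

end Crest.Agent.R193.M5
end

-- ▼ part R193/M5_Dual
section

/-!
# R193, M5_Dual (helper878): the dual measure of a standard annulus at one level
-/

set_option autoImplicit false

noncomputable section

open Set Filter Topology
open scoped Classical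

namespace Crest.Agent.R193.M5_Dual

variable {G Z : Type} [Group G] [MetricSpace Z] [MulAction G Z] {S : Setup G Z}

/-- tiles meeting the closure of `Eᶜ` suffice to separate -/
theorem separates_filter [LocallyPathConnectedSpace Z] (T : Tiles S) {D E : Set Z}
    (hE : IsClosed E) (hDE : Disjoint D E) {A : Finset G} (h : Separates (T.un A) D E) :
    Separates (⋃ k ∈ A.filter (fun k => (T.U k ∩ closure Eᶜ).Nonempty), T.U k) D E := by
  have h1 := F_Sep2.separates_inter_closure (T_Comp.isClosed_un T A) hE hDE h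
  intro c hc hD hE'
  obtain ⟨x, hxc, hx1, hx2⟩ := h1 c hc hD hE'
  obtain ⟨k, hk, hxk⟩ := (T_Comp.mem_un T).1 hx1
  exact ⟨x, hxc, mem_iUnion₂.2 ⟨k, Finset.mem_filter.2 ⟨hk, x, hxk, hx2⟩, hxk⟩⟩

theorem exists_mu [LocallyPathConnectedSpace Z] (T : Tiles S) {m : ℕ} {D E : Set Z} {L : ℝ}
    (hL : 0 < L) (hE : IsClosed E) (hDE : Disjoint D E) (h : SepBound T m D E L) :
    ∃ μ : G → ℝ, (∀ h, 0 ≤ μ h) ∧
      ∑ h ∈ (S.sph m).filter (fun h => (T.U h ∩ closure Eᶜ).Nonempty), μ h ^ 2 ≤ L ∧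
      ∀ S' : Finset G, S' ⊆ (S.sph m).filter (fun h => (T.U h ∩ closure Eᶜ).Nonempty) →
        (∀ A ⊆ (S.sph m).filter (fun h => (T.U h ∩ closure Eᶜ).Nonempty),
          Separates (⋃ h ∈ A, T.U h) D E → ∃ h ∈ A, h ∈ S') →
        1 ≤ ∑ h' ∈ S', μ h' := by
  set X := (S.sph m).filter (fun h => (T.U h ∩ closure Eᶜ).Nonempty) with hX
  set SS : Finset (Finset G) := X.powerset.filter
    (fun A => Separates (⋃ h ∈ A, T.U h) D E) with hSS
  have hmX : ∀ k, k ∈ X ↔ k ∈ S.sph m ∧ (T.U k ∩ closure Eᶜ).Nonempty := fun k => by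
    rw [hX, Finset.mem_filter]
  -- from a separating family at level `m`
  have key : ∀ A : Finset G, A ⊆ S.sph m → Separates (T.un A) D E →
      A.filter (fun k => (T.U k ∩ closure Eᶜ).Nonempty) ∈ SS := by
    intro A hA hsep
    refine Finset.mem_filter.2 ⟨Finset.mem_powerset.2 ?_, separates_filter T hE hDE hsep⟩
    exact Finset.filter_subset_filter _ hA
  have hne : SS.Nonempty := by
    obtain ⟨A, hA, hsep, _⟩ := h (fun _ => 0) (fun _ => le_rfl)
    exact ⟨_, key A hA hsep⟩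
  have hsub : ∀ s ∈ SS, s ⊆ X := fun s hs => Finset.mem_powerset.1 (Finset.mem_filter.1 hs).1
  obtain ⟨w, hw0, _, hw1, hw2⟩ := Dual.exists_prob X SS hne hsub (1 / L) (by positivity) (by
    intro ρ hρ hadm
    obtain ⟨A, hA, hsep, hle⟩ := h (fun k => if k ∈ X then ρ k else 0)
      (fun k => by split_ifs; exacts [hρ k, le_rfl])
    have h1 := hadm _ (key A hA hsep)
    have h2 : ∑ k ∈ A.filter (fun k => (T.U k ∩ closure Eᶜ).Nonempty), ρ k ≤
        ∑ k ∈ A, if k ∈ X then ρ k else 0 := by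
      rw [Finset.sum_filter]
      refine Finset.sum_le_sum fun k hk => ?_
      by_cases hk2 : (T.U k ∩ closure Eᶜ).Nonempty
      · have : k ∈ X := (hmX k).2 ⟨hA hk, hk2⟩
        rw [if_pos hk2, if_pos this]
      · rw [if_neg hk2]
        split_ifs
        exacts [hρ k, le_rfl]
    have h3 : ∑ k ∈ S.sph m, (if k ∈ X then ρ k else 0) ^ 2 = ∑ k ∈ X, ρ k ^ 2 := by
      have h5 : ∑ k ∈ X, ρ k ^ 2 = ∑ k ∈ S.sph m, if (T.U k ∩ closure Eᶜ).Nonempty then
          ρ k ^ 2 else 0 := by rw [hX, Finset.sum_filter]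
      rw [h5]
      refine Finset.sum_congr rfl fun k hk => ?_
      by_cases hk2 : (T.U k ∩ closure Eᶜ).Nonempty
      · rw [if_pos ((hmX k).2 ⟨hk, hk2⟩), if_pos hk2]
      · rw [if_neg (fun h => hk2 ((hmX k).1 h).2), if_neg hk2]
        simp
    rw [h3] at hle
    have h4 : (1 : ℝ) ≤ (∑ k ∈ A, if k ∈ X then ρ k else 0) ^ 2 := by
      have := h1.trans h2
      nlinarith
    rw [div_le_iff₀ hL]
    nlinarith)
  refine ⟨Dual.pm SS w, fun k => Dual.pm_nonneg hw0 k, ?_, ?_⟩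
  · simpa using hw2
  · intro S' hS' hmeet
    refine Dual.one_le_of_meets SS w hw0 hw1 S' ?_
    intro s hs
    exact hmeet s (hsub s hs) (Finset.mem_filter.1 hs).2

end Crest.Agent.R193.M5_Dual
end
end

-- ▼ part R193/M5_Main

/-!
# R193, block M5 (helper578): the packing inequality (*)
-/

set_option autoImplicit false

open MeasureTheory Set Filter Topology

namespace Crest.Agent.R193.M5

open Crest.Agent.R193 Crest.Agent.R193.M4 Crest.Agent.R193.M5E

/-! ### measure lemmas -/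

theorem volume_cth (J : Set ℝ) (hJ : IsCompact J) {τ : ℝ} (hτ : 0 < τ) :
    ∀ᶠ e in 𝓝[>] (0 : ℝ), volume (Metric.cthickening (10 * e) J \ J) ≤ ENNReal.ofReal τ := by
  have hfin : volume J ≠ ⊤ := hJ.measure_lt_top.ne
  have h1 : Tendsto (fun r => volume (Metric.cthickening r J)) (𝓝 0) (𝓝 (volume J)) :=
    tendsto_measure_cthickening_of_isClosed ⟨1, one_pos, hJ.cthickening.measure_lt_top.ne⟩
      hJ.isClosed
  have h2 : Tendsto (fun e : ℝ => 10 * e) (𝓝[>] 0) (𝓝 0) := by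
    have h3 : Tendsto (fun e : ℝ => 10 * e) (𝓝 0) (𝓝 (10 * 0)) := tendsto_id.const_mul 10
    rw [mul_zero] at h3
    exact h3.mono_left nhdsWithin_le_nhds
  have h4 := h1.comp h2
  have h5 : volume J < volume J + ENNReal.ofReal τ :=
    ENNReal.lt_add_right hfin (by simpa using hτ)
  filter_upwards [h4.eventually (gt_mem_nhds h5)] with e he
  rw [measure_sdiff (Metric.self_subset_cthickening J) hJ.measurableSet.nullMeasurableSet hfin]
  rw [tsub_le_iff_left]
  exact he.le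

theorem volume_biUnion_le {ι : Type*} (s : Finset ι) (B : ι → Set ℝ) (τ : ENNReal)
    (h : ∀ i ∈ s, volume (B i) ≤ τ) : volume (⋃ i ∈ s, B i) ≤ s.card * τ := by
  refine (measure_biUnion_finset_le _ _).trans ((Finset.sum_le_sum h).trans (le_of_eq ?_))
  rw [Finset.sum_const, nsmul_eq_mul]

theorem endpoints {A : Set ℝ} (hA : IsCompact A) (hne : A.Nonempty) :
    ∃ a b : ℝ, ∀ e : ℝ, ∀ t ∈ A, t ∉ Icc a (a + e) → t ∉ Icc (b - e) b →
      (∃ x ∈ A, x + e < t) ∧ ∃ y ∈ A, t < y - e := by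
  obtain ⟨a, ha⟩ := hA.exists_isLeast hne
  obtain ⟨b, hb⟩ := hA.exists_isGreatest hne
  refine ⟨a, b, ?_⟩
  intro e t ht h1 h2
  constructor
  · refine ⟨a, ha.1, ?_⟩
    by_contra hcon
    exact h1 ⟨ha.2 ht, not_lt.1 hcon⟩
  · refine ⟨b, hb.1, ?_⟩
    by_contra hcon
    exact h2 ⟨not_lt.1 hcon, hb.2 ht⟩

theorem sq_le_of_key {X R c : ℝ} (hX : 0 ≤ X) (hc : 0 ≤ c)
    (key : ∀ τ : ℝ, 0 < τ → ∃ y : ℝ, 0 ≤ y ∧ y ^ 2 ≤ R ∧ X ≤ y + c * τ) : X ^ 2 ≤ R := by
  have hR0 : 0 ≤ R := by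
    obtain ⟨y, _, hy, _⟩ := key 1 one_pos
    exact (sq_nonneg y).trans hy
  have hle : X ≤ Real.sqrt R := by
    refine le_of_forall_pos_le_add (fun ε hε => ?_)
    have hK : 0 < c + 1 := by linarith
    obtain ⟨y, _, hy2, hy3⟩ := key (ε / (c + 1)) (div_pos hε hK)
    have h1 : y ≤ Real.sqrt R := Real.le_sqrt_of_sq_le hy2
    have h2 : c * (ε / (c + 1)) ≤ ε := by
      rw [mul_div_assoc', div_le_iff₀ hK]
      nlinarith
    linarith
  calc X ^ 2 ≤ (Real.sqrt R) ^ 2 := pow_le_pow_left₀ hX hle 2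
    _ = _ := Real.sq_sqrt hR0

section mc
variable {G Z : Type*} [Group G] [MulAction G Z]

theorem measurable_mcount (w : Z → ℝ) (Tm : Set Z) (Γ : Finset G) (near : G → Prop) (g : G)
    (h : ∀ g2 ∈ Γ, ¬ near (g * g2⁻¹) → MeasurableSet {t | ∃ z ∈ Tm, w ((g * g2⁻¹) • z) = t}) :
    Measurable (fun t => mcount w Tm Γ near g t) := by
  classical
  have h1 : (fun t => mcount w Tm Γ near g t) = fun t => ∑ g2 ∈ Γ,
      (if near (g * g2⁻¹) then (1 : ℝ) else
        {t | ∃ z ∈ Tm, w ((g * g2⁻¹) • z) = t}.indicator (fun _ => (1 : ℝ)) t) := by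
    funext t
    unfold mcount
    rw [Finset.card_filter]
    push_cast
    refine Finset.sum_congr rfl (fun g2 _ => ?_)
    by_cases h2 : near (g * g2⁻¹)
    · simp [h2]
    · by_cases h3 : ∃ z ∈ Tm, w ((g * g2⁻¹) • z) = t
      · rw [if_pos (Or.inr h3), if_neg h2, Set.indicator_of_mem
          (s := {t | ∃ z ∈ Tm, w ((g * g2⁻¹) • z) = t}) (a := t) h3 (fun _ => (1 : ℝ))]
      · rw [if_neg (not_or.2 ⟨h2, h3⟩), if_neg h2, Set.indicator_of_notMem
          (s := {t | ∃ z ∈ Tm, w ((g * g2⁻¹) • z) = t}) (a := t) h3 (fun _ => (1 : ℝ))]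
  rw [h1]
  refine Finset.measurable_sum Γ (fun g2 hg2 => ?_)
  by_cases h2 : near (g * g2⁻¹)
  · simp only [h2, if_true]
    exact measurable_const
  · simp only [h2, if_false]
    exact measurable_const.indicator (h g2 hg2 h2)

end mc

variable {G Z : Type} [Group G] [MetricSpace Z] [MulAction G Z] {S : Setup G Z}

/-- the constant of the packing inequality -/
noncomputable def C1 (T : Tiles S) (P : Rec T) : ℝ :=
  (M5_Count.N1c T P.R1 : ℝ) * ((M5_Count.N2c T P.R1 : ℝ) * (2 * Dg T * P.C))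

set_option maxHeartbeats 1600000 in
open Classical in
/-- **Packing inequality (*)**, limit form. -/
theorem packing (T : Tiles S) (Φ : Z ≃ₜ S2) (P : Rec T) (Λ : Lim P) {K1 Tm : Set Z}
    (hTmc : IsClosed Tm) (hTm : P.χ.T ⊆ Tm) (hK1 : IsCompact K1) (hK1Q : K1 ⊆ P.χ.Qo)
    (hdisj : Disjoint K1 Tm) (j : ℕ) (i : P.ι) (Γ : Finset G) (I0 : ℕ) (hΓ : ∀ g ∈ Γ, S.len g = j)
    (hE : ∀ g ∈ Γ, ∀ y ∈ closure (((P.ψ i).E 2)ᶜ), g • y ∈ K1)
    (hEG : ∀ g ∈ Γ, closure (((P.ψ i).E 2)ᶜ) ⊆ S.Gd P.R1 g)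
    (hfar : ∀ g ∈ Γ, ∀ g2 ∈ Γ, I0 ≤ S.len (g * g2⁻¹) → ∀ y ∈ Tm, (g * g2⁻¹) • y ∈ K1)
    {Θ : Set ℝ} (hΘ : MeasurableSet Θ) (hΘ1 : Θ ⊆ Icc (1 / 4 : ℝ) (3 / 4)) {M : ℝ} (hM : 0 ≤ M) :
    (∑ g ∈ Γ, volume.real (Θ ∩ {t | ∃ y ∈ (P.ψ i).D 1, Λ.w (g • y) = t} ∩
      {t | mcount Λ.w Tm Γ (fun f => S.len f < I0) g t ≤ M})) ^ 2 ≤
      C1 T P * (2 * M + 1) * volume.real Θ := by
  have hcs : CompactSpace Z := Φ.symm.compactSpace
  have hLP : LocallyPathConnectedSpace Z := F_Sep3.locallyPathConnectedSpace_of_homeo Φ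
  have hne := Λ.ne
  have hΘfin : volume Θ ≠ ⊤ := ne_top_of_le_ne_top (by simp) (measure_mono hΘ1)
  have hΘ01 : Θ ⊆ Ico 0 1 := fun t ht => ⟨by linarith [(hΘ1 ht).1], by linarith [(hΘ1 ht).2]⟩
  set w := Λ.w with hw
  set near : G → Prop := fun f => S.len f < I0 with hnear
  set far : G × G → Prop := fun p => ¬ near (p.1 * p.2⁻¹) with hfardef
  -- compactness of the level sets involved
  set J : G × G → Set ℝ := fun p => {t | ∃ z ∈ Tm, w ((p.1 * p.2⁻¹) • z) = t} with hJ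
  set A : G → Set ℝ := fun g => {t | ∃ y ∈ (P.ψ i).D 1, w (g • y) = t} with hA
  have hJc : ∀ p ∈ Γ ×ˢ Γ, far p → IsCompact (J p) := by
    intro p hp hfp
    rw [Finset.mem_product] at hp
    have h1 : J p = (fun z => w ((p.1 * p.2⁻¹) • z)) '' Tm := rfl
    rw [h1]
    refine hTmc.isCompact.image_of_continuousOn ?_
    refine (Λ.cont).comp (S.cont _).continuousOn ?_
    intro z hz
    exact hK1Q (hfar p.1 hp.1 p.2 hp.2 (not_lt.1 hfp) z hz)
  have hAc : ∀ g ∈ Γ, IsCompact (A g) := by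
    intro g hg
    have h1 : A g = (fun z => w (g • z)) '' (P.ψ i).D 1 := rfl
    rw [h1]
    refine (isCompact_D _ _).image_of_continuousOn ?_
    refine (Λ.cont).comp (S.cont _).continuousOn ?_
    intro z hz
    exact hK1Q (hE g hg z (subset_closure (D_subset _ hz)))
  have hAne : ∀ g, (A g).Nonempty := by
    intro g
    obtain ⟨y, hy⟩ := D_nonempty (P.ψ i)
    exact ⟨_, y, hy, rfl⟩
  have hend : ∀ g ∈ Γ, ∃ ab : ℝ × ℝ, ∀ e : ℝ, ∀ t ∈ A g, t ∉ Icc ab.1 (ab.1 + e) →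
      t ∉ Icc (ab.2 - e) ab.2 → (∃ x ∈ A g, x + e < t) ∧ ∃ y ∈ A g, t < y - e := by
    intro g hg
    obtain ⟨a, b, h⟩ := endpoints (hAc g hg) (hAne g)
    exact ⟨(a, b), h⟩
  choose! ab hab using hend
  -- the sets in question
  set Ω : G → Set ℝ := fun g => Θ ∩ A g ∩ {t | mcount w Tm Γ near g t ≤ M} with hΩ
  have hΩm : ∀ g ∈ Γ, MeasurableSet (Ω g) := by
    intro g hg
    refine (hΘ.inter (hAc g hg).measurableSet).inter ?_
    refine measurableSet_le (measurable_mcount w Tm Γ near g ?_) measurable_const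
    intro g2 hg2 hn
    exact (hJc (g, g2) (Finset.mem_product.2 ⟨hg, hg2⟩) hn).measurableSet
  have hΩΘ : ∀ g, Ω g ⊆ Θ := fun g t ht => ht.1.1
  -- the key approximation statement
  have key : ∀ τ : ℝ, 0 < τ → ∃ y : ℝ, 0 ≤ y ∧ y ^ 2 ≤ C1 T P * (2 * M + 1) * volume.real Θ ∧
      ∑ g ∈ Γ, volume.real (Ω g) ≤ y + Γ.card * (((Γ ×ˢ Γ).card + Γ.card) * (2 * τ)) := by
    intro τ hτ
    -- choice of `e`
    have ev1 : ∀ᶠ e in 𝓝[>] (0 : ℝ), ∀ p ∈ Γ ×ˢ Γ, far p →
        volume (Metric.cthickening (10 * e) (J p) \ J p) ≤ ENNReal.ofReal τ := by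
      rw [Filter.eventually_all_finset]
      intro p hp
      by_cases hfp : far p
      · filter_upwards [volume_cth (J p) (hJc p hp hfp) hτ] with e he _
        exact he
      · exact Eventually.of_forall (fun e h => absurd h hfp)
    have ev2 : ∀ᶠ e in 𝓝[>] (0 : ℝ), e ≤ τ :=
      (Iic_mem_nhds hτ |> fun h => mem_nhdsWithin_of_mem_nhds h)
    have ev3 : ∀ᶠ e in 𝓝[>] (0 : ℝ), 0 < e := self_mem_nhdsWithin
    obtain ⟨e, he1, he2, he0⟩ := (ev1.and (ev2.and ev3)).exists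
    obtain ⟨K1', K2, hLev⟩ := eventually_lev T Φ P Λ hTm hK1 hK1Q hdisj j i Γ I0 hE hfar he0
    -- constants for fixed pairs
    have hK : ∀ f : G, ∃ N : ℕ, ∀ n : ℕ, ∀ h ∈ S.sph n, ∀ A : Finset G, A ⊆ S.sph n →
        ((∀ k ∈ A, ∃ x ∈ T.U k, f • x ∈ T.U h) ∨ (∀ k ∈ A, ∃ x ∈ T.U h, f • x ∈ T.U k)) →
        A.card ≤ N := fun f => M5_Count.exists_K T f
    choose Kf hKf using hK
    have ev4 : ∀ᶠ n in Λ.l, ∀ p ∈ Γ ×ˢ Γ,
        2 * (Kf (p.1 * p.2⁻¹) : ℝ) * (2 * Dg T * (P.C / P.L n)) / e ≤ τ := by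
      rw [Filter.eventually_all_finset]
      intro p _
      have h1 : Tendsto (fun n => 2 * (Kf (p.1 * p.2⁻¹) : ℝ) * (2 * Dg T * (P.C / P.L n)) / e)
          Λ.l (𝓝 (2 * (Kf (p.1 * p.2⁻¹) : ℝ) * (2 * Dg T * 0) / e)) := by
        refine Tendsto.div_const (Tendsto.const_mul _ (Tendsto.const_mul _ ?_)) _
        exact Tendsto.const_div_atTop Λ.tend _
      rw [mul_zero, mul_zero, zero_div] at h1
      exact (h1.eventually (gt_mem_nhds hτ)).mono (fun n hn => hn.le)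
    have ev5 : ∀ᶠ n in Λ.l, P.R1 + T.R + 2 * S.δ < ((n - j : ℕ) : ℝ) ∧ j ≤ n := by
      have h1 : Tendsto (fun n : ℕ => ((n - j : ℕ) : ℝ)) atTop atTop :=
        tendsto_natCast_atTop_atTop.comp (tendsto_sub_atTop_nat j)
      exact ((h1.eventually (eventually_gt_atTop _)).and (eventually_ge_atTop j)).filter_mono Λ.le
    obtain ⟨n, hL, hn4, ⟨hn5, hjn⟩, hnr⟩ := (hLev.and (ev4.and (ev5.and Λ.recs))).exists
    set u := P.u n with hu
    set V := T.V P.χ n with hV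
    set Pn := Pm P i (n - j) with hPn
    have hLpos : 0 < P.L n := lt_of_lt_of_le one_pos (P.one_le n)
    have hen : FG.en (T.gr P.χ n) (fun h => u (h : G)) ≤ P.C / P.L n := P.en_le n hnr
    -- exceptional sets
    set B : G × G → Set ℝ := fun p => if far p then
      {t | e ≤ tvar T.U V u P.χ.T (p.1 * p.2⁻¹) t} ∪ (Metric.cthickening (10 * e) (J p) \ J p)
      else ∅ with hB
    set C : G → Set ℝ := fun g => Icc (ab g).1 ((ab g).1 + e) ∪ Icc ((ab g).2 - e) (ab g).2 with hC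
    set BAD : Set ℝ := (⋃ p ∈ Γ ×ˢ Γ, B p) ∪ ⋃ g ∈ Γ, C g with hBAD
    have hBm : ∀ p ∈ Γ ×ˢ Γ, MeasurableSet (B p) := by
      intro p hp
      simp only [hB]
      split_ifs with h
      · refine (measurableSet_le measurable_const (measurable_tvar _)).union ?_
        exact Metric.isClosed_cthickening.measurableSet.diff (hJc p hp h).measurableSet
      · exact MeasurableSet.empty
    have hBADm : MeasurableSet BAD :=
      (Finset.measurableSet_biUnion _ hBm).union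
        (Finset.measurableSet_biUnion _ (fun g _ => measurableSet_Icc.union measurableSet_Icc))
    have hVsph : V ⊆ S.sph n := fun h hh => (T_Comp.mem_sph S).2 (Tiles.mem_V.1 hh).1
    have hτ2 : ENNReal.ofReal τ + ENNReal.ofReal τ = ENNReal.ofReal (2 * τ) := by
      rw [← ENNReal.ofReal_add hτ.le hτ.le]; congr 1; ring
    have hBv : ∀ p ∈ Γ ×ˢ Γ, volume (B p) ≤ ENNReal.ofReal (2 * τ) := by
      intro p hp
      simp only [hB]
      split_ifs with h
      · refine (measure_union_le _ _).trans ?_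
        rw [← hτ2]
        refine add_le_add ?_ (he1 p hp h)
        have h1 := volume_exc_le (U := T.U) (V := V) (u := u) (T := P.χ.T) (p.1 * p.2⁻¹)
          (Kf (p.1 * p.2⁻¹) : ℝ) (2 * Dg T * (P.C / P.L n)) e (Nat.cast_nonneg _) he0 ?_ ?_ ?_
        · exact h1.trans (ENNReal.ofReal_le_ofReal (hn4 p hp))
        · intro h hh
          have := hKf (p.1 * p.2⁻¹) n h (hVsph hh) (M4.star T.U V (p.1 * p.2⁻¹) h)
            (fun k hk => hVsph (mem_star.1 hk).1) (Or.inl (fun k hk => (mem_star.1 hk).2))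
          exact_mod_cast this
        · intro k hk
          have := hKf (p.1 * p.2⁻¹) n k (hVsph hk)
            (V.filter (fun h => k ∈ M4.star T.U V (p.1 * p.2⁻¹) h))
            (fun h hh => hVsph (Finset.mem_filter.1 hh).1)
            (Or.inr (fun h hh => (mem_star.1 (Finset.mem_filter.1 hh).2).2))
          exact_mod_cast this
        · refine (sum_dlt_sq_le T P.χ n u).trans ?_
          exact mul_le_mul_of_nonneg_left hen (by positivity)
      · simp
    have hCv : ∀ g ∈ Γ, volume (C g) ≤ ENNReal.ofReal (2 * τ) := by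
      intro g _
      refine (measure_union_le _ _).trans ?_
      rw [Real.volume_Icc, Real.volume_Icc, ← hτ2]
      exact add_le_add (ENNReal.ofReal_le_ofReal (by linarith))
        (ENNReal.ofReal_le_ofReal (by linarith))
    have hBADv : volume BAD ≤ ENNReal.ofReal (((Γ ×ˢ Γ).card + Γ.card) * (2 * τ)) := by
      refine (measure_union_le _ _).trans ((add_le_add (volume_biUnion_le _ _ _ hBv)
        (volume_biUnion_le _ _ _ hCv)).trans (le_of_eq ?_))
      rw [← add_mul, ENNReal.ofReal_mul (p := ((Γ ×ˢ Γ).card : ℝ) + Γ.card) (by positivity),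
        ENNReal.ofReal_add (Nat.cast_nonneg _) (Nat.cast_nonneg _),
        ENNReal.ofReal_natCast, ENNReal.ofReal_natCast]
    have hBADr : volume.real BAD ≤ ((Γ ×ˢ Γ).card + Γ.card) * (2 * τ) :=
      ENNReal.toReal_le_of_le_ofReal (by positivity) hBADv
    -- the good part
    set Θg : G → Set ℝ := fun g => Ω g \ BAD with hΘg
    obtain ⟨μ, hμ0, hμ2, hμ1⟩ := M5_Dual.exists_mu T hLpos (isClosed_E (P.ψ i) 2)
      (disjoint_DE (P.ψ i)) (P.sep i (n - j) n (Nat.sub_le n j))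
    have hPneq : Pn = (S.sph (n - j)).filter
        (fun h => (T.U h ∩ closure ((P.ψ i).E 2)ᶜ).Nonempty) := by
      rw [hPn]; unfold Pm; congr
    rw [← hPneq] at hμ2 hμ1
    have hJmem : ∀ g ∈ Γ, ∀ g2 ∈ Γ, ¬ near (g * g2⁻¹) → ∀ t, t ∉ BAD →
        ¬ (e ≤ tvar T.U V u P.χ.T (g * g2⁻¹) t) ∧
        ((∃ z ∈ Tm, |w ((g * g2⁻¹) • z) - t| ≤ 10 * e) → ∃ z ∈ Tm, w ((g * g2⁻¹) • z) = t) := by
      intro g hg g2 hg2 hn t ht
      have hp : (g, g2) ∈ Γ ×ˢ Γ := Finset.mem_product.2 ⟨hg, hg2⟩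
      have hfp : far (g, g2) := hn
      have ht2 : t ∉ B (g, g2) := fun h => ht (Or.inl (by
        simp only [mem_iUnion, exists_prop]
        exact ⟨(g, g2), hp, h⟩))
      simp only [hB, if_pos hfp] at ht2
      constructor
      · exact fun h => ht2 (Or.inl h)
      · rintro ⟨z, hz, hle⟩
        by_contra hcon
        refine ht2 (Or.inr ⟨?_, hcon⟩)
        refine Metric.mem_cthickening_of_dist_le t (w ((g * g2⁻¹) • z)) _ _ ⟨z, hz, rfl⟩ ?_
        rw [Real.dist_eq, abs_sub_comm]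
        exact hle
    have hpack := hL.packing μ Θ Θg M (M5_Count.N1c T P.R1) (M5_Count.N2c T P.R1)
      (2 * Dg T * (P.C / P.L n) * volume.real Θ) hM (Nat.cast_nonneg _) (Nat.cast_nonneg _) hΘfin
      (fun g _ t ht => hΩΘ g ht.1) (fun g hg => (hΩm g hg).diff hBADm)
      (fun t ht => reach_of_M3 T Φ P hnr (hΘ01 ht).1 (hΘ01 ht).2)
      (fun g _ t ht => ht.1.2) ?_ ?_ ?_ ?_ ?_ ?_ ?_
    · refine ⟨∑ g ∈ Γ, volume.real (Θg g), Finset.sum_nonneg (fun _ _ => measureReal_nonneg),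
        ?_, ?_⟩
      · refine hpack.trans ?_
        have hfac : (0 : ℝ) ≤ (2 * M + 1) * ((M5_Count.N1c T P.R1 : ℝ) *
            ((M5_Count.N2c T P.R1 : ℝ) * (2 * Dg T * (P.C / P.L n) * volume.real Θ))) := by
          have h1 := P.C_pos
          have h2 : 0 ≤ volume.real Θ := measureReal_nonneg
          positivity
        refine (mul_le_mul_of_nonneg_right hμ2 hfac).trans (le_of_eq ?_)
        unfold C1
        field_simp
      · have h1 : ∀ g ∈ Γ, volume.real (Ω g) ≤ volume.real (Θg g) +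
            ((Γ ×ˢ Γ).card + Γ.card) * (2 * τ) := by
          intro g hg
          have h2 : Ω g ⊆ Θg g ∪ BAD := by
            intro t ht
            by_cases h3 : t ∈ BAD
            · exact Or.inr h3
            · exact Or.inl ⟨ht, h3⟩
          have hfin2 : volume (Θg g ∪ BAD) ≠ ⊤ := by
            refine ne_top_of_le_ne_top ?_ (measure_union_le _ _)
            refine ENNReal.add_ne_top.2 ⟨?_, ?_⟩
            · exact ne_top_of_le_ne_top hΘfin (measure_mono (fun t ht => hΩΘ g ht.1))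
            · exact ne_top_of_le_ne_top ENNReal.ofReal_ne_top hBADv
          exact (measureReal_mono h2 hfin2).trans ((measureReal_union_le _ _).trans
            (by linarith))
        refine (Finset.sum_le_sum h1).trans (le_of_eq ?_)
        rw [Finset.sum_add_distrib, Finset.sum_const, nsmul_eq_mul]
    · -- hin
      intro g hg t ht
      have htA : t ∈ A g := ht.1.1.2
      have htC : t ∉ C g := fun h => ht.2 (Or.inr (by
        simp only [mem_iUnion, exists_prop]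
        exact ⟨g, hg, h⟩))
      obtain ⟨⟨x, ⟨x', hx', rfl⟩, hx⟩, y, ⟨y', hy', rfl⟩, hy⟩ := hab g hg e t htA
        (fun h => htC (Or.inl h)) (fun h => htC (Or.inr h))
      exact ⟨⟨x', hx', hx⟩, y', hy', hy⟩
    · -- hex1
      intro g hg g2 hg2 hn g' _ t ht
      exact (not_le.1 (hJmem g hg g2 hg2 hn t ht.2).1).le
    · -- hex2
      intro g hg g2 hg2 hn g' _ t ht
      exact (hJmem g hg g2 hg2 hn t ht.2).2
    · -- hadm
      intro S' hS' hsep
      exact hμ1 S' hS' hsep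
    · -- hN1
      intro g hg h' hh'
      obtain ⟨hlen, x, hx, hxE⟩ := mem_Pm.1 hh'
      have h1 := M5_Count.N1 T (R := P.R1) (g := g) (h' := h') (by rw [hlen]; exact hn5)
        ⟨x, hx, hEG g hg hxE⟩ (A := V.filter (fun h => ∃ x ∈ T.U h', g • x ∈ T.U h)) ?_
      · exact_mod_cast h1
      · intro h hh
        obtain ⟨hhV, hh2⟩ := Finset.mem_filter.1 hh
        refine ⟨?_, hh2⟩
        rw [(Tiles.mem_V.1 hhV).1, hΓ g hg, hlen]
        omega
    · -- hN2
      intro h hh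
      have h1 := M5_Count.N2 T (R := P.R1) (j := j) (m := n - j) hn5 (h := h)
        (by rw [(Tiles.mem_V.1 hh).1]; omega) (Γ := Γ) hΓ
        (A := fun g => Pn.filter (fun h' => ∃ x ∈ T.U h', g • x ∈ T.U h)) ?_
      · exact_mod_cast h1
      · intro g hg h' hh'
        obtain ⟨h2, h3⟩ := Finset.mem_filter.1 hh'
        obtain ⟨hlen, x, hx, hxE⟩ := mem_Pm.1 h2
        exact ⟨hlen, ⟨x, hx, hEG g hg hxE⟩, h3⟩
    · -- hΦ
      refine (sum_leaf_sq_le T P.χ n u (P.sol n hnr) hΘ hΘ01).trans ?_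
      refine mul_le_mul_of_nonneg_right ?_ measureReal_nonneg
      exact mul_le_mul_of_nonneg_left hen (by positivity)
  -- let `τ → 0`
  have hX0 : 0 ≤ ∑ g ∈ Γ, volume.real (Ω g) := Finset.sum_nonneg (fun _ _ => measureReal_nonneg)
  refine sq_le_of_key (c := Γ.card * (((Γ ×ˢ Γ).card + Γ.card) * 2)) hX0 (by positivity) ?_
  intro τ hτ
  obtain ⟨y, hy0, hy2, hy3⟩ := key τ hτ
  refine ⟨y, hy0, hy2, hy3.trans (le_of_eq ?_)⟩
  ring

end Crest.Agent.R193.M5
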