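import Mathlib
import Crest.Agent.R193.Defs
import Crest.Agent.R193.M_Defs
import Crest.Agent.R193.M2_Level_Mg
import Crest.Agent.R193.M5_Main
import Crest.Agent.R193.M7_Glue
import Crest.Agent.R193.D56_Pair
import Crest.Agent.R193.GEO_Levels
import Crest.Agent.R193.OSC
import Crest.Agent.R193.D3b1
import Crest.Agent.R193.D_Defs
import Crest.Agent.R193.P_Comp
import Crest.Agent.R193.D_Inputs
import Crest.Agent.R193.E_Main_Mg
import Crest.Agent.R193.T_Comp
import Crest.Agent.R193.M_Asm_Mg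

-- ▼ part R193/M2_Main
section

/-!
# R193, block M2: records produce a limit function (`Lim`)

From `M2_Lim.exists_limit` (helper818) and `M2_Level.low` (helper878).
-/

set_option autoImplicit false

noncomputable section

open Set Filter Topology MeasureTheory

namespace Crest.Agent.R193.M2_Main

open Crest.Agent.R193 M2_Equi

variable {G Z : Type} [Group G] [MetricSpace Z] [MulAction G Z] {S : Setup G Z} {T : Tiles S}

theorem mid_mem_Qs (χ : Chart Z) {a : ℝ} (ha : a ∈ Icc (0 : ℝ) 1) : χ.f (a, 1 / 2) ∈ Qs χ :=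
  ⟨(a, 1 / 2), ⟨ha, by norm_num, by norm_num⟩, rfl⟩

theorem M2 (Φ : Z ≃ₜ S2) (P : Rec T) : Nonempty (Lim P) := by
  classical
  obtain ⟨l, w, hl1, hl2, hl3, hrng, hcont, hleft, hright, hunif⟩ := M2_Lim.exists_limit Φ P
  have hsub : P.χ.Qo ⊆ Qs P.χ := image_mono (prod_mono Ioo_subset_Icc_self Subset.rfl)
  -- two points on the midline
  have hf : ContinuousOn (fun a : ℝ => w (P.χ.f (a, 1 / 2))) (Icc 0 1) := by
    refine hcont.comp ?_ (fun a ha => mid_mem_Qs P.χ ha)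
    exact (P.χ.emb.continuous.comp (by fun_prop)).continuousOn
  have hf0 : w (P.χ.f (0, 1 / 2)) = 0 := hleft _ ⟨by norm_num, by norm_num⟩
  have hf1 : w (P.χ.f (1, 1 / 2)) = 1 := hright _ ⟨by norm_num, by norm_num⟩
  have hex0 : ∃ a ∈ Ioo (0 : ℝ) (1 / 2), w (P.χ.f (a, 1 / 2)) < 1 / 4 := by
    have h0 : ContinuousWithinAt (fun a : ℝ => w (P.χ.f (a, 1 / 2))) (Icc 0 1) 0 :=
      hf 0 ⟨le_rfl, zero_le_one⟩
    have h1 : ∀ᶠ a in 𝓝[Icc 0 1] (0 : ℝ), w (P.χ.f (a, 1 / 2)) < 1 / 4 := by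
      refine h0.eventually_lt_const ?_
      show w (P.χ.f (0, 1 / 2)) < 1 / 4
      rw [hf0]; norm_num
    have h2 : ∀ᶠ a in 𝓝[>] (0 : ℝ), w (P.χ.f (a, 1 / 2)) < 1 / 4 := by
      have h3 : 𝓝[>] (0 : ℝ) ≤ 𝓝[Icc 0 1] (0 : ℝ) := by
        rw [← nhdsWithin_Ioo_eq_nhdsGT (zero_lt_one (α := ℝ))]
        exact nhdsWithin_mono _ Ioo_subset_Icc_self
      exact h3 h1
    have h4 : ∀ᶠ a in 𝓝[>] (0 : ℝ), a ∈ Ioo (0 : ℝ) (1 / 2) :=
      Ioo_mem_nhdsGT (by norm_num)
    obtain ⟨a, ha⟩ := (h2.and h4).exists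
    exact ⟨a, ha.2, ha.1⟩
  have hex1 : ∃ b ∈ Ioo (1 / 2 : ℝ) 1, 3 / 4 < w (P.χ.f (b, 1 / 2)) := by
    have h0 : ContinuousWithinAt (fun a : ℝ => w (P.χ.f (a, 1 / 2))) (Icc 0 1) 1 :=
      hf 1 ⟨zero_le_one, le_rfl⟩
    have h1 : ∀ᶠ a in 𝓝[Icc 0 1] (1 : ℝ), 3 / 4 < w (P.χ.f (a, 1 / 2)) := by
      refine h0.eventually_const_lt ?_
      show 3 / 4 < w (P.χ.f (1, 1 / 2))
      rw [hf1]; norm_num
    have h2 : ∀ᶠ a in 𝓝[<] (1 : ℝ), 3 / 4 < w (P.χ.f (a, 1 / 2)) := by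
      have h3 : 𝓝[<] (1 : ℝ) ≤ 𝓝[Icc 0 1] (1 : ℝ) := by
        rw [← nhdsWithin_Ioo_eq_nhdsLT (zero_lt_one (α := ℝ))]
        exact nhdsWithin_mono _ Ioo_subset_Icc_self
      exact h3 h1
    have h4 : ∀ᶠ a in 𝓝[<] (1 : ℝ), a ∈ Ioo (1 / 2 : ℝ) 1 :=
      Ioo_mem_nhdsLT (by norm_num)
    obtain ⟨a, ha⟩ := (h2.and h4).exists
    exact ⟨a, ha.2, ha.1⟩
  obtain ⟨a, ha, hwa⟩ := hex0
  obtain ⟨b, hb, hwb⟩ := hex1
  -- the limit function, extended by zero
  set w' : Z → ℝ := P.χ.Qo.indicator w with hw'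
  have hw'eq : ∀ x ∈ P.χ.Qo, w' x = w x := fun x hx => indicator_of_mem hx w
  have hmid : ∀ a ∈ Ioo (0 : ℝ) 1, P.χ.f (a, 1 / 2) ∈ P.χ.Qo := fun a ha =>
    ⟨(a, 1 / 2), ⟨ha, by norm_num, by norm_num⟩, rfl⟩
  have hcont' : ContinuousOn w' P.χ.Qo := (hcont.mono hsub).congr hw'eq
  have hunif' : ∀ K : Set Z, IsCompact K → K ⊆ P.χ.Qo → ∀ e > 0, ∀ᶠ n in (l : Filter ℕ),
      ∀ h ∈ T.V P.χ n, ∀ y ∈ T.U h ∩ K, |P.u n h - w' y| ≤ e := by
    intro K hK hKQ e he
    filter_upwards [hunif K hK (hKQ.trans hsub) e he] with n hn h hh y hy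
    rw [hw'eq y (hKQ hy.2)]
    exact hn h hh y hy
  obtain ⟨s0, hs0, hs1, hlow⟩ := M2_Level.low T Φ P (l : Filter ℕ) hl1 hl2 w' hcont' hunif'
    (a := a) (b := b) ha.1 (ha.2.trans hb.1) hb.2
    (by rw [hw'eq _ (hmid a ⟨ha.1, by linarith [ha.2]⟩)]; exact hwa)
    (by rw [hw'eq _ (hmid b ⟨by linarith [hb.1], hb.2⟩)]; exact hwb)
  refine ⟨{ l := (l : Filter ℕ), ne := inferInstance, le := hl1, recs := hl2, tend := hl3,
            w := w', rng := ?_, cont := hcont', off := ?_, unif := hunif',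
            s0 := s0, s0_pos := hs0, s0_lt := hs1, low := hlow }⟩
  · intro x
    by_cases hx : x ∈ P.χ.Qo
    · rw [hw'eq x hx]; exact hrng x
    · rw [hw', indicator_of_notMem hx]; exact ⟨le_rfl, zero_le_one⟩
  · intro x hx
    rw [hw', indicator_of_notMem hx]

theorem M2_main (T : Tiles S) (Φ : Z ≃ₜ S2) : ∀ P : Rec T, Nonempty (Lim P) := fun P => M2 Φ P

end Crest.Agent.R193.M2_Main
end
end

-- ▼ part R193/M5_Out
section

/-!
# R193, block M5 (helper578): the packing inequality in the form consumed by `M7_Glue`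
-/

set_option autoImplicit false

open MeasureTheory Set Filter Topology

namespace Crest.Agent.R193.M5

open Crest.Agent.R193

variable {G Z : Type} [Group G] [MetricSpace Z] [MulAction G Z] {S : Setup G Z}

/-- **M5.** -/
theorem m5out {T : Tiles S} (Φ : Z ≃ₜ S2) (P : Rec T) (Λ : Lim P) : M7_Glue.M5Out P Λ := by
  intro K1 Tm hTmc hTm hK1 hK1Q hdisj
  refine ⟨C1 T P, ?_⟩
  intro j i Γ I0 hΓ hE hfar Θ hΘ hΘ1 M hM
  have h := packing T Φ P Λ hTmc (hTm.trans interior_subset) hK1 hK1Q hdisj j i Γ I0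
    (fun g hg => (T_Comp.mem_sph S).1 (hΓ hg)) (fun g hg => (hE g hg).1)
    (fun g hg => (hE g hg).2) hfar hΘ hΘ1 hM
  have hmc : ∀ g t, mcount Λ.w Tm Γ (fun f => S.len f < I0) g t =
      (M7_Glue.mc S Λ.w Tm Γ I0 g t : ℝ) := by
    intro g t
    unfold mcount M7_Glue.mc
    norm_cast
    congr
  simp only [hmc] at h
  exact h

end Crest.Agent.R193.M5
end

-- ▼ part R193/D56_Main
section

/-!
# R193, block D5 + D6: the output (a non-constant conformal pair off a point)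
-/

set_option autoImplicit false

noncomputable section

open Set Filter Topology MeasureTheory

namespace Crest.Agent.R193.D56_Main

open Crest.Agent.R193 Crest.Agent.R193.D56_Basic Crest.Agent.R193.D56_Geo
  Crest.Agent.R193.D56_Sel Crest.Agent.R193.D56_Blow

variable {G Z : Type} [Group G] [MetricSpace Z] [MulAction G Z] {S : Setup G Z}

/-- the geometry -/
def geo (S : Setup G Z) [CompactSpace Z] (Φ : Z ≃ₜ S2) : Geo G Z where
  lev := S.sph
  Sh := GEO_Levels.Shc S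
  isClosed := GEO_Levels.isClosed_Shc S
  sub := GEO_Levels.Shc_subset_interior S
  cover := fun n x => GEO_Levels.cover_Shc S x n
  val := fun R => Classical.choose (GEO_Levels.overlap_Shc S R)
  card_le := fun R n g hg => by
    classical
    refine le_trans (le_of_eq ?_) (Classical.choose_spec (GEO_Levels.overlap_Shc S R) n g hg)
    congr 1
    ext h
    rw [Finset.mem_filter, Finset.mem_filter, inter_comm]
  small := fun R ε hε => by
    obtain ⟨N, hN⟩ := GEO_Levels.diam_Shc S R ε hε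
    exact ⟨N, fun n hn g hg => hN g (by rw [(GEO_Levels.mem_sph S).1 hg]; exact hn)⟩
  pole := fun ω g n hn hg => by
    obtain ⟨a, h1, h2⟩ := GEO_Levels.exists_pole_Shc S ω g (by
      refine hn.congr (fun k => ?_)
      exact ((GEO_Levels.mem_sph S).1 (hg k)).symm)
    exact ⟨a, fun K hK ha => h1 K hK.isClosed ha, h2⟩
  conn := fun a => (GEO_Levels.compl_singleton_connected Φ a).isPreconnected

theorem oscGlob [CompactSpace Z] (Q : DForm S) (Φ : Z ≃ₜ S2) : OscGlob Q (geo S Φ) := by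
  obtain ⟨R1, C, hR1, hC, h⟩ := OSC.osc_Sh Q Φ (GEO_Levels.rad S 0 + S.δ)
  refine ⟨C + 1, ⌈R1⌉₊, 0, by linarith, fun n _ g _ u hu hm φ hφ hφ1 y hy z hz => ?_⟩
  have hsub : S.Sh R1 g ⊆ GEO_Levels.Shc S ⌈R1⌉₊ g :=
    (GEO_Levels.Sh_mono S ((Nat.le_ceil R1).trans (GEO_Levels.le_rad S _)) g).trans
      (GEO_Levels.Sh_subset_Shc S _ g)
  have h1 := h g _ hsub u hu hm φ hφ (fun y hy => (hφ1 y (hsub hy)).ge) y
    (GEO_Levels.Shc_subset_Sh S 0 g hy) z (GEO_Levels.Shc_subset_Sh S 0 g hz)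
  rw [sq_abs] at h1
  have h2 := Q.nonneg u hu φ hφ
  nlinarith

theorem oscLoc [LocallyConnectedSpace Z] (Q : DForm S) : OscLoc Q := by
  intro x O hO ε hε
  obtain ⟨N, hN, h⟩ := OSC.osc_nhds Q x O hO hε
  refine ⟨N, hN, fun u hu hm φ hφ hφ1 y hy z hz => ?_⟩
  have := h u hu hm φ hφ (fun y hy => (hφ1 y hy).ge) y hy z hz
  rwa [sq_abs] at this

/-- **output of D5 + D6**, with the approximation of the pair by rescalings of the original
functions -/
theorem outPair_approx (Q : DForm S) (Φ : Z ≃ₜ S2) :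
    ∃ (O : Set Z) (u1 u2 : C(Z, ℝ)), IsOpen O ∧ u1 ∈ Q.Dom ∧ u2 ∈ Q.Dom ∧
    (∀ a b : ℝ, MonoOn (fun x => a * u1 x + b * u2 x) O) ∧
    ∃ (a : Z) (F : Z → ℝ × ℝ),
    (∀ K : Set Z, IsCompact K → a ∉ K → ∃ O' : Set Z, IsOpen O' ∧ K ⊆ O' ∧ ∃ U V : C(Z, ℝ),
      ConfOn Q O' U V ∧ ∀ x ∈ O', F x = (U x, V x)) ∧
    (¬ ∃ c, ∀ x, x ≠ a → F x = c) ∧
    ∃ p q : ℝ, 0 < p ∧ ∀ K : Set Z, IsCompact K → a ∉ K → ∀ ε > 0, ∃ g : G,
      (∀ x ∈ K, g • x ∈ O) ∧ ∃ s c1 c2 : ℝ, 0 < s ∧ ∀ x ∈ K,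
        |s * (u1 (g • x) - c1) - (F x).1| ≤ ε ∧
        |p * (s * (u2 (g • x) - c2)) + q * (s * (u1 (g • x) - c1)) - (F x).2| ≤ ε := by
  haveI : CompactSpace Z := GEO_Levels.compactSpace_of_homeo Φ
  haveI : LocallyConnectedSpace Z := OSC.locConn Φ
  obtain ⟨O, X, u1, u2, hO, hX, hXO, h1, h2, hmono, hint⟩ := Q.pair
  have hvol : volume ((fun x => (u1 x, u2 x)) '' X) ≠ 0 := by
    intro h0
    have h3 := isOpen_interior.measure_pos (volume : Measure (ℝ × ℝ)) hint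
    exact h3.ne' (measure_mono_null interior_subset h0)
  obtain ⟨R1, θ, K, hθ, hsel⟩ := select (oscGlob Q Φ) h1 h2 hO hX hXO hmono hvol
  choose n hn g hg m b11 b12 b22 htyp using hsel
  have htend : Tendsto n (om : Filter ℕ) atTop :=
    (tendsto_atTop_mono hn tendsto_id).mono_left om_le
  obtain ⟨a, hp1, hp2⟩ := (geo S Φ).pole om g n htend hg
  obtain ⟨x0, hx0⟩ := (GEO_Levels.compl_singleton_connected Φ a).nonempty
  let B : BU Q (geo S Φ) u1 u2 O :=
    { R1 := R1, θ := θ, K := K, θ_pos := hθ, h1 := h1, h2 := h2, mono := hmono, osc := oscLoc Q,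
      n := n, g := g, m := m, b11 := b11, b12 := b12, b22 := b22, typ := htyp, a := a,
      pole1 := hp1, pole2 := hp2, x0 := x0, hx0 := hx0 }
  exact ⟨O, u1, u2, hO, h1, h2, hmono, D56_Pair.pair B⟩

/-- **output of D5 + D6** -/
theorem outPair (S : Setup G Z) (Q : DForm S) (Φ : Z ≃ₜ S2) : OutPair Q := by
  obtain ⟨O, u1, u2, -, -, -, -, a, F, h1, h2, -⟩ := outPair_approx Q Φ
  exact ⟨a, F, h1, h2⟩

end Crest.Agent.R193.D56_Main
end
end

-- ▼ part R193/D3b2
section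

/-!
# R193, block D3b: calculus over a `DForm` (helper666), part 2

Level sets carry no energy, strong locality, no atoms, cut-off functions for compact sets,
density of the domain, module Cauchy-Schwarz inequality.
-/

set_option autoImplicit false
set_option linter.unusedSectionVars false

open Set Filter Topology

namespace Crest.Agent.R193.D3b2

open Crest.Agent.R193 Crest.Agent.R193.D3b1

variable {G Z : Type} [Group G] [MetricSpace Z] [MulAction G Z] {S : Setup G Z}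
variable {Q : DForm S} {u v w u' v' : C(Z, ℝ)}

/-! ### cut-off functions -/

/-- combination of finitely many cut-offs -/
lemma exists_cutoff_finset {ι : Type*} (t : Finset ι) (c : ι → Z) (r : ι → ℝ)
    (hr : ∀ i ∈ t, 0 < r i ∧ r i ≤ Q.ρ0) :
    ∃ χ ∈ Q.Dom, (∀ y, 0 ≤ χ y ∧ χ y ≤ 1) ∧ (∀ i ∈ t, ∀ y, dist y (c i) ≤ r i → χ y = 1) ∧
      (∀ y, (∀ i ∈ t, Q.lam * r i ≤ dist y (c i)) → χ y = 0) := by
  classical
  induction t using Finset.induction_on with
  | empty =>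
    exact ⟨0, zero_mem Q, fun y => by simp, fun i hi => absurd hi (Finset.notMem_empty i),
      fun y _ => rfl⟩
  | insert a s ha ih =>
    obtain ⟨χ, hχ, h01, h1, h0⟩ := ih fun i hi => hr i (Finset.mem_insert_of_mem hi)
    obtain ⟨θ, hθ, g01, g1, g0, -⟩ := Q.cutoff (c a) (r a) (hr a (Finset.mem_insert_self _ _)).1
      (hr a (Finset.mem_insert_self _ _)).2
    refine ⟨χ + θ - χ * θ, sub_mem (add_mem hχ hθ) (mul_mem hχ hθ), fun y => ?_, ?_, ?_⟩
    · have a1 := h01 y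
      have a2 := g01 y
      simp only [ContinuousMap.sub_apply, ContinuousMap.add_apply, ContinuousMap.mul_apply]
      constructor
      · nlinarith [mul_nonneg a1.1 a2.1, mul_nonneg a1.1 (sub_nonneg.2 a2.2)]
      · nlinarith [mul_nonneg (sub_nonneg.2 a1.2) (sub_nonneg.2 a2.2)]
    · intro i hi y hy
      simp only [ContinuousMap.sub_apply, ContinuousMap.add_apply, ContinuousMap.mul_apply]
      rcases Finset.mem_insert.1 hi with rfl | hi
      · rw [g1 y hy]; ring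
      · rw [h1 i hi y hy]; ring
    · intro y hy
      simp only [ContinuousMap.sub_apply, ContinuousMap.add_apply, ContinuousMap.mul_apply]
      rw [g0 y (hy a (Finset.mem_insert_self _ _)),
        h0 y (fun i hi => hy i (Finset.mem_insert_of_mem hi))]
      ring

/-- **cut-off functions** for a compact set in an open set -/
theorem exists_cutoff (Q : DForm S) {K O : Set Z} (hK : IsCompact K) (hO : IsOpen O)
    (hKO : K ⊆ O) :
    ∃ χ ∈ Q.Dom, (∀ y, 0 ≤ χ y ∧ χ y ≤ 1) ∧ (∃ U : Set Z, IsOpen U ∧ K ⊆ U ∧ ∀ y ∈ U, χ y = 1) ∧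
      tsupport χ ⊆ O := by
  have hlam : 0 < Q.lam := lt_trans one_pos Q.one_lt_lam
  have hx : ∀ x ∈ K, ∃ r : ℝ, 0 < r ∧ r ≤ Q.ρ0 ∧ Metric.closedBall x (Q.lam * r) ⊆ O := by
    intro x hx
    obtain ⟨ε, hε, hb⟩ := Metric.isOpen_iff.1 hO x (hKO hx)
    refine ⟨min Q.ρ0 (ε / (2 * Q.lam)), lt_min Q.ρ0_pos (by positivity), min_le_left _ _, ?_⟩
    refine Subset.trans (Metric.closedBall_subset_ball ?_) hb
    calc Q.lam * min Q.ρ0 (ε / (2 * Q.lam)) ≤ Q.lam * (ε / (2 * Q.lam)) := by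
          gcongr; exact min_le_right _ _
      _ = ε / 2 := by field_simp
      _ < ε := by linarith
  choose! r hr0 hrρ hrO using hx
  obtain ⟨t, htK, ht⟩ := hK.elim_nhds_subcover (fun x => Metric.ball x (r x))
    (fun x hx => Metric.ball_mem_nhds x (hr0 x hx))
  obtain ⟨χ, hχ, h01, h1, h0⟩ := exists_cutoff_finset (Q := Q) t id r
    (fun i hi => ⟨hr0 i (htK i hi), hrρ i (htK i hi)⟩)
  refine ⟨χ, hχ, h01, ⟨⋃ x ∈ t, Metric.ball x (r x), isOpen_biUnion fun x _ => Metric.isOpen_ball,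
    ht, ?_⟩, ?_⟩
  · intro y hy
    simp only [mem_iUnion, exists_prop] at hy
    obtain ⟨x, hxt, hyx⟩ := hy
    exact h1 x hxt y (Metric.mem_ball.1 hyx).le
  · have hcl : IsClosed (⋃ x ∈ t, Metric.closedBall x (Q.lam * r x)) :=
      t.finite_toSet.isClosed_biUnion fun x _ => Metric.isClosed_closedBall
    refine (closure_minimal ?_ hcl).trans (iUnion₂_subset fun x hx => hrO x (htK x hx))
    intro y hy
    by_contra hcon
    apply hy
    apply h0
    intro i hi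
    by_contra hlt
    push Not at hlt
    apply hcon
    simp only [mem_iUnion, exists_prop]
    exact ⟨i, hi, Metric.mem_closedBall.2 hlt.le⟩

/-! ### level sets carry no energy -/

section compact

variable [CompactSpace Z]

/-- **Level sets carry no energy.** -/
theorem level_zero (hw : w ∈ Q.Dom) (c : ℝ) {ε : ℝ} (hε : 0 < ε) :
    ∃ θ : C(Z, ℝ), (∀ x, 0 < θ x ∧ θ x ≤ 1) ∧ (∀ x, w x = c → θ x = 1) ∧ Q.Γ w w θ ≤ ε := by
  obtain ⟨d, hd, hweak⟩ := weak hw (1 : C(Z, ℝ)) (Q.Γ w w 1) hε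
  -- the function `a * arctan ((t - c) / a)`
  set a : ℝ := d / 2 with ha
  have ha0 : 0 < a := half_pos hd
  set ψ : ℝ → ℝ := fun t => a * Real.arctan ((t - c) / a) with hψdef
  have hlin : ContDiff ℝ 2 (fun t : ℝ => (t - c) / a) :=
    (contDiff_id.sub contDiff_const).div_const a
  have hψ : ContDiff ℝ 2 ψ := contDiff_const.mul (Real.contDiff_arctan.comp hlin)
  have hderiv : ∀ t, deriv ψ t = 1 / (1 + ((t - c) / a) ^ 2) := by
    intro t
    have h1 : HasDerivAt (fun t : ℝ => (t - c) / a) (1 / a) t :=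
      ((hasDerivAt_id t).sub_const c).div_const a
    have h2 := (h1.arctan).const_mul a
    rw [show ψ = fun t => a * Real.arctan ((t - c) / a) from rfl, h2.deriv]
    field_simp
  set θ : C(Z, ℝ) := ⟨fun x => 1 / (1 + ((w x - c) / a) ^ 2), by
    refine continuous_const.div ?_ ?_
    · fun_prop
    · intro x; positivity⟩ with hθ
  set W : C(Z, ℝ) := ⟨fun x => ψ (w x), hψ.continuous.comp w.continuous⟩ with hW
  have hch := chain1 (Q := Q) hψ hw (w' := W) (d := θ) (fun x => rfl)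
    (fun x => by rw [hderiv]; rfl)
  have hθ01 : ∀ x, 0 < θ x ∧ θ x ≤ 1 := by
    intro x
    refine ⟨?_, ?_⟩
    · change 0 < 1 / (1 + ((w x - c) / a) ^ 2); positivity
    · change 1 / (1 + ((w x - c) / a) ^ 2) ≤ 1
      rw [div_le_one (by positivity)]
      linarith [sq_nonneg ((w x - c) / a)]
  refine ⟨θ, hθ01, fun x hx => ?_, ?_⟩
  · change 1 / (1 + ((w x - c) / a) ^ 2) = 1
    rw [hx]; simp
  · have hnorm : ‖W‖ ≤ d := by
      rw [ContinuousMap.norm_le _ hd.le]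
      intro x
      change ‖a * Real.arctan ((w x - c) / a)‖ ≤ d
      rw [norm_mul, Real.norm_eq_abs, Real.norm_eq_abs, abs_of_pos ha0]
      have h1 : |Real.arctan ((w x - c) / a)| ≤ 2 := by
        rw [abs_le]
        have h2 := Real.neg_pi_div_two_lt_arctan ((w x - c) / a)
        have h3 := Real.arctan_lt_pi_div_two ((w x - c) / a)
        have h4 := Real.pi_le_four
        constructor <;> linarith
      calc a * |Real.arctan ((w x - c) / a)| ≤ a * 2 := by gcongr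
        _ = d := by rw [ha]; ring
    have hen : Q.Γ W W 1 ≤ Q.Γ w w 1 := by
      rw [hch.2 W hch.1 1, one_mul, Q.symm w hw W hch.1, hch.2 w hw θ]
      apply mono_test hw
      intro x
      have := hθ01 x
      simp only [ContinuousMap.mul_apply, ContinuousMap.one_apply]
      nlinarith
    have h := hweak W hch.1 hnorm hen
    rw [Q.symm w hw W hch.1, hch.2 w hw 1, one_mul] at h
    exact (le_abs_self _).trans h

/-- if `w` is constant where `φ ≠ 0`, then `Γ(w,v)(φ) = 0` -/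
theorem Γ_eq_zero_of_const (hw : w ∈ Q.Dom) (hv : v ∈ Q.Dom) {φ : C(Z, ℝ)} (c : ℝ)
    (h : ∀ x, φ x ≠ 0 → w x = c) : Q.Γ w v φ = 0 := by
  by_contra hne
  have hpos : 0 < |Q.Γ w v φ| := abs_pos.2 hne
  set M : ℝ := ‖φ‖ + 1 with hM
  have hM0 : 0 < M := by positivity
  -- the square is bounded by `(M ε) * (M E(v))`
  have key : ∀ ε > 0, (Q.Γ w v φ) ^ 2 ≤ (M * ε) * (M * Q.Γ v v 1) := by
    intro ε hε
    obtain ⟨θ, h01, h1, hθ⟩ := level_zero hw c hε
    have hle : ∀ z, |φ z| ≤ (M • θ) z := by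
      intro z
      simp only [ContinuousMap.smul_apply, smul_eq_mul]
      by_cases hz : φ z = 0
      · rw [hz, abs_zero]; exact mul_nonneg hM0.le (h01 z).1.le
      · rw [h1 z (h z hz), mul_one]
        have := φ.norm_coe_le_norm z
        rw [Real.norm_eq_abs] at this
        linarith
    refine (cauchy_schwarz_abs_sq hw hv hle).trans ?_
    rw [Q.smul_test M w hw w hw, Q.smul_test M v hv v hv]
    have h2 : Q.Γ v v θ ≤ Q.Γ v v 1 := mono_test hv fun x => (h01 x).2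
    have h3 : 0 ≤ Q.Γ v v θ := Q.nonneg v hv θ fun x => (h01 x).1.le
    have h4 : 0 ≤ Q.Γ w w θ := Q.nonneg w hw θ fun x => (h01 x).1.le
    exact mul_le_mul (by gcongr) (by gcongr) (by positivity) (by positivity)
  set B : ℝ := M * Q.Γ v v 1 with hB
  have hB0 : 0 ≤ B := mul_nonneg hM0.le (energy_nonneg hv)
  have hx : 0 < (Q.Γ w v φ) ^ 2 := by positivity
  have := key ((Q.Γ w v φ) ^ 2 / (2 * M * (B + 1))) (by positivity)
  have h5 : (M * ((Q.Γ w v φ) ^ 2 / (2 * M * (B + 1)))) * B < (Q.Γ w v φ) ^ 2 := by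
    have : (M * ((Q.Γ w v φ) ^ 2 / (2 * M * (B + 1)))) * B =
        (Q.Γ w v φ) ^ 2 * (B / (2 * (B + 1))) := by field_simp
    rw [this]
    have h6 : B / (2 * (B + 1)) < 1 := by
      rw [div_lt_one (by positivity)]; linarith
    nlinarith
  linarith

/-- **Strong locality**: `Γ(u,v)(φ)` only depends on `u` where `φ ≠ 0`, up to constants. -/
theorem local_left (hu : u ∈ Q.Dom) (hu' : u' ∈ Q.Dom) (hv : v ∈ Q.Dom) {φ : C(Z, ℝ)} (c : ℝ)
    (h : ∀ x, φ x ≠ 0 → u x = u' x + c) : Q.Γ u v φ = Q.Γ u' v φ := by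
  have h1 := Γ_eq_zero_of_const (sub_mem hu hu') hv (φ := φ) c
    (fun x hx => by rw [ContinuousMap.sub_apply, h x hx]; ring)
  rw [sub_left hu hu' hv] at h1
  linarith



/-! ### no atoms -/



/-! ### density of the domain -/


end compact

end Crest.Agent.R193.D3b2
end

-- ▼ part R193/D_Chart1
section

/-!
# R193, block D (C7-C8): basic facts on conformal charts
-/

set_option autoImplicit false

noncomputable section

open Set Filter Topology MeasureTheory Metric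

namespace Crest.Agent.R193.D_Chart

open Crest.Agent.R193 Crest.Agent.R193.D3b1 Crest.Agent.R193.D3b2

variable {G Z : Type} [Group G] [MetricSpace Z] [MulAction G Z] {S : Setup G Z} {Q : DForm S}

/-! ### locality -/

/-- if `u = u'` on an open set containing the support of `v` then `Γ u v = Γ u' v` -/
theorem congr_of_tsupport [CompactSpace Z] {u u' v : C(Z, ℝ)} (hu : u ∈ Q.Dom) (hu' : u' ∈ Q.Dom)
    (hv : v ∈ Q.Dom) {W : Set Z} (hW : IsOpen W) (h : ∀ x ∈ W, u x = u' x) (hs : tsupport v ⊆ W)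
    (φ : C(Z, ℝ)) : Q.Γ u v φ = Q.Γ u' v φ := by
  obtain ⟨χ, -, -, ⟨V, hV, hKV, hχ1⟩, hχW⟩ :=
    exists_cutoff Q (isClosed_tsupport v).isCompact hW hs
  have hsplit : φ = φ * χ + φ * (1 - χ) := by ring
  have e1 : ∀ u0 ∈ Q.Dom, Q.Γ u0 v (φ * (1 - χ)) = 0 := by
    intro u0 hu0
    rw [Q.symm u0 hu0 v hv]
    refine Γ_eq_zero_of_const hv hu0 0 (fun x hx => ?_)
    by_contra hvx
    apply hx
    have : x ∈ tsupport v := subset_tsupport _ hvx
    simp [hχ1 x (hKV this)]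
  have e2 : Q.Γ u v (φ * χ) = Q.Γ u' v (φ * χ) := by
    refine local_left hu hu' hv 0 (fun x hx => ?_)
    rw [add_zero]
    apply h
    apply hχW
    apply subset_tsupport
    intro h0
    apply hx
    simp [h0]
  rw [hsplit, Q.add_test u hu v hv, Q.add_test u' hu' v hv, e1 u hu, e1 u' hu', e2]

/-! ### the chart -/

namespace CC

variable (X : ConfChart Q)

/-- the chart map -/
def F (x : Z) : ℝ × ℝ := (X.U x, X.V x)

theorem F_cont : Continuous (F X) := X.U.continuous.prodMk X.V.continuous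

open Classical in
/-- the inverse of the chart map -/
def H (q : ℝ × ℝ) : Z :=
  if h : ∃ x ∈ X.W, F X x = q then h.choose else X.W_ne.choose

theorem F_mem {x : Z} (hx : x ∈ X.W) : F X x ∈ ball X.p X.ρ := by
  have := X.img
  rw [← this]; exact ⟨x, hx, rfl⟩

theorem H_spec {q : ℝ × ℝ} (hq : q ∈ ball X.p X.ρ) : H X q ∈ X.W ∧ F X (H X q) = q := by
  have h : ∃ x ∈ X.W, F X x = q := by
    rw [← X.img] at hq
    obtain ⟨x, hx, hxq⟩ := hq
    exact ⟨x, hx, hxq⟩
  unfold H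
  rw [dif_pos h]
  exact h.choose_spec

theorem H_mem {q : ℝ × ℝ} (hq : q ∈ ball X.p X.ρ) : H X q ∈ X.W := (H_spec X hq).1

theorem F_H {q : ℝ × ℝ} (hq : q ∈ ball X.p X.ρ) : F X (H X q) = q := (H_spec X hq).2

theorem F_inj {x y : Z} (hx : x ∈ X.W) (hy : y ∈ X.W) (h : F X x = F X y) : x = y :=
  X.inj hx hy h

theorem H_F {x : Z} (hx : x ∈ X.W) : H X (F X x) = x :=
  F_inj X (H_mem X (F_mem X hx)) hx (F_H X (F_mem X hx))

theorem H_inj {q q' : ℝ × ℝ} (hq : q ∈ ball X.p X.ρ) (hq' : q' ∈ ball X.p X.ρ)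
    (h : H X q = H X q') : q = q' := by
  rw [← F_H X hq, ← F_H X hq', h]

theorem mem_W_of {x : Z} (hx : x ∈ closure X.W) (hF : F X x ∈ ball X.p X.ρ) : x ∈ X.W := by
  by_contra hxW
  have : x ∈ frontier X.W := by
    rw [frontier, X.W_open.interior_eq]
    exact ⟨hx, hxW⟩
  exact X.bdry x this hF

/-- `H` is continuous on the square -/
theorem H_contOn [CompactSpace Z] : ContinuousOn (H X) (ball X.p X.ρ) := by
  intro q hq
  rw [ContinuousWithinAt, tendsto_iff_ultrafilter]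
  intro l hl
  have hlW : ∀ᶠ y in (l : Filter (ℝ × ℝ)), y ∈ ball X.p X.ρ := by
    have : (ball X.p X.ρ) ∈ 𝓝[ball X.p X.ρ] q := self_mem_nhdsWithin
    exact hl this
  obtain ⟨x, -, hx⟩ := (isCompact_univ (X := Z)).ultrafilter_le_nhds (l.map (H X)) (by simp)
  have hx' : Tendsto (H X) l (𝓝 x) := hx
  have h1 : Tendsto (fun y => F X (H X y)) l (𝓝 (F X x)) := ((F_cont X).tendsto x).comp hx'
  have h2 : Tendsto (fun y : ℝ × ℝ => y) l (𝓝 q) := by
    exact tendsto_id'.2 (hl.trans nhdsWithin_le_nhds)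
  have h3 : F X x = q := by
    apply tendsto_nhds_unique h1
    apply h2.congr'
    filter_upwards [hlW] with y hy
    rw [F_H X hy]
  have h4 : x ∈ closure X.W := by
    apply mem_closure_of_tendsto hx'
    filter_upwards [hlW] with y hy
    exact H_mem X hy
  have h5 : x ∈ X.W := mem_W_of X h4 (by rw [h3]; exact hq)
  have h6 : H X q = x := by rw [← h3, H_F X h5]
  rw [h6]
  exact hx'

theorem H_image {A : Set (ℝ × ℝ)} (hA : A ⊆ ball X.p X.ρ) :
    H X '' A = X.W ∩ F X ⁻¹' A := by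
  ext x
  constructor
  · rintro ⟨q, hq, rfl⟩
    exact ⟨H_mem X (hA hq), by rw [mem_preimage, F_H X (hA hq)]; exact hq⟩
  · rintro ⟨hx, hxA⟩
    exact ⟨F X x, hxA, H_F X hx⟩

theorem isOpen_H_image {A : Set (ℝ × ℝ)} (hA : A ⊆ ball X.p X.ρ) (hAo : IsOpen A) :
    IsOpen (H X '' A) := by
  rw [H_image X hA]
  exact X.W_open.inter (hAo.preimage (F_cont X))

theorem isPreconnected_H_image [CompactSpace Z] {A : Set (ℝ × ℝ)} (hA : A ⊆ ball X.p X.ρ)
    (hAc : IsPreconnected A) : IsPreconnected (H X '' A) :=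
  hAc.image _ ((H_contOn X).mono hA)

theorem isCompact_H_image [CompactSpace Z] {A : Set (ℝ × ℝ)} (hA : A ⊆ ball X.p X.ρ)
    (hAc : IsCompact A) : IsCompact (H X '' A) :=
  hAc.image_of_continuousOn ((H_contOn X).mono hA)

theorem rank_prod : 1 < Module.rank ℝ (ℝ × ℝ) := by
  simp only [rank_prod', Module.rank_self]
  rw [one_add_one_eq_two]
  exact Cardinal.one_lt_two

/-- the complement of the image of a small square is connected -/
theorem isPreconnected_compl [CompactSpace Z] [PreconnectedSpace Z] {b : ℝ × ℝ} {r : ℝ}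
    (hr : 0 < r) (hb : closedBall b r ⊆ ball X.p X.ρ) :
    IsPreconnected ((H X '' ball b r)ᶜ) := by
  have hbo : ball b r ⊆ ball X.p X.ρ := ball_subset_closedBall.trans hb
  have hfr : frontier (H X '' ball b r) = H X '' sphere b r := by
    have hcl : closure (H X '' ball b r) = H X '' closedBall b r := by
      apply Subset.antisymm
      · exact closure_minimal (image_mono ball_subset_closedBall)
          (isCompact_H_image X hb (isCompact_closedBall b r)).isClosed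
      · rw [← closure_ball b hr.ne']
        have := ((H_contOn X).mono (by rw [closure_ball b hr.ne']; exact hb :
          closure (ball b r) ⊆ ball X.p X.ρ)).image_closure
        exact this
    rw [frontier, hcl, (isOpen_H_image X hbo isOpen_ball).interior_eq]
    ext x
    constructor
    · rintro ⟨⟨q, hq, rfl⟩, hx⟩
      refine ⟨q, ?_, rfl⟩
      rw [mem_sphere]
      rw [mem_closedBall] at hq
      rcases hq.lt_or_eq with h | h
      · exact absurd ⟨q, mem_ball.2 h, rfl⟩ hx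
      · exact h
    · rintro ⟨q, hq, rfl⟩
      refine ⟨⟨q, sphere_subset_closedBall hq, rfl⟩, ?_⟩
      rintro ⟨q', hq', h⟩
      have := H_inj X (hbo hq') (hb (sphere_subset_closedBall hq)) h
      rw [this] at hq'
      rw [mem_ball] at hq'
      rw [mem_sphere] at hq
      linarith
  apply P_Comp.isPreconnected_compl_of_frontier (isOpen_H_image X hbo isOpen_ball)
  rw [hfr]
  exact isPreconnected_H_image X (sphere_subset_closedBall.trans hb)
    (isPreconnected_sphere rank_prod b r)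

/-! ### lifting functions from the square -/

/-- the closed set carrying the lifted functions -/
theorem lift_support {ψ : ℝ × ℝ → ℝ} (hs : tsupport ψ ⊆ ball X.p X.ρ) :
    closure X.W ∩ F X ⁻¹' (tsupport ψ) ⊆ X.W :=
  fun _ hx => mem_W_of X hx.1 (hs hx.2)

open Classical in
theorem lift_cont {ψ : ℝ × ℝ → ℝ} (hψ : ContinuousOn ψ (ball X.p X.ρ))
    (hs : tsupport ψ ⊆ ball X.p X.ρ) :
    Continuous (fun x => if x ∈ X.W then ψ (F X x) else 0) := by
  set K := closure X.W ∩ F X ⁻¹' (tsupport ψ) with hK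
  have hKc : IsClosed K := isClosed_closure.inter ((isClosed_tsupport ψ).preimage (F_cont X))
  rw [continuous_iff_continuousAt]
  intro x
  by_cases hx : x ∈ X.W
  · have h1 : ContinuousAt (fun x => ψ (F X x)) x :=
      ContinuousAt.comp (g := ψ) ((hψ.continuousAt (isOpen_ball.mem_nhds (F_mem X hx))))
        (F_cont X).continuousAt
    refine h1.congr ?_
    filter_upwards [X.W_open.mem_nhds hx] with y hy
    rw [if_pos hy]
  · have hxK : x ∉ K := fun h => hx (lift_support X hs h)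
    have h1 : ContinuousAt (fun _ : Z => (0 : ℝ)) x := continuousAt_const
    refine h1.congr ?_
    filter_upwards [hKc.isOpen_compl.mem_nhds hxK] with y hy
    by_cases hyW : y ∈ X.W
    · rw [if_pos hyW]
      by_contra hne
      exact hy ⟨subset_closure hyW, subset_tsupport _ (Ne.symm hne)⟩
    · rw [if_neg hyW]

open Classical in
/-- the lift of a function supported in the square -/
def lift (ψ : ℝ × ℝ → ℝ) (hψ : ContinuousOn ψ (ball X.p X.ρ)) (hs : tsupport ψ ⊆ ball X.p X.ρ) :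
    C(Z, ℝ) := ⟨_, lift_cont X hψ hs⟩

theorem lift_of_mem {ψ : ℝ × ℝ → ℝ} (hψ : ContinuousOn ψ (ball X.p X.ρ))
    (hs : tsupport ψ ⊆ ball X.p X.ρ) {x : Z} (hx : x ∈ X.W) : lift X ψ hψ hs x = ψ (F X x) := by
  classical
  show (if x ∈ X.W then ψ (F X x) else 0) = _
  exact if_pos hx

theorem lift_of_not_mem {ψ : ℝ × ℝ → ℝ} (hψ : ContinuousOn ψ (ball X.p X.ρ))
    (hs : tsupport ψ ⊆ ball X.p X.ρ) {x : Z} (hx : x ∉ X.W) : lift X ψ hψ hs x = 0 := by
  classical
  show (if x ∈ X.W then ψ (F X x) else 0) = _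
  exact if_neg hx

theorem lift_H {ψ : ℝ × ℝ → ℝ} (hψ : ContinuousOn ψ (ball X.p X.ρ))
    (hs : tsupport ψ ⊆ ball X.p X.ρ) {q : ℝ × ℝ} (hq : q ∈ ball X.p X.ρ) :
    lift X ψ hψ hs (H X q) = ψ q := by
  rw [lift_of_mem X hψ hs (H_mem X hq), F_H X hq]

theorem tsupport_lift {ψ : ℝ × ℝ → ℝ} (hψ : ContinuousOn ψ (ball X.p X.ρ))
    (hs : tsupport ψ ⊆ ball X.p X.ρ) :
    tsupport (lift X ψ hψ hs) ⊆ closure X.W ∩ F X ⁻¹' (tsupport ψ) := by
  refine closure_minimal ?_ (isClosed_closure.inter ((isClosed_tsupport ψ).preimage (F_cont X)))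
  intro x hx
  rw [Function.mem_support] at hx
  by_cases hxW : x ∈ X.W
  · rw [lift_of_mem X hψ hs hxW] at hx
    exact ⟨subset_closure hxW, subset_tsupport _ hx⟩
  · exact absurd (lift_of_not_mem X hψ hs hxW) hx

theorem tsupport_lift_W {ψ : ℝ × ℝ → ℝ} (hψ : ContinuousOn ψ (ball X.p X.ρ))
    (hs : tsupport ψ ⊆ ball X.p X.ρ) : tsupport (lift X ψ hψ hs) ⊆ X.W :=
  (tsupport_lift X hψ hs).trans (lift_support X hs)

end CC

end Crest.Agent.R193.D_Chart
end
end

-- ▼ part R193/D_Chart2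
section

/-!
# R193, block D (C7-C8): the Laplacian identity in a conformal chart
-/

set_option autoImplicit false

noncomputable section

open Set Filter Topology MeasureTheory Metric

namespace Crest.Agent.R193.D_Chart

open Crest.Agent.R193 Crest.Agent.R193.D3b1 Crest.Agent.R193.D3b2

variable {G Z : Type} [Group G] [MetricSpace Z] [MulAction G Z] {S : Setup G Z} {Q : DForm S}

/-! ### the planar Laplacian -/

theorem lap2_cont {ψ : ℝ × ℝ → ℝ} (hψ : ContDiff ℝ (⊤ : ℕ∞) ψ) : Continuous (lap2 ψ) := by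
  have h2 : ContDiff ℝ ((2 : ℕ) : WithTop ℕ∞) ψ := by
    apply hψ.of_le
    show (((2 : ℕ) : ℕ∞) : WithTop ℕ∞) ≤ ((⊤ : ℕ∞) : WithTop ℕ∞)
    exact WithTop.coe_le_coe.2 le_top
  have h : Continuous (iteratedFDeriv ℝ 2 ψ) := h2.continuous_iteratedFDeriv'
  unfold lap2
  exact (h.eval_const _).add (h.eval_const _)

theorem lap2_zero_of_eventually {ψ : ℝ × ℝ → ℝ} {q : ℝ × ℝ} {c : ℝ} (h : ∀ᶠ y in 𝓝 q, ψ y = c) :
    lap2 ψ q = 0 := by
  have h1 : iteratedFDeriv ℝ 2 ψ q = iteratedFDeriv ℝ 2 (fun _ => c) q :=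
    (Filter.EventuallyEq.iteratedFDeriv (f₂ := fun _ => c) ℝ h 2).eq_of_nhds
  unfold lap2
  rw [h1, iteratedFDeriv_const_of_ne (by norm_num)]
  simp

theorem lap2_zero_of_notMem {ψ : ℝ × ℝ → ℝ} {q : ℝ × ℝ} (h : q ∉ tsupport ψ) :
    lap2 ψ q = 0 := by
  apply lap2_zero_of_eventually (c := 0)
  filter_upwards [(isClosed_tsupport ψ).isOpen_compl.mem_nhds h] with y hy
  exact image_eq_zero_of_notMem_tsupport hy

theorem tsupport_lap2 (ψ : ℝ × ℝ → ℝ) : tsupport (lap2 ψ) ⊆ tsupport ψ := by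
  refine closure_minimal ?_ (isClosed_tsupport ψ)
  intro q hq
  by_contra h
  exact hq (lap2_zero_of_notMem h)

namespace CC

variable (X : ConfChart Q)

section
variable [CompactSpace Z]

theorem lift_dom (hC1 : InC1 Q) {ψ : ℝ × ℝ → ℝ} (hψ : ContDiff ℝ (⊤ : ℕ∞) ψ)
    (hs : tsupport ψ ⊆ ball X.p X.ρ) : lift X ψ hψ.continuous.continuousOn hs ∈ Q.Dom := by
  set P : C(Z, ℝ) := ⟨fun x => ψ (F X x), hψ.continuous.comp (F_cont X)⟩ with hP
  set L : C(Z, ℝ) := ⟨fun x => lap2 ψ (F X x), (lap2_cont hψ).comp (F_cont X)⟩ with hL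
  have hPD : P ∈ Q.Dom := (hC1 X.O X.U X.V X.O_open X.conf ψ hψ P L (fun _ => rfl)
    (fun _ => rfl)).1
  have hK : IsCompact (closure X.W ∩ F X ⁻¹' (tsupport ψ)) :=
    (isClosed_closure.inter ((isClosed_tsupport ψ).preimage (F_cont X))).isCompact
  obtain ⟨χ, hχD, -, ⟨V, hV, hKV, hχ1⟩, hχW⟩ := exists_cutoff Q hK X.W_open (lift_support X hs)
  have : lift X ψ hψ.continuous.continuousOn hs = χ * P := by
    ext x
    by_cases hx : x ∈ X.W
    · rw [lift_of_mem X _ hs hx]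
      by_cases h0 : ψ (F X x) = 0
      · simp [hP, h0]
      · have : x ∈ closure X.W ∩ F X ⁻¹' (tsupport ψ) :=
          ⟨subset_closure hx, subset_tsupport _ h0⟩
        simp [hP, hχ1 x (hKV this)]
    · rw [lift_of_not_mem X _ hs hx]
      have : χ x = 0 := by
        by_contra h
        exact hx (hχW (subset_tsupport _ h))
      simp [this]
  rw [this]
  exact mul_mem hχD hPD

/-- **The Laplacian identity.** -/
theorem lift_lap (hC1 : InC1 Q) {ψ : ℝ × ℝ → ℝ} (hψ : ContDiff ℝ (⊤ : ℕ∞) ψ)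
    (hs : tsupport ψ ⊆ ball X.p X.ρ) {w : C(Z, ℝ)} (hw : w ∈ Q.Dom) :
    Q.Γ (lift X ψ hψ.continuous.continuousOn hs) w 1 = - (X.c * ∫ q, w (H X q) * lap2 ψ q) := by
  set P : C(Z, ℝ) := ⟨fun x => ψ (F X x), hψ.continuous.comp (F_cont X)⟩ with hP
  set L : C(Z, ℝ) := ⟨fun x => lap2 ψ (F X x), (lap2_cont hψ).comp (F_cont X)⟩ with hL
  obtain ⟨hPD, hPL⟩ := hC1 X.O X.U X.V X.O_open X.conf ψ hψ P L (fun _ => rfl) (fun _ => rfl)
  have hK : IsCompact (closure X.W ∩ F X ⁻¹' (tsupport ψ)) :=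
    (isClosed_closure.inter ((isClosed_tsupport ψ).preimage (F_cont X))).isCompact
  obtain ⟨χ, hχD, -, ⟨V, hV, hKV, hχ1⟩, hχW⟩ := exists_cutoff Q hK X.W_open (lift_support X hs)
  set l := lift X ψ hψ.continuous.continuousOn hs with hl
  have hlD : l ∈ Q.Dom := lift_dom X hC1 hψ hs
  have hχwD : χ * w ∈ Q.Dom := mul_mem hχD hw
  have hsχw : tsupport (χ * w) ⊆ X.W := (tsupport_mul_subset_left).trans hχW
  -- replace `w` by `χ w`
  have h1 : Q.Γ l w 1 = Q.Γ l (χ * w) 1 := by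
    rw [Q.symm l hlD w hw, Q.symm l hlD _ hχwD]
    refine congr_of_tsupport hw hχwD hlD hV (fun x hx => ?_)
      ((tsupport_lift X _ hs).trans hKV) 1
    simp [hχ1 x hx]
  -- replace `l` by `P`
  have h2 : Q.Γ l (χ * w) 1 = Q.Γ P (χ * w) 1 := by
    refine congr_of_tsupport hlD hPD hχwD X.W_open (fun x hx => ?_) hsχw 1
    rw [hl, lift_of_mem X _ hs hx]
    rfl
  have h3 := hPL (χ * w) hχwD (hsχw.trans (subset_closure.trans X.W_sub))
  -- push forward
  have hcont : Continuous (fun q => w (H X q) * lap2 ψ q) := by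
    rw [continuous_iff_continuousAt]
    intro q
    by_cases hq : q ∈ ball X.p X.ρ
    · have hH : ContinuousAt (H X) q := (H_contOn X).continuousAt (isOpen_ball.mem_nhds hq)
      exact (ContinuousAt.comp (g := w) w.continuous.continuousAt hH).mul
        (lap2_cont hψ).continuousAt
    · have hq' : q ∉ tsupport ψ := fun h => hq (hs h)
      have : ContinuousAt (fun _ : ℝ × ℝ => (0 : ℝ)) q := continuousAt_const
      refine this.congr ?_
      filter_upwards [(isClosed_tsupport ψ).isOpen_compl.mem_nhds hq'] with y hy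
      rw [lap2_zero_of_notMem hy, mul_zero]
  have hsupp : tsupport (fun q => w (H X q) * lap2 ψ q) ⊆ ball X.p X.ρ :=
    (tsupport_mul_subset_right).trans ((tsupport_lap2 ψ).trans hs)
  have h4 := X.push (fun q => w (H X q) * lap2 ψ q) hcont hsupp (χ * w * L)
    (fun x hx => by
      show χ x * w x * lap2 ψ (F X x) = w (H X (F X x)) * lap2 ψ (F X x)
      rw [H_F X hx]
      by_cases h0 : lap2 ψ (F X x) = 0
      · rw [h0]; simp
      · have h5 : F X x ∈ tsupport ψ := by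
          by_contra h; exact h0 (lap2_zero_of_notMem h)
        rw [hχ1 x (hKV ⟨subset_closure hx, h5⟩), one_mul])
    (fun x hx => by
      have : χ x = 0 := by
        by_contra h
        exact hx (hχW (subset_tsupport _ h))
      simp [this])
  rw [h1, h2, h3, h4]

end

end CC

end Crest.Agent.R193.D_Chart
end
end

-- ▼ part R193/D_Chart3
section

/-!
# R193, block D (C7-C8): logarithmic cut-off functions and the modulus lemma
-/

set_option autoImplicit false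

noncomputable section

open Set Filter Topology MeasureTheory Metric

namespace Crest.Agent.R193.D_Chart

open Crest.Agent.R193 Crest.Agent.R193.D3b1 Crest.Agent.R193.D3b2

variable {G Z : Type} [Group G] [MetricSpace Z] [MulAction G Z] {S : Setup G Z} {Q : DForm S}

/-! ### scaling -/

/-- affine rescaling of a function of the plane -/
def sc (a : ℝ) (b : ℝ × ℝ) (ψ : ℝ × ℝ → ℝ) (q : ℝ × ℝ) : ℝ := ψ (a • (q - b))

theorem sc_contDiff {ψ : ℝ × ℝ → ℝ} (hψ : ContDiff ℝ (⊤ : ℕ∞) ψ) (a : ℝ) (b : ℝ × ℝ) :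
    ContDiff ℝ (⊤ : ℕ∞) (sc a b ψ) := by
  unfold sc
  exact hψ.comp ((contDiff_id.sub contDiff_const).const_smul a)

theorem lap2_sc {ψ : ℝ × ℝ → ℝ} (hψ : ContDiff ℝ (⊤ : ℕ∞) ψ) (a : ℝ) (b q : ℝ × ℝ) :
    lap2 (sc a b ψ) q = a ^ 2 * lap2 ψ (a • (q - b)) := by
  have h2 : ContDiff ℝ ((2 : ℕ) : WithTop ℕ∞) ψ := by
    apply hψ.of_le
    show (((2 : ℕ) : ℕ∞) : WithTop ℕ∞) ≤ ((⊤ : ℕ∞) : WithTop ℕ∞)
    exact WithTop.coe_le_coe.2 le_top
  set g : (ℝ × ℝ) →L[ℝ] (ℝ × ℝ) := a • ContinuousLinearMap.id ℝ (ℝ × ℝ) with hg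
  have h3 : sc a b ψ = fun q => (ψ ∘ g) (q - b) := by
    ext q; simp [sc, hg]
  have h4 : iteratedFDeriv ℝ 2 (sc a b ψ) q = iteratedFDeriv ℝ 2 (ψ ∘ g) (q - b) := by
    rw [h3, iteratedFDeriv_comp_sub' 2 b]
  have h5 := ContinuousLinearMap.iteratedFDeriv_comp_right g h2 (q - b) (le_refl _)
  unfold lap2
  rw [h4, h5]
  have hgq : g (q - b) = a • (q - b) := by simp [hg]
  rw [hgq]
  simp only [ContinuousMultilinearMap.compContinuousLinearMap_apply]
  have key : ∀ e : ℝ × ℝ, (fun i : Fin 2 => g ((![e, e] : Fin 2 → ℝ × ℝ) i))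
      = fun i => (fun _ : Fin 2 => a) i • (![e, e] : Fin 2 → ℝ × ℝ) i := by
    intro e
    ext i <;> simp [hg]
  rw [key, key, ContinuousMultilinearMap.map_smul_univ, ContinuousMultilinearMap.map_smul_univ]
  simp only [Finset.prod_const, Finset.card_univ, Fintype.card_fin, smul_eq_mul]
  ring

theorem integral_sc (f : ℝ × ℝ → ℝ) {a : ℝ} (ha : 0 < a) (b : ℝ × ℝ) :
    ∫ q, f (a • (q - b)) = (a ^ 2)⁻¹ * ∫ q, f q := by
  have h1 : ∫ q : ℝ × ℝ, f (a • (q - b)) = ∫ q : ℝ × ℝ, f (a • q) :=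
    integral_sub_right_eq_self (fun q => f (a • q)) b
  rw [h1, Measure.integral_comp_smul_of_nonneg (μ := volume) f a (hR := ha.le)]
  have : Module.finrank ℝ (ℝ × ℝ) = 2 := by simp
  rw [this, smul_eq_mul]

theorem integral_sc_lap2 {ψ : ℝ × ℝ → ℝ} (hψ : ContDiff ℝ (⊤ : ℕ∞) ψ) {a : ℝ} (ha : 0 < a)
    (b : ℝ × ℝ) :
    ∫ q, sc a b ψ q * lap2 (sc a b ψ) q = ∫ q, ψ q * lap2 ψ q := by
  have h1 : ∀ q, sc a b ψ q * lap2 (sc a b ψ) q
      = a ^ 2 * ((fun y => ψ y * lap2 ψ y) (a • (q - b))) := by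
    intro q
    rw [lap2_sc hψ]
    simp only [sc]
    ring
  simp_rw [h1]
  rw [integral_const_mul, integral_sc (fun y => ψ y * lap2 ψ y) ha b]
  field_simp

/-! ### the standard bump -/

/-- the standard bump function: `1` on the square of half side `1`, `0` off half side `2` -/
def bmp : ContDiffBump (0 : ℝ × ℝ) := ⟨1, 2, one_pos, one_lt_two⟩

/-- cut-off between the squares of half sides `r` and `2 r` around `b` -/
def cut (b : ℝ × ℝ) (r : ℝ) : ℝ × ℝ → ℝ := sc r⁻¹ b bmp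

theorem cut_contDiff (b : ℝ × ℝ) (r : ℝ) : ContDiff ℝ (⊤ : ℕ∞) (cut b r) :=
  sc_contDiff bmp.contDiff _ _

theorem norm_sc {b q : ℝ × ℝ} {r : ℝ} (hr : 0 < r) : dist (r⁻¹ • (q - b)) 0 = dist q b / r := by
  rw [dist_zero_right, norm_smul, Real.norm_eq_abs, abs_of_pos (inv_pos.2 hr), dist_eq_norm]
  field_simp

theorem cut_one {b q : ℝ × ℝ} {r : ℝ} (hr : 0 < r) (hq : q ∈ closedBall b r) : cut b r q = 1 := by
  apply bmp.one_of_mem_closedBall
  rw [mem_closedBall, norm_sc hr]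
  rw [mem_closedBall] at hq
  show dist q b / r ≤ 1
  rw [div_le_one hr]
  exact hq

theorem cut_zero {b q : ℝ × ℝ} {r : ℝ} (hr : 0 < r) (hq : q ∉ ball b (2 * r)) :
    cut b r q = 0 := by
  apply bmp.zero_of_le_dist
  rw [norm_sc hr]
  rw [mem_ball, not_lt] at hq
  show 2 ≤ dist q b / r
  rw [le_div_iff₀ hr]
  exact hq

theorem cut_nonneg (b q : ℝ × ℝ) (r : ℝ) : 0 ≤ cut b r q := bmp.nonneg

theorem cut_le_one (b q : ℝ × ℝ) (r : ℝ) : cut b r q ≤ 1 := bmp.le_one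

theorem tsupport_cut (b : ℝ × ℝ) {r : ℝ} (hr : 0 < r) : tsupport (cut b r) ⊆ closedBall b (2 * r) := by
  refine closure_minimal ?_ isClosed_closedBall
  intro q hq
  by_contra h
  exact hq (cut_zero hr (fun h' => h (ball_subset_closedBall h')))

/-- the energy of the standard bump -/
def e0 : ℝ := - ∫ q, bmp q * lap2 bmp q

theorem integral_cut (b : ℝ × ℝ) {r : ℝ} (hr : 0 < r) :
    ∫ q, cut b r q * lap2 (cut b r) q = - e0 := by
  rw [e0, neg_neg]
  exact integral_sc_lap2 bmp.contDiff (inv_pos.2 hr) b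

namespace CC

variable (X : ConfChart Q) [CompactSpace Z]

theorem exists_cut_aux (hC1 : InC1 Q) {b : ℝ × ℝ} {r : ℝ} (hr : 0 < r) (N : ℕ)
    (hb : closedBall b (2 ^ N * r) ⊆ ball X.p X.ρ) :
    ∃ s ∈ Q.Dom, (∀ x, 0 ≤ s x ∧ s x ≤ N) ∧ (∀ q ∈ closedBall b r, s (H X q) = N) ∧
      (∀ x, x ∉ H X '' ball b (2 ^ N * r) → s x = 0) ∧ Q.Γ s s 1 = N * (X.c * e0) := by
  induction N with
  | zero =>
    refine ⟨0, D3b1.zero_mem Q, fun x => by simp, fun q _ => by simp, fun x _ => by simp, ?_⟩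
    rw [zero_left (D3b1.zero_mem Q)]; simp
  | succ N ih =>
    have h2N : (0 : ℝ) < 2 ^ N := by positivity
    have hrN : 0 < 2 ^ N * r := by positivity
    have hle : (2 : ℝ) ^ N * r ≤ 2 ^ (N + 1) * r := by
      rw [pow_succ]; nlinarith
    obtain ⟨s, hsD, hs1, hs2, hs3, hs4⟩ := ih ((closedBall_subset_closedBall hle).trans hb)
    have hrw : 2 * (2 ^ N * r) = 2 ^ (N + 1) * r := by rw [pow_succ]; ring
    have hts : tsupport (cut b (2 ^ N * r)) ⊆ ball X.p X.ρ :=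
      (tsupport_cut b hrN).trans (by rw [hrw]; exact hb)
    set l := lift X (cut b (2 ^ N * r)) (cut_contDiff b _).continuous.continuousOn hts with hl
    have hlD : l ∈ Q.Dom := lift_dom X hC1 (cut_contDiff b _) hts
    have hb' : closedBall b r ⊆ closedBall b (2 ^ N * r) :=
      closedBall_subset_closedBall (by nlinarith [one_le_pow₀ (one_le_two (α := ℝ)) (n := N)])
    have hbr : closedBall b (2 ^ N * r) ⊆ ball X.p X.ρ :=
      (closedBall_subset_closedBall hle).trans hb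
    refine ⟨s + l, add_mem hsD hlD, ?_, ?_, ?_, ?_⟩
    · intro x
      have hl1 : 0 ≤ l x ∧ l x ≤ 1 := by
        by_cases hx : x ∈ X.W
        · rw [hl, lift_of_mem X _ hts hx]
          exact ⟨cut_nonneg _ _ _, cut_le_one _ _ _⟩
        · rw [hl, lift_of_not_mem X _ hts hx]
          simp
      have := hs1 x
      constructor
      · simp only [ContinuousMap.add_apply]; linarith
      · simp only [ContinuousMap.add_apply]; push_cast; linarith
    · intro q hq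
      simp only [ContinuousMap.add_apply]
      rw [hs2 q hq, hl, lift_H X _ hts (hbr (hb' hq)), cut_one hrN (hb' hq)]
      push_cast; ring
    · intro x hx
      simp only [ContinuousMap.add_apply]
      have h1 : x ∉ H X '' ball b (2 ^ N * r) := fun h =>
        hx (image_mono (ball_subset_ball hle) h)
      rw [hs3 x h1, zero_add]
      by_cases hxW : x ∈ X.W
      · rw [hl, lift_of_mem X _ hts hxW]
        apply cut_zero hrN
        rw [hrw]
        intro h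
        exact hx ⟨F X x, h, H_F X hxW⟩
      · rw [hl, lift_of_not_mem X _ hts hxW]
    · have hcross : Q.Γ l s 1 = 0 := by
        rw [hl, lift_lap X hC1 (cut_contDiff b _) hts hsD]
        have : ∀ q, s (H X q) * lap2 (cut b (2 ^ N * r)) q = 0 := by
          intro q
          by_cases h1 : q ∈ ball b (2 ^ N * r)
          · rw [lap2_zero_of_eventually (c := 1), mul_zero]
            filter_upwards [isOpen_ball.mem_nhds h1] with y hy
            exact cut_one hrN (ball_subset_closedBall hy)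
          · by_cases h2 : q ∈ ball X.p X.ρ
            · rw [hs3 (H X q), zero_mul]
              rintro ⟨q', hq', h⟩
              have := H_inj X (hbr (ball_subset_closedBall hq')) h2 h
              rw [this] at hq'
              exact h1 hq'
            · rw [lap2_zero_of_notMem (fun h => h2 (hts h)), mul_zero]
        simp_rw [this]
        simp
      have hself : Q.Γ l l 1 = X.c * e0 := by
        have h1 := lift_lap X hC1 (cut_contDiff b (2 ^ N * r)) hts hlD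
        rw [← hl] at h1
        rw [h1]
        have : ∀ q, l (H X q) * lap2 (cut b (2 ^ N * r)) q
            = cut b (2 ^ N * r) q * lap2 (cut b (2 ^ N * r)) q := by
          intro q
          by_cases h2 : q ∈ ball X.p X.ρ
          · rw [hl, lift_H X _ hts h2]
          · rw [lap2_zero_of_notMem (fun h => h2 (hts h)), mul_zero, mul_zero]
        simp_rw [this]
        rw [integral_cut b hrN]; ring
      rw [Γ_add_add hsD hlD, hs4, Q.symm s hsD l hlD, hcross, hself]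
      push_cast; ring

/-- **Logarithmic cut-offs.** -/
theorem exists_cut (hC1 : InC1 Q) {b : ℝ × ℝ} {r : ℝ} (hr : 0 < r) {N : ℕ} (hN : 1 ≤ N)
    (hb : closedBall b (2 ^ N * r) ⊆ ball X.p X.ρ) :
    ∃ w ∈ Q.Dom, (∀ q ∈ closedBall b r, w (H X q) = 1) ∧
      (∀ x, x ∉ H X '' ball b (2 ^ N * r) → w x = 0) ∧ Q.Γ w w 1 = X.c * e0 / N := by
  obtain ⟨s, hsD, -, hs2, hs3, hs4⟩ := exists_cut_aux X hC1 hr N hb
  have hN' : (N : ℝ) ≠ 0 := by positivity
  refine ⟨(N : ℝ)⁻¹ • s, smul_mem _ hsD, ?_, ?_, ?_⟩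
  · intro q hq
    simp only [ContinuousMap.smul_apply, smul_eq_mul]
    rw [hs2 q hq]; field_simp
  · intro x hx
    simp only [ContinuousMap.smul_apply, smul_eq_mul]
    rw [hs3 x hx]; simp
  · rw [Γ_smul_smul _ hsD, hs4]; field_simp

/-- **Modulus lemma.** -/
theorem modulus (hC1 : InC1 Q) (hL : InLoewUnit Q) {d : ℝ} (hd : 0 < d) :
    ∃ N : ℕ, ∀ (b : ℝ × ℝ) (r : ℝ), 0 < r → closedBall b (2 ^ N * r) ⊆ ball X.p X.ρ →
      ∀ (g : G) (A B : Set Z), IsPreconnected A → IsPreconnected B →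
      (∀ x ∈ A, g • x ∈ H X '' closedBall b r) → (∀ x ∈ B, g • x ∉ H X '' ball b (2 ^ N * r)) →
      ∀ a ∈ A, ∀ a' ∈ A, ∀ y ∈ B, ∀ y' ∈ B, d ≤ dist a a' → d ≤ dist y y' → False := by
  obtain ⟨c, hc, hLc⟩ := hL d hd
  obtain ⟨N, hN⟩ := exists_nat_gt (max 1 (X.c * e0 / c))
  have hN1 : (1 : ℝ) < N := lt_of_le_of_lt (le_max_left _ _) hN
  have hN2 : X.c * e0 / c < N := lt_of_le_of_lt (le_max_right _ _) hN
  have hN0 : (0 : ℝ) < N := by linarith
  have hN1' : 1 ≤ N := by exact_mod_cast hN1.le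
  refine ⟨N, fun b r hr hb g A B hA hB hA1 hB1 a ha a' ha' y hy y' hy' hda hdy => ?_⟩
  obtain ⟨w, hwD, hw1, hw2, hw3⟩ := exists_cut X hC1 hr hN1' hb
  set w' : C(Z, ℝ) := ⟨fun x => w (g • x), w.continuous.comp (S.cont g)⟩ with hw'
  obtain ⟨hw'D, hinv⟩ := Q.inv g w w 1 w' w' 1 hwD hwD (fun _ => rfl) (fun _ => rfl)
    (fun _ => rfl)
  have h1 := hLc A B hA hB a ha a' ha' y hy y' hy' hda hdy w' hw'D
    (fun x hx => by
      obtain ⟨q, hq, hqx⟩ := hA1 x hx
      show 1 ≤ w (g • x)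
      rw [← hqx, hw1 q hq])
    (fun x hx => (hw2 _ (hB1 x hx)).le)
  rw [hinv, hw3] at h1
  rw [div_lt_iff₀ hc] at hN2
  rw [le_div_iff₀ hN0] at h1
  nlinarith

end CC

end Crest.Agent.R193.D_Chart
end
end

-- ▼ part R193/D_Chart4
section

/-!
# R193, block D (C7-C8): harmonicity in the chart, energy bounds, rings, outer maximum principle
-/

set_option autoImplicit false

noncomputable section

open Set Filter Topology MeasureTheory Metric

namespace Crest.Agent.R193.D_Chart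

open Crest.Agent.R193 Crest.Agent.R193.D3b1 Crest.Agent.R193.D3b2

variable {G Z : Type} [Group G] [MetricSpace Z] [MulAction G Z] {S : Setup G Z} {Q : DForm S}

/-- the total mass of the standard bump -/
def m0 : ℝ := ∫ q, bmp q

theorem m0_nonneg : 0 ≤ m0 := integral_nonneg fun _ => bmp.nonneg

theorem integral_cut_one (b : ℝ × ℝ) {r : ℝ} (hr : 0 < r) : ∫ q, cut b r q = r ^ 2 * m0 := by
  have h := integral_sc (fun q => bmp q) (inv_pos.2 hr) b
  have h2 : ∫ q, cut b r q = ∫ q, bmp (r⁻¹ • (q - b)) := rfl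
  rw [h2, h, m0, inv_pow, inv_inv]

namespace CC

variable (X : ConfChart Q) [CompactSpace Z]

/-- (D8W, one level) harmonic polynomials of `F ∘ h` are weakly harmonic in the chart. -/
theorem lift_harm (hC1 : InC1 Q) {ψ : ℝ × ℝ → ℝ} (hψ : ContDiff ℝ (⊤ : ℕ∞) ψ)
    (hs : tsupport ψ ⊆ ball X.p X.ρ) (h : G) (hh : ∀ q ∈ tsupport ψ, h • H X q ∈ X.W)
    {P : ℝ × ℝ → ℝ} (hP : ContDiff ℝ (⊤ : ℕ∞) P) (hPh : ∀ q, lap2 P q = 0) :
    ∫ q, P (F X (h • H X q)) * lap2 ψ q = 0 := by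
  set l := lift X ψ hψ.continuous.continuousOn hs with hl
  have hlD : l ∈ Q.Dom := lift_dom X hC1 hψ hs
  set PF : C(Z, ℝ) := ⟨fun x => P (F X x), hP.continuous.comp (F_cont X)⟩ with hPF
  obtain ⟨hPFD, hPFL⟩ := hC1 X.O X.U X.V X.O_open X.conf P hP PF 0 (fun _ => rfl)
    (fun x => by rw [hPh]; rfl)
  set θ : C(Z, ℝ) := ⟨fun x => l (h⁻¹ • x), l.continuous.comp (S.cont h⁻¹)⟩ with hθ
  have hθD : θ ∈ Q.Dom :=
    (Q.inv h⁻¹ l l 1 θ θ 1 hlD hlD (fun _ => rfl) (fun _ => rfl) (fun _ => rfl)).1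
  set w : C(Z, ℝ) := ⟨fun x => PF (h • x), PF.continuous.comp (S.cont h)⟩ with hw
  obtain ⟨hwD, -⟩ := Q.inv h PF PF 1 w w 1 hPFD hPFD (fun _ => rfl) (fun _ => rfl) (fun _ => rfl)
  have h1 := (Q.inv h θ PF 1 l w 1 hθD hPFD (fun x => by simp [hθ]) (fun _ => rfl)
    (fun _ => rfl)).2
  have h2 : Q.Γ l w 1 = 0 := by
    rw [h1, Q.symm θ hθD PF hPFD, hPFL θ hθD ?_]
    · rw [mul_zero, zero_test X.conf.1 X.conf.1, neg_zero]
    · have hcl : IsClosed ((fun x : Z => h⁻¹ • x) ⁻¹' (tsupport l)) :=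
        (isClosed_tsupport l).preimage (S.cont h⁻¹)
      refine (closure_minimal (fun x hx => ?_) hcl).trans (fun x hx => ?_)
      · exact subset_tsupport _ hx
      · have hx1 : h⁻¹ • x ∈ tsupport l := hx
        have hx2 := tsupport_lift X _ hs hx1
        have hx3 := tsupport_lift_W X _ hs hx1
        have h4 := hh (F X (h⁻¹ • x)) hx2.2
        rw [H_F X hx3, smul_inv_smul] at h4
        exact X.W_sub (subset_closure h4)
  rw [hl, lift_lap X hC1 hψ hs hwD] at h2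
  have h3 : X.c * ∫ q, w (H X q) * lap2 ψ q = 0 := by linarith
  rcases mul_eq_zero.1 h3 with h4 | h4
  · exact absurd h4 X.c_pos.ne'
  · exact h4

/-- energy bound for the chart map: `Γ U U φ ≤ c m₀ r²` if `φ ≤ 1` is carried by `F⁻¹ (ball b r)` -/
theorem energy_chart {b : ℝ × ℝ} {r : ℝ} (hr : 0 < r)
    (hb : closedBall b (2 * r) ⊆ ball X.p X.ρ) {φ : C(Z, ℝ)} (hφ1 : ∀ x, φ x ≤ 1)
    (hφ : ∀ x, φ x ≠ 0 → x ∈ X.W ∧ F X x ∈ closedBall b r) :
    Q.Γ X.U X.U φ ≤ X.c * m0 * r ^ 2 ∧ Q.Γ X.V X.V φ ≤ X.c * m0 * r ^ 2 := by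
  have hts : tsupport (cut b r) ⊆ ball X.p X.ρ := (tsupport_cut b hr).trans hb
  set l := lift X (cut b r) (cut_contDiff b r).continuous.continuousOn hts with hl
  have hle : ∀ x, φ x ≤ l x := by
    intro x
    by_cases h0 : φ x = 0
    · rw [h0]
      by_cases hx : x ∈ X.W
      · rw [hl, lift_of_mem X _ hts hx]; exact cut_nonneg _ _ _
      · rw [hl, lift_of_not_mem X _ hts hx]
    · obtain ⟨h1, h2⟩ := hφ x h0
      rw [hl, lift_of_mem X _ hts h1, cut_one hr h2]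
      exact hφ1 x
  have hpush := X.push (cut b r) (cut_contDiff b r).continuous hts l
    (fun x hx => lift_of_mem X _ hts hx) (fun x hx => lift_of_not_mem X _ hts hx)
  rw [integral_cut_one b hr] at hpush
  have hUV := (X.conf.2.2.2 l ((tsupport_lift_W X _ hts).trans
    (subset_closure.trans X.W_sub))).2
  have e : X.c * (r ^ 2 * m0) = X.c * m0 * r ^ 2 := by ring
  constructor
  · calc Q.Γ X.U X.U φ ≤ Q.Γ X.U X.U l := OSC.Γ_mono_test Q X.conf.1 hle
      _ = _ := by rw [hpush, e]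
  · calc Q.Γ X.V X.V φ ≤ Q.Γ X.V X.V l := OSC.Γ_mono_test Q X.conf.2.1 hle
      _ = _ := by rw [← hUV, hpush, e]

end CC

/-! ### rings -/

theorem rings (Q : DForm S) (a : Z) {d : ℝ} (hd : 0 < d) (n : ℕ) :
    ∃ (ρ : ℕ → ℝ) (ψ : ℕ → C(Z, ℝ)) (d' : ℝ), 0 < d' ∧
      (∀ i, 0 < ρ i ∧ ρ i ≤ Q.ρ0 ∧ Q.lam * ρ i ≤ d) ∧ (∀ i p, 0 ≤ ψ i p) ∧
      (∀ i p, ρ i ≤ dist p a → dist p a ≤ Q.lam * ρ i → 1 ≤ ψ i p) ∧
      (∀ p, (∑ i ∈ Finset.range n, ψ i) p ≤ 1) ∧
      (∀ i ∈ Finset.range n, ∀ p, ψ i p ≠ 0 → d' ≤ dist p a) ∧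
      (∀ i ∈ Finset.range n, d' ≤ ρ i) := by
  have hl := Q.one_lt_lam
  have hl0 : 0 < Q.lam := by linarith
  set ρ1 := min Q.ρ0 (d / (2 * Q.lam)) with hρ1
  have hρ1p : 0 < ρ1 := lt_min Q.ρ0_pos (by positivity)
  set ρ : ℕ → ℝ := fun i => ρ1 / (4 * Q.lam) ^ i with hρ
  have hρp : ∀ i, 0 < ρ i := fun i => by simp only [hρ]; positivity
  have h4 : 1 < 4 * Q.lam := by linarith
  have hρle : ∀ i, ρ i ≤ ρ1 := fun i => by
    simp only [hρ]
    apply div_le_self hρ1p.le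
    exact one_le_pow₀ h4.le
  have hanti : ∀ i j, i ≤ j → ρ j ≤ ρ i := by
    intro i j hij
    simp only [hρ]
    apply div_le_div_of_nonneg_left hρ1p.le (by positivity)
    exact pow_le_pow_right₀ h4.le hij
  have hsucc : ∀ i, 2 * Q.lam * ρ (i + 1) = ρ i / 2 := by
    intro i
    simp only [hρ, pow_succ]
    field_simp
    ring
  have hρd : 2 * Q.lam * ρ1 ≤ d := by
    have : ρ1 ≤ d / (2 * Q.lam) := min_le_right _ _
    rw [le_div_iff₀ (by positivity)] at this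
    linarith
  let ψ : ℕ → C(Z, ℝ) := fun i => ⟨fun p => OSC.tent Q.lam (ρ i) (dist p a),
    (OSC.tent_cont _ _).comp (continuous_id.dist continuous_const)⟩
  have hψ : ∀ i p, ψ i p = OSC.tent Q.lam (ρ i) (dist p a) := fun i p => rfl
  refine ⟨ρ, ψ, ρ n / 2, by have := hρp n; linarith, fun i => ⟨hρp i,
    (hρle i).trans (min_le_left _ _), ?_⟩, fun i p => ?_, fun i p h1 h2 => ?_, fun p => ?_,
    fun i hi p hp => ?_, fun i hi => ?_⟩
  · have h1 := hρle i
    have h2 := hρp i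
    nlinarith
  · rw [hψ]; exact OSC.tent_nonneg _ _ _
  · rw [hψ]; exact OSC.tent_one hl (hρp i) h1 h2
  · rw [ContinuousMap.coe_sum, Finset.sum_apply]
    by_cases hex : ∃ i ∈ Finset.range n, ψ i p ≠ 0
    · obtain ⟨i, hi, hne⟩ := hex
      rw [hψ] at hne
      obtain ⟨ha, hb⟩ := OSC.tent_ne hl (hρp i) hne
      rw [Finset.sum_eq_single_of_mem i hi]
      · exact OSC.tent_le_one _ _ _
      · intro j hj hji
        by_contra hne2
        rw [hψ] at hne2
        obtain ⟨hc, hd⟩ := OSC.tent_ne hl (hρp j) hne2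
        rcases lt_or_gt_of_ne hji with hlt | hlt
        · have h1 := hanti (j + 1) i hlt
          have h2 := hsucc j
          nlinarith
        · have h1 := hanti (i + 1) j hlt
          have h2 := hsucc i
          nlinarith
    · push Not at hex
      rw [Finset.sum_eq_zero (fun i hi => hex i hi)]
      exact zero_le_one
  · rw [hψ] at hp
    obtain ⟨ha, hb⟩ := OSC.tent_ne hl (hρp i) hp
    have h1 := hanti i n (Finset.mem_range.1 hi).le
    linarith
  · have h1 := hanti i n (Finset.mem_range.1 hi).le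
    have h2 := hρp n
    linarith

/-- maximum principle outside a loop around `a` -/
theorem outer_max [LocallyConnectedSpace Z] {a : Z} {ρ lam : ℝ} {σ : Set Z} (hσc : IsCompact σ)
    (hσs : Separates σ (closedBall a ρ) (ball a (lam * ρ))ᶜ) {u : Z → ℝ} {O : Set Z}
    (hO : {x | ρ ≤ dist x a} ⊆ O) (hm : MonoOn u O) {w : Z} (hw : lam * ρ ≤ dist w a)
    (hwσ : w ∉ σ) : (∃ b ∈ σ, u w ≤ u b) ∧ (∃ b ∈ σ, u b ≤ u w) := by
  set D := connectedComponentIn σᶜ w with hD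
  have hwD : w ∈ D := mem_connectedComponentIn hwσ
  have hDo : IsOpen D := hσc.isClosed.isOpen_compl.connectedComponentIn
  have hDσ : D ⊆ σᶜ := connectedComponentIn_subset _ _
  have hDb : D ⊆ {x | ρ ≤ dist x a} := by
    intro p hp
    by_contra hpb
    have hp2 : p ∈ closedBall a ρ := by
      rw [mem_closedBall]
      have : ¬ ρ ≤ dist p a := hpb
      linarith [not_le.1 this]
    obtain ⟨q, hq1, hq2⟩ := hσs D isPreconnected_connectedComponentIn
      ⟨p, hp, hp2⟩ ⟨w, hwD, by rw [mem_compl_iff, mem_ball]; linarith⟩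
    exact hDσ hq1 hq2
  have hcl : closure D ⊆ O :=
    (closure_minimal hDb (isClosed_le continuous_const (continuous_id.dist continuous_const))).trans hO
  obtain ⟨⟨b, hb, hb'⟩, ⟨c, hc, hc'⟩⟩ := hm D hDo ⟨w, hwD⟩ hcl w hwD
  exact ⟨⟨b, OSC.frontier_comp hσc.isClosed w hb, hb'⟩,
    ⟨c, OSC.frontier_comp hσc.isClosed w hc, hc'⟩⟩

/-- oscillation of a monotone function between two points outside many rings -/
theorem osc_outer (Q : DForm S) [LocallyConnectedSpace Z] {a : Z} {n : ℕ} (hn : 0 < n)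
    {ρ : ℕ → ℝ} {ψ : ℕ → C(Z, ℝ)} (hρ : ∀ i, 0 < ρ i ∧ ρ i ≤ Q.ρ0)
    (hψ0 : ∀ i p, 0 ≤ ψ i p)
    (hψ1 : ∀ i p, ρ i ≤ dist p a → dist p a ≤ Q.lam * ρ i → 1 ≤ ψ i p)
    {u : C(Z, ℝ)} (hu : u ∈ Q.Dom) {O : Set Z} (hO : ∀ i ∈ Finset.range n, {x | ρ i ≤ dist x a} ⊆ O)
    (hm : MonoOn u O) {E : ℝ} (hE : Q.Γ u u (∑ i ∈ Finset.range n, ψ i) ≤ E) {w w' : Z}
    (hw : ∀ i ∈ Finset.range n, Q.lam * ρ i ≤ dist w a)
    (hw' : ∀ i ∈ Finset.range n, Q.lam * ρ i ≤ dist w' a) :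
    |u w - u w'| ≤ Q.C0 * Real.sqrt (E / n) := by
  have hn0 : (0 : ℝ) < n := by exact_mod_cast hn
  obtain ⟨i, hi, hi2⟩ : ∃ i ∈ Finset.range n, Q.Γ u u (ψ i) ≤ E / n := by
    apply Finset.exists_le_of_sum_le ⟨0, Finset.mem_range.2 hn⟩
    rw [Finset.sum_const, Finset.card_range, nsmul_eq_mul]
    have : (n : ℝ) * (E / n) = E := by field_simp
    rw [this, ← OSC.Γ_sum_test Q hu hu]; exact hE
  have hsq : Q.C0 * Real.sqrt (Q.Γ u u (ψ i)) ≤ Q.C0 * Real.sqrt (E / n) :=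
    mul_le_mul_of_nonneg_left (Real.sqrt_le_sqrt hi2) Q.C0_pos.le
  refine le_trans ?_ hsq
  apply le_of_forall_pos_le_add
  intro η hη
  obtain ⟨σ, hσc, -, hσa, hσs, hσo⟩ := Q.CL a (ρ i) (hρ i).1 (hρ i).2 u hu (ψ i) (hψ0 i)
    (hψ1 i) η hη
  have hnot : ∀ w : Z, Q.lam * ρ i ≤ dist w a → w ∉ σ := fun w hw h => by
    have := (hσa w h).2
    linarith
  obtain ⟨⟨b, hb, hb'⟩, ⟨c, hc, hc'⟩⟩ := outer_max hσc hσs (hO i hi) hm (hw i hi) (hnot w (hw i hi))
  obtain ⟨⟨b2, hb2, hb2'⟩, ⟨c2, hc2, hc2'⟩⟩ :=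
    outer_max hσc hσs (hO i hi) hm (hw' i hi) (hnot w' (hw' i hi))
  have e1 := hσo b hb c2 hc2
  have e2 := hσo b2 hb2 c hc
  rw [abs_le] at e1 e2 ⊢
  constructor <;> linarith

/-- two connected sets crossing all rings around `a` cost energy -/
theorem cross_rings (Q : DForm S) {a : Z} {n : ℕ} {ρ : ℕ → ℝ} {ψ : ℕ → C(Z, ℝ)}
    (hρ : ∀ i, 0 < ρ i ∧ ρ i ≤ Q.ρ0) (hψ0 : ∀ i p, 0 ≤ ψ i p)
    (hψ1 : ∀ i p, ρ i ≤ dist p a → dist p a ≤ Q.lam * ρ i → 1 ≤ ψ i p)
    (hψs : ∀ p, (∑ i ∈ Finset.range n, ψ i) p ≤ 1)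
    {w : C(Z, ℝ)} (hw : w ∈ Q.Dom) {A B : Set Z} (hA : IsPreconnected A) (hB : IsPreconnected B)
    (hwA : ∀ x ∈ A, w x = 1) (hwB : ∀ x ∈ B, w x = 0)
    {y y' z z' : Z} (hy : y ∈ A) (hy' : y' ∈ A) (hz : z ∈ B) (hz' : z' ∈ B)
    (h1 : ∀ i ∈ Finset.range n, dist y a ≤ ρ i) (h2 : ∀ i ∈ Finset.range n, Q.lam * ρ i ≤ dist y' a)
    (h3 : ∀ i ∈ Finset.range n, dist z a ≤ ρ i)
    (h4 : ∀ i ∈ Finset.range n, Q.lam * ρ i ≤ dist z' a) :
    n ≤ Q.C0 ^ 2 * Q.Γ w w 1 := by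
  have hC0 := Q.C0_pos
  have key : ∀ i ∈ Finset.range n, 1 / Q.C0 ^ 2 ≤ Q.Γ w w (ψ i) := by
    intro i hi
    have hΓ0 : 0 ≤ Q.Γ w w (ψ i) := Q.nonneg w hw _ (hψ0 i)
    have h5 : 1 ≤ Q.C0 * Real.sqrt (Q.Γ w w (ψ i)) := by
      apply le_of_forall_pos_le_add
      intro η hη
      obtain ⟨σ, hσc, -, hσa, hσs, hσo⟩ := Q.CL a (ρ i) (hρ i).1 (hρ i).2 w hw (ψ i) (hψ0 i)
        (hψ1 i) η hη
      obtain ⟨p, hp1, hp2⟩ := hσs A hA ⟨y, hy, mem_closedBall.2 (h1 i hi)⟩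
        ⟨y', hy', by rw [mem_compl_iff, mem_ball]; linarith [h2 i hi]⟩
      obtain ⟨q, hq1, hq2⟩ := hσs B hB ⟨z, hz, mem_closedBall.2 (h3 i hi)⟩
        ⟨z', hz', by rw [mem_compl_iff, mem_ball]; linarith [h4 i hi]⟩
      have := hσo p hp2 q hq2
      rw [hwA p hp1, hwB q hq1] at this
      simpa using this
    have h6 : 1 ≤ Q.C0 ^ 2 * Q.Γ w w (ψ i) := by
      calc (1 : ℝ) = 1 ^ 2 := by norm_num
        _ ≤ (Q.C0 * Real.sqrt (Q.Γ w w (ψ i))) ^ 2 := pow_le_pow_left₀ zero_le_one h5 2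
        _ = Q.C0 ^ 2 * Q.Γ w w (ψ i) := by rw [mul_pow, Real.sq_sqrt hΓ0]
    rw [div_le_iff₀ (by positivity)]
    linarith
  have hsum : ∑ i ∈ Finset.range n, (1 / Q.C0 ^ 2) ≤ Q.Γ w w 1 := by
    calc ∑ i ∈ Finset.range n, (1 / Q.C0 ^ 2) ≤ ∑ i ∈ Finset.range n, Q.Γ w w (ψ i) :=
          Finset.sum_le_sum key
      _ = Q.Γ w w (∑ i ∈ Finset.range n, ψ i) := (OSC.Γ_sum_test Q hw hw _ _).symm
      _ ≤ Q.Γ w w 1 := OSC.Γ_mono_test Q hw hψs
  rw [Finset.sum_const, Finset.card_range, nsmul_eq_mul, mul_one_div,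
    div_le_iff₀ (by positivity)] at hsum
  linarith

end Crest.Agent.R193.D_Chart
end
end

-- ▼ part R193/D_ZF
section

/-!
# R193, block D: abstract zoom families (interface between C7, C8 and D8W)
-/

set_option autoImplicit false

noncomputable section

open Set Filter Topology MeasureTheory Metric

namespace Crest.Agent.R193

/-- an abstract zoom family: `F k` maps `Z` to the plane, is injective on `Dk k` with inverse `H k`;
all bounds hold along the ultrafilter `hyperfilter ℕ`. -/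
structure ZF {Z : Type} [MetricSpace Z] (a : Z) (F : ℕ → Z → ℝ × ℝ) (H : ℕ → ℝ × ℝ → Z)
    (Dk : ℕ → Set Z) : Prop where
  cont : ∀ k, Continuous (F k)
  dom : ∀ K : Set Z, IsCompact K → a ∉ K → ∀ᶠ k in (hyperfilter ℕ : Filter ℕ), K ⊆ Dk k
  upper : ∀ K : Set Z, IsCompact K → a ∉ K → ∃ M : ℝ, ∀ᶠ k in (hyperfilter ℕ : Filter ℕ),
    ∀ y ∈ K, ‖F k y‖ ≤ M
  equi : ∀ x : Z, x ≠ a → ∀ ε : ℝ, 0 < ε → ∃ r : ℝ, 0 < r ∧
    ∀ᶠ k in (hyperfilter ℕ : Filter ℕ), ∀ y ∈ closedBall x r, dist (F k y) (F k x) ≤ ε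
  lower : ∀ d R : ℝ, 0 < d → ∃ δ : ℝ, 0 < δ ∧ ∀ᶠ k in (hyperfilter ℕ : Filter ℕ),
    ∀ y ∈ Dk k, ∀ y' ∈ Dk k, ‖F k y‖ ≤ R → d ≤ dist y y' → δ ≤ dist (F k y') (F k y)
  proper : ∀ R : ℝ, ∃ ρ : ℝ, 0 < ρ ∧ ∀ᶠ k in (hyperfilter ℕ : Filter ℕ),
    ∀ x ∈ Dk k, ‖F k x‖ ≤ R → ρ ≤ dist x a
  right : ∀ R : ℝ, ∀ᶠ k in (hyperfilter ℕ : Filter ℕ), ∀ q : ℝ × ℝ, ‖q‖ ≤ R →
    H k q ∈ Dk k ∧ F k (H k q) = q
  left : ∀ k, ∀ x ∈ Dk k, H k (F k x) = x

/-- the finite part of a point of the sphere, in the real plane -/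
def toR (w : OnePoint ℂ) : ℝ × ℝ := Complex.equivRealProd (toC w)

/-- the point of the sphere given by a point of the real plane -/
def ofR (q : ℝ × ℝ) : OnePoint ℂ := ((Complex.equivRealProd.symm q : ℂ) : OnePoint ℂ)

/-- OUTPUT 1 (topological limit) -/
def ZFLim {Z : Type} [MetricSpace Z] (a : Z) (F : ℕ → Z → ℝ × ℝ) (H : ℕ → ℝ × ℝ → Z)
    (Φ : Z ≃ₜ OnePoint ℂ) : Prop :=
  Φ a = OnePoint.infty ∧
  (∀ K : Set Z, IsCompact K → a ∉ K → ∀ ε : ℝ, 0 < ε → ∀ᶠ k in (hyperfilter ℕ : Filter ℕ),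
    ∀ x ∈ K, dist (F k x) (toR (Φ x)) < ε) ∧
  (∀ R ε : ℝ, 0 < ε → ∀ᶠ k in (hyperfilter ℕ : Filter ℕ), ∀ q : ℝ × ℝ, ‖q‖ ≤ R →
    dist (H k q) (Φ.symm (ofR q)) < ε)

/-- the harmonicity identity of the zoom family under a group action -/
def ZFHarm {G Z : Type} [Group G] [MetricSpace Z] [MulAction G Z] (F : ℕ → Z → ℝ × ℝ)
    (H : ℕ → ℝ × ℝ → Z) (Dk : ℕ → Set Z) (g : G) : Prop :=
  ∀ P : ℝ × ℝ → ℝ, ContDiff ℝ (⊤ : ℕ∞) P → (∀ q, lap2 P q = 0) →
  ∀ ψ : ℝ × ℝ → ℝ, ContDiff ℝ (⊤ : ℕ∞) ψ → HasCompactSupport ψ →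
    ∀ᶠ k in (hyperfilter ℕ : Filter ℕ), (∀ q ∈ tsupport ψ, g • H k q ∈ Dk k) →
      ∫ q, P (F k (g • H k q)) * lap2 ψ q = 0

/-
TASK `limit` :
theorem limit {Z : Type} [MetricSpace Z] [CompactSpace Z] {a : Z} {F : ℕ → Z → ℝ × ℝ}
    {H : ℕ → ℝ × ℝ → Z} {Dk : ℕ → Set Z} (h : ZF a F H Dk) : ∃ Φ : Z ≃ₜ OnePoint ℂ, ZFLim a F H Φ

TASK `weakConf` :
theorem weakConf {G Z : Type} [Group G] [MetricSpace Z] [CompactSpace Z] [MulAction G Z]
    {a : Z} {F : ℕ → Z → ℝ × ℝ} {H : ℕ → ℝ × ℝ → Z} {Dk : ℕ → Set Z} (h : ZF a F H Dk)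
    {Φ : Z ≃ₜ OnePoint ℂ} (hΦ : ZFLim a F H Φ) (g : G) (hg : Continuous fun x : Z => g • x)
    (hH : ZFHarm F H Dk g) : WeakConf (fun w => Φ (g • Φ.symm w))
-/

end Crest.Agent.R193
end
end

-- ▼ part R193/D_Chart5
section

/-!
# R193, block D (C7-C8): zooming a conformal chart
-/

set_option autoImplicit false

noncomputable section

open Set Filter Topology MeasureTheory Metric

namespace Crest.Agent.R193.D_Chart

open Crest.Agent.R193 Crest.Agent.R193.D3b1 Crest.Agent.R193.D3b2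

variable {G Z : Type} [Group G] [MetricSpace Z] [MulAction G Z] {S : Setup G Z} {Q : DForm S}

/-- the ultrafilter -/
abbrev om : Filter ℕ := (hyperfilter ℕ : Filter ℕ)

/-- zoom data for a chart -/
structure ZD (X : ConfChart Q) where
  a : Z
  g : ℕ → G
  x0 : Z
  x1 : Z
  h0 : x0 ≠ a
  h1 : x1 ≠ a
  h01 : x0 ≠ x1
  zoom : ∀ K : Set Z, IsCompact K → a ∉ K → ∀ U ∈ 𝓝 (CC.H X X.p), ∀ᶠ k in om,
    ∀ x ∈ K, g k • x ∈ U

namespace ZD

open CC

variable {X : ConfChart Q} (D : ZD X)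

/-- zoomed chart map (not normalised) -/
def f (k : ℕ) (x : Z) : ℝ × ℝ := F X (D.g k • x)

/-- the scale -/
def s (k : ℕ) : ℝ := dist (D.f k D.x1) (D.f k D.x0)

theorem f_cont (k : ℕ) : Continuous (D.f k) := (F_cont X).comp (S.cont (D.g k))

theorem p_mem : X.p ∈ ball X.p X.ρ := mem_ball_self X.ρ_pos

theorem ev_W {K : Set Z} (hK : IsCompact K) (ha : D.a ∉ K) : ∀ᶠ k in om, ∀ x ∈ K, D.g k • x ∈ X.W :=
  D.zoom K hK ha X.W (X.W_open.mem_nhds (H_mem X p_mem))

theorem ev_near {K : Set Z} (hK : IsCompact K) (ha : D.a ∉ K) {ε : ℝ} (hε : 0 < ε) :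
    ∀ᶠ k in om, ∀ x ∈ K, dist (D.f k x) X.p < ε := by
  refine D.zoom K hK ha (F X ⁻¹' ball X.p ε) ?_
  apply (F_cont X).continuousAt
  rw [F_H X p_mem]
  exact ball_mem_nhds _ hε

theorem isCompact_pair : IsCompact ({D.x0, D.x1} : Set Z) := (Set.toFinite _).isCompact

theorem a_notMem_pair : D.a ∉ ({D.x0, D.x1} : Set Z) := by
  rintro (h | h)
  · exact D.h0 h.symm
  · exact D.h1 h.symm

theorem ev_pair : ∀ᶠ k in om, D.g k • D.x0 ∈ X.W ∧ D.g k • D.x1 ∈ X.W := by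
  filter_upwards [D.ev_W D.isCompact_pair D.a_notMem_pair] with k hk
  exact ⟨hk _ (by simp), hk _ (by simp)⟩

theorem s_pos : ∀ᶠ k in om, 0 < D.s k := by
  filter_upwards [D.ev_pair] with k hk
  apply dist_pos.2
  intro h
  have := F_inj X hk.2 hk.1 h
  exact D.h01 (smul_left_cancel _ this).symm

theorem s_small {ε : ℝ} (hε : 0 < ε) : ∀ᶠ k in om, D.s k < ε := by
  filter_upwards [D.ev_near D.isCompact_pair D.a_notMem_pair (half_pos hε)] with k hk
  have h1 := hk D.x0 (by simp)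
  have h2 := hk D.x1 (by simp)
  have h3 := dist_triangle_right (D.f k D.x1) (D.f k D.x0) X.p
  unfold s
  linarith

theorem ev_ball {K : Set Z} (hK : IsCompact K) (ha : D.a ∉ K) (R : ℝ) :
    ∀ᶠ k in om, ∀ x ∈ K, closedBall (D.f k x) (R * D.s k) ⊆ ball X.p X.ρ := by
  have hρ := X.ρ_pos
  filter_upwards [D.ev_near hK ha (half_pos hρ), D.s_small (ε := X.ρ / (2 * (|R| + 1)))
    (by positivity), D.s_pos] with k h1 h2 h3 x hx
  intro y hy
  rw [mem_closedBall] at hy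
  rw [mem_ball]
  have h4 := h1 x hx
  have h5 := dist_triangle y (D.f k x) X.p
  have h6 : R * D.s k < X.ρ / 2 := by
    rw [lt_div_iff₀ (by positivity)] at h2
    have : R * D.s k ≤ |R| * D.s k := mul_le_mul_of_nonneg_right (le_abs_self R) h3.le
    nlinarith
  linarith

theorem ev_ball0 (R : ℝ) : ∀ᶠ k in om, closedBall (D.f k D.x0) (R * D.s k) ⊆ ball X.p X.ρ := by
  filter_upwards [D.ev_ball D.isCompact_pair D.a_notMem_pair R] with k hk
  exact hk _ (by simp)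

theorem ev_pole [CompactSpace Z] {y : Z} (hy : y ∉ X.W) {ε : ℝ} (hε : 0 < ε) :
    ∀ᶠ k in om, dist ((D.g k)⁻¹ • y) D.a < ε := by
  have hK : IsCompact ((ball D.a ε)ᶜ) := isOpen_ball.isClosed_compl.isCompact
  filter_upwards [D.ev_W hK (fun h => h (mem_ball_self hε))] with k hk
  by_contra hcon
  have := hk ((D.g k)⁻¹ • y) (fun h => hcon h)
  rw [smul_inv_smul] at this
  exact hy this

/-! connected sets -/

theorem preconn_pre (S : Setup G Z) {A : Set Z} (hA : IsPreconnected A) (g : G) :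
    IsPreconnected {x : Z | g • x ∈ A} := by
  have : {x : Z | g • x ∈ A} = (fun x : Z => g⁻¹ • x) '' A := by
    ext x
    constructor
    · intro hx; exact ⟨g • x, hx, by simp⟩
    · rintro ⟨y, hy, rfl⟩; simpa using hy
  rw [this]
  exact hA.image _ (S.cont g⁻¹).continuousOn

theorem preconn_in [CompactSpace Z] (g : G) {b : ℝ × ℝ} {r : ℝ}
    (hb : closedBall b r ⊆ ball X.p X.ρ) :
    IsPreconnected {x : Z | g • x ∈ H X '' closedBall b r} :=
  preconn_pre S (isPreconnected_H_image X hb (convex_closedBall b r).isPreconnected) g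

theorem preconn_out [CompactSpace Z] [PreconnectedSpace Z] (g : G) {b : ℝ × ℝ} {r : ℝ}
    (hr : 0 < r) (hb : closedBall b r ⊆ ball X.p X.ρ) :
    IsPreconnected {x : Z | g • x ∉ H X '' ball b r} :=
  preconn_pre S (isPreconnected_compl X hr hb) g

theorem mem_in {g : G} {b : ℝ × ℝ} {r : ℝ} {x : Z} (hx : g • x ∈ X.W)
    (h : dist (F X (g • x)) b ≤ r) : g • x ∈ H X '' closedBall b r :=
  ⟨F X (g • x), h, H_F X hx⟩

theorem notMem_out {g : G} {b : ℝ × ℝ} {r : ℝ} {x : Z} (hb : ball b r ⊆ ball X.p X.ρ)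
    (h : r ≤ dist (F X (g • x)) b) : g • x ∉ H X '' ball b r := by
  rintro ⟨q, hq, hqx⟩
  rw [← hqx, F_H X (hb hq)] at h
  rw [mem_ball] at hq
  linarith

theorem notMem_out' {g : G} {b : ℝ × ℝ} {r : ℝ} {y : Z} (hb : ball b r ⊆ ball X.p X.ρ)
    (hy : y ∉ X.W) : g • (g⁻¹ • y) ∉ H X '' ball b r := by
  rw [smul_inv_smul]
  rintro ⟨q, hq, hqx⟩
  exact hy (hqx ▸ H_mem X (hb hq))

/-- **Upper bound** on compact sets -/
theorem upper [CompactSpace Z] [PreconnectedSpace Z] (hC1 : InC1 Q) (hL : InLoewUnit Q)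
    {K : Set Z} (hK : IsCompact K) (ha : D.a ∉ K) :
    ∃ M : ℝ, 0 < M ∧ ∀ᶠ k in om, ∀ y ∈ K, dist (D.f k y) (D.f k D.x0) ≤ M * D.s k := by
  obtain ⟨δ, hδ, hball⟩ := Metric.isOpen_iff.1 hK.isClosed.isOpen_compl D.a ha
  have hKd : ∀ y ∈ K, δ ≤ dist y D.a := by
    intro y hy
    by_contra h
    exact hball (mem_ball.2 (not_le.1 h)) hy
  set d := min (dist D.x0 D.x1) (δ / 2) with hd
  have hd0 : 0 < d := lt_min (dist_pos.2 D.h01) (half_pos hδ)
  obtain ⟨N, hN⟩ := modulus X hC1 hL hd0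
  have h2N : (0 : ℝ) < 2 ^ N := by positivity
  refine ⟨2 ^ N, h2N, ?_⟩
  obtain ⟨y1, hy1⟩ := X.W_ne
  filter_upwards [D.ev_W hK ha, D.ev_pair, D.s_pos, D.ev_ball0 (2 ^ N), D.ev_ball0 1,
    D.ev_pole hy1 (half_pos hδ)] with k hKW hpair hs hb hb1 hpole y hy
  by_contra hcon
  push Not at hcon
  rw [one_mul] at hb1
  have hbo : ball (D.f k D.x0) (2 ^ N * D.s k) ⊆ ball X.p X.ρ := ball_subset_closedBall.trans hb
  refine hN (D.f k D.x0) (D.s k) hs hb (D.g k)
    {x | D.g k • x ∈ H X '' closedBall (D.f k D.x0) (D.s k)}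
    {x | D.g k • x ∉ H X '' ball (D.f k D.x0) (2 ^ N * D.s k)}
    (preconn_in _ hb1) (preconn_out _ (by positivity) hb) (fun x hx => hx) (fun x hx => hx)
    D.x0 (mem_in hpair.1 (by
      show dist (D.f k D.x0) (D.f k D.x0) ≤ D.s k
      rw [dist_self]; exact hs.le))
    D.x1 (mem_in hpair.2 (le_refl _))
    y (notMem_out hbo hcon.le) ((D.g k)⁻¹ • y1) (notMem_out' hbo hy1) (min_le_left _ _) ?_
  have h1 := hKd y hy
  have h2 := dist_triangle y ((D.g k)⁻¹ • y1) D.a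
  have h3 : d ≤ δ / 2 := min_le_right _ _
  linarith

/-- **Lower bound** -/
theorem lower [CompactSpace Z] [PreconnectedSpace Z] (hC1 : InC1 Q) (hL : InLoewUnit Q)
    {d R : ℝ} (hd : 0 < d) (hR : 0 < R) :
    ∃ δ : ℝ, 0 < δ ∧ ∀ᶠ k in om, ∀ y y' : Z, D.g k • y ∈ X.W → D.g k • y' ∈ X.W →
      dist (D.f k y) (D.f k D.x0) ≤ R * D.s k → d ≤ dist y y' →
      δ * D.s k ≤ dist (D.f k y') (D.f k y) := by
  set e := min (dist D.x0 D.a) (dist D.x1 D.a) with he
  have he0 : 0 < e := lt_min (dist_pos.2 D.h0) (dist_pos.2 D.h1)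
  set d' := min d (e / 2) with hd'
  have hd'0 : 0 < d' := lt_min hd (half_pos he0)
  obtain ⟨N, hN⟩ := modulus X hC1 hL hd'0
  have h2N : (0 : ℝ) < 2 ^ N := by positivity
  have h1N : (1 : ℝ) ≤ 2 ^ N := one_le_pow₀ one_le_two
  refine ⟨1 / (2 * 2 ^ N), by positivity, ?_⟩
  obtain ⟨y1, hy1⟩ := X.W_ne
  filter_upwards [D.ev_pair, D.s_pos, D.ev_ball0 (R + 1), D.ev_pole hy1 (half_pos he0)] with
    k hpair hs hb hpole y y' hy hy' hyR hyy
  by_contra hcon
  push Not at hcon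
  set r := dist (D.f k y') (D.f k y) with hr
  have hr0 : 0 < r := by
    rcases (dist_nonneg (x := D.f k y') (y := D.f k y)).lt_or_eq with h | h
    · exact h
    · exfalso
      have h1 : D.f k y' = D.f k y := dist_eq_zero.1 h.symm
      have h2 := smul_left_cancel _ (F_inj X hy' hy h1)
      rw [h2, dist_self] at hyy
      linarith
  have hr2 : 2 ^ N * r < D.s k / 2 := by
    have : 2 ^ N * r < 2 ^ N * (1 / (2 * 2 ^ N) * D.s k) := by gcongr
    have h3 : (2 : ℝ) ^ N * (1 / (2 * 2 ^ N) * D.s k) = D.s k / 2 := by field_simp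
    linarith
  have hb' : closedBall (D.f k y) (2 ^ N * r) ⊆ ball X.p X.ρ := by
    refine Subset.trans (closedBall_subset_closedBall' ?_) hb
    linarith
  have hbr : closedBall (D.f k y) r ⊆ ball X.p X.ρ :=
    (closedBall_subset_closedBall (by nlinarith)).trans hb'
  have hbo : ball (D.f k y) (2 ^ N * r) ⊆ ball X.p X.ρ := ball_subset_closedBall.trans hb'
  -- one of `x0`, `x1` is far
  have hfar : ∃ x, (x = D.x0 ∨ x = D.x1) ∧ 2 ^ N * r ≤ dist (D.f k x) (D.f k y) := by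
    by_contra hno
    push Not at hno
    have h1 := hno D.x0 (Or.inl rfl)
    have h2 := hno D.x1 (Or.inr rfl)
    have h3 := dist_triangle_right (D.f k D.x1) (D.f k D.x0) (D.f k y)
    have h4 : D.s k = dist (D.f k D.x1) (D.f k D.x0) := rfl
    linarith
  obtain ⟨x, hx, hxr⟩ := hfar
  have hxa : e ≤ dist x D.a := by
    rcases hx with rfl | rfl
    · exact min_le_left _ _
    · exact min_le_right _ _
  refine hN (D.f k y) r hr0 hb' (D.g k)
    {x | D.g k • x ∈ H X '' closedBall (D.f k y) r}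
    {x | D.g k • x ∉ H X '' ball (D.f k y) (2 ^ N * r)}
    (preconn_in _ hbr) (preconn_out _ (by positivity) hb') (fun x hx => hx) (fun x hx => hx)
    y (mem_in hy (by
      show dist (D.f k y) (D.f k y) ≤ r
      rw [dist_self]; exact hr0.le))
    y' (mem_in hy' (le_refl _))
    x (notMem_out hbo hxr) ((D.g k)⁻¹ • y1) (notMem_out' hbo hy1)
    ((min_le_left _ _).trans hyy) ?_
  have h2 := dist_triangle x ((D.g k)⁻¹ • y1) D.a
  have h3 : d' ≤ e / 2 := min_le_right _ _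
  linarith

/-- the two components pulled back by `g k` -/
def Uk (k : ℕ) : C(Z, ℝ) := ⟨fun x => X.U (D.g k • x), X.U.continuous.comp (S.cont (D.g k))⟩
def Vk (k : ℕ) : C(Z, ℝ) := ⟨fun x => X.V (D.g k • x), X.V.continuous.comp (S.cont (D.g k))⟩

theorem Uk_dom (k : ℕ) : D.Uk k ∈ Q.Dom :=
  (Q.inv (D.g k) X.U X.U 1 (D.Uk k) (D.Uk k) 1 X.conf.1 X.conf.1 (fun _ => rfl) (fun _ => rfl)
    (fun _ => rfl)).1

theorem Vk_dom (k : ℕ) : D.Vk k ∈ Q.Dom :=
  (Q.inv (D.g k) X.V X.V 1 (D.Vk k) (D.Vk k) 1 X.conf.2.1 X.conf.2.1 (fun _ => rfl) (fun _ => rfl)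
    (fun _ => rfl)).1

theorem energy_k [CompactSpace Z] (k : ℕ) {b : ℝ × ℝ} {r : ℝ} (hr : 0 < r)
    (hb : closedBall b (2 * r) ⊆ ball X.p X.ρ) {φ : C(Z, ℝ)} (hφ1 : ∀ x, φ x ≤ 1)
    (hφ : ∀ x, φ x ≠ 0 → D.g k • x ∈ X.W ∧ dist (D.f k x) b ≤ r) :
    Q.Γ (D.Uk k) (D.Uk k) φ ≤ X.c * m0 * r ^ 2 ∧ Q.Γ (D.Vk k) (D.Vk k) φ ≤ X.c * m0 * r ^ 2 := by
  set φ' : C(Z, ℝ) := ⟨fun x => φ ((D.g k)⁻¹ • x), φ.continuous.comp (S.cont (D.g k)⁻¹)⟩ with hφ'
  have h := energy_chart X hr hb (φ := φ') (fun x => hφ1 _) (fun x hx => by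
    have := hφ ((D.g k)⁻¹ • x) hx
    unfold f at this
    rw [smul_inv_smul] at this
    exact ⟨this.1, mem_closedBall.2 this.2⟩)
  have e1 := (Q.inv (D.g k) X.U X.U φ' (D.Uk k) (D.Uk k) φ X.conf.1 X.conf.1 (fun _ => rfl)
    (fun _ => rfl) (fun x => by simp [hφ'])).2
  have e2 := (Q.inv (D.g k) X.V X.V φ' (D.Vk k) (D.Vk k) φ X.conf.2.1 X.conf.2.1 (fun _ => rfl)
    (fun _ => rfl) (fun x => by simp [hφ'])).2
  rw [e1, e2]
  exact h

theorem mono_U (hmax : InMax Q) (k : ℕ) {O : Set Z} (hO : ∀ x ∈ O, D.g k • x ∈ X.W) :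
    MonoOn (D.Uk k) O ∧ MonoOn (D.Vk k) O := by
  have hW : X.W ≠ univ := by
    obtain ⟨y, hy⟩ := X.W_ne
    exact fun h => hy (h ▸ mem_univ y)
  have hsubW : X.W ⊆ X.O := subset_closure.trans X.W_sub
  have hU : Harm Q X.W X.U := ⟨X.conf.harm_left.1, fun w hw hs =>
    X.conf.harm_left.2 w hw (hs.trans hsubW)⟩
  have hV : Harm Q X.W X.V := ⟨X.conf.harm_right.1, fun w hw hs =>
    X.conf.harm_right.2 w hw (hs.trans hsubW)⟩
  have h1 := OSC.MonoOn.comp_homeo (hmax X.W X.U X.W_open hW hU) (OSC.hom S (D.g k))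
  have h2 := OSC.MonoOn.comp_homeo (hmax X.W X.V X.W_open hW hV) (OSC.hom S (D.g k))
  have hsub : O ⊆ (OSC.hom S (D.g k)) ⁻¹' X.W := fun x hx => hO x hx
  exact ⟨OSC.MonoOn.mono h1 hsub, OSC.MonoOn.mono h2 hsub⟩

/-! the normalised zoom family -/

/-- normalised zoomed chart map -/
def Fk (k : ℕ) (x : Z) : ℝ × ℝ := (D.s k)⁻¹ • (D.f k x - D.f k D.x0)

/-- normalised zoomed inverse chart map -/
def Hk (k : ℕ) (q : ℝ × ℝ) : Z := (D.g k)⁻¹ • H X (D.f k D.x0 + D.s k • q)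

/-- the domain where the zoomed chart map is a homeomorphism -/
def Dk (k : ℕ) : Set Z := {x | D.g k • x ∈ X.W}

end ZD

end Crest.Agent.R193.D_Chart
end
end

-- ▼ part R193/D_Chart6
section

/-!
# R193, block D (C7-C8): equicontinuity and properness of the zoomed charts
-/

set_option autoImplicit false

noncomputable section

open Set Filter Topology MeasureTheory Metric

namespace Crest.Agent.R193.D_Chart

open Crest.Agent.R193 Crest.Agent.R193.D3b1 Crest.Agent.R193.D3b2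

variable {G Z : Type} [Group G] [MetricSpace Z] [MulAction G Z] {S : Setup G Z} {Q : DForm S}

namespace ZD

open CC

variable {X : ConfChart Q} (D : ZD X)

theorem dist_f_le {k : ℕ} {x y : Z} {e : ℝ} (h1 : |D.Uk k y - D.Uk k x| ≤ e)
    (h2 : |D.Vk k y - D.Vk k x| ≤ e) : dist (D.f k y) (D.f k x) ≤ e := by
  rw [Prod.dist_eq]
  apply max_le
  · rw [Real.dist_eq]; exact h1
  · rw [Real.dist_eq]; exact h2

/-- **Equicontinuity** off the point `a` -/
theorem equi [CompactSpace Z] [PreconnectedSpace Z] [LocallyConnectedSpace Z] (hC1 : InC1 Q)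
    (hL : InLoewUnit Q) (hmax : InMax Q) {x : Z} (hx : x ≠ D.a) {ε : ℝ} (hε : 0 < ε) :
    ∃ r : ℝ, 0 < r ∧ ∀ᶠ k in om, ∀ y ∈ closedBall x r,
      dist (D.f k y) (D.f k x) ≤ ε * D.s k := by
  set δ := dist x D.a / 4 with hδd
  have hda : 0 < dist x D.a := dist_pos.2 hx
  have hδ : 0 < δ := by positivity
  set K := closedBall x (2 * δ) with hKd
  have hK : IsCompact K := isClosed_closedBall.isCompact
  have haK : D.a ∉ K := by
    intro h
    rw [hKd, mem_closedBall, dist_comm] at h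
    linarith
  obtain ⟨M, hM, hup⟩ := D.upper hC1 hL hK haK
  have hc := X.c_pos
  have hm := m0_nonneg
  have hA : 0 ≤ X.c * m0 * M ^ 2 := by positivity
  obtain ⟨r', hr', hr'δ, hosc⟩ := OSC.osc_small Q hδ
    (ε := ε ^ 2 / (X.c * m0 * M ^ 2 + 1)) (by positivity)
  refine ⟨r', hr', ?_⟩
  set φ : C(Z, ℝ) := ⟨fun y => min 1 (max 0 (2 - dist y x / δ)), by fun_prop⟩ with hφ
  have hφ0 : ∀ y, 0 ≤ φ y := fun y => le_min zero_le_one (le_max_left _ _)
  have hφ1 : ∀ y, φ y ≤ 1 := fun y => min_le_left _ _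
  have hφ2 : ∀ y, dist y x ≤ δ → 1 ≤ φ y := by
    intro y hy
    refine le_min le_rfl (le_max_of_le_right ?_)
    have : dist y x / δ ≤ 1 := (div_le_one hδ).2 hy
    linarith
  have hφ3 : ∀ y, φ y ≠ 0 → y ∈ K := by
    intro y hy
    by_contra hcon
    apply hy
    rw [hKd, mem_closedBall, not_le] at hcon
    have h1 : 2 - dist y x / δ ≤ 0 := by
      have : 2 < dist y x / δ := (lt_div_iff₀ hδ).2 hcon
      linarith
    show min 1 (max 0 (2 - dist y x / δ)) = 0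
    rw [max_eq_left h1]
    exact min_eq_right zero_le_one
  filter_upwards [hup, D.ev_W hK haK, D.s_pos, D.ev_ball0 (2 * M)] with k h1 h2 h3 h4 y hy
  have hb : closedBall (D.f k D.x0) (2 * (M * D.s k)) ⊆ ball X.p X.ρ := by
    rw [← mul_assoc]; exact h4
  have hE := D.energy_k k (by positivity) hb hφ1 (fun z hz => ⟨h2 z (hφ3 z hz), h1 z (hφ3 z hz)⟩)
  have hsub : closedBall x δ ⊆ K := closedBall_subset_closedBall (by linarith)
  have hmo := D.mono_U hmax k (O := K) h2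
  have hy' : dist y x ≤ r' := hy
  have hxx : dist x x ≤ r' := by rw [dist_self]; exact hr'.le
  have key : ∀ e : ℝ, 0 ≤ ε * D.s k → e ≤ X.c * m0 * (M * D.s k) ^ 2 →
      ∀ t : ℝ, |t| ^ 2 ≤ ε ^ 2 / (X.c * m0 * M ^ 2 + 1) * e → |t| ≤ ε * D.s k := by
    intro e h0 he t ht
    rw [← pow_le_pow_iff_left₀ (abs_nonneg t) h0 two_ne_zero]
    refine ht.trans ?_
    calc ε ^ 2 / (X.c * m0 * M ^ 2 + 1) * e
        ≤ ε ^ 2 / (X.c * m0 * M ^ 2 + 1) * (X.c * m0 * (M * D.s k) ^ 2) := by gcongr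
      _ = (ε * D.s k) ^ 2 * ((X.c * m0 * M ^ 2) / (X.c * m0 * M ^ 2 + 1)) := by ring
      _ ≤ (ε * D.s k) ^ 2 * 1 := by
          gcongr
          rw [div_le_one (by positivity)]
          linarith
      _ = _ := mul_one _
  have hs0 : 0 ≤ ε * D.s k := by positivity
  apply D.dist_f_le
  · exact key _ hs0 hE.1 _ (hosc x (D.Uk k) (D.Uk_dom k) K hsub hmo.1 φ hφ0 hφ2 y x hy' hxx)
  · exact key _ hs0 hE.2 _ (hosc x (D.Vk k) (D.Vk_dom k) K hsub hmo.2 φ hφ0 hφ2 y x hy' hxx)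

/-- some point stays far from the pole and is mapped far -/
theorem far [CompactSpace Z] [PreconnectedSpace Z] [LocallyConnectedSpace Z]
    (hmax : InMax Q) {R : ℝ} (hR : 0 < R) :
    ∃ d1 : ℝ, 0 < d1 ∧ ∀ᶠ k in om, ∃ t : Z,
      D.g k • t ∉ H X '' ball (D.f k D.x0) (R * D.s k) ∧ d1 ≤ dist t D.a := by
  have hd0 : 0 < min (dist D.x0 D.a) (dist D.x1 D.a) := lt_min (dist_pos.2 D.h0) (dist_pos.2 D.h1)
  have hc := X.c_pos
  have hm := m0_nonneg
  have hC0 := Q.C0_pos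
  obtain ⟨n, hn⟩ := exists_nat_gt (Q.C0 ^ 2 * (X.c * m0 * R ^ 2))
  have hn0 : (0 : ℝ) < n := lt_of_le_of_lt (by positivity) hn
  have hn0' : 0 < n := by exact_mod_cast hn0
  obtain ⟨ρ, ψ, d', hd', hρ, hψ0, hψ1, hψs, hψd, hρd⟩ := rings Q D.a hd0 n
  refine ⟨d', hd', ?_⟩
  have hK : IsCompact {x : Z | d' ≤ dist x D.a} :=
    (isClosed_le continuous_const (by fun_prop)).isCompact
  have haK : D.a ∉ {x : Z | d' ≤ dist x D.a} := by
    simp only [Set.mem_ofPred_eq, dist_self, not_le]; exact hd'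
  filter_upwards [D.s_pos, D.ev_ball0 (2 * R), D.ev_W hK haK] with k h1 h2 h3
  by_contra hcon
  push Not at hcon
  have hin : ∀ t, d' ≤ dist t D.a → dist (D.f k t) (D.f k D.x0) ≤ R * D.s k := by
    intro t ht
    by_contra hlt
    push Not at hlt
    have hb : ball (D.f k D.x0) (R * D.s k) ⊆ ball X.p X.ρ := by
      refine ball_subset_closedBall.trans ((closedBall_subset_closedBall ?_).trans h2)
      nlinarith
    exact absurd ht (not_le.2 (hcon t (notMem_out hb hlt.le)))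
  have hb2 : closedBall (D.f k D.x0) (2 * (R * D.s k)) ⊆ ball X.p X.ρ := by
    rw [← mul_assoc]; exact h2
  have hE := D.energy_k k (by positivity) hb2 (φ := ∑ i ∈ Finset.range n, ψ i) hψs (fun x hx => by
    have : d' ≤ dist x D.a := by
      by_contra hlt
      apply hx
      rw [ContinuousMap.sum_apply]
      apply Finset.sum_eq_zero
      intro i hi
      by_contra h0
      exact hlt (hψd i hi x h0)
    exact ⟨h3 x this, hin x this⟩)
  have hmo := D.mono_U hmax k (O := {x : Z | d' ≤ dist x D.a}) h3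
  have hO : ∀ i ∈ Finset.range n, {x : Z | ρ i ≤ dist x D.a} ⊆ {x : Z | d' ≤ dist x D.a} :=
    fun i hi x hx => (hρd i hi).trans hx
  have hw0 : ∀ i ∈ Finset.range n, Q.lam * ρ i ≤ dist D.x0 D.a :=
    fun i _ => (hρ i).2.2.trans (min_le_left _ _)
  have hw1 : ∀ i ∈ Finset.range n, Q.lam * ρ i ≤ dist D.x1 D.a :=
    fun i _ => (hρ i).2.2.trans (min_le_right _ _)
  have hρ' : ∀ i, 0 < ρ i ∧ ρ i ≤ Q.ρ0 := fun i => ⟨(hρ i).1, (hρ i).2.1⟩
  have hU := osc_outer Q hn0' hρ' hψ0 hψ1 (D.Uk_dom k) hO hmo.1 hE.1 hw1 hw0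
  have hV := osc_outer Q hn0' hρ' hψ0 hψ1 (D.Vk_dom k) hO hmo.2 hE.2 hw1 hw0
  have hd := D.dist_f_le hU hV
  have hlt : Q.C0 * Real.sqrt (X.c * m0 * (R * D.s k) ^ 2 / n) < D.s k := by
    have e1 : Q.C0 * Real.sqrt (X.c * m0 * (R * D.s k) ^ 2 / n)
        = Real.sqrt (Q.C0 ^ 2 * (X.c * m0 * (R * D.s k) ^ 2 / n)) := by
      rw [Real.sqrt_mul (by positivity), Real.sqrt_sq hC0.le]
    rw [e1, Real.sqrt_lt' h1]
    have e2 : Q.C0 ^ 2 * (X.c * m0 * (R * D.s k) ^ 2 / n)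
        = (Q.C0 ^ 2 * (X.c * m0 * R ^ 2)) / n * D.s k ^ 2 := by ring
    rw [e2]
    have e3 : (Q.C0 ^ 2 * (X.c * m0 * R ^ 2)) / n < 1 := (div_lt_one hn0).2 hn
    have e4 : 0 < D.s k ^ 2 := by positivity
    nlinarith
  exact absurd hd (not_le.2 hlt)

/-- **Properness** -/
theorem proper [CompactSpace Z] [PreconnectedSpace Z] [LocallyConnectedSpace Z]
    (hC1 : InC1 Q) (hmax : InMax Q) (R0 : ℝ) :
    ∃ ρ' : ℝ, 0 < ρ' ∧ ∀ᶠ k in om, ∀ x : Z, D.g k • x ∈ X.W →
      dist (D.f k x) (D.f k D.x0) ≤ R0 * D.s k → ρ' ≤ dist x D.a := by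
  set R := max R0 1 with hRd
  have hR1 : 1 ≤ R := le_max_right _ _
  have hR : 0 < R := by linarith
  obtain ⟨d1, hd1, hfar⟩ := D.far hmax (R := 2 * R) (by positivity)
  have hd0 : 0 < min (dist D.x0 D.a) d1 := lt_min (dist_pos.2 D.h0) hd1
  obtain ⟨n, hn⟩ := exists_nat_gt (Q.C0 ^ 2 * (X.c * e0))
  obtain ⟨ρ, ψ, d', hd', hρ, hψ0, hψ1, hψs, hψd, hρd⟩ := rings Q D.a hd0 n
  refine ⟨d', hd', ?_⟩
  obtain ⟨y1, hy1⟩ := X.W_ne
  filter_upwards [D.s_pos, D.ev_ball0 (2 * R), D.ev_pair, D.ev_pole hy1 hd', hfar] with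
    k h1 h2 h3 h4 h5 x hx hxR
  by_contra hcon
  push Not at hcon
  obtain ⟨t, ht1, ht2⟩ := h5
  have hRs : 0 < R * D.s k := by positivity
  have hb1 : closedBall (D.f k D.x0) (R * D.s k) ⊆ ball X.p X.ρ :=
    (closedBall_subset_closedBall (by nlinarith)).trans h2
  have hb2 : closedBall (D.f k D.x0) (2 ^ 1 * (R * D.s k)) ⊆ ball X.p X.ρ := by
    rw [pow_one, ← mul_assoc]; exact h2
  have hbo : ball (D.f k D.x0) (2 * R * D.s k) ⊆ ball X.p X.ρ := ball_subset_closedBall.trans h2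
  obtain ⟨w, hwD, hw1, hw2, hw3⟩ := exists_cut X hC1 hRs le_rfl hb2
  set w' : C(Z, ℝ) := ⟨fun x => w (D.g k • x), w.continuous.comp (S.cont (D.g k))⟩ with hw'
  obtain ⟨hw'D, hinv⟩ := Q.inv (D.g k) w w 1 w' w' 1 hwD hwD (fun _ => rfl) (fun _ => rfl)
    (fun _ => rfl)
  have hA : IsPreconnected {x : Z | D.g k • x ∈ H X '' closedBall (D.f k D.x0) (R * D.s k)} :=
    preconn_in _ hb1
  have hB : IsPreconnected {x : Z | D.g k • x ∉ H X '' ball (D.f k D.x0) (2 * R * D.s k)} :=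
    preconn_out _ (by positivity) h2
  have hρ' : ∀ i, 0 < ρ i ∧ ρ i ≤ Q.ρ0 := fun i => ⟨(hρ i).1, (hρ i).2.1⟩
  have hfin := cross_rings Q hρ' hψ0 hψ1 hψs hw'D hA hB
    (fun z hz => by
      obtain ⟨q, hq, hqz⟩ := hz
      show w (D.g k • z) = 1
      rw [← hqz, hw1 q hq])
    (fun z hz => by
      show w (D.g k • z) = 0
      apply hw2
      rw [pow_one, ← mul_assoc]
      exact hz)
    (y := x) (y' := D.x0) (z := (D.g k)⁻¹ • y1) (z' := t)
    (mem_in hx (hxR.trans (mul_le_mul_of_nonneg_right (le_max_left _ _) h1.le)))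
    (mem_in h3.1 (by
      show dist (D.f k D.x0) (D.f k D.x0) ≤ R * D.s k
      rw [dist_self]; exact hRs.le))
    (notMem_out' hbo hy1) ht1
    (fun i hi => hcon.le.trans (hρd i hi))
    (fun i _ => (hρ i).2.2.trans (min_le_left _ _))
    (fun i hi => h4.le.trans (hρd i hi))
    (fun i _ => (hρ i).2.2.trans ((min_le_right _ _).trans ht2))
  rw [hinv, hw3, Nat.cast_one, div_one] at hfin
  linarith

end ZD

end Crest.Agent.R193.D_Chart
end
end

-- ▼ part R193/D_Chart7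
section

/-!
# R193, block D (C7-C8): the zoomed charts form an abstract zoom family
-/

set_option autoImplicit false

noncomputable section

open Set Filter Topology MeasureTheory Metric

namespace Crest.Agent.R193.D_Chart

open Crest.Agent.R193 Crest.Agent.R193.D3b1 Crest.Agent.R193.D3b2

variable {G Z : Type} [Group G] [MetricSpace Z] [MulAction G Z] {S : Setup G Z} {Q : DForm S}

namespace ZD

open CC

variable {X : ConfChart Q} (D : ZD X)

/-- the domain, restricted to good indices -/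
def Dk' (k : ℕ) : Set Z := {x | 0 < D.s k ∧ x ∈ D.Dk k}

theorem norm_Fk {k : ℕ} (hs : 0 < D.s k) (x : Z) :
    ‖D.Fk k x‖ = dist (D.f k x) (D.f k D.x0) / D.s k := by
  unfold Fk
  rw [norm_smul, norm_inv, Real.norm_of_nonneg hs.le, dist_eq_norm, div_eq_inv_mul]

theorem dist_Fk {k : ℕ} (hs : 0 < D.s k) (x y : Z) :
    dist (D.Fk k x) (D.Fk k y) = dist (D.f k x) (D.f k y) / D.s k := by
  unfold Fk
  rw [dist_smul₀, dist_sub_right, norm_inv, Real.norm_of_nonneg hs.le, div_eq_inv_mul]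

theorem zf [CompactSpace Z] [PreconnectedSpace Z] [LocallyConnectedSpace Z] (hC1 : InC1 Q)
    (hL : InLoewUnit Q) (hmax : InMax Q) : ZF D.a D.Fk D.Hk D.Dk' where
  cont k := by
    have := D.f_cont k
    unfold Fk
    fun_prop
  dom K hK ha := by
    filter_upwards [D.ev_W hK ha, D.s_pos] with k h1 h2 x hx
    exact ⟨h2, h1 x hx⟩
  upper K hK ha := by
    obtain ⟨M, -, h⟩ := D.upper hC1 hL hK ha
    refine ⟨M, ?_⟩
    filter_upwards [h, D.s_pos] with k h1 h2 y hy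
    rw [D.norm_Fk h2, div_le_iff₀ h2]
    exact h1 y hy
  equi x hx ε hε := by
    obtain ⟨r, hr, h⟩ := D.equi hC1 hL hmax hx hε
    refine ⟨r, hr, ?_⟩
    filter_upwards [h, D.s_pos] with k h1 h2 y hy
    rw [D.dist_Fk h2, div_le_iff₀ h2]
    exact h1 y hy
  lower d R hd := by
    obtain ⟨δ, hδ, h⟩ := D.lower hC1 hL hd (R := max R 1) (by positivity)
    refine ⟨δ, hδ, ?_⟩
    filter_upwards [h, D.s_pos] with k h1 h2 y hy y' hy' hyR hyy
    rw [D.dist_Fk h2, le_div_iff₀ h2]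
    rw [D.norm_Fk h2, div_le_iff₀ h2] at hyR
    exact h1 y y' hy.2 hy'.2
      (hyR.trans (mul_le_mul_of_nonneg_right (le_max_left _ _) h2.le)) hyy
  proper R := by
    obtain ⟨ρ, hρ, h⟩ := D.proper hC1 hmax R
    refine ⟨ρ, hρ, ?_⟩
    filter_upwards [h, D.s_pos] with k h1 h2 x hx hxR
    rw [D.norm_Fk h2, div_le_iff₀ h2] at hxR
    exact h1 x hx.2 hxR
  right R := by
    filter_upwards [D.ev_ball0 R, D.s_pos] with k h1 h2 q hq
    have hmem : D.f k D.x0 + D.s k • q ∈ ball X.p X.ρ := by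
      apply h1
      rw [mem_closedBall, dist_eq_norm, add_sub_cancel_left, norm_smul,
        Real.norm_of_nonneg h2.le, mul_comm]
      exact mul_le_mul_of_nonneg_right hq h2.le
    have e1 : D.g k • D.Hk k q = H X (D.f k D.x0 + D.s k • q) := by
      unfold Hk
      rw [smul_inv_smul]
    refine ⟨⟨h2, ?_⟩, ?_⟩
    · show D.g k • D.Hk k q ∈ X.W
      rw [e1]
      exact H_mem X hmem
    · unfold Fk f
      rw [e1, F_H X hmem]
      show (D.s k)⁻¹ • (D.f k D.x0 + D.s k • q - D.f k D.x0) = q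
      rw [add_sub_cancel_left, smul_smul, inv_mul_cancel₀ h2.ne', one_smul]
  left k x hx := by
    obtain ⟨h2, hx⟩ := hx
    unfold Hk Fk
    rw [smul_smul, mul_inv_cancel₀ h2.ne', one_smul, add_sub_cancel]
    unfold f
    rw [H_F X hx, inv_smul_smul]

end ZD

end Crest.Agent.R193.D_Chart
end
end

-- ▼ part R193/D_Chart8
section

/-!
# R193, block D (C7-C8, D8W): wiring
-/

set_option autoImplicit false

noncomputable section

open Set Filter Topology MeasureTheory Metric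

namespace Crest.Agent.R193.D_Chart

open Crest.Agent.R193 Crest.Agent.R193.D3b1 Crest.Agent.R193.D3b2

variable {G Z : Type} [Group G] [MetricSpace Z] [MulAction G Z] {S : Setup G Z} {Q : DForm S}

theorem exists_ZD (S : Setup G Z) {Q : DForm S} [CompactSpace Z] (Φ : Z ≃ₜ S2)
    (X : ConfChart Q) : Nonempty (ZD X) := by
  classical
  have : PreconnectedSpace Z := D_Inputs.preconnected Φ
  have : Nontrivial Z := D_Spec.nontrivial Φ
  have hinf : Infinite Z := PreconnectedSpace.infinite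
  obtain ⟨a, g, hg⟩ := D_Spec.zoom S (CC.H X X.p)
  obtain ⟨x0, hx0⟩ := Infinite.exists_notMem_finset ({a} : Finset Z)
  obtain ⟨x1, hx1⟩ := Infinite.exists_notMem_finset ({a, x0} : Finset Z)
  simp only [Finset.mem_singleton, Finset.mem_insert, not_or] at hx0 hx1
  exact ⟨⟨a, g, x0, x1, hx0, hx1.1, fun h => hx1.2 h.symm, hg⟩⟩





end Crest.Agent.R193.D_Chart
end
end

-- ▼ part R193/D_Lim
section

/-!
# R193, block D (C8, helper990): the limit of an abstract zoom family is a homeomorphism onto the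
Riemann sphere
-/

set_option autoImplicit false

noncomputable section

open Set Filter Topology MeasureTheory Metric

namespace Crest.Agent.R193.D_Lim

open Crest.Agent.R193

variable {Z : Type} [MetricSpace Z] [CompactSpace Z] {a : Z} {F : ℕ → Z → ℝ × ℝ}
  {H : ℕ → ℝ × ℝ → Z} {Dk : ℕ → Set Z}

/-- the ultrafilter -/
abbrev om : Ultrafilter ℕ := hyperfilter ℕ

lemma exists_lim {X : Type*} [TopologicalSpace X] {K : Set X} (hK : IsCompact K) {f : ℕ → X}
    (hf : ∀ᶠ k in (om : Filter ℕ), f k ∈ K) : ∃ p ∈ K, Tendsto f om (𝓝 p) := by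
  obtain ⟨p, hp, h⟩ := hK.ultrafilter_le_nhds (om.map f) (by
    rw [Ultrafilter.coe_map, le_principal_iff]
    exact hf)
  exact ⟨p, hp, h⟩

lemma exists_Finf (h : ZF a F H Dk) : ∀ x : Z, ∃ p : ℝ × ℝ, x ≠ a →
    Tendsto (fun k => F k x) om (𝓝 p) := by
  intro x
  by_cases hx : x = a
  · exact ⟨0, fun h' => (h' hx).elim⟩
  · obtain ⟨M, hM⟩ := h.upper {x} isCompact_singleton (fun h' => hx (mem_singleton_iff.1 h').symm)
    obtain ⟨p, -, hp⟩ := exists_lim (isCompact_closedBall (0 : ℝ × ℝ) M) (f := fun k => F k x)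
      (hM.mono fun k hk => by
        rw [mem_closedBall_zero_iff]
        exact hk x rfl)
    exact ⟨p, fun _ => hp⟩

/-- the limit map -/
def Finf (h : ZF a F H Dk) (x : Z) : ℝ × ℝ := (exists_Finf h x).choose

lemma tendsto_Finf (h : ZF a F H Dk) {x : Z} (hx : x ≠ a) :
    Tendsto (fun k => F k x) om (𝓝 (Finf h x)) := (exists_Finf h x).choose_spec hx

lemma not_mem_singleton {x : Z} (hx : x ≠ a) : a ∉ ({x} : Set Z) :=
  fun h' => hx (mem_singleton_iff.1 h').symm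

lemma ev_dom (h : ZF a F H Dk) {x : Z} (hx : x ≠ a) : ∀ᶠ k in (om : Filter ℕ), x ∈ Dk k :=
  (h.dom {x} isCompact_singleton (not_mem_singleton hx)).mono fun _ hk => hk rfl

/-- local equicontinuity passes to the limit -/
lemma equi_Finf (h : ZF a F H Dk) {x : Z} (hx : x ≠ a) {ε : ℝ} (hε : 0 < ε) :
    ∃ r : ℝ, 0 < r ∧ (∀ᶠ k in (om : Filter ℕ), ∀ y ∈ closedBall x r,
      dist (F k y) (F k x) ≤ ε) ∧ ∀ y ∈ closedBall x r, y ≠ a →
      dist (Finf h y) (Finf h x) ≤ ε := by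
  obtain ⟨r, hr, hev⟩ := h.equi x hx ε hε
  refine ⟨r, hr, hev, fun y hy hya => ?_⟩
  exact le_of_tendsto ((tendsto_Finf h hya).dist (tendsto_Finf h hx)) (hev.mono fun k hk => hk y hy)

lemma continuousAt_Finf (h : ZF a F H Dk) {x : Z} (hx : x ≠ a) : ContinuousAt (Finf h) x := by
  rw [Metric.continuousAt_iff']
  intro ε hε
  obtain ⟨r, hr, -, hev⟩ := equi_Finf h hx (half_pos hε)
  filter_upwards [closedBall_mem_nhds x hr, isOpen_compl_singleton.mem_nhds hx] with y hy hya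
  exact (hev y hy hya).trans_lt (half_lt_self hε)

lemma Finf_injective (h : ZF a F H Dk) {x y : Z} (hx : x ≠ a) (hy : y ≠ a)
    (hxy : Finf h x = Finf h y) : x = y := by
  by_contra hne
  obtain ⟨M, hM⟩ := h.upper {x} isCompact_singleton (not_mem_singleton hx)
  obtain ⟨δ, hδ, hev⟩ := h.lower (dist x y) M (dist_pos.2 hne)
  have h1 : δ ≤ dist (Finf h y) (Finf h x) := by
    refine ge_of_tendsto ((tendsto_Finf h hy).dist (tendsto_Finf h hx)) ?_
    filter_upwards [hev, hM, ev_dom h hx, ev_dom h hy] with k h1 h2 h3 h4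
    exact h1 x h3 y h4 (h2 x rfl) le_rfl
  rw [hxy, dist_self] at h1
  linarith

/-- convergence along moving points -/
lemma tendsto_moving (h : ZF a F H Dk) {y : Z} (hy : y ≠ a) {p : ℕ → Z}
    (hp : Tendsto p om (𝓝 y)) : Tendsto (fun k => F k (p k)) om (𝓝 (Finf h y)) := by
  rw [Metric.tendsto_nhds]
  intro ε hε
  obtain ⟨r, hr, hev, -⟩ := equi_Finf h hy (half_pos hε)
  filter_upwards [hev, hp (closedBall_mem_nhds y hr),
    Metric.tendsto_nhds.1 (tendsto_Finf h hy) _ (half_pos hε)] with k h1 h2 h3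
  calc dist (F k (p k)) (Finf h y) ≤ dist (F k (p k)) (F k y) + dist (F k y) (Finf h y) :=
        dist_triangle _ _ _
    _ < ε := by
        have := h1 (p k) h2
        linarith

lemma Finf_surjective (h : ZF a F H Dk) (q : ℝ × ℝ) : ∃ y, y ≠ a ∧ Finf h y = q := by
  obtain ⟨ρ, hρ, hpr⟩ := h.proper ‖q‖
  have hr := h.right ‖q‖
  obtain ⟨y, -, hy⟩ := exists_lim (isCompact_univ (X := Z)) (f := fun k => H k q)
    (Eventually.of_forall fun _ => mem_univ _)
  have hya : y ≠ a := by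
    rintro rfl
    obtain ⟨k, h1, h2, h3⟩ := (hpr.and (hr.and (Metric.tendsto_nhds.1 hy ρ hρ))).exists
    have h4 := h2 q le_rfl
    have := h1 (H k q) h4.1 (by rw [h4.2])
    linarith
  refine ⟨y, hya, ?_⟩
  have h1 := tendsto_moving h hya hy
  have h2 : Tendsto (fun k => F k (H k q)) om (𝓝 q) := by
    refine tendsto_const_nhds.congr' ?_
    filter_upwards [hr] with k hk
    exact (hk q le_rfl).2.symm
  exact tendsto_nhds_unique h1 h2

/-- points with bounded image are away from `a` -/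
lemma proper_Finf (h : ZF a F H Dk) (R : ℝ) : ∃ ρ : ℝ, 0 < ρ ∧ (∀ᶠ k in (om : Filter ℕ),
      ∀ x ∈ Dk k, ‖F k x‖ ≤ R → ρ ≤ dist x a) ∧
    ∀ x, x ≠ a → ‖Finf h x‖ < R → ρ ≤ dist x a := by
  obtain ⟨ρ, hρ, hpr⟩ := h.proper R
  refine ⟨ρ, hρ, hpr, fun x hx hxR => ?_⟩
  have h1 : ∀ᶠ k in (om : Filter ℕ), ‖F k x‖ < R :=
    (tendsto_Finf h hx).norm.eventually_lt_const hxR
  obtain ⟨k, h2, h3, h4⟩ := (hpr.and (h1.and (ev_dom h hx))).exists
  exact h2 x h4 h3.le

lemma continuous_ofR : Continuous ofR :=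
  OnePoint.continuous_coe.comp (Complex.equivRealProdCLM.symm.continuous)

lemma toR_ofR (q : ℝ × ℝ) : toR (ofR q) = q := by
  show Complex.equivRealProd (toC ((Complex.equivRealProd.symm q : ℂ) : OnePoint ℂ)) = q
  have : toC ((Complex.equivRealProd.symm q : ℂ) : OnePoint ℂ) = Complex.equivRealProd.symm q := rfl
  rw [this, Equiv.apply_symm_apply]

open Classical in
/-- the limit map into the sphere -/
def PhiFun (h : ZF a F H Dk) (x : Z) : OnePoint ℂ :=
  if x = a then OnePoint.infty else ofR (Finf h x)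

lemma PhiFun_a (h : ZF a F H Dk) : PhiFun h a = OnePoint.infty := if_pos rfl

lemma PhiFun_ne (h : ZF a F H Dk) {x : Z} (hx : x ≠ a) : PhiFun h x = ofR (Finf h x) := if_neg hx

lemma ofR_ne_infty (q : ℝ × ℝ) : ofR q ≠ OnePoint.infty := OnePoint.coe_ne_infty _

lemma continuous_PhiFun (h : ZF a F H Dk) : Continuous (PhiFun h) := by
  rw [continuous_iff_continuousAt]
  intro x
  by_cases hx : x = a
  · subst hx
    rw [ContinuousAt, PhiFun_a, OnePoint.hasBasis_nhds_infty.tendsto_right_iff]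
    rintro K ⟨-, hK⟩
    obtain ⟨R, hR⟩ := hK.isBounded.exists_norm_le
    obtain ⟨ρ, hρ, -, hfar⟩ := proper_Finf h (R + 1)
    filter_upwards [ball_mem_nhds x hρ] with y hy
    by_cases hyx : y = x
    · right
      rw [hyx, PhiFun_a]
      rfl
    · left
      rw [PhiFun_ne h hyx]
      refine ⟨Complex.equivRealProd.symm (Finf h y), fun hyK => ?_, rfl⟩
      have h1 := hR _ hyK
      have h2 : ‖Finf h y‖ ≤ ‖Complex.equivRealProd.symm (Finf h y)‖ := by
        have h3 := Complex.equivRealProd_apply_le (Complex.equivRealProd.symm (Finf h y))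
        rwa [Equiv.apply_symm_apply] at h3
      have h3 := hfar y hyx (by linarith)
      rw [mem_ball] at hy
      linarith
  · have h1 : ContinuousAt (fun y => ofR (Finf h y)) x :=
      continuous_ofR.continuousAt.comp (continuousAt_Finf h hx)
    refine h1.congr ?_
    filter_upwards [isOpen_compl_singleton.mem_nhds hx] with y hy
    exact (PhiFun_ne h hy).symm

lemma ofR_injective : Function.Injective ofR := fun p q hpq => by
  rw [← toR_ofR p, ← toR_ofR q, hpq]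

lemma bijective_PhiFun (h : ZF a F H Dk) : Function.Bijective (PhiFun h) := by
  constructor
  · intro x y hxy
    by_cases hx : x = a
    · by_cases hy : y = a
      · rw [hx, hy]
      · rw [hx, PhiFun_a, PhiFun_ne h hy] at hxy
        exact (ofR_ne_infty _ hxy.symm).elim
    · by_cases hy : y = a
      · rw [hy, PhiFun_a, PhiFun_ne h hx] at hxy
        exact (ofR_ne_infty _ hxy).elim
      · rw [PhiFun_ne h hx, PhiFun_ne h hy] at hxy
        exact Finf_injective h hx hy (ofR_injective hxy)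
  · intro w
    induction w using OnePoint.rec with
    | infty => exact ⟨a, PhiFun_a h⟩
    | coe z =>
      obtain ⟨y, hya, hy⟩ := Finf_surjective h (Complex.equivRealProd z)
      refine ⟨y, ?_⟩
      rw [PhiFun_ne h hya, hy]
      show ((Complex.equivRealProd.symm (Complex.equivRealProd z) : ℂ) : OnePoint ℂ) = z
      rw [Equiv.symm_apply_apply]

/-- the limit homeomorphism -/
def Phi (h : ZF a F H Dk) : Z ≃ₜ OnePoint ℂ :=
  Continuous.homeoOfEquivCompactToT2 (f := Equiv.ofBijective (PhiFun h) (bijective_PhiFun h))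
    (continuous_PhiFun h)

lemma Phi_apply (h : ZF a F H Dk) (x : Z) : Phi h x = PhiFun h x := rfl

lemma toR_Phi (h : ZF a F H Dk) {x : Z} (hx : x ≠ a) : toR (Phi h x) = Finf h x := by
  rw [Phi_apply, PhiFun_ne h hx, toR_ofR]

/-- uniform convergence on compact sets missing `a` -/
lemma unif (h : ZF a F H Dk) {K : Set Z} (hK : IsCompact K) (haK : a ∉ K) {ε : ℝ} (hε : 0 < ε) :
    ∀ᶠ k in (om : Filter ℕ), ∀ x ∈ K, dist (F k x) (Finf h x) < ε := by
  have hne : ∀ x ∈ K, x ≠ a := fun x hx h' => haK (h' ▸ hx)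
  have hε4 : 0 < ε / 4 := by linarith
  choose! r hr hev hlim using fun x (hx : x ∈ K) => equi_Finf h (hne x hx) hε4
  obtain ⟨t, htK, ht⟩ := hK.elim_nhds_subcover (fun x => closedBall x (r x))
    fun x hx => closedBall_mem_nhds x (hr x hx)
  have h1 : ∀ᶠ k in (om : Filter ℕ), ∀ c ∈ t, (∀ y ∈ closedBall c (r c),
      dist (F k y) (F k c) ≤ ε / 4) ∧ dist (F k c) (Finf h c) < ε / 4 :=
    (Filter.eventually_all_finset t).2 fun c hc => (hev c (htK c hc)).and
      (Metric.tendsto_nhds.1 (tendsto_Finf h (hne c (htK c hc))) _ hε4)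
  filter_upwards [h1] with k hk x hx
  obtain ⟨c, hc, hxc⟩ := mem_iUnion₂.1 (ht hx)
  obtain ⟨h2, h3⟩ := hk c hc
  have h4 := hlim c (htK c hc) x hxc (hne x hx)
  have h5 := h2 x hxc
  rw [dist_comm] at h4
  calc dist (F k x) (Finf h x) ≤ dist (F k x) (F k c) + dist (F k c) (Finf h c) +
        dist (Finf h c) (Finf h x) := dist_triangle4 _ _ _ _
    _ < ε := by linarith

/-- **TASK `limit`** -/
theorem limit (h : ZF a F H Dk) : ∃ Φ : Z ≃ₜ OnePoint ℂ, ZFLim a F H Φ := by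
  refine ⟨Phi h, PhiFun_a h, ?_, ?_⟩
  · intro K hK haK ε hε
    filter_upwards [unif h hK haK hε] with k hk x hx
    rw [toR_Phi h (fun h' => haK (h' ▸ hx))]
    exact hk x hx
  · intro R ε hε
    obtain ⟨ρ, hρ, -, hfar⟩ := proper_Finf h (R + 1)
    set K : Set Z := {z | ρ ≤ dist z a} with hKdef
    have hKc : IsCompact K :=
      (isClosed_le continuous_const (continuous_id.dist continuous_const)).isCompact
    have haK : a ∉ K := by
      intro h'
      have : ρ ≤ dist a a := h'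
      rw [dist_self] at this
      linarith
    obtain ⟨δ, hδ, hlow⟩ := h.lower ε R hε
    filter_upwards [hlow, unif h hKc haK hδ, h.dom K hKc haK, h.right R] with k h1 h2 h3 h4 q hq
    set x := (Phi h).symm (ofR q) with hx
    have hΦx : Phi h x = ofR q := (Phi h).apply_symm_apply _
    have hxa : x ≠ a := by
      intro h'
      rw [h', Phi_apply, PhiFun_a] at hΦx
      exact ofR_ne_infty _ hΦx.symm
    have hFx : Finf h x = q := by
      rw [← toR_Phi h hxa, hΦx, toR_ofR]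
    have hxK : x ∈ K := hfar x hxa (by rw [hFx]; linarith)
    obtain ⟨h5, h6⟩ := h4 q hq
    by_contra hcon
    rw [not_lt] at hcon
    have h7 := h1 (H k q) h5 x (h3 hxK) (by rw [h6]; exact hq) hcon
    have h8 := h2 x hxK
    rw [h6] at h7
    rw [hFx] at h8
    linarith

end Crest.Agent.R193.D_Lim
end
end

-- ▼ part R193/D_WC
section

/-!
# R193, block D: the limit chart is weakly conformal (D8W)
-/

set_option autoImplicit false

noncomputable section

open Set Filter Topology MeasureTheory Metric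

namespace Crest.Agent.R193.D_WC

open Crest.Agent.R193

/-! ### the finite part of a point of the sphere -/


theorem continuousAt_toC {w : OnePoint ℂ} (hw : w ≠ OnePoint.infty) : ContinuousAt toC w := by
  induction w using OnePoint.rec with
  | infty => exact absurd rfl hw
  | coe z =>
    rw [OnePoint.continuousAt_coe]
    exact continuousAt_id

theorem continuousAt_toR {w : OnePoint ℂ} (hw : w ≠ OnePoint.infty) : ContinuousAt toR w :=
  (Complex.equivRealProdCLM.continuous.continuousAt).comp (continuousAt_toC hw)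

theorem continuous_ofR : Continuous ofR :=
  OnePoint.continuous_coe.comp Complex.equivRealProdCLM.symm.continuous


/-! ### Laplacians -/

theorem lap2_comp {ψ : ℂ → ℝ} (hψ : ContDiff ℝ (⊤ : ℕ∞) ψ) (q : ℝ × ℝ) :
    lap2 (fun q => ψ (Complex.equivRealProdCLM.symm q)) q = lap ψ (Complex.equivRealProdCLM.symm q) := by
  have h := ContinuousLinearMap.iteratedFDeriv_comp_right
    (Complex.equivRealProdCLM.symm : ℝ × ℝ →L[ℝ] ℂ) hψ q (i := 2)
    (show ((2 : ℕ∞) : WithTop ℕ∞) ≤ ((⊤ : ℕ∞) : WithTop ℕ∞) from WithTop.coe_le_coe.2 le_top)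
  have h' : iteratedFDeriv ℝ 2 (fun q => ψ (Complex.equivRealProdCLM.symm q)) q =
    (iteratedFDeriv ℝ 2 ψ (Complex.equivRealProdCLM.symm q)).compContinuousLinearMap
      (fun _ => (Complex.equivRealProdCLM.symm : ℝ × ℝ →L[ℝ] ℂ)) := h
  unfold lap2 lap
  rw [h']
  simp only [ContinuousMultilinearMap.compContinuousLinearMap_apply]
  congr 2
  · funext i
    fin_cases i <;> simp [Complex.ext_iff]
  · funext i
    fin_cases i <;> simp [Complex.ext_iff]

theorem lap2_eq (ψ : ℝ × ℝ → ℝ) (q : ℝ × ℝ) : lap2 ψ q =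
    fderiv ℝ (fderiv ℝ ψ) q (1, 0) (1, 0) + fderiv ℝ (fderiv ℝ ψ) q (0, 1) (0, 1) := by
  simp [lap2, iteratedFDeriv_two_apply]

theorem continuous_lap2 {ψ : ℝ × ℝ → ℝ} (hψ : ContDiff ℝ (⊤ : ℕ∞) ψ) : Continuous (lap2 ψ) := by
  have hf : ContDiff ℝ (⊤ : ℕ∞) (fderiv ℝ ψ) := hψ.fderiv_right (by exact_mod_cast le_top)
  have h2 : Continuous (fderiv ℝ (fderiv ℝ ψ)) := hf.continuous_fderiv (by simp)
  have : lap2 ψ = fun q => fderiv ℝ (fderiv ℝ ψ) q (1, 0) (1, 0) +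
      fderiv ℝ (fderiv ℝ ψ) q (0, 1) (0, 1) := funext (lap2_eq ψ)
  rw [this]
  fun_prop

theorem support_lap2 (ψ : ℝ × ℝ → ℝ) : Function.support (lap2 ψ) ⊆ tsupport ψ := by
  intro q hq
  by_contra hcon
  apply hq
  have h0 : ψ =ᶠ[𝓝 q] 0 := notMem_tsupport_iff_eventuallyEq.1 hcon
  have h1 : fderiv ℝ ψ =ᶠ[𝓝 q] fderiv ℝ (0 : ℝ × ℝ → ℝ) := h0.fderiv
  rw [lap2_eq, h1.fderiv_eq]
  simp

/-! ### the limit of the harmonicity identities -/

variable {G Z : Type} [Group G] [MetricSpace Z] [CompactSpace Z] [MulAction G Z]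
  {a : Z} {F : ℕ → Z → ℝ × ℝ} {H : ℕ → ℝ × ℝ → Z} {Dk : ℕ → Set Z}

theorem core (h : ZF a F H Dk)
    (hHc : ∀ R : ℝ, ∀ᶠ k in (hyperfilter ℕ : Filter ℕ), ContinuousOn (H k) (closedBall 0 R))
    {Φ : Z ≃ₜ OnePoint ℂ} (hΦ : ZFLim a F H Φ) (g : G) (hg : Continuous fun x : Z => g • x)
    (hH : ZFHarm F H Dk g) {P : ℝ × ℝ → ℝ} (hP : ContDiff ℝ (⊤ : ℕ∞) P)
    (hPl : ∀ q, lap2 P q = 0) {ψ : ℝ × ℝ → ℝ} (hψ : ContDiff ℝ (⊤ : ℕ∞) ψ)
    (hψc : HasCompactSupport ψ)
    (hne : ∀ q ∈ tsupport ψ, Φ (g • Φ.symm (ofR q)) ≠ OnePoint.infty) :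
    ∫ q, P (toR (Φ (g • Φ.symm (ofR q)))) * lap2 ψ q = 0 := by
  obtain ⟨hΦa, hF, hHl⟩ := hΦ
  have hTc : IsCompact (tsupport ψ) := hψc
  obtain ⟨R, hR⟩ := hTc.isBounded.subset_closedBall (0 : ℝ × ℝ)
  have hX : Continuous (fun q : ℝ × ℝ => g • Φ.symm (ofR q)) :=
    hg.comp (Φ.symm.continuous.comp continuous_ofR)
  set X : ℝ × ℝ → Z := fun q => g • Φ.symm (ofR q) with hXdef
  have hK0 : IsCompact (X '' tsupport ψ) := hTc.image hX
  have haK0 : a ∉ X '' tsupport ψ := by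
    rintro ⟨q, hq, hqa⟩
    apply hne q hq
    rw [← hΦa, ← hqa]
  obtain ⟨η, hη, hηK⟩ := hK0.exists_cthickening_subset_open
    (isOpen_compl_singleton (x := a)) (fun x hx hxa => haK0 (by rwa [← (show x = a from hxa)]))
  set K : Set Z := cthickening η (X '' tsupport ψ) with hKdef
  have hKc : IsCompact K := isClosed_cthickening.isCompact
  have haK : a ∉ K := fun ha => hηK ha rfl
  have hK0K : X '' tsupport ψ ⊆ K := self_subset_cthickening _
  have hΦK : ∀ x ∈ K, Φ x ≠ OnePoint.infty := by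
    intro x hx hcon
    rw [← hΦa] at hcon
    exact haK (Φ.injective hcon ▸ hx)
  have hTR : ∀ x ∈ K, ContinuousAt (fun x => toR (Φ x)) x := fun x hx =>
    (continuousAt_toR (hΦK x hx)).comp Φ.continuous.continuousAt
  -- the integrand of the limit
  have hcontL : ContinuousOn (fun q => P (toR (Φ (X q)))) (tsupport ψ) := by
    intro q hq
    have h1 : ContinuousAt (fun x => toR (Φ x)) (X q) := hTR _ (hK0K ⟨q, hq, rfl⟩)
    exact (hP.continuous.continuousAt.comp (h1.comp hX.continuousAt)).continuousWithinAt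
  have hlc : Continuous (lap2 ψ) := continuous_lap2 hψ
  have integ : ∀ w : ℝ × ℝ → ℝ, ContinuousOn w (tsupport ψ) →
      Integrable (fun q => w q * lap2 ψ q) := by
    intro w hw
    have h1 : IntegrableOn (fun q => w q * lap2 ψ q) (tsupport ψ) :=
      (hw.mul hlc.continuousOn).integrableOn_compact hTc
    refine (integrableOn_iff_integrable_of_support_subset ?_).1 h1
    intro q hq
    apply support_lap2 ψ
    intro h0
    apply hq
    simp [h0]
  have hintL := integ _ hcontL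
  have hintA : Integrable (fun q => |lap2 ψ q|) := by
    have := (integ (fun _ => 1) continuousOn_const).abs
    simpa using this
  set A : ℝ := ∫ q, |lap2 ψ q| with hA
  have hA0 : 0 ≤ A := integral_nonneg fun _ => abs_nonneg _
  -- it suffices to show that the integral is small
  suffices hsmall : ∀ ε > 0, |∫ q, P (toR (Φ (X q))) * lap2 ψ q| ≤ ε * A by
    have h1 : Tendsto (fun ε : ℝ => ε * A) (𝓝[>] 0) (𝓝 0) := by
      have : Tendsto (fun ε : ℝ => ε * A) (𝓝 0) (𝓝 (0 * A)) :=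
        (continuous_id.mul continuous_const).tendsto 0
      rw [zero_mul] at this
      exact this.mono_left nhdsWithin_le_nhds
    have h2 := ge_of_tendsto h1 (by
      filter_upwards [self_mem_nhdsWithin] with ε hε using hsmall ε hε)
    exact abs_eq_zero.1 (le_antisymm h2 (abs_nonneg _))
  intro ε hε
  -- uniform continuity of `P` near the compact image
  have hcomp : IsCompact ((fun x => toR (Φ x)) '' (X '' tsupport ψ)) :=
    hK0.image_of_continuousOn fun x hx => (hTR x (hK0K hx)).continuousWithinAt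
  obtain ⟨δ, hδ, hPδ⟩ : ∃ δ > 0, ∀ y' ∈ (fun x => toR (Φ x)) '' (X '' tsupport ψ), ∀ y,
      dist y' y < δ → |P y' - P y| < ε := by
    have h1 := hcomp.uniformContinuousAt_of_continuousAt P
      (fun y _ => hP.continuous.continuousAt) (dist_mem_uniformity hε)
    obtain ⟨δ, hδ, h2⟩ := Metric.mem_uniformity_dist.1 h1
    exact ⟨δ, hδ, fun y' hy' y hd => h2 hd hy'⟩
  -- uniform continuity of `toR ∘ Φ` on the compact
  obtain ⟨δ2, hδ2, hTδ⟩ : ∃ δ2 > 0, ∀ x' ∈ X '' tsupport ψ, ∀ x, dist x' x < δ2 →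
      dist (toR (Φ x')) (toR (Φ x)) < δ / 2 := by
    have h1 := hK0.uniformContinuousAt_of_continuousAt (fun x => toR (Φ x))
      (fun y hy => hTR y (hK0K hy)) (dist_mem_uniformity (half_pos hδ))
    obtain ⟨δ2, hδ2, h2⟩ := Metric.mem_uniformity_dist.1 h1
    exact ⟨δ2, hδ2, fun y' hy' y hd => h2 hd hy'⟩
  -- uniform continuity of the action
  obtain ⟨δ3, hδ3, hgδ⟩ := Metric.uniformContinuous_iff.1
    (CompactSpace.uniformContinuous_of_continuous hg) (min η δ2) (lt_min hη hδ2)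
  obtain ⟨k, hk1, hk2, hk3, hk4, hk5⟩ := (((hF K hKc haK (δ / 2) (half_pos hδ)).and
    ((hHl R δ3 hδ3).and ((h.dom K hKc haK).and ((hHc R).and
      (hH P hP hPl ψ hψ hψc))))).exists)
  have hgH : ∀ q ∈ tsupport ψ, dist (X q) (g • H k q) < min η δ2 := by
    intro q hq
    rw [dist_comm]
    apply hgδ
    exact hk2 q (by simpa using hR hq)
  have hgHK : ∀ q ∈ tsupport ψ, g • H k q ∈ K := by
    intro q hq
    apply thickening_subset_cthickening
    rw [mem_thickening_iff]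
    refine ⟨X q, ⟨q, hq, rfl⟩, ?_⟩
    rw [dist_comm]
    exact (hgH q hq).trans_le (min_le_left _ _)
  have hclose : ∀ q ∈ tsupport ψ, |P (toR (Φ (X q))) - P (F k (g • H k q))| < ε := by
    intro q hq
    apply hPδ _ ⟨X q, ⟨q, hq, rfl⟩, rfl⟩
    have h1 := hTδ (X q) ⟨q, hq, rfl⟩ (g • H k q) ((hgH q hq).trans_le (min_le_right _ _))
    have h2 := hk1 (g • H k q) (hgHK q hq)
    rw [dist_comm] at h2
    have h3 := dist_triangle (toR (Φ (X q))) (toR (Φ (g • H k q))) (F k (g • H k q))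
    simp only
    linarith
  have hzero : ∫ q, P (F k (g • H k q)) * lap2 ψ q = 0 :=
    hk5 fun q hq => hk3 (hgHK q hq)
  have hcontk : ContinuousOn (fun q => P (F k (g • H k q))) (tsupport ψ) :=
    (hP.continuous.comp (h.cont k)).comp_continuousOn (hg.comp_continuousOn (hk4.mono hR))
  have hintk := integ _ hcontk
  calc |∫ q, P (toR (Φ (X q))) * lap2 ψ q|
      = |∫ q, (P (toR (Φ (X q))) * lap2 ψ q - P (F k (g • H k q)) * lap2 ψ q)| := by
        rw [integral_sub hintL hintk, hzero, sub_zero]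
    _ ≤ ∫ q, |P (toR (Φ (X q))) * lap2 ψ q - P (F k (g • H k q)) * lap2 ψ q| :=
        abs_integral_le_integral_abs
    _ ≤ ∫ q, ε * |lap2 ψ q| := by
        apply integral_mono (hintL.sub hintk).abs (hintA.const_mul ε)
        intro q
        change |P (toR (Φ (X q))) * lap2 ψ q - P (F k (g • H k q)) * lap2 ψ q| ≤ ε * |lap2 ψ q|
        by_cases hq : q ∈ tsupport ψ
        · rw [← sub_mul, abs_mul]
          exact mul_le_mul_of_nonneg_right (hclose q hq).le (abs_nonneg _)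
        · have h0 : lap2 ψ q = 0 := by
            by_contra hcon
            exact hq (support_lap2 ψ hcon)
          simp [h0]
    _ = ε * A := by rw [integral_const_mul]

/-! ### the four harmonic polynomials -/

theorem lap2_of_hasFDerivAt {P : ℝ × ℝ → ℝ} {P1 P2 : ℝ × ℝ → ℝ}
    {P11 P12 P21 P22 : ℝ × ℝ → ℝ}
    (h1 : ∀ q, HasFDerivAt P (P1 q • ContinuousLinearMap.fst ℝ ℝ ℝ +
      P2 q • ContinuousLinearMap.snd ℝ ℝ ℝ) q)
    (h2 : ∀ q, HasFDerivAt P1 (P11 q • ContinuousLinearMap.fst ℝ ℝ ℝ +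
      P12 q • ContinuousLinearMap.snd ℝ ℝ ℝ) q)
    (h3 : ∀ q, HasFDerivAt P2 (P21 q • ContinuousLinearMap.fst ℝ ℝ ℝ +
      P22 q • ContinuousLinearMap.snd ℝ ℝ ℝ) q) (q : ℝ × ℝ) :
    lap2 P q = P11 q + P22 q := by
  have e : fderiv ℝ P = fun q => P1 q • ContinuousLinearMap.fst ℝ ℝ ℝ +
      P2 q • ContinuousLinearMap.snd ℝ ℝ ℝ := funext fun q => (h1 q).fderiv
  have e2 : HasFDerivAt (fun q => P1 q • ContinuousLinearMap.fst ℝ ℝ ℝ +
      P2 q • ContinuousLinearMap.snd ℝ ℝ ℝ) _ q :=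
    ((h2 q).smul_const (ContinuousLinearMap.fst ℝ ℝ ℝ)).add
      ((h3 q).smul_const (ContinuousLinearMap.snd ℝ ℝ ℝ))
  rw [lap2_eq, e, e2.fderiv]
  simp

theorem hasFDerivAt_fst' (q : ℝ × ℝ) : HasFDerivAt (fun q : ℝ × ℝ => q.1)
    ((1 : ℝ) • ContinuousLinearMap.fst ℝ ℝ ℝ + (0 : ℝ) • ContinuousLinearMap.snd ℝ ℝ ℝ) q := by
  simpa using hasFDerivAt_fst (𝕜 := ℝ) (p := q)

theorem hasFDerivAt_snd' (q : ℝ × ℝ) : HasFDerivAt (fun q : ℝ × ℝ => q.2)
    ((0 : ℝ) • ContinuousLinearMap.fst ℝ ℝ ℝ + (1 : ℝ) • ContinuousLinearMap.snd ℝ ℝ ℝ) q := by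
  simpa using hasFDerivAt_snd (𝕜 := ℝ) (p := q)

theorem hasFDerivAt_cst (c : ℝ) (q : ℝ × ℝ) : HasFDerivAt (fun _ : ℝ × ℝ => c)
    ((0 : ℝ) • ContinuousLinearMap.fst ℝ ℝ ℝ + (0 : ℝ) • ContinuousLinearMap.snd ℝ ℝ ℝ) q := by
  simpa using hasFDerivAt_const (𝕜 := ℝ) c q

theorem hasFDerivAt_lin (c d : ℝ) (q : ℝ × ℝ) : HasFDerivAt (fun q : ℝ × ℝ => c * q.1 + d * q.2)
    (c • ContinuousLinearMap.fst ℝ ℝ ℝ + d • ContinuousLinearMap.snd ℝ ℝ ℝ) q := by
  have := (hasFDerivAt_fst (𝕜 := ℝ) (p := q)).const_mul c |>.add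
    ((hasFDerivAt_snd (𝕜 := ℝ) (p := q)).const_mul d)
  exact this

theorem lap2_fst (q : ℝ × ℝ) : lap2 (fun q : ℝ × ℝ => q.1) q = 0 := by
  rw [lap2_of_hasFDerivAt hasFDerivAt_fst' (hasFDerivAt_cst 1) (hasFDerivAt_cst 0)]
  simp

theorem lap2_snd (q : ℝ × ℝ) : lap2 (fun q : ℝ × ℝ => q.2) q = 0 := by
  rw [lap2_of_hasFDerivAt hasFDerivAt_snd' (hasFDerivAt_cst 0) (hasFDerivAt_cst 1)]
  simp

theorem hasFDerivAt_sq (q : ℝ × ℝ) : HasFDerivAt (fun q : ℝ × ℝ => q.1 ^ 2 - q.2 ^ 2)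
    ((2 * q.1 + 0 * q.2) • ContinuousLinearMap.fst ℝ ℝ ℝ +
      (0 * q.1 + (-2) * q.2) • ContinuousLinearMap.snd ℝ ℝ ℝ) q := by
  have := ((hasFDerivAt_fst (𝕜 := ℝ) (p := q)).pow 2).sub
    ((hasFDerivAt_snd (𝕜 := ℝ) (p := q)).pow 2)
  refine this.congr_fderiv ?_
  ext <;> simp <;> ring

theorem hasFDerivAt_mul (q : ℝ × ℝ) : HasFDerivAt (fun q : ℝ × ℝ => 2 * (q.1 * q.2))
    ((0 * q.1 + 2 * q.2) • ContinuousLinearMap.fst ℝ ℝ ℝ +
      (2 * q.1 + 0 * q.2) • ContinuousLinearMap.snd ℝ ℝ ℝ) q := by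
  have := ((hasFDerivAt_fst (𝕜 := ℝ) (p := q)).mul
    ((hasFDerivAt_snd (𝕜 := ℝ) (p := q)))).const_mul 2
  refine this.congr_fderiv ?_
  ext <;> simp

theorem lap2_sq (q : ℝ × ℝ) : lap2 (fun q : ℝ × ℝ => q.1 ^ 2 - q.2 ^ 2) q = 0 := by
  rw [lap2_of_hasFDerivAt hasFDerivAt_sq (hasFDerivAt_lin 2 0) (hasFDerivAt_lin 0 (-2))]
  norm_num

theorem lap2_mul (q : ℝ × ℝ) : lap2 (fun q : ℝ × ℝ => 2 * (q.1 * q.2)) q = 0 := by
  rw [lap2_of_hasFDerivAt hasFDerivAt_mul (hasFDerivAt_lin 0 2) (hasFDerivAt_lin 2 0)]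
  norm_num

/-! ### weak conformality -/

theorem complex_integral_zero {f : ℂ → ℂ} (h1 : ∫ z, (f z).re = 0) (h2 : ∫ z, (f z).im = 0) :
    ∫ z, f z = 0 := by
  by_cases hf : Integrable f
  · have e1 := integral_re (𝕜 := ℂ) hf
    have e2 := integral_im (𝕜 := ℂ) hf
    apply Complex.ext
    · rw [Complex.zero_re, ← h1]
      exact e1.symm
    · rw [Complex.zero_im, ← h2]
      exact e2.symm
  · exact integral_undef hf

/-- **D8W**: the limit of a zoom family conjugates `g` to a weakly conformal map. -/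
theorem weakConf (h : ZF a F H Dk)
    (hHc : ∀ R : ℝ, ∀ᶠ k in (hyperfilter ℕ : Filter ℕ), ContinuousOn (H k) (closedBall 0 R))
    {Φ : Z ≃ₜ OnePoint ℂ} (hΦ : ZFLim a F H Φ) (g : G) (hg : Continuous fun x : Z => g • x)
    (hH : ZFHarm F H Dk g) : WeakConf (fun w => Φ (g • Φ.symm w)) := by
  intro ψ hψ hψc hne
  set ψ' : ℝ × ℝ → ℝ := fun q => ψ (Complex.equivRealProdCLM.symm q) with hψ'def
  have hψ' : ContDiff ℝ (⊤ : ℕ∞) ψ' := hψ.comp Complex.equivRealProdCLM.symm.contDiff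
  have hψc' : HasCompactSupport ψ' :=
    hψc.comp_homeomorph Complex.equivRealProdCLM.symm.toHomeomorph
  have hts : ∀ q ∈ tsupport ψ', Complex.equivRealProdCLM.symm q ∈ tsupport ψ := by
    intro q hq
    exact tsupport_comp_subset_preimage ψ Complex.equivRealProdCLM.symm.continuous hq
  have hne' : ∀ q ∈ tsupport ψ', Φ (g • Φ.symm (ofR q)) ≠ OnePoint.infty :=
    fun q hq => hne _ (hts q hq)
  have key : ∀ P : ℝ × ℝ → ℝ, ContDiff ℝ (⊤ : ℕ∞) P → (∀ q, lap2 P q = 0) →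
      ∫ z : ℂ, P (toR (Φ (g • Φ.symm (z : OnePoint ℂ)))) * lap ψ z = 0 := by
    intro P hP hPl
    have h1 := core h hHc hΦ g hg hH hP hPl hψ' hψc' hne'
    rw [← (Complex.volume_preserving_equiv_real_prod.symm).integral_comp
      Complex.measurableEquivRealProd.symm.measurableEmbedding, ← h1]
    refine integral_congr_ae (Eventually.of_forall fun q => ?_)
    simp only
    rw [hψ'def, lap2_comp hψ]
    rfl
  have hre : ∀ w : OnePoint ℂ, (toR w).1 = (toC w).re := fun w => rfl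
  have him : ∀ w : OnePoint ℂ, (toR w).2 = (toC w).im := fun w => rfl
  have k1 := key (fun q => q.1) contDiff_fst lap2_fst
  have k2 := key (fun q => q.2) contDiff_snd lap2_snd
  have k3 := key (fun q => q.1 ^ 2 - q.2 ^ 2) (by fun_prop) lap2_sq
  have k4 := key (fun q => 2 * (q.1 * q.2)) (by fun_prop) lap2_mul
  simp only [hre, him] at k1 k2 k3 k4
  constructor
  · apply complex_integral_zero
    · simpa using k1
    · simpa using k2
  · apply complex_integral_zero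
    · rw [← k3]
      congr 1
      funext z
      rw [Complex.re_mul_ofReal]
      simp [pow_two]
    · rw [← k4]
      congr 1
      funext z
      rw [Complex.im_mul_ofReal, pow_two, Complex.mul_im]
      congr 1
      ring

end Crest.Agent.R193.D_WC
end
end

-- ▼ part R193/D_WC2
section

/-!
# R193, block D: continuity of the inverse charts of the zoom data
-/

set_option autoImplicit false

noncomputable section

open Set Filter Topology MeasureTheory Metric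

namespace Crest.Agent.R193.D_WC

open Crest.Agent.R193 Crest.Agent.R193.D_Chart

variable {G Z : Type} [Group G] [MetricSpace Z] [MulAction G Z] {S : Setup G Z} {Q : DForm S}

theorem Hk_cont {X : ConfChart Q} (D : ZD X) [CompactSpace Z] (R : ℝ) :
    ∀ᶠ k in (hyperfilter ℕ : Filter ℕ), ContinuousOn (D.Hk k) (closedBall 0 R) := by
  filter_upwards [D.ev_ball0 R, D.s_pos] with k hk hs
  have h1 : ContinuousOn (fun q : ℝ × ℝ => CC.H X (D.f k D.x0 + D.s k • q)) (closedBall 0 R) := by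
    apply (CC.H_contOn X).comp (by fun_prop)
    intro q hq
    apply hk
    rw [mem_closedBall, dist_eq_norm, add_sub_cancel_left, norm_smul, Real.norm_eq_abs,
      abs_of_pos hs, mul_comm]
    exact mul_le_mul_of_nonneg_right (by simpa using hq) hs.le
  exact (S.cont (D.g k)⁻¹).comp_continuousOn h1

end Crest.Agent.R193.D_WC
end
end

-- ▼ part R193/D_HK
section

/-!
# R193, block D (D8W): the zoomed chart maps satisfy the harmonicity identity
-/

set_option autoImplicit false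

noncomputable section

open Set Filter Topology MeasureTheory Metric

namespace Crest.Agent.R193.D_HK

open Crest.Agent.R193 Crest.Agent.R193.D_Chart

variable {G Z : Type} [Group G] [MetricSpace Z] [MulAction G Z] {S : Setup G Z} {Q : DForm S}

theorem tsupport_sc {ψ : ℝ × ℝ → ℝ} {a : ℝ} (b : ℝ × ℝ) {q : ℝ × ℝ}
    (hq : q ∈ tsupport (sc a b ψ)) : a • (q - b) ∈ tsupport ψ := by
  have hc : Continuous fun q : ℝ × ℝ => a • (q - b) := by fun_prop
  have : tsupport (sc a b ψ) ⊆ (fun q : ℝ × ℝ => a • (q - b)) ⁻¹' tsupport ψ := by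
    apply closure_minimal _ ((isClosed_tsupport ψ).preimage hc)
    intro y hy
    exact subset_tsupport ψ hy
  exact this hq

theorem harm_k {X : ConfChart Q} (D : ZD X) [CompactSpace Z] (hC1 : InC1 Q) (g : G) :
    ZFHarm D.Fk D.Hk D.Dk g := by
  intro P hP hPh ψ hψ hs
  obtain ⟨R, hR⟩ := hs.isCompact.isBounded.subset_closedBall (0 : ℝ × ℝ)
  filter_upwards [D.s_pos, D.ev_ball0 R] with k h1 h2 hq
  set b := D.f k D.x0 with hb
  set s := D.s k with hsd
  have hmem : ∀ q ∈ tsupport (sc s⁻¹ b ψ), q ∈ ball X.p X.ρ := by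
    intro q hq
    apply h2
    have h3 := hR (tsupport_sc b hq)
    rw [mem_closedBall, dist_zero_right, norm_smul, norm_inv, Real.norm_of_nonneg h1.le,
      inv_mul_le_iff₀ h1, mul_comm] at h3
    rw [mem_closedBall, dist_eq_norm]
    exact h3
  have hHk : ∀ q : ℝ × ℝ, D.g k • D.Hk k (s⁻¹ • (q - b)) = CC.H X q := by
    intro q
    unfold ZD.Hk
    rw [smul_inv_smul, smul_smul, mul_inv_cancel₀ h1.ne', one_smul, add_sub_cancel]
  have hact : ∀ q : ℝ × ℝ, (D.g k * g * (D.g k)⁻¹) • CC.H X q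
      = D.g k • g • D.Hk k (s⁻¹ • (q - b)) := by
    intro q
    rw [← hHk q, mul_smul, mul_smul, inv_smul_smul]
  have hPsc : ∀ q, lap2 (sc s⁻¹ b P) q = 0 := by
    intro q
    rw [lap2_sc hP, hPh, mul_zero]
  have key := CC.lift_harm X hC1 (sc_contDiff hψ s⁻¹ b) hmem (D.g k * g * (D.g k)⁻¹)
    (fun q hq' => by
      rw [hact]
      exact hq _ (tsupport_sc b hq')) (sc_contDiff hP s⁻¹ b) hPsc
  have e1 : ∀ q : ℝ × ℝ, sc s⁻¹ b P (CC.F X ((D.g k * g * (D.g k)⁻¹) • CC.H X q))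
      * lap2 (sc s⁻¹ b ψ) q
      = (s⁻¹) ^ 2 * ((fun y => P (D.Fk k (g • D.Hk k y)) * lap2 ψ y) (s⁻¹ • (q - b))) := by
    intro q
    rw [hact, lap2_sc hψ]
    simp only [sc]
    have : s⁻¹ • (CC.F X (D.g k • g • D.Hk k (s⁻¹ • (q - b))) - b)
        = D.Fk k (g • D.Hk k (s⁻¹ • (q - b))) := rfl
    rw [this]
    ring
  simp_rw [e1] at key
  rw [integral_const_mul, integral_sc (fun y => P (D.Fk k (g • D.Hk k y)) * lap2 ψ y)
    (inv_pos.2 h1) b] at key
  have h3 : (0 : ℝ) < (s⁻¹) ^ 2 := by positivity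
  rw [← mul_assoc, mul_inv_cancel₀ h3.ne', one_mul] at key
  exact key

end Crest.Agent.R193.D_HK
end
end

-- ▼ part R193/Final

/-!
# R193: final assembly (Cannon's conjecture, S0294)
-/

set_option autoImplicit false

noncomputable section

open Set Filter Topology MeasureTheory
open Crest.GroupTheory Crest.HyperbolicSpace

namespace Crest.Agent.R193.Final

open Crest.Agent.R193

/-- Theorem M -/
theorem M_main {G Z : Type} [Group G] [MetricSpace Z] [MulAction G Z] (S : Setup G Z)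
    (T : Tiles S) (Φ : Z ≃ₜ S2) (ψ : Chart Z) :
    ∃ L : ℝ, ∀ n : ℕ, SepBound T n (ψ.D 1) (ψ.E 2) L :=
  M_Asm.M_main_of S T Φ (M2_Main.M2_main T Φ) (fun P Λ => M5.m5out Φ P Λ) ψ

/-- zooming a chart gives a uniformisation -/
theorem chart_main {G Z : Type} [Group G] [MetricSpace Z] [MulAction G Z] (S : Setup G Z)
    (Q : DForm S) (Φ : Z ≃ₜ S2) : D_Spec.ChartMain Q := by
  intro hC1 hmax hL _ _ hX
  have : CompactSpace S2 := isCompact_iff_compactSpace.1 (isCompact_sphere _ _)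
  have : CompactSpace Z := Φ.symm.compactSpace
  have : PreconnectedSpace Z := D_Inputs.preconnected Φ
  have : LocallyConnectedSpace Z := D_Spec.locallyConnected Φ
  obtain ⟨X⟩ := hX
  obtain ⟨D⟩ := D_Chart.exists_ZD S Φ X
  have hz := D.zf hC1 hL hmax
  obtain ⟨Ψ, hΨ⟩ := D_Lim.limit hz
  refine ⟨Ψ, fun g => D_WC.weakConf hz (fun R => D_WC.Hk_cont D R) hΨ g (S.cont g) ?_⟩
  intro P hP hPh ψ hψ hs
  filter_upwards [D_HK.harm_k D hC1 g P hP hPh ψ hψ hs] with k hk hq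
  exact hk fun q hq' => (hq q hq').2

/-- block D -/
theorem D_main {G Z : Type} [Group G] [MetricSpace Z] [MulAction G Z] (S : Setup G Z)
    (Q : DForm S) (Φ : Z ≃ₜ S2) :
    ∃ F : Z ≃ₜ OnePoint ℂ, ∀ g : G, WeakConf (fun w => F (g • F.symm w)) :=
  D_Inputs.D_main_of S Q Φ (D56_Main.outPair S Q Φ) (chart_main S Q Φ)

/-- ASSEMBLY. -/
theorem final (G : Type) [Group G] (S : Finset G) (hS : Subgroup.closure (S : Set G) = ⊤)
    (hδ : ∃ δ : ℝ, 0 ≤ δ ∧ ∀ w x y z : G,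
      min (gromovProduct (S : Set G) w x y) (gromovProduct (S : Set G) w y z) - δ ≤
        gromovProduct (S : Set G) w x z)
    (hB : Nonempty (CayleyBoundary (S : Set G) ≃ₜ Metric.sphere (0 : EuclideanSpace ℝ (Fin 3)) 1)) :
    ∃ ρ : G →* isometryGroup3,
      (∀ K : Set UpperHalfSpace3, IsCompact K →
        Set.Finite {g : G | ∃ x ∈ K, (ρ g : Equiv.Perm UpperHalfSpace3) x ∈ K}) ∧
      (∃ K : Set UpperHalfSpace3, IsCompact K ∧
        ∀ x : UpperHalfSpace3, ∃ g : G, (ρ g : Equiv.Perm UpperHalfSpace3) x ∈ K) ∧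
      Finite ρ.ker := by
  obtain ⟨Z, iM, iA, S0, ⟨Φ⟩⟩ := H_Main.H_main G S hS hδ hB
  obtain ⟨T⟩ := T_Main.T_main S0 Φ
  obtain ⟨Q⟩ := F_Main.F_main S0 T Φ (fun ψ => M_main S0 T Φ ψ)
  obtain ⟨F, hF⟩ := D_main S0 Q Φ
  refine K_Main.K_main S0 F (fun g => ?_)
  let f : OnePoint ℂ ≃ₜ OnePoint ℂ := (F.symm.trans
    (⟨⟨fun x => g • x, fun x => g⁻¹ • x, fun x => by simp, fun x => by simp⟩,
      S0.cont g, S0.cont g⁻¹⟩ : Z ≃ₜ Z)).trans F
  exact E_Main.E_main f (hF g)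

end Crest.Agent.R193.Final
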