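import Mathlib
import Crest.Prelude.Def_HyperbolicThreeSpace
import Crest.Agent.R193.Defs

-- ▼ part R193/K_Herm
section

/-!
Row 193, block K (part 1): the action of `SL(2,ℂ)` (and of complex conjugation) on hyperbolic
three-space in the upper half-space model, through positive Hermitian matrices of determinant one.
-/

set_option autoImplicit false

namespace Crest.Agent.R193.K

open Crest.HyperbolicSpace Matrix Complex ComplexConjugate

noncomputable section

/-- the complex coordinate of a point of the upper half-space -/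
def zc (p : UpperHalfSpace3) : ℂ := ⟨p.1 0, p.1 1⟩

/-- the height of a point of the upper half-space -/
def ht (p : UpperHalfSpace3) : ℝ := p.1 2

lemma ht_pos (p : UpperHalfSpace3) : 0 < ht p := p.2

/-- the point with given coordinates -/
def mkP (z : ℂ) (t : ℝ) (h : 0 < t) : UpperHalfSpace3 :=
  ⟨WithLp.toLp 2 ![z.re, z.im, t], by simpa using h⟩

@[simp] lemma zc_mkP (z : ℂ) (t : ℝ) (h : 0 < t) : zc (mkP z t h) = z := by
  apply Complex.ext <;> simp [zc, mkP]

@[simp] lemma ht_mkP (z : ℂ) (t : ℝ) (h : 0 < t) : ht (mkP z t h) = t := by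
  simp [ht, mkP]

lemma ext_P {p q : UpperHalfSpace3} (h1 : zc p = zc q) (h2 : ht p = ht q) : p = q := by
  apply Subtype.ext
  ext i
  fin_cases i
  · exact congrArg Complex.re h1
  · exact congrArg Complex.im h1
  · exact h2

/-- the Hermitian matrix of a point -/
def toM (p : UpperHalfSpace3) : Matrix (Fin 2) (Fin 2) ℂ :=
  !![((normSq (zc p) + ht p ^ 2) / ht p : ℝ), zc p / ht p; conj (zc p) / ht p, (1 / ht p : ℝ)]

lemma toM_00 (p : UpperHalfSpace3) : toM p 0 0 = ((normSq (zc p) + ht p ^ 2) / ht p : ℝ) := rfl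
lemma toM_01 (p : UpperHalfSpace3) : toM p 0 1 = zc p / ht p := rfl
lemma toM_10 (p : UpperHalfSpace3) : toM p 1 0 = conj (zc p) / ht p := rfl
lemma toM_11 (p : UpperHalfSpace3) : toM p 1 1 = (1 / ht p : ℝ) := rfl

lemma toM_inj {p q : UpperHalfSpace3} (h : toM p = toM q) : p = q := by
  have h11 : (1 / ht p : ℝ) = 1 / ht q := by
    have := congrFun (congrFun h 1) 1
    rw [toM_11, toM_11] at this
    exact_mod_cast this
  have hp := ht_pos p
  have hq := ht_pos q
  have ht' : ht p = ht q := by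
    field_simp at h11
    linarith
  refine ext_P ?_ ht'
  have h01 := congrFun (congrFun h 0) 1
  rw [toM_01, toM_01, ht'] at h01
  have : (ht q : ℂ) ≠ 0 := by exact_mod_cast hq.ne'
  field_simp at h01
  exact h01

lemma toM_herm (p : UpperHalfSpace3) : (toM p)ᴴ = toM p := by
  ext i j
  fin_cases i <;> fin_cases j <;> simp [toM, Matrix.conjTranspose]

lemma toM_det (p : UpperHalfSpace3) : (toM p).det = 1 := by
  have hp : (ht p : ℂ) ≠ 0 := by exact_mod_cast (ht_pos p).ne'
  rw [Matrix.det_fin_two, toM_00, toM_01, toM_10, toM_11]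
  push_cast
  field_simp
  rw [Complex.normSq_eq_conj_mul_self]
  ring

/-- every Hermitian matrix of determinant one with positive lower right entry is the matrix of a
point -/
lemma exists_toM (M : Matrix (Fin 2) (Fin 2) ℂ) (hH : Mᴴ = M) (hd : M.det = 1)
    (hp : 0 < (M 1 1).re) : ∃ p, toM p = M := by
  have h11 : M 1 1 = ((M 1 1).re : ℂ) := by
    have h := congrFun (congrFun hH 1) 1
    simp only [Matrix.conjTranspose_apply] at h
    exact (Complex.conj_eq_iff_real.mp h).elim (fun r hr => by rw [hr]; simp)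
  have h00 : M 0 0 = ((M 0 0).re : ℂ) := by
    have h := congrFun (congrFun hH 0) 0
    simp only [Matrix.conjTranspose_apply] at h
    exact (Complex.conj_eq_iff_real.mp h).elim (fun r hr => by rw [hr]; simp)
  have h10 : M 1 0 = conj (M 0 1) := by
    have h := congrFun (congrFun hH 1) 0
    simp only [Matrix.conjTranspose_apply] at h
    exact h.symm
  set a := (M 1 1).re with ha
  have ha0 : (a : ℂ) ≠ 0 := by exact_mod_cast hp.ne'
  refine ⟨mkP (M 0 1 / a) (1 / a) (by positivity), ?_⟩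
  ext i j
  fin_cases i <;> fin_cases j
  · change toM _ 0 0 = M 0 0
    rw [toM_00, zc_mkP, ht_mkP]
    rw [Matrix.det_fin_two, h11, h10] at hd
    have hd' : M 0 0 * a = 1 + M 0 1 * conj (M 0 1) := by linear_combination hd
    have : (normSq (M 0 1 / a) : ℂ) = M 0 1 * conj (M 0 1) / (a * a) := by
      rw [Complex.normSq_eq_conj_mul_self, map_div₀, Complex.conj_ofReal]
      field_simp
    push_cast
    rw [this]
    field_simp
    linear_combination -hd'
  · change toM _ 0 1 = M 0 1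
    rw [toM_01, zc_mkP, ht_mkP]
    push_cast
    field_simp
  · change toM _ 1 0 = M 1 0
    rw [toM_10, zc_mkP, ht_mkP, h10, map_div₀, Complex.conj_ofReal]
    push_cast
    field_simp
  · change toM _ 1 1 = M 1 1
    rw [toM_11, ht_mkP, h11]
    push_cast
    field_simp

lemma coshDist3_eq (p q : UpperHalfSpace3) :
    coshDist3 p q = (normSq (zc p - zc q) + ht p ^ 2 + ht q ^ 2) / (2 * ht p * ht q) := by
  have hp := ht_pos p
  have hq := ht_pos q
  have h1 : ‖p.1 - q.1‖ ^ 2 = normSq (zc p - zc q) + (ht p - ht q) ^ 2 := by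
    rw [EuclideanSpace.norm_sq_eq, Fin.sum_univ_three]
    simp only [PiLp.sub_apply, Real.norm_eq_abs, sq_abs, Complex.normSq_apply, zc, ht,
      Complex.sub_re, Complex.sub_im]
    ring
  unfold coshDist3
  rw [h1]
  change 1 + _ / (2 * ht p * ht q) = _
  field_simp
  ring

lemma coshDist3_eq_trace (p q : UpperHalfSpace3) :
    coshDist3 p q = ((toM p).adjugate * toM q).trace.re / 2 := by
  have hp := ht_pos p
  have hq := ht_pos q
  have hp' : (ht p : ℂ) ≠ 0 := by exact_mod_cast hp.ne'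
  have hq' : (ht q : ℂ) ≠ 0 := by exact_mod_cast hq.ne'
  have h : ((toM p).adjugate * toM q).trace =
      (((normSq (zc p - zc q) + ht p ^ 2 + ht q ^ 2) / (ht p * ht q) : ℝ) : ℂ) := by
    rw [Matrix.adjugate_fin_two, Matrix.trace_fin_two]
    simp only [Matrix.mul_apply, Fin.sum_univ_two, Matrix.of_apply, Matrix.cons_val', Matrix.cons_val_zero,
      Matrix.cons_val_one, Matrix.cons_val_fin_one]
    rw [toM_00, toM_01, toM_10, toM_11, toM_00, toM_01, toM_10, toM_11]
    push_cast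
    rw [Complex.normSq_eq_conj_mul_self, Complex.normSq_eq_conj_mul_self,
      Complex.normSq_eq_conj_mul_self, map_sub]
    field_simp
    ring
  rw [h, Complex.ofReal_re, coshDist3_eq]
  field_simp

/-- `A` maps the matrix of a point to the matrix of a point -/
lemma exists_act (A : Matrix.SpecialLinearGroup (Fin 2) ℂ) (p : UpperHalfSpace3) :
    ∃ q, toM q = A.1 * toM p * A.1ᴴ := by
  have hp := ht_pos p
  have hp' : (ht p : ℂ) ≠ 0 := by exact_mod_cast hp.ne'
  apply exists_toM
  · rw [Matrix.conjTranspose_mul, Matrix.conjTranspose_mul, Matrix.conjTranspose_conjTranspose,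
      toM_herm, Matrix.mul_assoc]
  · rw [Matrix.det_mul, Matrix.det_mul, Matrix.det_conjTranspose, toM_det, A.2]
    simp
  · have h : (A.1 * toM p * A.1ᴴ) 1 1 =
        (((normSq (A.1 1 0 * zc p + A.1 1 1) + normSq (A.1 1 0) * ht p ^ 2) / ht p : ℝ) : ℂ) := by
      simp only [Matrix.mul_apply, Fin.sum_univ_two, Matrix.conjTranspose_apply]
      rw [toM_00, toM_01, toM_10, toM_11]
      push_cast
      rw [Complex.normSq_eq_conj_mul_self, Complex.normSq_eq_conj_mul_self,
        Complex.normSq_eq_conj_mul_self, map_add, map_mul]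
      simp only [RCLike.star_def]
      field_simp
      ring
    rw [h, Complex.ofReal_re]
    apply div_pos _ hp
    by_cases hc : A.1 1 0 = 0
    · have hdne : A.1 1 1 ≠ 0 := by
        intro hd
        have := A.2
        rw [Matrix.det_fin_two, hc, hd] at this
        simp at this
      rw [hc]
      simpa using hdne
    · have h1 : 0 < normSq (A.1 1 0) := Complex.normSq_pos.mpr hc
      have h2 := Complex.normSq_nonneg (A.1 1 0 * zc p + A.1 1 1)
      positivity

/-- the action of a matrix on a point -/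
def actPt (A : Matrix.SpecialLinearGroup (Fin 2) ℂ) (p : UpperHalfSpace3) : UpperHalfSpace3 :=
  (exists_act A p).choose

lemma toM_actPt (A : Matrix.SpecialLinearGroup (Fin 2) ℂ) (p : UpperHalfSpace3) :
    toM (actPt A p) = A.1 * toM p * A.1ᴴ := (exists_act A p).choose_spec

lemma actPt_one (p : UpperHalfSpace3) : actPt 1 p = p := by
  apply toM_inj
  rw [toM_actPt]
  simp

lemma actPt_mul (A B : Matrix.SpecialLinearGroup (Fin 2) ℂ) (p : UpperHalfSpace3) :
    actPt (A * B) p = actPt A (actPt B p) := by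
  apply toM_inj
  rw [toM_actPt, toM_actPt, toM_actPt, Matrix.SpecialLinearGroup.coe_mul,
    Matrix.conjTranspose_mul]
  simp only [Matrix.mul_assoc]

lemma coshDist3_actPt (A : Matrix.SpecialLinearGroup (Fin 2) ℂ) (p q : UpperHalfSpace3) :
    coshDist3 (actPt A p) (actPt A q) = coshDist3 p q := by
  rw [coshDist3_eq_trace, coshDist3_eq_trace, toM_actPt, toM_actPt]
  congr 2
  rw [Matrix.adjugate_mul_distrib, Matrix.adjugate_mul_distrib]
  have h1 : A.1.adjugate * A.1 = 1 := by
    rw [Matrix.adjugate_mul, A.2, one_smul]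
  have h2 : A.1ᴴ * A.1ᴴ.adjugate = 1 := by
    rw [Matrix.mul_adjugate, Matrix.det_conjTranspose, A.2]
    simp
  calc (A.1ᴴ.adjugate * ((toM p).adjugate * A.1.adjugate) * (A.1 * toM q * A.1ᴴ)).trace
      = (A.1ᴴ.adjugate * ((toM p).adjugate * (A.1.adjugate * A.1) * toM q * A.1ᴴ)).trace := by
        simp only [Matrix.mul_assoc]
    _ = (((toM p).adjugate * toM q * A.1ᴴ) * A.1ᴴ.adjugate).trace := by
        rw [h1, Matrix.mul_one, Matrix.trace_mul_comm]
    _ = ((toM p).adjugate * toM q).trace := by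
        rw [Matrix.mul_assoc, h2, Matrix.mul_one]

/-- the Poincaré extension of `SL(2,ℂ)` -/
def psi : Matrix.SpecialLinearGroup (Fin 2) ℂ →* isometryGroup3 where
  toFun A := ⟨⟨actPt A, actPt A⁻¹, fun p => by rw [← actPt_mul, inv_mul_cancel, actPt_one],
    fun p => by rw [← actPt_mul, mul_inv_cancel, actPt_one]⟩,
    fun p q => coshDist3_actPt A p q⟩
  map_one' := by
    apply Subtype.ext
    apply Equiv.ext
    intro p
    exact actPt_one p
  map_mul' A B := by
    apply Subtype.ext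
    apply Equiv.ext
    intro p
    exact actPt_mul A B p

lemma psi_apply (A : Matrix.SpecialLinearGroup (Fin 2) ℂ) (p : UpperHalfSpace3) :
    (psi A : Equiv.Perm UpperHalfSpace3) p = actPt A p := rfl

lemma psi_neg (A : Matrix.SpecialLinearGroup (Fin 2) ℂ) : psi (-A) = psi A := by
  apply Subtype.ext
  apply Equiv.ext
  intro p
  apply toM_inj
  rw [psi_apply, psi_apply, toM_actPt, toM_actPt]
  simp

/-- complex conjugation on the upper half-space -/
def cjPt (p : UpperHalfSpace3) : UpperHalfSpace3 := mkP (conj (zc p)) (ht p) (ht_pos p)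

lemma toM_cjPt (p : UpperHalfSpace3) : toM (cjPt p) = (toM p).map conj := by
  ext i j
  fin_cases i <;> fin_cases j <;> simp [toM, cjPt]

lemma cjPt_cjPt (p : UpperHalfSpace3) : cjPt (cjPt p) = p := by
  apply ext_P <;> simp [cjPt]

lemma coshDist3_cjPt (p q : UpperHalfSpace3) : coshDist3 (cjPt p) (cjPt q) = coshDist3 p q := by
  rw [coshDist3_eq, coshDist3_eq]
  simp only [cjPt, zc_mkP, ht_mkP]
  rw [← map_sub, Complex.normSq_conj]

/-- complex conjugation as an isometry -/
def sigma : isometryGroup3 :=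
  ⟨⟨cjPt, cjPt, cjPt_cjPt, cjPt_cjPt⟩, fun p q => coshDist3_cjPt p q⟩


lemma sigma_mul_sigma : sigma * sigma = 1 := by
  apply Subtype.ext
  apply Equiv.ext
  intro p
  exact cjPt_cjPt p

/-- entrywise complex conjugation on `SL(2,ℂ)` -/
def cjSL : Matrix.SpecialLinearGroup (Fin 2) ℂ →* Matrix.SpecialLinearGroup (Fin 2) ℂ :=
  Matrix.SpecialLinearGroup.map (starRingEnd ℂ)

lemma cjSL_coe (A : Matrix.SpecialLinearGroup (Fin 2) ℂ) : (cjSL A).1 = A.1.map conj := rfl


lemma sigma_psi (A : Matrix.SpecialLinearGroup (Fin 2) ℂ) :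
    sigma * psi A = psi (cjSL A) * sigma := by
  apply Subtype.ext
  apply Equiv.ext
  intro p
  apply toM_inj
  change toM (cjPt (actPt A p)) = toM (actPt (cjSL A) (cjPt p))
  rw [toM_cjPt, toM_actPt, toM_actPt, toM_cjPt, cjSL_coe]
  rw [Matrix.map_mul, Matrix.map_mul]
  congr 1

end

end Crest.Agent.R193.K
end

-- ▼ part R193/K_Mob
section

/-!
Row 193, block K (part 2): an action of `G` on the Riemann sphere `OnePoint ℂ` by Möbius and
anti-Möbius maps lifts to a homomorphism `G →* isometryGroup3`; chordal hypotheses give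
properness, cocompactness and finite kernel.
-/

set_option autoImplicit false

namespace Crest.Agent.R193.K

open Crest.HyperbolicSpace Matrix Complex ComplexConjugate OnePoint

noncomputable section

/-- identity (`false`) or complex conjugation (`true`) -/
def cb (ε : Bool) : ℂ →+* ℂ := if ε then starRingEnd ℂ else RingHom.id ℂ

@[simp] lemma cb_true (z : ℂ) : cb true z = conj z := rfl
@[simp] lemma cb_false (z : ℂ) : cb false z = z := rfl

lemma cb_cb (ε δ : Bool) (z : ℂ) : cb ε (cb δ z) = cb (xor ε δ) z := by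
  cases ε <;> cases δ <;> simp

lemma normSq_cb (ε : Bool) (z : ℂ) : normSq (cb ε z) = normSq z := by
  cases ε <;> simp [Complex.normSq_conj]

lemma cb_ne_zero (ε : Bool) {z : ℂ} (h : z ≠ 0) : cb ε z ≠ 0 := by
  cases ε <;> simpa using h

lemma cb_ofReal (ε : Bool) (x : ℝ) : cb ε (x : ℂ) = x := by
  cases ε <;> simp

/-- homogeneous coordinates of a point of the Riemann sphere -/
def rep (p : OnePoint ℂ) : Fin 2 → ℂ := Option.elim p ![1, 0] (fun z => ![z, 1])

lemma rep_infty : rep ∞ = ![1, 0] := rfl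
lemma rep_coe (z : ℂ) : rep (z : OnePoint ℂ) = ![z, 1] := rfl

/-- the map `f` is the Möbius (`ε = false`) or anti-Möbius map given by `A` -/
def Rel (A : Matrix (Fin 2) (Fin 2) ℂ) (ε : Bool) (f : OnePoint ℂ → OnePoint ℂ) : Prop :=
  ∀ p, ∃ l : ℂ, l ≠ 0 ∧ A *ᵥ (cb ε ∘ rep p) = l • rep (f p)

lemma cb_mulVec (ε : Bool) (B : Matrix (Fin 2) (Fin 2) ℂ) (v : Fin 2 → ℂ) :
    cb ε ∘ (B *ᵥ v) = (B.map (cb ε)) *ᵥ (cb ε ∘ v) := by
  ext i
  fin_cases i <;> simp [Matrix.mulVec, dotProduct, Fin.sum_univ_two]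

lemma Rel.comp {A B : Matrix (Fin 2) (Fin 2) ℂ} {ε δ : Bool} {f g : OnePoint ℂ → OnePoint ℂ}
    (hA : Rel A ε f) (hB : Rel B δ g) :
    Rel (A * B.map (cb ε)) (xor ε δ) (f ∘ g) := by
  intro p
  obtain ⟨m, hm, h1⟩ := hB p
  obtain ⟨l, hl, h2⟩ := hA (g p)
  refine ⟨cb ε m * l, mul_ne_zero (cb_ne_zero ε hm) hl, ?_⟩
  have h3 : cb (xor ε δ) ∘ rep p = cb ε ∘ (cb δ ∘ rep p) := by
    ext i
    simp [cb_cb]
  rw [h3, ← Matrix.mulVec_mulVec, ← cb_mulVec, h1]
  have h4 : cb ε ∘ (m • rep (g p)) = cb ε m • (cb ε ∘ rep (g p)) := by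
    ext i
    simp
  rw [h4, Matrix.mulVec_smul, h2, smul_smul]
  rfl

/-- the isometry attached to a matrix and a conjugation flag -/
def iso (A : Matrix.SpecialLinearGroup (Fin 2) ℂ) (ε : Bool) : isometryGroup3 :=
  psi A * (if ε then sigma else 1)

/-- conjugation flag acting on `SL(2,ℂ)` -/
def cbSL (ε : Bool) : Matrix.SpecialLinearGroup (Fin 2) ℂ →* Matrix.SpecialLinearGroup (Fin 2) ℂ :=
  Matrix.SpecialLinearGroup.map (cb ε)

lemma cbSL_coe (ε : Bool) (A : Matrix.SpecialLinearGroup (Fin 2) ℂ) :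
    (cbSL ε A).1 = A.1.map (cb ε) := rfl

lemma cbSL_true (A : Matrix.SpecialLinearGroup (Fin 2) ℂ) : cbSL true A = cjSL A := rfl

lemma cbSL_false (A : Matrix.SpecialLinearGroup (Fin 2) ℂ) : cbSL false A = A := by
  apply Subtype.ext
  rw [cbSL_coe]
  ext i j
  simp

lemma iso_mul (A B : Matrix.SpecialLinearGroup (Fin 2) ℂ) (ε δ : Bool) :
    iso A ε * iso B δ = iso (A * cbSL ε B) (xor ε δ) := by
  unfold iso
  cases ε
  · rw [cbSL_false]
    simp [mul_assoc]
  · rw [cbSL_true, map_mul]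
    cases δ
    · simp only [if_true, Bool.xor_false, mul_assoc, Bool.false_eq_true, if_false, mul_one]
      rw [sigma_psi]
    · simp only [if_true, Bool.xor_self, Bool.false_eq_true, if_false, mul_one]
      rw [mul_assoc, ← mul_assoc sigma, sigma_psi, mul_assoc (psi (cjSL B)), sigma_mul_sigma,
        mul_one]

/-- the matrix of the image of a point -/
lemma toM_iso (A : Matrix.SpecialLinearGroup (Fin 2) ℂ) (ε : Bool) (p : UpperHalfSpace3) :
    toM ((iso A ε : Equiv.Perm UpperHalfSpace3) p) = A.1 * (toM p).map (cb ε) * A.1ᴴ := by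
  cases ε
  · have h : (iso A false : Equiv.Perm UpperHalfSpace3) p = actPt A p := by
      simp only [iso, Bool.false_eq_true, if_false, mul_one]
      exact psi_apply A p
    rw [h, toM_actPt]
    congr 2
  · have h : (iso A true : Equiv.Perm UpperHalfSpace3) p = actPt A (cjPt p) := rfl
    rw [h, toM_actPt, toM_cjPt]
    rfl

/-- scalar matrices of determinant one -/
lemma scalar_of_eigen (C : Matrix (Fin 2) (Fin 2) ℂ) (hd : C.det = 1)
    (h0 : C 1 0 = 0) (h1 : C 0 1 = 0) (h2 : C 0 0 = C 1 1) : C = 1 ∨ C = -1 := by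
  rw [Matrix.det_fin_two, h0, h1, h2] at hd
  have : (C 1 1 - 1) * (C 1 1 + 1) = 0 := by linear_combination hd
  rcases mul_eq_zero.mp this with h | h
  · left
    have h' : C 1 1 = 1 := by linear_combination h
    ext i j
    fin_cases i <;> fin_cases j <;> simp [h0, h1, h2, h']
  · right
    have h' : C 1 1 = -1 := by linear_combination h
    ext i j
    fin_cases i <;> fin_cases j <;> simp [h0, h1, h2, h']

lemma iso_unique {A B : Matrix.SpecialLinearGroup (Fin 2) ℂ} {ε δ : Bool}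
    {f : OnePoint ℂ → OnePoint ℂ} (hA : Rel A.1 ε f) (hB : Rel B.1 δ f) : iso A ε = iso B δ := by
  have key : ∀ p, ∃ l : ℂ, (B⁻¹ * A).1 *ᵥ (cb ε ∘ rep p) = l • (cb δ ∘ rep p) := by
    intro p
    obtain ⟨l, hl, h1⟩ := hA p
    obtain ⟨m, hm, h2⟩ := hB p
    refine ⟨l * m⁻¹, ?_⟩
    rw [Matrix.SpecialLinearGroup.coe_mul, ← Matrix.mulVec_mulVec, h1]
    have h3 : rep (f p) = m⁻¹ • (B.1 *ᵥ (cb δ ∘ rep p)) := by
      rw [h2, smul_smul, inv_mul_cancel₀ hm, one_smul]
    rw [h3, smul_smul, Matrix.mulVec_smul, Matrix.mulVec_mulVec,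
      ← Matrix.SpecialLinearGroup.coe_mul, inv_mul_cancel]
    simp
  set C := B⁻¹ * A with hC
  obtain ⟨l0, h0⟩ := key ∞
  obtain ⟨l1, h1⟩ := key (0 : ℂ)
  obtain ⟨l2, h2⟩ := key (1 : ℂ)
  obtain ⟨l3, h3⟩ := key (Complex.I : ℂ)
  rw [rep_infty] at h0
  rw [rep_coe] at h1 h2 h3
  have h00 := congrFun h0 0
  have h01 := congrFun h0 1
  have h10 := congrFun h1 0
  have h11 := congrFun h1 1
  have h20 := congrFun h2 0
  have h21 := congrFun h2 1
  have h30 := congrFun h3 0
  have h31 := congrFun h3 1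
  simp [Matrix.mulVec, dotProduct, Fin.sum_univ_two] at h00 h01 h10 h11 h20 h21 h30 h31
  have e1 : C.1 0 0 = C.1 1 1 := by
    rw [h01] at h21
    rw [h10] at h20
    linear_combination h20 - h21
  have hpm := scalar_of_eigen C.1 C.2 h01 h10 e1
  have hne : C.1 1 1 ≠ 0 := by
    rcases hpm with h | h <;> rw [h] <;> simp
  have hεδ : ε = δ := by
    rw [h01, zero_mul, zero_add] at h31
    rw [h10, e1, h31, add_zero] at h30
    have hl3 : l3 ≠ 0 := by rw [← h31]; exact hne
    have h4 : cb ε I = cb δ I := mul_left_cancel₀ hl3 h30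
    cases ε <;> cases δ <;> simp at h4 ⊢
    · exact absurd h4 (by intro h; have := congrArg Complex.im h; norm_num at this)
    · exact absurd h4 (by intro h; have := congrArg Complex.im h; norm_num at this)
  subst hεδ
  have hAB : A = B * C := by rw [hC]; group
  rcases hpm with h | h
  · have : C = 1 := Subtype.ext h
    rw [hAB, this, mul_one]
  · have : C = -1 := by
      apply Subtype.ext
      rw [h]
      simp
    rw [hAB, this]
    unfold iso
    rw [mul_neg, mul_one, psi_neg]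

/-- normalisation of the determinant -/
lemma exists_SL {A : Matrix (Fin 2) (Fin 2) ℂ} {ε : Bool} {f : OnePoint ℂ → OnePoint ℂ}
    (hd : A.det ≠ 0) (h : Rel A ε f) : ∃ B : Matrix.SpecialLinearGroup (Fin 2) ℂ, Rel B.1 ε f := by
  obtain ⟨s, hs⟩ := IsAlgClosed.exists_eq_mul_self (A.det)⁻¹
  have hs0 : s ≠ 0 := by
    rintro rfl
    simp at hs
    exact hd hs
  refine ⟨⟨s • A, ?_⟩, ?_⟩
  · rw [Matrix.det_smul, Fintype.card_fin, pow_two, ← hs, inv_mul_cancel₀ hd]
  · intro p
    obtain ⟨l, hl, h1⟩ := h p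
    refine ⟨s * l, mul_ne_zero hs0 hl, ?_⟩
    change (s • A) *ᵥ _ = _
    rw [Matrix.smul_mulVec, h1, smul_smul]

/-- lifting a Möbius / anti-Möbius action to the isometry group -/
theorem exists_lift {G : Type*} [Group G] (f : G → OnePoint ℂ → OnePoint ℂ)
    (hm : ∀ g h x, f (g * h) x = f g (f h x))
    (H0 : ∀ g, ∃ (A : Matrix (Fin 2) (Fin 2) ℂ) (ε : Bool), A.det ≠ 0 ∧ Rel A ε (f g)) :
    ∃ (ρ : G →* isometryGroup3) (A : G → Matrix.SpecialLinearGroup (Fin 2) ℂ) (ε : G → Bool),
      (∀ g, Rel (A g).1 (ε g) (f g)) ∧ ∀ g, ρ g = iso (A g) (ε g) := by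
  have H : ∀ g, ∃ (A : Matrix.SpecialLinearGroup (Fin 2) ℂ) (ε : Bool), Rel A.1 ε (f g) := by
    intro g
    obtain ⟨A, ε, hd, hr⟩ := H0 g
    obtain ⟨B, hB⟩ := exists_SL hd hr
    exact ⟨B, ε, hB⟩
  choose A ε hA using H
  have hmul : ∀ g h, iso (A (g * h)) (ε (g * h)) = iso (A g) (ε g) * iso (A h) (ε h) := by
    intro g h
    rw [iso_mul]
    apply iso_unique (hA (g * h))
    have := (hA g).comp (hA h)
    have e : f g ∘ f h = f (g * h) := by
      ext1 x
      exact (hm g h x).symm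
    rw [e] at this
    rw [Matrix.SpecialLinearGroup.coe_mul, cbSL_coe]
    exact this
  refine ⟨⟨⟨fun g => iso (A g) (ε g), ?_⟩, hmul⟩, A, ε, hA, fun g => rfl⟩
  have := hmul 1 1
  rw [mul_one] at this
  exact (mul_eq_left.mp this.symm)

end

end Crest.Agent.R193.K
end

-- ▼ part R193/K_Act
section

/-!
Row 193, block K (part 3): chordal estimates, properness, cocompactness, finite kernel.
-/

set_option autoImplicit false

namespace Crest.Agent.R193.K

open Crest.HyperbolicSpace Matrix Complex ComplexConjugate OnePoint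

noncomputable section

/-- squared Euclidean norm of a vector -/
def nv (v : Fin 2 → ℂ) : ℝ := normSq (v 0) + normSq (v 1)

/-- the determinant of two vectors -/
def dv (v w : Fin 2 → ℂ) : ℂ := v 0 * w 1 - v 1 * w 0

/-- squared chordal distance of two homogeneous vectors -/
def cd (v w : Fin 2 → ℂ) : ℝ := normSq (dv v w) / (nv v * nv w)

/-- squared chordal distance of two points of the Riemann sphere -/
def cs (x y : OnePoint ℂ) : ℝ := cd (rep x) (rep y)

lemma nv_nonneg (v : Fin 2 → ℂ) : 0 ≤ nv v := add_nonneg (normSq_nonneg _) (normSq_nonneg _)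

lemma nv_smul (l : ℂ) (v : Fin 2 → ℂ) : nv (l • v) = normSq l * nv v := by
  simp [nv, Complex.normSq_mul]
  ring

lemma dv_smul (l m : ℂ) (v w : Fin 2 → ℂ) : dv (l • v) (m • w) = l * m * dv v w := by
  simp [dv]
  ring

lemma cd_smul {l m : ℂ} (hl : l ≠ 0) (hm : m ≠ 0) (v w : Fin 2 → ℂ) :
    cd (l • v) (m • w) = cd v w := by
  unfold cd
  rw [nv_smul, nv_smul, dv_smul, Complex.normSq_mul, Complex.normSq_mul]
  have h1 : normSq l ≠ 0 := by simpa using hl
  have h2 : normSq m ≠ 0 := by simpa using hm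
  rw [show normSq l * nv v * (normSq m * nv w) = normSq l * normSq m * (nv v * nv w) by ring]
  rw [mul_div_mul_left]
  exact mul_ne_zero h1 h2

lemma nv_cb (ε : Bool) (v : Fin 2 → ℂ) : nv (cb ε ∘ v) = nv v := by
  simp [nv, normSq_cb]

lemma dv_cb (ε : Bool) (v w : Fin 2 → ℂ) : dv (cb ε ∘ v) (cb ε ∘ w) = cb ε (dv v w) := by
  simp [dv]

lemma cd_cb (ε : Bool) (v w : Fin 2 → ℂ) : cd (cb ε ∘ v) (cb ε ∘ w) = cd v w := by
  unfold cd
  rw [nv_cb, nv_cb, dv_cb, normSq_cb]

lemma nv_rep_pos (x : OnePoint ℂ) : 0 < nv (rep x) := by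
  induction x using OnePoint.rec with
  | infty => rw [rep_infty]; simp [nv]
  | coe z =>
    rw [rep_coe]
    simp only [nv, Matrix.cons_val_zero, Matrix.cons_val_one]
    have := normSq_nonneg z
    simp only [map_one]
    positivity

/-- Frobenius norm squared -/
def fr (A : Matrix (Fin 2) (Fin 2) ℂ) : ℝ :=
  normSq (A 0 0) + normSq (A 0 1) + normSq (A 1 0) + normSq (A 1 1)

lemma fr_nonneg (A : Matrix (Fin 2) (Fin 2) ℂ) : 0 ≤ fr A := by
  unfold fr
  have := normSq_nonneg (A 0 0)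
  have := normSq_nonneg (A 0 1)
  have := normSq_nonneg (A 1 0)
  have := normSq_nonneg (A 1 1)
  positivity

lemma cauchy2 (a b v w : ℂ) :
    normSq (a * v + b * w) ≤ (normSq a + normSq b) * (normSq v + normSq w) := by
  have h : (normSq a + normSq b) * (normSq v + normSq w) - normSq (a * v + b * w) =
      normSq (a * conj w - b * conj v) := by
    simp only [Complex.normSq_apply, Complex.add_re, Complex.add_im, Complex.mul_re,
      Complex.mul_im, Complex.sub_re, Complex.sub_im, Complex.conj_re, Complex.conj_im]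
    ring
  have := normSq_nonneg (a * conj w - b * conj v)
  linarith

lemma nv_mulVec_le (A : Matrix (Fin 2) (Fin 2) ℂ) (v : Fin 2 → ℂ) :
    nv (A *ᵥ v) ≤ fr A * nv v := by
  have h0 : (A *ᵥ v) 0 = A 0 0 * v 0 + A 0 1 * v 1 := by
    simp [Matrix.mulVec, dotProduct, Fin.sum_univ_two]
  have h1 : (A *ᵥ v) 1 = A 1 0 * v 0 + A 1 1 * v 1 := by
    simp [Matrix.mulVec, dotProduct, Fin.sum_univ_two]
  unfold nv fr
  rw [h0, h1]
  have := cauchy2 (A 0 0) (A 0 1) (v 0) (v 1)
  have := cauchy2 (A 1 0) (A 1 1) (v 0) (v 1)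
  linarith

lemma dv_mulVec (A : Matrix (Fin 2) (Fin 2) ℂ) (v w : Fin 2 → ℂ) :
    dv (A *ᵥ v) (A *ᵥ w) = A.det * dv v w := by
  simp only [dv, Matrix.det_fin_two, Matrix.mulVec, dotProduct, Fin.sum_univ_two]
  ring

lemma nv_mulVec_pos {A : Matrix (Fin 2) (Fin 2) ℂ} (hd : A.det = 1) {v : Fin 2 → ℂ}
    (hv : 0 < nv v) : 0 < nv (A *ᵥ v) := by
  rcases (nv_nonneg (A *ᵥ v)).lt_or_eq with h | h
  · exact h
  · exfalso
    have h0 : normSq ((A *ᵥ v) 0) = 0 := by
      have := normSq_nonneg ((A *ᵥ v) 0)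
      have := normSq_nonneg ((A *ᵥ v) 1)
      unfold nv at h
      linarith
    have h1 : normSq ((A *ᵥ v) 1) = 0 := by
      have := normSq_nonneg ((A *ᵥ v) 0)
      have := normSq_nonneg ((A *ᵥ v) 1)
      unfold nv at h
      linarith
    have hz : A *ᵥ v = 0 := by
      ext i
      fin_cases i
      · exact Complex.normSq_eq_zero.mp h0
      · exact Complex.normSq_eq_zero.mp h1
    have : v = 0 := by
      have h2 : A.adjugate *ᵥ (A *ᵥ v) = v := by
        rw [Matrix.mulVec_mulVec, Matrix.adjugate_mul, hd]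
        simp
      rw [← h2, hz, Matrix.mulVec_zero]
    rw [this] at hv
    simp [nv] at hv

lemma cd_le_mulVec {A : Matrix (Fin 2) (Fin 2) ℂ} (hd : A.det = 1) {v w : Fin 2 → ℂ}
    (hv : 0 < nv v) (hw : 0 < nv w) : cd v w ≤ fr A ^ 2 * cd (A *ᵥ v) (A *ᵥ w) := by
  have hAv := nv_mulVec_pos hd hv
  have hAw := nv_mulVec_pos hd hw
  have h1 := nv_mulVec_le A v
  have h2 := nv_mulVec_le A w
  unfold cd
  rw [dv_mulVec, hd, one_mul, ← mul_div_assoc, div_le_div_iff₀ (by positivity) (by positivity)]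
  have h3 : nv (A *ᵥ v) * nv (A *ᵥ w) ≤ (fr A * nv v) * (fr A * nv w) :=
    mul_le_mul h1 h2 hAw.le (by have := fr_nonneg A; positivity)
  have h4 := normSq_nonneg (dv v w)
  nlinarith [mul_le_mul_of_nonneg_left h3 h4]

lemma cs_le_of_rel {A : Matrix (Fin 2) (Fin 2) ℂ} {ε : Bool} {f : OnePoint ℂ → OnePoint ℂ}
    (hd : A.det = 1) (h : Rel A ε f) (x y : OnePoint ℂ) :
    cs x y ≤ fr A ^ 2 * cs (f x) (f y) := by
  obtain ⟨l, hl, h1⟩ := h x
  obtain ⟨m, hm, h2⟩ := h y
  unfold cs
  rw [← cd_smul hl hm (rep (f x)), ← h1, ← h2, ← cd_cb ε (rep x)]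
  apply cd_le_mulVec hd
  · rw [nv_cb]; exact nv_rep_pos x
  · rw [nv_cb]; exact nv_rep_pos y

/-- the trace of the matrix of a point -/
def tr (p : UpperHalfSpace3) : ℝ := (normSq (zc p) + ht p ^ 2 + 1) / ht p

lemma tr_pos (p : UpperHalfSpace3) : 0 < tr p := by
  have := ht_pos p
  have := normSq_nonneg (zc p)
  unfold tr
  positivity

lemma tr_eq (p : UpperHalfSpace3) : (toM p).trace = (tr p : ℂ) := by
  have hp : (ht p : ℂ) ≠ 0 := by exact_mod_cast (ht_pos p).ne'
  rw [Matrix.trace_fin_two, toM_00, toM_11]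
  unfold tr
  push_cast
  field_simp

lemma trace_mul_conjTranspose (A : Matrix (Fin 2) (Fin 2) ℂ) :
    (A * Aᴴ).trace = (fr A : ℂ) := by
  rw [Matrix.trace_fin_two]
  simp only [Matrix.mul_apply, Fin.sum_univ_two, Matrix.conjTranspose_apply]
  unfold fr
  push_cast
  simp only [Complex.normSq_eq_conj_mul_self, RCLike.star_def]
  ring

/-- `‖A‖² ≤ tr(M) tr(A M A*)` for a Hermitian matrix `M` of determinant one -/
lemma fr_le (A M : Matrix (Fin 2) (Fin 2) ℂ) (hH : Mᴴ = M) (hd : M.det = 1) (t s : ℝ)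
    (ht : M.trace = t) (hs : (A * M * Aᴴ).trace = s) : fr A ≤ t * s := by
  have hCH : M * M = (t : ℂ) • M - 1 := by
    ext i j
    have h1 : M.trace = M 0 0 + M 1 1 := Matrix.trace_fin_two M
    rw [← ht, h1]
    rw [Matrix.det_fin_two] at hd
    fin_cases i <;> fin_cases j <;>
      simp [Matrix.mul_apply, Fin.sum_univ_two] <;>
      first | linear_combination (0 : ℂ) * hd | linear_combination -hd
  have h2 : ((A * M) * (A * M)ᴴ).trace = (fr (A * M) : ℂ) := trace_mul_conjTranspose _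
  have h3 : (A * M) * (A * M)ᴴ = (t : ℂ) • (A * M * Aᴴ) - A * Aᴴ := by
    rw [Matrix.conjTranspose_mul, hH]
    calc A * M * (M * Aᴴ) = A * (M * M) * Aᴴ := by simp only [Matrix.mul_assoc]
      _ = _ := by
        rw [hCH, Matrix.mul_sub, Matrix.sub_mul, Matrix.mul_one, Matrix.mul_smul, Matrix.smul_mul]
  rw [h3, Matrix.trace_sub, Matrix.trace_smul, hs, trace_mul_conjTranspose] at h2
  have h4 : t * s - fr A = fr (A * M) := by
    have : ((t * s - fr A : ℝ) : ℂ) = (fr (A * M) : ℝ) := by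
      push_cast
      rw [← h2]
      simp
    exact_mod_cast this
  have := fr_nonneg (A * M)
  linarith

lemma trace_map_cb (ε : Bool) (M : Matrix (Fin 2) (Fin 2) ℂ) :
    (M.map (cb ε)).trace = cb ε M.trace := by
  rw [Matrix.trace_fin_two, Matrix.trace_fin_two]
  simp

lemma det_map_cb (ε : Bool) (M : Matrix (Fin 2) (Fin 2) ℂ) :
    (M.map (cb ε)).det = cb ε M.det := by
  rw [Matrix.det_fin_two, Matrix.det_fin_two]
  simp

lemma conjTranspose_map_cb (ε : Bool) (M : Matrix (Fin 2) (Fin 2) ℂ) :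
    (M.map (cb ε))ᴴ = (Mᴴ).map (cb ε) := by
  ext i j
  cases ε <;> simp

lemma fr_le_tr (A : Matrix.SpecialLinearGroup (Fin 2) ℂ) (ε : Bool) (p : UpperHalfSpace3) :
    fr A.1 ≤ tr p * tr ((iso A ε : Equiv.Perm UpperHalfSpace3) p) := by
  apply fr_le A.1 ((toM p).map (cb ε))
  · rw [conjTranspose_map_cb, toM_herm]
  · rw [det_map_cb, toM_det, map_one]
  · rw [trace_map_cb, tr_eq, cb_ofReal]
  · rw [← toM_iso, tr_eq]

lemma continuous_tr : Continuous tr := by
  have h0 : Continuous fun p : UpperHalfSpace3 => p.1 0 := by fun_prop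
  have h1 : Continuous fun p : UpperHalfSpace3 => p.1 1 := by fun_prop
  have h2 : Continuous fun p : UpperHalfSpace3 => p.1 2 := by fun_prop
  have : tr = fun p : UpperHalfSpace3 =>
      (p.1 0 * p.1 0 + p.1 1 * p.1 1 + (p.1 2) ^ 2 + 1) / p.1 2 := by
    ext p
    simp [tr, zc, ht, Complex.normSq_apply]
  rw [this]
  apply Continuous.div (by fun_prop) h2
  intro p
  exact p.2.ne'

/-- sublevel sets of the trace are compact -/
lemma isCompact_tr (R : ℝ) : IsCompact {p : UpperHalfSpace3 | tr p ≤ R} := by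
  rw [Subtype.isCompact_iff]
  have hset : (Subtype.val '' {p : UpperHalfSpace3 | tr p ≤ R}) =
      {v : EuclideanSpace ℝ (Fin 3) | 0 ≤ v 2 ∧ v 0 ^ 2 + v 1 ^ 2 + v 2 ^ 2 + 1 ≤ R * v 2} := by
    ext v
    constructor
    · rintro ⟨p, hp, rfl⟩
      have h2 : 0 < p.1 2 := p.2
      refine ⟨h2.le, ?_⟩
      simp only [Set.mem_ofPred_eq, tr, zc, ht, Complex.normSq_apply] at hp
      rw [div_le_iff₀ h2] at hp
      nlinarith [hp]
    · rintro ⟨h0, h1⟩
      have h2 : 0 < v 2 := by
        rcases h0.lt_or_eq with h | h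
        · exact h
        · rw [← h] at h1
          nlinarith [sq_nonneg (v 0), sq_nonneg (v 1)]
      refine ⟨⟨v, h2⟩, ?_, rfl⟩
      simp only [Set.mem_ofPred_eq, tr, zc, ht, Complex.normSq_apply]
      rw [div_le_iff₀ h2]
      nlinarith [h1]
  rw [hset]
  have c0 : Continuous fun v : EuclideanSpace ℝ (Fin 3) => v 0 := by fun_prop
  have c1 : Continuous fun v : EuclideanSpace ℝ (Fin 3) => v 1 := by fun_prop
  have c2 : Continuous fun v : EuclideanSpace ℝ (Fin 3) => v 2 := by fun_prop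
  apply Metric.isCompact_of_isClosed_isBounded
  · apply IsClosed.inter
    · exact isClosed_le continuous_const c2
    · exact isClosed_le
        (((((c0.pow 2).add (c1.pow 2)).add (c2.pow 2)).add continuous_const))
        (continuous_const.mul c2)
  · rw [isBounded_iff_forall_norm_le]
    refine ⟨|R| + 1, ?_⟩
    rintro v ⟨h0, h1⟩
    have h3 : ‖v‖ ^ 2 = v 0 ^ 2 + v 1 ^ 2 + v 2 ^ 2 := by
      rw [EuclideanSpace.norm_sq_eq, Fin.sum_univ_three]
      simp
    have h4 : v 2 ≤ ‖v‖ := by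
      apply le_of_sq_le_sq _ (norm_nonneg v)
      rw [h3]
      nlinarith [sq_nonneg (v 0), sq_nonneg (v 1)]
    have h5 : ‖v‖ ^ 2 ≤ |R| * ‖v‖ := by
      rw [h3]
      have h6 : R * v 2 ≤ |R| * ‖v‖ := by
        calc R * v 2 ≤ |R| * v 2 := mul_le_mul_of_nonneg_right (le_abs_self R) h0
          _ ≤ |R| * ‖v‖ := mul_le_mul_of_nonneg_left h4 (abs_nonneg R)
      linarith
    rcases (norm_nonneg v).lt_or_eq with h | h
    · have : ‖v‖ ≤ |R| := by
        have h7 : ‖v‖ * ‖v‖ ≤ |R| * ‖v‖ := by rw [← pow_two]; exact h5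
        exact le_of_mul_le_mul_right h7 h
      linarith
    · rw [← h]
      positivity

/-- the chordal contraction hypothesis: infinite sets of group elements contract some pair by an
arbitrarily large factor -/
def Contr {G : Type*} (f : G → OnePoint ℂ → OnePoint ℂ) : Prop :=
  ∀ T : Set G, T.Infinite → ∀ C : ℝ, 0 < C → ∃ g ∈ T, ∃ x y, C * cs (f g x) (f g y) < cs x y

/-- cocompactness on triples, in chordal terms -/
def Coco {G : Type*} (f : G → OnePoint ℂ → OnePoint ℂ) : Prop :=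
  ∃ c : ℝ, 0 < c ∧ ∀ x y z : OnePoint ℂ, x ≠ y → y ≠ z → x ≠ z →
    ∃ g, c ≤ cs (f g x) (f g y) ∧ c ≤ cs (f g y) (f g z) ∧ c ≤ cs (f g x) (f g z)

lemma proper_of_contr {G : Type*} [Group G] {f : G → OnePoint ℂ → OnePoint ℂ}
    {ρ : G →* isometryGroup3} {A : G → Matrix.SpecialLinearGroup (Fin 2) ℂ} {ε : G → Bool}
    (hA : ∀ g, Rel (A g).1 (ε g) (f g)) (hρ : ∀ g, ρ g = iso (A g) (ε g)) (H1 : Contr f)
    (K : Set UpperHalfSpace3) (hK : IsCompact K) :
    Set.Finite {g : G | ∃ x ∈ K, (ρ g : Equiv.Perm UpperHalfSpace3) x ∈ K} := by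
  by_contra hinf
  have hinf' : Set.Infinite {g : G | ∃ x ∈ K, (ρ g : Equiv.Perm UpperHalfSpace3) x ∈ K} := hinf
  obtain ⟨R, hR⟩ := (hK.image continuous_tr).isBounded.bddAbove
  have hR' : ∀ p ∈ K, tr p ≤ R := fun p hp => hR ⟨p, hp, rfl⟩
  have hRpos : 0 < R := by
    obtain ⟨g, hg⟩ := hinf'.nonempty
    obtain ⟨x, hx, _⟩ := hg
    exact (tr_pos x).trans_le (hR' x hx)
  obtain ⟨g, ⟨x, hx, hgx⟩, a, b, hab⟩ := H1 _ hinf' ((R * R) ^ 2) (by positivity)
  have h1 := cs_le_of_rel (A g).2 (hA g) a b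
  have h2 : fr (A g).1 ≤ R * R := by
    refine (fr_le_tr (A g) (ε g) x).trans ?_
    rw [← hρ]
    exact mul_le_mul (hR' x hx) (hR' _ hgx) (tr_pos _).le hRpos.le
  have h3 : fr (A g).1 ^ 2 ≤ (R * R) ^ 2 := pow_le_pow_left₀ (fr_nonneg _) h2 2
  have h4 : 0 ≤ cs (f g a) (f g b) := by
    unfold cs cd
    have := normSq_nonneg (dv (rep (f g a)) (rep (f g b)))
    have := nv_nonneg (rep (f g a))
    have := nv_nonneg (rep (f g b))
    positivity
  have h5 := mul_le_mul_of_nonneg_right h3 h4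
  linarith

lemma fr_le_of_sep {D : Matrix (Fin 2) (Fin 2) ℂ} (hd : D.det = 1) {c : ℝ} (hc : 0 < c)
    (h1 : c ≤ cd (D *ᵥ ![1, 0]) (D *ᵥ ![0, 1]))
    (h2 : c ≤ cd (D *ᵥ ![0, 1]) (D *ᵥ ![1, 1]))
    (h3 : c ≤ cd (D *ᵥ ![1, 0]) (D *ᵥ ![1, 1])) : fr D ≤ 2 / c := by
  have hp1 : 0 < nv (D *ᵥ ![1, 0]) := nv_mulVec_pos hd (by simp [nv])
  have hp2 : 0 < nv (D *ᵥ ![0, 1]) := nv_mulVec_pos hd (by simp [nv])
  have hp3 : 0 < nv (D *ᵥ ![1, 1]) := nv_mulVec_pos hd (by simp [nv])
  have hfr : fr D = nv (D *ᵥ ![1, 0]) + nv (D *ᵥ ![0, 1]) := by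
    simp [fr, nv, Matrix.mulVec, dotProduct, Fin.sum_univ_two]
    ring
  have e1 : cd (D *ᵥ ![1, 0]) (D *ᵥ ![0, 1]) =
      1 / (nv (D *ᵥ ![1, 0]) * nv (D *ᵥ ![0, 1])) := by
    unfold cd
    rw [dv_mulVec, hd]
    simp [dv]
  have e2 : cd (D *ᵥ ![0, 1]) (D *ᵥ ![1, 1]) =
      1 / (nv (D *ᵥ ![0, 1]) * nv (D *ᵥ ![1, 1])) := by
    unfold cd
    rw [dv_mulVec, hd]
    simp [dv]
  have e3 : cd (D *ᵥ ![1, 0]) (D *ᵥ ![1, 1]) =
      1 / (nv (D *ᵥ ![1, 0]) * nv (D *ᵥ ![1, 1])) := by
    unfold cd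
    rw [dv_mulVec, hd]
    simp [dv]
  -- Hadamard
  have had : ∀ v w : Fin 2 → ℂ, normSq (dv v w) ≤ nv v * nv w := by
    intro v w
    have := cauchy2 (v 0) (-v 1) (w 1) (w 0)
    unfold dv nv
    rw [Complex.normSq_neg] at this
    rw [show v 0 * w 1 - v 1 * w 0 = v 0 * w 1 + -v 1 * w 0 by ring]
    linarith
  have k1 := had (D *ᵥ ![1, 0]) (D *ᵥ ![1, 1])
  have k2 := had (D *ᵥ ![0, 1]) (D *ᵥ ![1, 1])
  have d1 : normSq (dv (D *ᵥ ![1, 0]) (D *ᵥ ![1, 1])) = 1 := by
    rw [dv_mulVec, hd]; simp [dv]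
  have d2 : normSq (dv (D *ᵥ ![0, 1]) (D *ᵥ ![1, 1])) = 1 := by
    rw [dv_mulVec, hd]; simp [dv]
  rw [d1] at k1
  rw [d2] at k2
  rw [e1, le_div_iff₀ (by positivity)] at h1
  rw [e2, le_div_iff₀ (by positivity)] at h2
  rw [e3, le_div_iff₀ (by positivity)] at h3
  set a := nv (D *ᵥ ![1, 0])
  set b := nv (D *ᵥ ![0, 1])
  set s := nv (D *ᵥ ![1, 1])
  have ha : c * a ≤ 1 := by
    -- (c a b) (c a s) ≤ 1 ≤ b s
    have h4 : (c * (a * b)) * (c * (a * s)) ≤ 1 := by
      calc (c * (a * b)) * (c * (a * s)) ≤ 1 * 1 :=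
            mul_le_mul h1 h3 (by positivity) (by norm_num)
        _ = 1 := by norm_num
    have h5 : (c * a) ^ 2 * (b * s) ≤ 1 := by nlinarith [h4]
    have h6 : (c * a) ^ 2 ≤ 1 := by
      nlinarith [sq_nonneg (c * a)]
    nlinarith [mul_pos hc hp1]
  have hb : c * b ≤ 1 := by
    have h4 : (c * (a * b)) * (c * (b * s)) ≤ 1 := by
      calc (c * (a * b)) * (c * (b * s)) ≤ 1 * 1 :=
            mul_le_mul h1 h2 (by positivity) (by norm_num)
        _ = 1 := by norm_num
    have h5 : (c * b) ^ 2 * (a * s) ≤ 1 := by nlinarith [h4]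
    have h6 : (c * b) ^ 2 ≤ 1 := by
      nlinarith [sq_nonneg (c * b)]
    nlinarith [mul_pos hc hp2]
  rw [hfr, le_div_iff₀ hc]
  linarith

/-- every point is the image of the base point under an upper triangular matrix -/
lemma exists_frame (p : UpperHalfSpace3) : ∃ B : Matrix (Fin 2) (Fin 2) ℂ,
    B.det = 1 ∧ toM p = B * Bᴴ ∧
    (∃ l : ℂ, l ≠ 0 ∧ l • (B *ᵥ ![1, 0]) = rep ∞) ∧
    (∃ l : ℂ, l ≠ 0 ∧ l • (B *ᵥ ![0, 1]) = rep (zc p : ℂ)) ∧
    (∃ l : ℂ, l ≠ 0 ∧ l • (B *ᵥ ![1, 1]) = rep ((zc p + ht p : ℂ) : OnePoint ℂ)) := by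
  have hp := ht_pos p
  set s : ℝ := Real.sqrt (ht p) with hs
  have hs0 : 0 < s := Real.sqrt_pos.mpr hp
  have hss : s * s = ht p := Real.mul_self_sqrt hp.le
  have hsc : (s : ℂ) ≠ 0 := by exact_mod_cast hs0.ne'
  have hssc : (s : ℂ) * s = ht p := by exact_mod_cast hss
  refine ⟨!![(s : ℂ), zc p / s; 0, 1 / s], ?_, ?_, ?_, ?_, ?_⟩
  · rw [Matrix.det_fin_two]
    simp [hsc]
  · ext i j
    fin_cases i <;> fin_cases j
    · change toM p 0 0 = _
      rw [toM_00, ← hss]
      simp [Matrix.mul_apply, Fin.sum_univ_two, Matrix.conjTranspose_apply]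
      rw [Complex.normSq_eq_conj_mul_self]
      field_simp
      ring
    · change toM p 0 1 = _
      rw [toM_01, ← hssc]
      simp [Matrix.mul_apply, Fin.sum_univ_two, Matrix.conjTranspose_apply]
      field_simp
    · change toM p 1 0 = _
      rw [toM_10, ← hssc]
      simp [Matrix.mul_apply, Fin.sum_univ_two, Matrix.conjTranspose_apply]
      field_simp
    · change toM p 1 1 = _
      rw [toM_11, ← hss]
      simp [Matrix.mul_apply, Fin.sum_univ_two, Matrix.conjTranspose_apply]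
  · refine ⟨1 / s, by simpa using hsc, ?_⟩
    rw [rep_infty]
    ext i
    fin_cases i <;> simp [Matrix.mulVec, dotProduct, Fin.sum_univ_two, hsc]
  · refine ⟨s, hsc, ?_⟩
    rw [rep_coe]
    ext i
    fin_cases i <;> simp [Matrix.mulVec, dotProduct, Fin.sum_univ_two, hsc]
    field_simp
  · refine ⟨s, hsc, ?_⟩
    rw [rep_coe, ← hssc]
    ext i
    fin_cases i <;> simp [Matrix.mulVec, dotProduct, Fin.sum_univ_two, hsc]
    field_simp
    ring

lemma cocompact_of_coco {G : Type*} [Group G] {f : G → OnePoint ℂ → OnePoint ℂ}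
    {ρ : G →* isometryGroup3} {A : G → Matrix.SpecialLinearGroup (Fin 2) ℂ} {ε : G → Bool}
    (hA : ∀ g, Rel (A g).1 (ε g) (f g)) (hρ : ∀ g, ρ g = iso (A g) (ε g)) (H2 : Coco f) :
    ∃ K : Set UpperHalfSpace3, IsCompact K ∧
      ∀ x : UpperHalfSpace3, ∃ g : G, (ρ g : Equiv.Perm UpperHalfSpace3) x ∈ K := by
  obtain ⟨c, hc, H⟩ := H2
  refine ⟨{p | tr p ≤ 2 / c}, isCompact_tr _, ?_⟩
  intro p
  obtain ⟨B, hBd, hB, ⟨l0, hl0, hB0⟩, ⟨l1, hl1, hB1⟩, ⟨l2, hl2, hB2⟩⟩ := exists_frame p
  have hpt : (ht p : ℂ) ≠ 0 := by exact_mod_cast (ht_pos p).ne'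
  obtain ⟨g, hg1, hg2, hg3⟩ := H ∞ (zc p : ℂ) ((zc p + ht p : ℂ) : OnePoint ℂ)
    (OnePoint.infty_ne_coe _)
    (by
      intro h
      rw [OnePoint.coe_eq_coe] at h
      apply hpt
      linear_combination -h)
    (OnePoint.infty_ne_coe _)
  refine ⟨g, ?_⟩
  change tr _ ≤ 2 / c
  set B' := B.map (cb (ε g)) with hB'
  set D := (A g).1 * B' with hD
  have hDd : D.det = 1 := by
    rw [hD, Matrix.det_mul, (A g).2, hB', det_map_cb, hBd]
    simp
  have htoM : toM ((ρ g : Equiv.Perm UpperHalfSpace3) p) = D * Dᴴ := by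
    rw [hρ, toM_iso, hB, Matrix.map_mul, hD, Matrix.conjTranspose_mul, hB',
      conjTranspose_map_cb]
    simp only [Matrix.mul_assoc]
  have htr : tr ((ρ g : Equiv.Perm UpperHalfSpace3) p) = fr D := by
    have := tr_eq ((ρ g : Equiv.Perm UpperHalfSpace3) p)
    rw [htoM, trace_mul_conjTranspose] at this
    exact_mod_cast this.symm
  rw [htr]
  -- images of the frame vectors
  have img : ∀ (x : OnePoint ℂ) (v : Fin 2 → ℂ) (l : ℂ), cb (ε g) ∘ v = v → l ≠ 0 →
      l • (B *ᵥ v) = rep x → ∃ m : ℂ, m ≠ 0 ∧ D *ᵥ v = m • rep (f g x) := by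
    intro x v l hv hl hx
    obtain ⟨m, hm, h1⟩ := hA g x
    refine ⟨(cb (ε g) l)⁻¹ * m, mul_ne_zero (inv_ne_zero (cb_ne_zero _ hl)) hm, ?_⟩
    rw [← smul_smul, ← h1, ← hx]
    have h2 : cb (ε g) ∘ (l • (B *ᵥ v)) = cb (ε g) l • (B' *ᵥ v) := by
      have h3 : cb (ε g) ∘ (B *ᵥ v) = B' *ᵥ v := by
        rw [cb_mulVec, hv]
      rw [← h3]
      ext i
      simp only [Function.comp_apply, Pi.smul_apply, smul_eq_mul, map_mul]
    rw [h2, Matrix.mulVec_smul, smul_smul, inv_mul_cancel₀ (cb_ne_zero _ hl), one_smul,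
      Matrix.mulVec_mulVec]
  obtain ⟨m0, hm0, e0⟩ := img ∞ ![1, 0] l0 (by ext i; fin_cases i <;> simp) hl0 hB0
  obtain ⟨m1, hm1, e1⟩ := img _ ![0, 1] l1 (by ext i; fin_cases i <;> simp) hl1 hB1
  obtain ⟨m2, hm2, e2⟩ := img _ ![1, 1] l2 (by ext i; fin_cases i <;> simp) hl2 hB2
  apply fr_le_of_sep hDd hc
  · rw [e0, e1, cd_smul hm0 hm1]; exact hg1
  · rw [e1, e2, cd_smul hm1 hm2]; exact hg2
  · rw [e0, e2, cd_smul hm0 hm2]; exact hg3

/-- THEOREM K (chordal form): a Möbius / anti-Möbius action on the sphere which is contracting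
and cocompact on triples gives the conclusion of S0294 -/
theorem theoremK {G : Type*} [Group G] (f : G → OnePoint ℂ → OnePoint ℂ)
    (hm : ∀ g h x, f (g * h) x = f g (f h x))
    (H0 : ∀ g, ∃ (A : Matrix (Fin 2) (Fin 2) ℂ) (ε : Bool), A.det ≠ 0 ∧ Rel A ε (f g))
    (H1 : Contr f) (H2 : Coco f) :
    ∃ ρ : G →* isometryGroup3,
      (∀ K : Set UpperHalfSpace3, IsCompact K →
        Set.Finite {g : G | ∃ x ∈ K, (ρ g : Equiv.Perm UpperHalfSpace3) x ∈ K}) ∧
      (∃ K : Set UpperHalfSpace3, IsCompact K ∧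
        ∀ x : UpperHalfSpace3, ∃ g : G, (ρ g : Equiv.Perm UpperHalfSpace3) x ∈ K) ∧
      Finite ρ.ker := by
  obtain ⟨ρ, A, ε, hA, hρ⟩ := exists_lift f hm H0
  refine ⟨ρ, proper_of_contr hA hρ H1, cocompact_of_coco hA hρ H2, ?_⟩
  have hfin := proper_of_contr hA hρ H1 {mkP 0 1 one_pos} isCompact_singleton
  apply Set.Finite.to_subtype
  apply hfin.subset
  intro g hg
  refine ⟨mkP 0 1 one_pos, rfl, ?_⟩
  have : ρ g = 1 := hg
  rw [this]
  rfl

end

end Crest.Agent.R193.K
end

-- ▼ part R193/K_Wire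

/-!
Row 193, block K (part 4): from `IsMob` to `Rel`, and from metric statements on `Z` to the chordal
hypotheses of `theoremK`.
-/

set_option autoImplicit false

namespace Crest.Agent.R193.K_Wire

open Crest.HyperbolicSpace Matrix Complex ComplexConjugate OnePoint Crest.Agent.R193.K
open Filter Topology

noncomputable section

lemma cbf (v : Fin 2 → ℂ) : cb false ∘ v = v := rfl

lemma rel_mob (a b c d : ℂ) (h : a * d - b * c ≠ 0) : Rel !![a, b; c, d] false (mob a b c d) := by
  intro p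
  induction p using OnePoint.rec with
  | infty =>
    by_cases hc : c = 0
    · refine ⟨a, ?_, ?_⟩
      · rintro rfl
        apply h
        rw [hc]
        ring
      · have : mob a b c d ∞ = ∞ := by
          change (if c = 0 then OnePoint.infty else ((a / c : ℂ) : OnePoint ℂ)) = _
          rw [if_pos hc]
        rw [this, rep_infty, cbf]
        ext i
        fin_cases i <;> simp [hc]
    · refine ⟨c, hc, ?_⟩
      have : mob a b c d ∞ = ((a / c : ℂ) : OnePoint ℂ) := by
        change (if c = 0 then OnePoint.infty else ((a / c : ℂ) : OnePoint ℂ)) = _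
        rw [if_neg hc]
      rw [this, rep_infty, rep_coe, cbf]
      ext i
      fin_cases i
      · simp
        field_simp
      · simp
  | coe z =>
    by_cases hc : c * z + d = 0
    · refine ⟨a * z + b, ?_, ?_⟩
      · intro h0
        apply h
        by_cases hc0 : c = 0
        · have hd : d = 0 := by rw [hc0] at hc; simpa using hc
          rw [hc0, hd]
          ring
        · have hz : z = -d / c := by
            field_simp
            linear_combination hc
          rw [hz] at h0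
          field_simp at h0
          linear_combination -h0
      · have : mob a b c d (z : OnePoint ℂ) = ∞ := by
          change (if c * z + d = 0 then OnePoint.infty else
            (((a * z + b) / (c * z + d) : ℂ) : OnePoint ℂ)) = _
          rw [if_pos hc]
        rw [this, rep_infty, rep_coe, cbf]
        ext i
        fin_cases i
        · simp
          ring
        · simp
          linear_combination hc
    · refine ⟨c * z + d, hc, ?_⟩
      have : mob a b c d (z : OnePoint ℂ) = (((a * z + b) / (c * z + d) : ℂ) : OnePoint ℂ) := by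
        change (if c * z + d = 0 then OnePoint.infty else
          (((a * z + b) / (c * z + d) : ℂ) : OnePoint ℂ)) = _
        rw [if_neg hc]
      have hc' : z * c + d ≠ 0 := by
        intro h'
        apply hc
        linear_combination h'
      rw [this, rep_coe, rep_coe, cbf]
      ext i
      fin_cases i
      · simp
        rw [mul_comm c z, mul_comm a z]
        field_simp
      · simp
        ring

lemma cb_rep (w : OnePoint ℂ) : cb true ∘ rep w = rep (conjO w) := by
  induction w using OnePoint.rec with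
  | infty =>
    change cb true ∘ rep ∞ = rep ∞
    rw [rep_infty]
    ext i
    fin_cases i <;> simp
  | coe z =>
    change cb true ∘ rep (z : OnePoint ℂ) = rep ((conj z : ℂ) : OnePoint ℂ)
    rw [rep_coe, rep_coe]
    ext i
    fin_cases i <;> simp

lemma rel_of_isMob {f : OnePoint ℂ → OnePoint ℂ} (hf : IsMob f) :
    ∃ (A : Matrix (Fin 2) (Fin 2) ℂ) (ε : Bool), A.det ≠ 0 ∧ Rel A ε f := by
  obtain ⟨a, b, c, d, h, rfl | rfl⟩ := hf
  · refine ⟨!![a, b; c, d], false, ?_, rel_mob a b c d h⟩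
    rw [Matrix.det_fin_two]
    simpa using h
  · refine ⟨!![a, b; c, d], true, ?_, ?_⟩
    · rw [Matrix.det_fin_two]
      simpa using h
    · intro p
      obtain ⟨l, hl, h1⟩ := rel_mob a b c d h (conjO p)
      refine ⟨l, hl, ?_⟩
      rw [cb_rep, ← h1]
      congr 1

/-- `|v₀|²/|v|²` -/
def al (x : OnePoint ℂ) : ℝ := normSq (rep x 0) / nv (rep x)

/-- `v₀ conj v₁/|v|²` -/
def be (x : OnePoint ℂ) : ℂ := rep x 0 * conj (rep x 1) / (nv (rep x) : ℂ)

lemma cs_eq (x y : OnePoint ℂ) :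
    cs x y = al x * (1 - al y) + (1 - al x) * al y - 2 * (be x * conj (be y)).re := by
  have hx := nv_rep_pos x
  have hy := nv_rep_pos y
  have e1 : (be x * conj (be y)).re =
      (rep x 0 * conj (rep x 1) * (conj (rep y 0) * rep y 1)).re / (nv (rep x) * nv (rep y)) := by
    have : be x * conj (be y) =
        (rep x 0 * conj (rep x 1) * (conj (rep y 0) * rep y 1)) /
          ((nv (rep x) * nv (rep y) : ℝ) : ℂ) := by
      unfold be
      rw [map_div₀, Complex.conj_ofReal, map_mul, Complex.conj_conj]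
      push_cast
      field_simp
    rw [this, Complex.div_ofReal_re]
  rw [e1]
  unfold al cs cd
  have hnx : nv (rep x) = normSq (rep x 0) + normSq (rep x 1) := rfl
  have hny : nv (rep y) = normSq (rep y 0) + normSq (rep y 1) := rfl
  have hd : normSq (dv (rep x) (rep y)) = normSq (rep x 0) * normSq (rep y 1) +
      normSq (rep x 1) * normSq (rep y 0) -
      2 * (rep x 0 * conj (rep x 1) * (conj (rep y 0) * rep y 1)).re := by
    unfold dv
    rw [Complex.normSq_sub, Complex.normSq_mul, Complex.normSq_mul, map_mul]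
    congr 3
    ring
  rw [hd]
  have a1 : 1 - normSq (rep x 0) / nv (rep x) = normSq (rep x 1) / nv (rep x) := by
    field_simp
    rw [hnx]; ring
  have a2 : 1 - normSq (rep y 0) / nv (rep y) = normSq (rep y 1) / nv (rep y) := by
    field_simp
    rw [hny]; ring
  rw [a1, a2]
  field_simp

lemma tendsto_norm_cocompact : Tendsto (fun z : ℂ => ‖z‖) (cocompact ℂ) atTop :=
  tendsto_norm_cocompact_atTop

lemma nv_rep_coe (z : ℂ) : nv (rep (z : OnePoint ℂ)) = normSq z + 1 := by
  rw [rep_coe]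
  simp [nv]

lemma continuous_al : Continuous al := by
  rw [OnePoint.continuous_iff]
  have hcoe : (al ∘ ((↑) : ℂ → OnePoint ℂ)) = fun z => 1 - 1 / (normSq z + 1) := by
    ext z
    have : 0 < normSq z + 1 := by have := normSq_nonneg z; positivity
    simp only [Function.comp_apply, al, nv_rep_coe]
    rw [rep_coe, Matrix.cons_val_zero]
    field_simp
    ring
  have hinf : al ∞ = 1 := by
    simp [al, rep_infty, nv]
  constructor
  · rw [hinf]
    have h1 : Tendsto (fun z : ℂ => 1 - 1 / (normSq z + 1)) (cocompact ℂ) (𝓝 (1 - 0)) := by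
      apply Tendsto.sub tendsto_const_nhds
      simp only [one_div]
      apply Tendsto.inv_tendsto_atTop
      apply Filter.tendsto_atTop_add_const_right
      have h2 : Tendsto (fun z : ℂ => ‖z‖ ^ 2) (cocompact ℂ) atTop :=
        (tendsto_pow_atTop two_ne_zero).comp tendsto_norm_cocompact
      refine h2.congr ?_
      intro z
      rw [Complex.normSq_eq_norm_sq]
    rw [sub_zero] at h1
    rw [Filter.coclosedCompact_eq_cocompact]
    refine h1.congr ?_
    intro z
    exact (congrFun hcoe z).symm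
  · rw [show (fun x : ℂ => al (x : OnePoint ℂ)) = al ∘ ((↑) : ℂ → OnePoint ℂ) from rfl, hcoe]
    apply Continuous.sub continuous_const
    apply Continuous.div continuous_const
    · exact Complex.continuous_normSq.add continuous_const
    · intro z
      have := normSq_nonneg z
      positivity

lemma continuous_be : Continuous be := by
  rw [OnePoint.continuous_iff]
  have hcoe : (be ∘ ((↑) : ℂ → OnePoint ℂ)) = fun z => z / ((normSq z + 1 : ℝ) : ℂ) := by
    ext z
    simp only [Function.comp_apply, be, nv_rep_coe]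
    rw [rep_coe]
    change z * conj (1 : ℂ) / _ = _
    rw [map_one, mul_one]
  have hinf : be ∞ = 0 := by
    simp [be, rep_infty, nv]
  constructor
  · rw [hinf, Filter.coclosedCompact_eq_cocompact]
    have h1 : Tendsto (fun z : ℂ => ‖z‖⁻¹) (cocompact ℂ) (𝓝 0) :=
      tendsto_inv_atTop_zero.comp tendsto_norm_cocompact
    apply squeeze_zero_norm' _ h1
    filter_upwards [tendsto_norm_cocompact.eventually_gt_atTop 0] with z hz
    have e : be (z : OnePoint ℂ) = z / ((normSq z + 1 : ℝ) : ℂ) := congrFun hcoe z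
    rw [e, norm_div, Complex.norm_real, Complex.normSq_eq_norm_sq, Real.norm_eq_abs,
      abs_of_pos (by positivity), div_le_iff₀ (by positivity)]
    field_simp
    nlinarith
  · rw [show (fun x : ℂ => be (x : OnePoint ℂ)) = be ∘ ((↑) : ℂ → OnePoint ℂ) from rfl, hcoe]
    apply Continuous.div continuous_id
    · exact Complex.continuous_ofReal.comp (Complex.continuous_normSq.add continuous_const)
    · intro z
      have := normSq_nonneg z
      have : (normSq z + 1 : ℝ) ≠ 0 := by positivity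
      exact_mod_cast this

lemma continuous_cs : Continuous fun p : OnePoint ℂ × OnePoint ℂ => cs p.1 p.2 := by
  have : (fun p : OnePoint ℂ × OnePoint ℂ => cs p.1 p.2) = fun p =>
      al p.1 * (1 - al p.2) + (1 - al p.1) * al p.2 - 2 * (be p.1 * conj (be p.2)).re := by
    ext p
    exact cs_eq p.1 p.2
  rw [this]
  have h1 := continuous_al.comp (continuous_fst (X := OnePoint ℂ) (Y := OnePoint ℂ))
  have h2 := continuous_al.comp (continuous_snd (X := OnePoint ℂ) (Y := OnePoint ℂ))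
  have h3 := continuous_be.comp (continuous_fst (X := OnePoint ℂ) (Y := OnePoint ℂ))
  have h4 := continuous_be.comp (continuous_snd (X := OnePoint ℂ) (Y := OnePoint ℂ))
  simp only [Function.comp_def] at h1 h2 h3 h4
  exact ((h1.mul (continuous_const.sub h2)).add ((continuous_const.sub h1).mul h2)).sub
    (continuous_const.mul (Complex.continuous_re.comp (h3.mul (Complex.continuous_conj.comp h4))))

lemma cs_self (x : OnePoint ℂ) : cs x x = 0 := by
  have : dv (rep x) (rep x) = 0 := by unfold dv; ring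
  simp [cs, cd, this]

lemma dv_rep_ne {x y : OnePoint ℂ} (h : x ≠ y) : dv (rep x) (rep y) ≠ 0 := by
  induction x using OnePoint.rec with
  | infty =>
    induction y using OnePoint.rec with
    | infty => exact absurd rfl h
    | coe w => simp [dv, rep_infty, rep_coe]
  | coe z =>
    induction y using OnePoint.rec with
    | infty => simp [dv, rep_infty, rep_coe]
    | coe w =>
      simp only [dv, rep_coe, Matrix.cons_val_zero, Matrix.cons_val_one]
      intro h'
      apply h
      rw [OnePoint.coe_eq_coe]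
      linear_combination h'

lemma cs_pos {x y : OnePoint ℂ} (h : x ≠ y) : 0 < cs x y := by
  unfold cs cd
  have := nv_rep_pos x
  have := nv_rep_pos y
  have := Complex.normSq_pos.mpr (dv_rep_ne h)
  positivity

section
variable {G Z : Type} [Group G] [MetricSpace Z] [MulAction G Z]

/-- contraction, metric form -/
def MContr (G Z : Type) [Group G] [MetricSpace Z] [MulAction G Z] : Prop :=
  ∀ (a b c : Z), a ≠ b → b ≠ c → a ≠ c → ∀ (T : Set G), T.Infinite → ∀ (r : ℝ), 0 < r →
    ∃ g ∈ T, ∃ x y : Z, (x = a ∨ x = b) ∧ (y = b ∨ y = c) ∧ x ≠ y ∧ dist (g • x) (g • y) ≤ r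

/-- cocompactness on triples, metric form -/
def MCoco (G Z : Type) [Group G] [MetricSpace Z] [MulAction G Z] : Prop :=
  ∃ c : ℝ, 0 < c ∧ ∀ x y z : Z, x ≠ y → y ≠ z → x ≠ z →
    ∃ g : G, c ≤ dist (g • x) (g • y) ∧ c ≤ dist (g • y) (g • z) ∧ c ≤ dist (g • x) (g • z)

lemma continuous_csF {Y : Type} [TopologicalSpace Y] (F : Y → OnePoint ℂ) (hF : Continuous F) :
    Continuous fun p : Y × Y => cs (F p.1) (F p.2) := by
  have h1 : Continuous fun p : Y × Y => (F p.1, F p.2) :=
    (hF.comp continuous_fst).prodMk (hF.comp continuous_snd)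
  have h2 := continuous_cs.comp h1
  simpa only [Function.comp_def] using h2

lemma contr_of_metric (F : Z ≃ₜ OnePoint ℂ) (h : MContr G Z) :
    Contr (fun (g : G) (w : OnePoint ℂ) => F (g • F.symm w)) := by
  have : CompactSpace Z := F.symm.compactSpace
  intro T hT C hC
  have h01 : ((0 : ℂ) : OnePoint ℂ) ≠ ((1 : ℂ) : OnePoint ℂ) := by
    rw [Ne, OnePoint.coe_eq_coe]; exact zero_ne_one
  have h0i : ((0 : ℂ) : OnePoint ℂ) ≠ ∞ := OnePoint.coe_ne_infty _
  have h1i : ((1 : ℂ) : OnePoint ℂ) ≠ ∞ := OnePoint.coe_ne_infty _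
  set m := min (cs (0 : ℂ) (1 : ℂ)) (min (cs (0 : ℂ) ∞) (cs (1 : ℂ) ∞)) with hm
  have hm0 : 0 < m := lt_min (cs_pos h01) (lt_min (cs_pos h0i) (cs_pos h1i))
  have hk : Continuous fun p : Z × Z => cs (F p.1) (F p.2) := continuous_csF F F.continuous
  have hu := CompactSpace.uniformContinuous_of_continuous hk
  rw [Metric.uniformContinuous_iff] at hu
  obtain ⟨r, hr, hur⟩ := hu (m / C) (by positivity)
  have hinj := F.symm.injective
  obtain ⟨g, hg, x, y, hx, hy, hxy, hd⟩ := h (F.symm (0 : ℂ)) (F.symm (1 : ℂ)) (F.symm ∞)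
    (fun e => h01 (hinj e)) (fun e => h1i (hinj e)) (fun e => h0i (hinj e)) T hT (r / 2)
    (by positivity)
  refine ⟨g, hg, F x, F y, ?_⟩
  have h1 : m ≤ cs (F x) (F y) := by
    rcases hx with rfl | rfl <;> rcases hy with rfl | rfl
    · simp only [Homeomorph.apply_symm_apply]; exact min_le_left _ _
    · simp only [Homeomorph.apply_symm_apply]
      exact (min_le_right _ _).trans (min_le_left _ _)
    · exact absurd rfl hxy
    · simp only [Homeomorph.apply_symm_apply]
      exact (min_le_right _ _).trans (min_le_right _ _)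
  have h2 : dist ((g • x, g • y) : Z × Z) (g • x, g • x) < r := by
    rw [Prod.dist_eq]
    simp only [dist_self]
    rw [max_eq_right dist_nonneg, dist_comm]
    linarith
  have h3 := hur h2
  simp only [cs_self, dist_zero_right] at h3
  simp only [Homeomorph.symm_apply_apply]
  have h4 : cs (F (g • x)) (F (g • y)) < m / C := (le_abs_self _).trans_lt h3
  rw [lt_div_iff₀ hC] at h4
  linarith

lemma coco_of_metric (F : Z ≃ₜ OnePoint ℂ) (h : MCoco G Z) :
    Coco (fun (g : G) (w : OnePoint ℂ) => F (g • F.symm w)) := by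
  have : CompactSpace Z := F.symm.compactSpace
  obtain ⟨c, hc, H⟩ := h
  have hk : Continuous fun p : Z × Z => cs (F p.1) (F p.2) := continuous_csF F F.continuous
  have hK : IsCompact {p : Z × Z | c ≤ dist p.1 p.2} :=
    (isClosed_le continuous_const continuous_dist).isCompact
  have hex : ∃ c' : ℝ, 0 < c' ∧ ∀ u v : Z, c ≤ dist u v → c' ≤ cs (F u) (F v) := by
    by_cases hne : {p : Z × Z | c ≤ dist p.1 p.2}.Nonempty
    · obtain ⟨p, hp, hmin⟩ := hK.exists_isMinOn hne hk.continuousOn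
      refine ⟨cs (F p.1) (F p.2), ?_, ?_⟩
      · apply cs_pos
        intro e
        have e' := F.injective e
        have : c ≤ dist p.1 p.2 := hp
        rw [e', dist_self] at this
        linarith
      · intro u v huv
        have hmem : (u, v) ∈ {p : Z × Z | c ≤ dist p.1 p.2} := huv
        have := hmin hmem
        simpa only [Set.mem_ofPred_eq] using this
    · refine ⟨1, one_pos, ?_⟩
      intro u v huv
      exact absurd ⟨(u, v), huv⟩ hne
  obtain ⟨c', hc', hcs⟩ := hex
  refine ⟨c', hc', ?_⟩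
  intro x y z hxy hyz hxz
  have hinj := F.symm.injective
  obtain ⟨g, h1, h2, h3⟩ := H (F.symm x) (F.symm y) (F.symm z) (fun e => hxy (hinj e))
    (fun e => hyz (hinj e)) (fun e => hxz (hinj e))
  have k1 := hcs _ _ h1
  have k2 := hcs _ _ h2
  have k3 := hcs _ _ h3
  exact ⟨g, k1, k2, k3⟩

/-- block K, from the metric hypotheses -/
theorem K_of_metric (F : Z ≃ₜ OnePoint ℂ) (hF : ∀ g : G, IsMob (fun w => F (g • F.symm w)))
    (h1 : MContr G Z) (h2 : MCoco G Z) :
    ∃ ρ : G →* isometryGroup3,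
      (∀ K : Set UpperHalfSpace3, IsCompact K →
        Set.Finite {g : G | ∃ x ∈ K, (ρ g : Equiv.Perm UpperHalfSpace3) x ∈ K}) ∧
      (∃ K : Set UpperHalfSpace3, IsCompact K ∧
        ∀ x : UpperHalfSpace3, ∃ g : G, (ρ g : Equiv.Perm UpperHalfSpace3) x ∈ K) ∧
      Finite ρ.ker := by
  apply theoremK (fun (g : G) (w : OnePoint ℂ) => F (g • F.symm w))
  · intro g h x
    simp [mul_smul]
  · intro g
    exact rel_of_isMob (hF g)
  · exact contr_of_metric F h1
  · exact coco_of_metric F h2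

end

end

end Crest.Agent.R193.K_Wire
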