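import Mathlib
import Crest.Prelude.Def_HyperbolicThreeSpace
import Crest.Agent.R193.Defs
import Crest.Agent.R193.K_Wire
import Crest.Agent.R193.K_Triples
import Crest.Agent.R193.F_Core
import Crest.Agent.R193.F_CL
import Crest.Agent.R193.F_Pair
import Crest.Agent.R193.CH_Chart
import Crest.Agent.R193.Planar4
import Crest.Agent.R193.F_Spec
import Crest.Agent.R193.F_Cut
import Crest.Agent.R193.FG1b
import Crest.Agent.R193.F_Defs
import Crest.Agent.R193.T_Comp
import Crest.Agent.R193.Dual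
import Crest.Agent.R193.Planar2
import Crest.Agent.R193.FG1e
import Crest.Agent.R193.F_Sep2
import Crest.Agent.R193.D1_Loop
import Crest.Agent.R193.F_Ring
import Crest.Agent.R193.S_Basic
import Crest.Agent.R193.F_One
import Crest.Agent.R193.M1_Main
import Crest.Agent.R193.M_Defs
import Crest.Agent.R193.M7_Glue

-- ▼ part R193/K_Main
section

/-!
Row 193, block K: the main statement.
-/

set_option autoImplicit false

noncomputable section

open Set Filter Topology MeasureTheory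
open Crest.HyperbolicSpace

namespace Crest.Agent.R193.K_Main

open Crest.Agent.R193

/-- BLOCK K: from a Moebius action to the conclusion. -/
theorem K_main {G Z : Type} [Group G] [MetricSpace Z] [MulAction G Z] (S : Setup G Z)
    (F : Z ≃ₜ OnePoint ℂ) (hF : ∀ g : G, IsMob (fun w => F (g • F.symm w))) :
    ∃ ρ : G →* isometryGroup3,
      (∀ K : Set UpperHalfSpace3, IsCompact K →
        Set.Finite {g : G | ∃ x ∈ K, (ρ g : Equiv.Perm UpperHalfSpace3) x ∈ K}) ∧
      (∃ K : Set UpperHalfSpace3, IsCompact K ∧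
        ∀ x : UpperHalfSpace3, ∃ g : G, (ρ g : Equiv.Perm UpperHalfSpace3) x ∈ K) ∧
      Finite ρ.ker := by
  apply K_Wire.K_of_metric F hF
  · intro a b c hab hbc hac T hT r hr
    exact K_Triples.KT1 S a b c hab hbc hac T hT r hr
  · exact K_Triples.KT2 S

end Crest.Agent.R193.K_Main
end
end

-- ▼ part R193/F_Two
section

/-!
# R193, block F: F2 (the Courant-Lebesgue field), from helper283's `CL_of_shell`
-/

set_option autoImplicit false

noncomputable section

open Set Filter Topology Metric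

namespace Crest.Agent.R193.F_Two

open Crest.Agent.R193

variable {G Z : Type} [Group G] [MetricSpace Z] [MulAction G Z]

theorem F2_main (S : Setup G Z) (T : Tiles S) (Φ : Z ≃ₜ S2)
    (hM : ∀ ψ : Chart Z, ∃ L : ℝ, ∀ n : ℕ, SepBound T n (ψ.D 1) (ψ.E 2) L) (Q : FormCore T) :
    ∃ lam C0 ρ0 : ℝ, 1 < lam ∧ 0 < C0 ∧ 0 < ρ0 ∧ CLProp Q.Dom Q.Γ lam C0 ρ0 := by
  obtain ⟨lam, ρ0, C0, hlam, hρ0, hC0, h⟩ := F_CL.CL_of_shell T Φ hM Q.p Q.hp Q.S' Q.hS'
  refine ⟨lam, C0, ρ0, hlam, hC0, hρ0, ?_⟩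
  intro x ρ hρ hρle u hu φ hφ hφ1 η hη
  exact h u (fun φ => Q.Γ u u φ) (Q.shell u hu) lam le_rfl x ρ hρ hρle φ hφ hφ1 η hη

end Crest.Agent.R193.F_Two
end
end

-- ▼ part R193/F_Five
section

/-!
# R193, interface F5 (helper781): the pair
-/

set_option autoImplicit false

noncomputable section

open Set Filter Topology Metric

namespace Crest.Agent.R193.F_Five

open Crest.Agent.R193

variable {G Z : Type} [Group G] [MetricSpace Z] [MulAction G Z]

/-- **F5** (statement of `F_Spec.F5`) -/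
theorem F5_main (S : Setup G Z) (T : Tiles S) (Φ : Z ≃ₜ S2)
    (h : ∀ ψ : Chart Z, ∃ (u : C(Z, ℝ)) (un : ℕ → G → ℝ), IsPot T (ψ.D 1) (ψ.E 2) u un) :
    ∃ (O K : Set Z) (u₁ u₂ : C(Z, ℝ)), IsOpen O ∧ IsCompact K ∧ K ⊆ O ∧
      OscBound S u₁ ∧ OscBound S u₂ ∧
      (∀ a b : ℝ, MonoOn (fun x => a * u₁ x + b * u₂ x) O) ∧
      (interior ((fun x => (u₁ x, u₂ x)) '' K)).Nonempty := by
  have hc2 : CompactSpace S2 := isCompact_iff_compactSpace.1 (isCompact_sphere _ _)
  have hZ : CompactSpace Z := Φ.symm.compactSpace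
  have hS2 : ConnectedSpace S2 := Planar.S2_connected
  have hZc : ConnectedSpace Z := by
    exact Φ.symm.surjective.connectedSpace Φ.symm.continuous
  obtain ⟨x⟩ := hZc.toNonempty
  obtain ⟨χ, -⟩ := CHx.exists_chart_at Φ x
  obtain ⟨u₁, v₁, h1⟩ := h (F_Pair.ch1 χ)
  obtain ⟨u₂, v₂, h2⟩ := h (F_Pair.ch2 χ)
  obtain ⟨O, K, hO, hK, hKO, hm, hi⟩ := F_Pair.pair_of_potentials T χ h1 h2
  exact ⟨O, K, u₁, u₂, hO, hK, hKO, h1.osc, h2.osc, hm, hi⟩

end Crest.Agent.R193.F_Five
end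
end

-- ▼ part R193/F_Six
section

/-!
# R193, block F: F6 (standard pairs of charts separate points)
-/

set_option autoImplicit false

noncomputable section

open Set Filter Topology Metric

namespace Crest.Agent.R193.F_Six

open Crest.Agent.R193 Crest.Agent.R193.CHx

theorem F6_main {Z : Type} [MetricSpace Z] (Φ : Z ≃ₜ S2) (x y : Z) (hxy : x ≠ y) :
    ∃ ψ : Chart Z, x ∈ ψ.D 1 ∧ y ∈ ψ.E 2 := by
  obtain ⟨ψ, hψ⟩ := exists_chart_at Φ x
  have hc : ContinuousAt ψ.f 0 := ψ.emb.continuous.continuousAt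
  rw [Metric.continuousAt_iff] at hc
  obtain ⟨t, ht, htt⟩ := hc (dist x y) (dist_pos.2 hxy)
  refine ⟨ψ.comp (scale (t / 2) (by positivity)), ?_, ?_⟩
  · refine ⟨0, mem_closedBall_self (by norm_num), ?_⟩
    simp [scale_apply, hψ]
  · rintro ⟨p, hp, hpy⟩
    rw [comp_f, scale_apply] at hpy
    have h1 : dist ((t / 2) • p) 0 < t := by
      rw [mem_ball, dist_zero_right] at hp
      rw [dist_zero_right, norm_smul, Real.norm_eq_abs, abs_of_pos (by positivity)]
      nlinarith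
    have h2 := htt h1
    rw [hψ, hpy, dist_comm] at h2
    exact lt_irrefl _ h2

end Crest.Agent.R193.F_Six
end
end

-- ▼ part R193/F_Pre
section

/-!
# R193, block F: everything except F1 and F3
-/

set_option autoImplicit false

noncomputable section

open Set Filter Topology Metric

namespace Crest.Agent.R193.F_Pre

open Crest.Agent.R193 Crest.Agent.R193.F_Spec

variable {G Z : Type} [Group G] [MetricSpace Z] [MulAction G Z]

theorem F_main_pre (h1 : F1 G Z) (h3 : F3 G Z)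
    (S : Setup G Z) (T : Tiles S) (Φ : Z ≃ₜ S2)
    (hM : ∀ ψ : Chart Z, ∃ L : ℝ, ∀ n : ℕ, SepBound T n (ψ.D 1) (ψ.E 2) L) :
    Nonempty (DForm S) :=
  F_main_of h1 (fun S T Φ hM Q => F_Two.F2_main S T Φ hM Q) h3
    (fun S T Φ Q h => F_Cut.F4_main S T Φ Q h)
    (fun S T Φ h => F_Five.F5_main S T Φ h)
    (fun Φ x y hxy => F_Six.F6_main Φ x y hxy) S T Φ hM

end Crest.Agent.R193.F_Pre
end
end

-- ▼ part R193/FG1d
section

/-!
R193, block FG1 (fourth part): energy versus vertex modulus, and the main existence package.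
-/

set_option autoImplicit false

namespace Crest.Agent.R193.FG

open Finset

variable {V : Type*} [Fintype V]

open Classical in
/-- If `ρ ≥ 0` has `ρ`-length at least `1` on (the vertex set of) every walk from `L` to `R`, then
there is a function with boundary values `0` on `L`, `1` on `R` and energy at most
`2 Δ ∑ ρ²`, where `Δ` bounds all degrees. -/
theorem exists_bc_en_le (G : SimpleGraph V) (L R : Set V) (hLR : Disjoint L R)
    (ρ : V → ℝ) (hρ : ∀ v, 0 ≤ ρ v) (Δ : ℕ) (hΔ : ∀ v, {w | G.Adj v w}.ncard ≤ Δ)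
    (hadm : ∀ l ∈ L, ∀ r ∈ R, ∀ p : G.Walk l r, 1 ≤ ∑ x ∈ p.support.toFinset, ρ x) :
    ∃ f : V → ℝ, BC L R f ∧ (∀ v, 0 ≤ f v ∧ f v ≤ 1) ∧ en G f ≤ 2 * Δ * ∑ v, ρ v ^ 2 := by
  let S : V → Set ℝ := fun v =>
    insert 1 {s | ∃ l ∈ L, ∃ p : G.Walk l v, s = ∑ x ∈ p.support.toFinset, ρ x}
  have hSnn : ∀ v, ∀ s ∈ S v, 0 ≤ s := by
    intro v s hs
    rcases hs with rfl | ⟨l, _, p, rfl⟩
    · exact zero_le_one
    · exact Finset.sum_nonneg fun x _ => hρ x
  have hSbdd : ∀ v, BddBelow (S v) := fun v => ⟨0, fun s hs => hSnn v s hs⟩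
  have hSne : ∀ v, (S v).Nonempty := fun v => ⟨1, Set.mem_insert _ _⟩
  let f : V → ℝ := fun v => if v ∈ L then 0 else sInf (S v)
  have hfL : ∀ v, v ∈ L → f v = 0 := fun v hv => if_pos hv
  have hfn : ∀ v, v ∉ L → f v = sInf (S v) := fun v hv => if_neg hv
  have hf01 : ∀ v, 0 ≤ f v ∧ f v ≤ 1 := by
    intro v
    by_cases hv : v ∈ L
    · rw [hfL v hv]; exact ⟨le_rfl, zero_le_one⟩
    · rw [hfn v hv]
      exact ⟨le_csInf (hSne v) (hSnn v), csInf_le (hSbdd v) (Set.mem_insert _ _)⟩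
  have hstep : ∀ v w, G.Adj v w → f w ≤ f v + (ρ v + ρ w) := by
    intro v w hadj
    by_cases hw : w ∈ L
    · rw [hfL w hw]
      have := (hf01 v).1
      have := hρ v
      have := hρ w
      linarith
    · rw [hfn w hw]
      by_cases hv : v ∈ L
      · rw [hfL v hv, zero_add]
        have hmem : (∑ x ∈ (SimpleGraph.Walk.cons hadj SimpleGraph.Walk.nil).support.toFinset, ρ x)
            ∈ S w := Or.inr ⟨v, hv, _, rfl⟩
        refine (csInf_le (hSbdd w) hmem).trans ?_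
        have : (SimpleGraph.Walk.cons hadj SimpleGraph.Walk.nil).support.toFinset = {v, w} := by
          ext x; simp
        rw [this, Finset.sum_pair hadj.ne]
      · rw [hfn v hv]
        have : sInf (S w) - ρ w ≤ sInf (S v) := by
          refine le_csInf (hSne v) ?_
          intro s hs
          rcases hs with rfl | ⟨l, hl, p, rfl⟩
          · have := csInf_le (hSbdd w) (Set.mem_insert 1 _)
            have := hρ w
            linarith
          · have hmem : (∑ x ∈ (p.concat hadj).support.toFinset, ρ x) ∈ S w :=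
              Or.inr ⟨l, hl, _, rfl⟩
            have h1 := csInf_le (hSbdd w) hmem
            have h2 : (p.concat hadj).support.toFinset = insert w p.support.toFinset := by
              rw [SimpleGraph.Walk.support_concat]
              ext x
              simp
            rw [h2] at h1
            have h3 : (∑ x ∈ insert w p.support.toFinset, ρ x)
                ≤ ρ w + ∑ x ∈ p.support.toFinset, ρ x := by
              by_cases hmem : w ∈ p.support.toFinset
              · rw [Finset.insert_eq_of_mem hmem]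
                linarith [hρ w]
              · rw [Finset.sum_insert hmem]
            linarith
        linarith [hρ v]
  have hfR : ∀ v ∈ R, f v = 1 := by
    intro v hv
    have hvL : v ∉ L := fun h => Set.disjoint_left.1 hLR h hv
    rw [hfn v hvL]
    refine le_antisymm (csInf_le (hSbdd v) (Set.mem_insert _ _)) (le_csInf (hSne v) ?_)
    intro s hs
    rcases hs with rfl | ⟨l, hl, p, rfl⟩
    · exact le_rfl
    · exact hadm l hl v hv p
  refine ⟨f, ⟨hfL, hfR⟩, hf01, ?_⟩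
  have hdeg : ∀ v, ((Finset.univ.filter (fun w => G.Adj v w)).card : ℝ) ≤ Δ := by
    intro v
    have := hΔ v
    rw [Set.ncard_eq_toFinset_card'] at this
    have e : (Set.toFinset {w | G.Adj v w}) = Finset.univ.filter (fun w => G.Adj v w) := by
      ext w; simp
    rw [e] at this
    exact_mod_cast this
  rw [en_def]
  have h1 : (∑ v, ∑ w, if G.Adj v w then (f v - f w) ^ 2 else 0)
      ≤ ∑ v, ∑ w, if G.Adj v w then (2 * ρ v ^ 2 + 2 * ρ w ^ 2) else 0 := by
    refine Finset.sum_le_sum fun v _ => Finset.sum_le_sum fun w _ => ?_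
    split_ifs with ha
    · have h2 : |f v - f w| ≤ ρ v + ρ w := by
        rw [abs_le]
        constructor
        · linarith [hstep v w ha]
        · linarith [hstep w v ha.symm]
      have h3 : (f v - f w) ^ 2 ≤ (ρ v + ρ w) ^ 2 := sq_le_sq' (by linarith [(abs_le.1 h2).1])
        (abs_le.1 h2).2
      nlinarith [sq_nonneg (ρ v - ρ w)]
    · exact le_rfl
  have h4 : (∑ v, ∑ w, if G.Adj v w then (2 * ρ v ^ 2 + 2 * ρ w ^ 2) else 0)
      = (∑ v, ∑ w, if G.Adj v w then 2 * ρ v ^ 2 else 0)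
        + ∑ v, ∑ w, if G.Adj v w then 2 * ρ w ^ 2 else 0 := by
    rw [← Finset.sum_add_distrib]
    refine Finset.sum_congr rfl fun v _ => ?_
    rw [← Finset.sum_add_distrib]
    refine Finset.sum_congr rfl fun w _ => ?_
    split_ifs <;> simp
  have h5 : (∑ v, ∑ w, if G.Adj v w then 2 * ρ w ^ 2 else 0)
      = ∑ v, ∑ w, if G.Adj v w then 2 * ρ v ^ 2 else 0 := by
    rw [Finset.sum_comm]
    refine Finset.sum_congr rfl fun v _ => Finset.sum_congr rfl fun w _ => ?_
    rw [G.adj_comm]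
  have h6 : (∑ v, ∑ w, if G.Adj v w then 2 * ρ v ^ 2 else 0) ≤ ∑ v, Δ * (2 * ρ v ^ 2) := by
    refine Finset.sum_le_sum fun v _ => ?_
    rw [← Finset.sum_filter, Finset.sum_const, nsmul_eq_mul]
    exact mul_le_mul_of_nonneg_right (hdeg v) (by positivity)
  have h7 : (∑ v, (Δ : ℝ) * (2 * ρ v ^ 2)) = 2 * Δ * ∑ v, ρ v ^ 2 := by
    rw [Finset.mul_sum]
    refine Finset.sum_congr rfl fun v _ => by ring
  have : (∑ v, ∑ w, if G.Adj v w then (f v - f w) ^ 2 else 0) ≤ 2 * (2 * Δ * ∑ v, ρ v ^ 2) := by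
    rw [← h7]
    linarith
  linarith

/-- Existence package: the discrete harmonic function, with `0 ≤ u ≤ 1`, minimal energy. -/
theorem exists_sol (G : SimpleGraph V) (L R : Set V) (hLR : Disjoint L R)
    (hconn : ∀ v, ∃ w, w ∈ L ∪ R ∧ G.Reachable v w) :
    ∃ u : V → ℝ, Sol G L R u ∧ (∀ v, 0 ≤ u v ∧ u v ≤ 1) ∧
      ∀ f : V → ℝ, BC L R f → en G u ≤ en G f := by
  obtain ⟨u, hu, h01, hmin⟩ := exists_min G L R hLR
  exact ⟨u, ⟨hu, fun v hL hR => min_harmonic G L R u hu hmin v hL hR, hconn⟩, h01, hmin⟩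

/-- Uniqueness: any solution minimises the energy. -/
theorem Sol.min {G : SimpleGraph V} {L R : Set V} {u : V → ℝ} (h : Sol G L R u)
    (f : V → ℝ) (hf : BC L R f) : en G u ≤ en G f := by
  have h1 : en G f = en G u + 2 * 1 * enB G u (fun v => f v - u v)
      + 1 ^ 2 * en G (fun v => f v - u v) := by
    rw [← en_add]
    congr 1
    funext v
    ring
  have h2 : enB G u (fun v => f v - u v) = 0 := by
    rw [enB_eq_lap, neg_eq_zero]
    refine Finset.sum_eq_zero fun v _ => ?_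
    by_cases hL : v ∈ L
    · rw [hf.1 v hL, h.bc.1 v hL]; ring
    · by_cases hR : v ∈ R
      · rw [hf.2 v hR, h.bc.2 v hR]; ring
      · rw [h.harm v hL hR, zero_mul]
  have := en_nonneg G (fun v => f v - u v)
  rw [h1, h2]
  linarith

open Classical in
/-- The energy of the solution is at most `2 Δ ∑ ρ²` for every admissible `ρ`. -/
theorem Sol.en_le_modulus {G : SimpleGraph V} {L R : Set V} {u : V → ℝ} (h : Sol G L R u)
    (hLR : Disjoint L R) (ρ : V → ℝ) (hρ : ∀ v, 0 ≤ ρ v) (Δ : ℕ)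
    (hΔ : ∀ v, {w | G.Adj v w}.ncard ≤ Δ)
    (hadm : ∀ l ∈ L, ∀ r ∈ R, ∀ p : G.Walk l r, 1 ≤ ∑ x ∈ p.support.toFinset, ρ x) :
    en G u ≤ 2 * Δ * ∑ v, ρ v ^ 2 := by
  obtain ⟨f, hf, _, hfe⟩ := exists_bc_en_le G L R hLR ρ hρ Δ hΔ hadm
  exact (h.min f hf).trans hfe

end Crest.Agent.R193.FG
end

-- ▼ part R193/F_PotEx
section

/-!
# R193, block D1/F3 (helper321): existence of the discrete potentials with bounded energy
-/

set_option autoImplicit false

noncomputable section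

open Set Filter Topology Metric
open scoped Classical

namespace Crest.Agent.R193.F_PotEx

open Crest.Agent.R193 Crest.Agent.R193.T_Comp

variable {G Z : Type} [Group G] [MetricSpace Z] [MulAction G Z] {S : Setup G Z} (T : Tiles S)

/-- the graph of tiles of level `n` -/
def gr (n : ℕ) : SimpleGraph (S.sph n) where
  Adj a b := a ≠ b ∧ T.adj a b
  symm := ⟨fun _ _ h => ⟨h.1.symm, adj_comm T h.2⟩⟩
  loopless := ⟨fun _ h => h.1 rfl⟩

theorem gr_adj {n : ℕ} {a b : S.sph n} : (gr T n).Adj a b ↔ a ≠ b ∧ T.adj a b := Iff.rfl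

/-- valence constant -/
def Dl (T : Tiles S) : ℕ := Nb S (2 * T.R + 2 * S.δ)

theorem card_filter_adj_le {n : ℕ} {g : G} (hg : g ∈ S.sph n) :
    ((S.sph n).filter (fun h => T.adj g h)).card ≤ Dl T := by
  apply card_adj_le T g
  intro h hh
  rw [Finset.mem_filter] at hh
  exact ⟨((mem_sph S).1 hh.1).trans ((mem_sph S).1 hg).symm, hh.2⟩

theorem ncard_adj_le {n : ℕ} (v : S.sph n) : {w | (gr T n).Adj v w}.ncard ≤ Dl T := by
  refine le_trans ?_ (card_filter_adj_le T v.2)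
  rw [← Set.ncard_coe_finset]
  refine Set.ncard_le_ncard_of_injOn (fun w : S.sph n => (w : G)) ?_ ?_ (Finset.finite_toSet _)
  · intro w hw
    exact Finset.mem_coe.2 (Finset.mem_filter.2 ⟨w.2, hw.2⟩)
  · intro a _ b _ hab
    exact Subtype.ext hab

theorem reach_of_chain {n : ℕ} {g h : G} (hg : g ∈ S.sph n)
    (H : Relation.ReflTransGen (fun a b => a ∈ S.sph n ∧ b ∈ S.sph n ∧
      (T.U a ∩ T.U b ∩ (univ : Set Z)).Nonempty) g h) :
    ∀ hh : h ∈ S.sph n, (gr T n).Reachable ⟨g, hg⟩ ⟨h, hh⟩ := by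
  induction H with
  | refl => exact fun _ => SimpleGraph.Reachable.refl _
  | tail _ hbc ih =>
    intro hh
    refine (ih hbc.1).trans ?_
    rename_i b c _
    by_cases hbceq : b = c
    · subst hbceq
      exact SimpleGraph.Reachable.refl _
    · refine SimpleGraph.Adj.reachable ?_
      refine ⟨fun h => hbceq (congrArg Subtype.val h), ?_⟩
      obtain ⟨x, hx⟩ := hbc.2.2
      exact ⟨x, hx.1⟩

theorem reachable [PreconnectedSpace Z] {n : ℕ} (a b : S.sph n) : (gr T n).Reachable a b := by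
  obtain ⟨x, hx⟩ := (T.isConnected a).nonempty
  obtain ⟨y, hy⟩ := (T.isConnected b).nonempty
  exact reach_of_chain T a.2 (chain_of_preconnected T isPreconnected_univ
    (by rw [un_sph]) a.2 b.2 ⟨x, hx, mem_univ _⟩ ⟨y, hy, mem_univ _⟩) b.2

/-- the union of the tiles of a walk is preconnected -/
theorem walk_preconnected {n : ℕ} {a b : S.sph n} (p : (gr T n).Walk a b) :
    IsPreconnected (⋃ x ∈ p.support, T.U (x : G)) := by
  induction p with
  | nil =>
    simp only [SimpleGraph.Walk.support_nil, List.mem_singleton, iUnion_iUnion_eq_left]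
    exact (T.isConnected _).isPreconnected
  | cons h p ih =>
    rename_i u v w
    have e : (⋃ x ∈ (SimpleGraph.Walk.cons h p).support, T.U (x : G)) =
        T.U (u : G) ∪ ⋃ x ∈ p.support, T.U (x : G) := by
      rw [SimpleGraph.Walk.support_cons]
      ext z
      simp
    rw [e]
    obtain ⟨z, hz1, hz2⟩ := h.2
    exact IsPreconnected.union z hz1 (mem_biUnion p.start_mem_support hz2)
      (T.isConnected _).isPreconnected ih

/-- admissible weight for joining walks from separating sets -/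
theorem exists_weight {n : ℕ} {D E : Set Z} {L : ℝ} (hL0 : 0 < L) (hL : SepBound T n D E L) :
    ∃ ρ : S.sph n → ℝ, (∀ v, 0 ≤ ρ v) ∧
      (∀ l r : S.sph n, (T.U l ∩ E).Nonempty → (T.U r ∩ D).Nonempty →
        ∀ p : (gr T n).Walk l r, 1 ≤ ∑ x ∈ p.support.toFinset, ρ x) ∧
      ∑ v, ρ v ^ 2 ≤ (Dl T : ℝ) ^ 2 * L := by
  set X : Finset G := S.sph n with hX
  set F : Finset (Finset G) := X.powerset.filter (fun A => Separates (T.un A) D E) with hF
  have hFX : ∀ s ∈ F, s ⊆ X := fun s hs => Finset.mem_powerset.1 (Finset.mem_filter.1 hs).1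
  have hFne : F.Nonempty := by
    obtain ⟨A, hA, hs, -⟩ := hL (fun _ => 0) (fun _ => le_rfl)
    exact ⟨A, Finset.mem_filter.2 ⟨Finset.mem_powerset.2 hA, hs⟩⟩
  obtain ⟨w, hw0, -, hw1, hw2⟩ := Dual.exists_prob X F hFne hFX (1 / L) (by positivity)
    (fun ρ hρ hadm => by
      obtain ⟨A, hA, hs, hle⟩ := hL ρ hρ
      have h1 := hadm A (Finset.mem_filter.2 ⟨Finset.mem_powerset.2 hA, hs⟩)
      have h2 : 1 ≤ (∑ h ∈ A, ρ h) ^ 2 := by nlinarith
      rw [div_le_iff₀ hL0]
      linarith)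
  rw [one_div_one_div] at hw2
  set m : G → ℝ := Dual.pm F w with hm
  have hm0 : ∀ a, 0 ≤ m a := fun a => Dual.pm_nonneg hw0 a
  refine ⟨fun v => ∑ a ∈ X.filter (fun a => T.adj (v : G) a), m a,
    fun v => Finset.sum_nonneg fun a _ => hm0 a, ?_, ?_⟩
  · intro l r hl hr p
    set c : Finset G := X.filter (fun a => ∃ x ∈ p.support, T.adj (x : G) a) with hc
    have h1 : 1 ≤ ∑ a ∈ c, m a := by
      refine Dual.one_le_of_meets F w hw0 hw1 c ?_
      intro A hA
      have hsep := (Finset.mem_filter.1 hA).2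
      obtain ⟨z, hz, hzA⟩ := hsep _ (walk_preconnected T p)
        (by
          obtain ⟨z, hz1, hz2⟩ := hr
          exact ⟨z, mem_biUnion p.end_mem_support hz1, hz2⟩)
        (by
          obtain ⟨z, hz1, hz2⟩ := hl
          exact ⟨z, mem_biUnion p.start_mem_support hz1, hz2⟩)
      rw [mem_iUnion₂] at hz
      obtain ⟨x, hx, hzx⟩ := hz
      rw [mem_un] at hzA
      obtain ⟨a, ha, hza⟩ := hzA
      exact ⟨a, ha, Finset.mem_filter.2 ⟨hFX A hA ha, x, hx, z, hzx, hza⟩⟩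
    refine h1.trans ?_
    calc ∑ a ∈ c, m a ≤ ∑ a ∈ X, (∑ x ∈ p.support.toFinset, if T.adj (x : G) a then m a else 0) := by
          rw [hc, Finset.sum_filter]
          refine Finset.sum_le_sum fun a _ => ?_
          split_ifs with hx
          · obtain ⟨x, hx, hxa⟩ := hx
            refine le_trans ?_ (Finset.single_le_sum (f := fun x : S.sph n =>
              if T.adj (x : G) a then m a else 0) (fun y _ => ?_) (List.mem_toFinset.2 hx))
            · simp only [hxa, if_true, le_refl]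
            · show 0 ≤ (if T.adj (y : G) a then m a else 0)
              split_ifs
              · exact hm0 a
              · exact le_rfl
          · refine Finset.sum_nonneg fun y _ => ?_
            split_ifs
            · exact hm0 a
            · exact le_rfl
      _ = ∑ x ∈ p.support.toFinset, ∑ a ∈ X.filter (fun a => T.adj (x : G) a), m a := by
          rw [Finset.sum_comm]
          refine Finset.sum_congr rfl fun x _ => ?_
          rw [Finset.sum_filter]
  · have e1 : ∀ v : S.sph n, (∑ a ∈ X.filter (fun a => T.adj (v : G) a), m a) ^ 2 ≤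
        (Dl T : ℝ) * ∑ a ∈ X.filter (fun a => T.adj (v : G) a), m a ^ 2 := by
      intro v
      refine (sq_sum_le_card_mul_sum_sq).trans ?_
      refine mul_le_mul_of_nonneg_right ?_ (Finset.sum_nonneg fun a _ => sq_nonneg _)
      exact_mod_cast card_filter_adj_le T v.2
    calc ∑ v : S.sph n, (∑ a ∈ X.filter (fun a => T.adj (v : G) a), m a) ^ 2
        ≤ ∑ v : S.sph n, (Dl T : ℝ) * ∑ a ∈ X.filter (fun a => T.adj (v : G) a), m a ^ 2 :=
          Finset.sum_le_sum fun v _ => e1 v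
      _ = (Dl T : ℝ) * ∑ v ∈ X, ∑ a ∈ X.filter (fun a => T.adj v a), m a ^ 2 := by
          rw [← Finset.mul_sum]
          congr 1
          exact Finset.sum_coe_sort X (fun v => ∑ a ∈ X.filter (fun a => T.adj v a), m a ^ 2)
      _ = (Dl T : ℝ) * ∑ a ∈ X, ∑ v ∈ X, (if T.adj v a then m a ^ 2 else 0) := by
          congr 1
          rw [Finset.sum_comm]
          refine Finset.sum_congr rfl fun v _ => ?_
          rw [Finset.sum_filter]
      _ ≤ (Dl T : ℝ) * ∑ a ∈ X, (Dl T : ℝ) * m a ^ 2 := by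
          refine mul_le_mul_of_nonneg_left (Finset.sum_le_sum fun a ha => ?_) (Nat.cast_nonneg _)
          rw [← Finset.sum_filter, Finset.sum_const, nsmul_eq_mul]
          refine mul_le_mul_of_nonneg_right ?_ (sq_nonneg _)
          have : X.filter (fun v => T.adj v a) ⊆ X.filter (fun v => T.adj a v) := by
            intro v hv
            rw [Finset.mem_filter] at hv ⊢
            exact ⟨hv.1, adj_comm T hv.2⟩
          exact_mod_cast (Finset.card_le_card this).trans (card_filter_adj_le T ha)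
      _ = (Dl T : ℝ) ^ 2 * ∑ a ∈ X, m a ^ 2 := by
          rw [← Finset.mul_sum]
          ring
      _ ≤ (Dl T : ℝ) ^ 2 * L := mul_le_mul_of_nonneg_left hw2 (by positivity)

/-- existence of the potential at one level -/
theorem exists_pot_level [PreconnectedSpace Z] {n : ℕ} {D E : Set Z} {L : ℝ} (hL0 : 0 < L)
    (hL : SepBound T n D E L) (hD : D.Nonempty)
    (hDE : ∀ h ∈ S.sph n, ¬ ((T.U h ∩ D).Nonempty ∧ (T.U h ∩ E).Nonempty)) :
    ∃ u : G → ℝ, Pot T n D E u ∧
      ∑ h ∈ S.sph n, ∑ h' ∈ (S.sph n).filter (fun h' => T.adj h h'), (u h - u h') ^ 2 ≤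
        4 * (Dl T : ℝ) ^ 3 * L := by
  set A : Set (S.sph n) := {v | (T.U (v : G) ∩ E).Nonempty} with hA
  set B : Set (S.sph n) := {v | (T.U (v : G) ∩ D).Nonempty} with hB
  have hAB : Disjoint A B := by
    rw [Set.disjoint_left]
    intro v hvA hvB
    exact hDE v v.2 ⟨hvB, hvA⟩
  obtain ⟨x0, hx0⟩ := hD
  obtain ⟨h0, hh0, hxh0⟩ := exists_mem T x0 n
  obtain ⟨u, hsol, h01, -⟩ := FG.exists_sol (gr T n) A B hAB
    (fun v => ⟨⟨h0, hh0⟩, Or.inr ⟨x0, hxh0, hx0⟩, reachable T v _⟩)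
  obtain ⟨ρ, hρ0, hρ1, hρ2⟩ := exists_weight T hL0 hL
  have hen : FG.en (gr T n) u ≤ 2 * (Dl T : ℝ) * ((Dl T : ℝ) ^ 2 * L) := by
    refine (hsol.en_le_modulus hAB ρ hρ0 (Dl T) (fun v => ncard_adj_le T v) ?_).trans ?_
    · intro l hl r hr p
      convert hρ1 l r hl hr p
    · exact mul_le_mul_of_nonneg_left hρ2 (by positivity)
  set U : G → ℝ := fun h => if hh : h ∈ S.sph n then u ⟨h, hh⟩ else 0 with hU
  have hUc : ∀ v : S.sph n, U (v : G) = u v := by
    intro v
    rw [hU]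
    simp only [v.2, dif_pos, Subtype.coe_eta]
  have hUm : ∀ h (hh : h ∈ S.sph n), U h = u ⟨h, hh⟩ := fun h hh => hUc ⟨h, hh⟩
  refine ⟨U, ⟨?_, ?_, ?_, ?_⟩, ?_⟩
  · intro h
    by_cases hh : h ∈ S.sph n
    · rw [hUm h hh]
      exact h01 _
    · rw [hU]
      simp only [hh, dif_neg, not_false_iff]
      norm_num
  · intro h hh hD
    rw [hUm h hh]
    exact hsol.bc.2 ⟨h, hh⟩ hD
  · intro h hh hE
    rw [hUm h hh]
    exact hsol.bc.1 ⟨h, hh⟩ hE
  · intro h hh hD hE
    have hl := hsol.harm ⟨h, hh⟩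
      (fun hc => by
        have : (T.U h ∩ E).Nonempty := hc
        rw [hE] at this
        exact Set.not_nonempty_empty this)
      (fun hc => by
        have : (T.U h ∩ D).Nonempty := hc
        rw [hD] at this
        exact Set.not_nonempty_empty this)
    rw [FG.lap_def] at hl
    show ∑ h' ∈ (S.sph n).filter (fun h' => T.adj h h'), (U h' - U h) = 0
    rw [Finset.sum_filter, ← Finset.sum_coe_sort (S.sph n)]
    refine Eq.trans ?_ hl
    refine Finset.sum_congr rfl fun w _ => ?_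
    rw [hUc w, hUm h hh]
    by_cases hw : (⟨h, hh⟩ : S.sph n) = w
    · subst hw
      simp
    · by_cases hadj : T.adj h (w : G)
      · rw [if_pos hadj, if_pos ((gr_adj T).2 ⟨hw, hadj⟩)]
      · rw [if_neg hadj, if_neg (fun hc => hadj ((gr_adj T).1 hc).2)]
  · have e : ∑ h ∈ S.sph n, ∑ h' ∈ (S.sph n).filter (fun h' => T.adj h h'), (U h - U h') ^ 2 =
        2 * FG.en (gr T n) u := by
      rw [FG.en_def, mul_div_cancel₀ _ (two_ne_zero), ← Finset.sum_coe_sort (S.sph n)]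
      refine Finset.sum_congr rfl fun v _ => ?_
      rw [Finset.sum_filter, ← Finset.sum_coe_sort (S.sph n)]
      refine Finset.sum_congr rfl fun w _ => ?_
      rw [hUc v, hUc w]
      by_cases hw : v = w
      · subst hw
        simp
      · by_cases hadj : T.adj (v : G) (w : G)
        · rw [if_pos hadj, if_pos ((gr_adj T).2 ⟨hw, hadj⟩)]
        · rw [if_neg hadj, if_neg (fun hc => hadj ((gr_adj T).1 hc).2)]
    rw [e]
    calc 2 * FG.en (gr T n) u ≤ 2 * (2 * (Dl T : ℝ) * ((Dl T : ℝ) ^ 2 * L)) := by linarith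
      _ = 4 * (Dl T : ℝ) ^ 3 * L := by ring

/-- disjoint compact / closed sets are not met by one tile at large levels -/
theorem eventually_not_both {D E : Set Z} (hD : IsCompact D) (hE : IsClosed E)
    (hDE : Disjoint D E) :
    ∃ N : ℕ, ∀ n ≥ N, ∀ h ∈ S.sph n, ¬ ((T.U h ∩ D).Nonempty ∧ (T.U h ∩ E).Nonempty) := by
  obtain ⟨r, hr, hdist⟩ := hD.exists_thickening_subset_open hE.isOpen_compl
    (Set.disjoint_left.1 hDE)
  have hlim : Tendsto (fun n : ℕ => Real.exp (-S.ε * ((n : ℝ) - T.R - S.δ))) atTop (𝓝 0) := by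
    refine Real.tendsto_exp_atBot.comp ?_
    have h1 : Tendsto (fun n : ℕ => (n : ℝ) - T.R - S.δ) atTop atTop :=
      tendsto_atTop_add_const_right _ _ (tendsto_atTop_add_const_right _ _
        tendsto_natCast_atTop_atTop)
    exact h1.const_mul_atTop_of_neg (by linarith [S.ε_pos])
  obtain ⟨N, hN⟩ := (hlim.eventually (gt_mem_nhds hr)).exists_forall_of_atTop
  refine ⟨N, fun n hn h hh hboth => ?_⟩
  obtain ⟨⟨x, hx, hxD⟩, ⟨y, hy, hyE⟩⟩ := hboth
  have h1 := dist_le_of_mem T hx hy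
  rw [(mem_sph S).1 hh] at h1
  have h2 := h1.trans_lt (hN n hn)
  have h3 : y ∈ Metric.thickening r D :=
    Metric.mem_thickening_iff.2 ⟨x, hxD, by rwa [dist_comm]⟩
  exact hdist h3 hyE

/-- P1: existence of the potentials with bounded energy at all large levels -/
theorem exists_pot [PreconnectedSpace Z] {D E : Set Z} {L : ℝ} (hD : IsCompact D)
    (hDn : D.Nonempty) (hE : IsClosed E) (hDE : Disjoint D E)
    (hL : ∀ n : ℕ, SepBound T n D E L) :
    ∃ C : ℝ, ∃ N : ℕ, ∀ n ≥ N, ∃ u : G → ℝ, Pot T n D E u ∧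
      ∑ h ∈ S.sph n, ∑ h' ∈ (S.sph n).filter (fun h' => T.adj h h'), (u h - u h') ^ 2 ≤ C := by
  obtain ⟨N, hN⟩ := eventually_not_both T hD hE hDE
  refine ⟨4 * (Dl T : ℝ) ^ 3 * max L 1, N, fun n hn => ?_⟩
  refine exists_pot_level T (lt_of_lt_of_le one_pos (le_max_right _ _)) ?_ hDn (hN n hn)
  intro ρ hρ
  obtain ⟨A, hA, hs, hle⟩ := hL n ρ hρ
  refine ⟨A, hA, hs, hle.trans ?_⟩
  exact mul_le_mul_of_nonneg_right (le_max_left _ _) (Finset.sum_nonneg fun h _ => sq_nonneg _)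

end Crest.Agent.R193.F_PotEx
end
end

-- ▼ part R193/F_Lim
section

/-!
# R193, block F: limits along the hyperfilter of equicontinuous functions on tiles
-/

set_option autoImplicit false

noncomputable section

open Set Filter Topology Metric
open scoped Classical

namespace Crest.Agent.R193.F_Lim

open Crest.Agent.R193

variable {G Z : Type} [Group G] [MetricSpace Z] [MulAction G Z]

theorem mem_sph {S : Setup G Z} {n : ℕ} {g : G} : g ∈ S.sph n ↔ S.len g = n := by
  unfold Setup.sph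
  rw [Set.Finite.mem_toFinset]
  rfl

/-- every point is in a tile of every level -/
theorem exists_tile {S : Setup G Z} (T : Tiles S) (n : ℕ) (x : Z) :
    ∃ h ∈ S.sph n, x ∈ T.U h := by
  obtain ⟨g, hg, hs⟩ := S.ray x n
  refine ⟨g, mem_sph.2 hg, T.cover g ?_⟩
  show (S.len g : ℝ) - S.δ ≤ S.s x g
  rw [hg]
  exact hs

/-- the index of a tile of level `n` containing `x` -/
def tile {S : Setup G Z} (T : Tiles S) (n : ℕ) (x : Z) : G := (exists_tile T n x).choose

theorem tile_mem {S : Setup G Z} (T : Tiles S) (n : ℕ) (x : Z) : tile T n x ∈ S.sph n :=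
  (exists_tile T n x).choose_spec.1

theorem mem_tile {S : Setup G Z} (T : Tiles S) (n : ℕ) (x : Z) : x ∈ T.U (tile T n x) :=
  (exists_tile T n x).choose_spec.2

/-- bounded real sequences converge along the hyperfilter -/
theorem exists_lim (a : ℕ → ℝ) (C : ℝ) (h : ∀ n, |a n| ≤ C) :
    ∃ l : ℝ, |l| ≤ C ∧ Tendsto a (hyperfilter ℕ : Filter ℕ) (𝓝 l) := by
  have hK : IsCompact (Icc (-C) C) := isCompact_Icc
  have hle : (((hyperfilter ℕ).map a : Ultrafilter ℝ) : Filter ℝ) ≤ 𝓟 (Icc (-C) C) := by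
    rw [le_principal_iff]
    show a ⁻¹' Icc (-C) C ∈ (hyperfilter ℕ : Filter ℕ)
    exact Filter.univ_mem' (fun n => ⟨(abs_le.1 (h n)).1, (abs_le.1 (h n)).2⟩)
  obtain ⟨l, hl, hlim⟩ := hK.ultrafilter_le_nhds _ hle
  exact ⟨l, abs_le.2 ⟨hl.1, hl.2⟩, hlim⟩

/-- (e) the limit exists and is continuous -/
theorem exists_limit [CompactSpace Z] {S : Setup G Z} (T : Tiles S) (un : ℕ → G → ℝ)
    (hbd : ∀ n h, |un n h| ≤ 1)
    (equi : ∀ η > (0 : ℝ), ∃ r > (0 : ℝ), ∀ᶠ n in (hyperfilter ℕ : Filter ℕ),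
      ∀ h ∈ S.sph n, ∀ h' ∈ S.sph n, ∀ x ∈ T.U h, ∀ y ∈ T.U h', dist x y < r →
        |un n h - un n h'| ≤ η) :
    ∃ u : C(Z, ℝ), DLim T (hyperfilter ℕ : Filter ℕ) un u := by
  choose u hu1 hu using fun x => exists_lim (fun n => un n (tile T n x)) 1 (fun n => hbd _ _)
  have hcont : ∀ η > (0 : ℝ), ∃ r > (0 : ℝ), ∀ x y : Z, dist x y < r → |u x - u y| ≤ η := by
    intro η hη
    obtain ⟨r, hr, hev⟩ := equi η hη
    refine ⟨r, hr, fun x y hxy => ?_⟩
    have hlim : Tendsto (fun n => |un n (tile T n x) - un n (tile T n y)|)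
        (hyperfilter ℕ : Filter ℕ) (𝓝 |u x - u y|) := ((hu x).sub (hu y)).abs
    refine le_of_tendsto hlim ?_
    filter_upwards [hev] with n hn
    exact hn _ (tile_mem T n x) _ (tile_mem T n y) x (mem_tile T n x) y (mem_tile T n y) hxy
  have hc : Continuous u := by
    rw [Metric.continuous_iff]
    intro y η hη
    obtain ⟨r, hr, h⟩ := hcont (η / 2) (by positivity)
    refine ⟨r, hr, fun x hx => ?_⟩
    rw [Real.dist_eq]
    exact (h x y hx).trans_lt (by linarith)
  refine ⟨⟨u, hc⟩, ?_⟩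
  intro η hη
  obtain ⟨r1, hr1, hev⟩ := equi (η / 3) (by positivity)
  obtain ⟨r2, hr2, hcu⟩ := hcont (η / 3) (by positivity)
  obtain ⟨t, -, htf, htc⟩ := finite_cover_balls_of_compact (isCompact_univ (X := Z))
    (lt_min hr1 hr2)
  have hfin : ∀ᶠ n in (hyperfilter ℕ : Filter ℕ), ∀ x ∈ t, |un n (tile T n x) - u x| ≤ η / 3 := by
    rw [htf.eventually_all]
    intro x _
    have := (Metric.tendsto_nhds.1 (hu x)) (η / 3) (by positivity)
    filter_upwards [this] with n hn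
    rw [Real.dist_eq] at hn
    exact hn.le
  filter_upwards [hev, hfin] with n h1 h2 h hh y hy
  have hyt := htc (mem_univ y)
  rw [mem_iUnion₂] at hyt
  obtain ⟨x, hx, hyx⟩ := hyt
  rw [mem_ball] at hyx
  have e1 := h1 h hh (tile T n x) (tile_mem T n x) y hy x (mem_tile T n x)
    (hyx.trans_le (min_le_left _ _))
  have e2 := h2 x hx
  have e3 := hcu x y (by rw [dist_comm]; exact hyx.trans_le (min_le_right _ _))
  show |un n h - u y| ≤ η
  have : un n h - u y = (un n h - un n (tile T n x)) + (un n (tile T n x) - u x) + (u x - u y) := by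
    ring
  rw [this]
  refine (abs_add_three _ _ _).trans ?_
  linarith

/-- (f) the class F bound passes to the limit -/
theorem oscBound_of_lim {S : Setup G Z} (T : Tiles S) (un : ℕ → G → ℝ) (u : C(Z, ℝ))
    (hlim : DLim T (hyperfilter ℕ : Filter ℕ) un u) (hu : ∀ x, |u x| ≤ 1)
    (hsum : ∀ R : ℝ, ∃ C : ℝ, ∀ m : ℕ, ∀ᶠ n in (hyperfilter ℕ : Filter ℕ), ∃ o : G → ℝ,
      (∀ h ∈ S.sph m, ∀ k ∈ S.sph n, ∀ k' ∈ S.sph n, (T.U k ∩ S.Sh R h).Nonempty →
        (T.U k' ∩ S.Sh R h).Nonempty → |un n k - un n k'| ≤ o h) ∧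
      ∑ h ∈ S.sph m, (o h) ^ 2 ≤ C) : OscBound S u := by
  intro R
  obtain ⟨C, hC⟩ := hsum R
  refine ⟨2 * C + 1, fun m => ?_⟩
  set O : G → ℝ := fun h => sSup ((fun p : Z × Z => |u p.1 - u p.2|) '' (S.Sh R h ×ˢ S.Sh R h))
    with hO
  have hbdd : ∀ h, BddAbove ((fun p : Z × Z => |u p.1 - u p.2|) '' (S.Sh R h ×ˢ S.Sh R h)) := by
    intro h
    refine ⟨2, ?_⟩
    rintro _ ⟨p, _, rfl⟩
    have h1 := hu p.1
    have h2 := hu p.2
    have h3 := abs_sub (u p.1) (u p.2)
    show |u p.1 - u p.2| ≤ 2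
    linarith
  refine ⟨O, fun h _ x hx y hy => le_csSup (hbdd h) ⟨(x, y), ⟨hx, hy⟩, rfl⟩, ?_⟩
  -- choose `η`
  set N : ℝ := ((S.sph m).card : ℝ) with hN
  have hN0 : 0 ≤ N := Nat.cast_nonneg _
  set η : ℝ := 1 / (4 * (N + 1)) with hη
  have hη0 : 0 < η := by positivity
  have hη1 : 8 * η ^ 2 * N ≤ 1 := by
    have e1 : η * (4 * (N + 1)) = 1 := by
      rw [hη]
      field_simp
    have e2 : η ≤ 1 / 4 := by
      rw [hη]
      apply one_div_le_one_div_of_le (by norm_num)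
      linarith
    nlinarith
  obtain ⟨n, ⟨o, ho1, ho2⟩, hn⟩ := ((hC m).and (hlim η hη0)).exists
  have key : ∀ h ∈ S.sph m, (O h) ^ 2 ≤ 2 * (o h) ^ 2 + 8 * η ^ 2 := by
    intro h hh
    rcases (S.Sh R h).eq_empty_or_nonempty with he | ⟨x0, hx0⟩
    · have : O h = 0 := by
        rw [hO]
        simp [he]
      rw [this]
      nlinarith [sq_nonneg (o h), sq_nonneg η]
    · have hle : O h ≤ |o h| + 2 * η := by
        refine csSup_le ⟨_, ⟨(x0, x0), ⟨hx0, hx0⟩, rfl⟩⟩ ?_
        rintro _ ⟨p, ⟨hp1, hp2⟩, rfl⟩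
        have a1 := hn (tile T n p.1) (tile_mem T n p.1) p.1 (mem_tile T n p.1)
        have a2 := hn (tile T n p.2) (tile_mem T n p.2) p.2 (mem_tile T n p.2)
        have a3 := ho1 h hh (tile T n p.1) (tile_mem T n p.1) (tile T n p.2) (tile_mem T n p.2)
          ⟨p.1, mem_tile T n p.1, hp1⟩ ⟨p.2, mem_tile T n p.2, hp2⟩
        have a4 := le_abs_self (o h)
        show |u p.1 - u p.2| ≤ |o h| + 2 * η
        have : u p.1 - u p.2 = -(un n (tile T n p.1) - u p.1) +
            (un n (tile T n p.1) - un n (tile T n p.2)) + (un n (tile T n p.2) - u p.2) := by ring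
        rw [this]
        refine (abs_add_three _ _ _).trans ?_
        rw [abs_neg]
        linarith
      have hO0 : 0 ≤ O h := by
        refine le_csSup_of_le (hbdd h) ⟨(x0, x0), ⟨hx0, hx0⟩, rfl⟩ ?_
        show (0 : ℝ) ≤ |u x0 - u x0|
        exact abs_nonneg _
      have h0 := abs_nonneg (o h)
      have hsq : |o h| ^ 2 = (o h) ^ 2 := sq_abs _
      nlinarith [sq_nonneg (|o h| - 2 * η)]
  calc ∑ h ∈ S.sph m, (O h) ^ 2 ≤ ∑ h ∈ S.sph m, (2 * (o h) ^ 2 + 8 * η ^ 2) :=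
        Finset.sum_le_sum key
    _ = 2 * ∑ h ∈ S.sph m, (o h) ^ 2 + 8 * η ^ 2 * N := by
        rw [Finset.sum_add_distrib, ← Finset.mul_sum, Finset.sum_const, nsmul_eq_mul]
        ring
    _ ≤ 2 * C + 1 := by linarith

end Crest.Agent.R193.F_Lim
end
end

-- ▼ part R193/D1_Top
section

/-!
# R193, block D1 (helper584): topology of charts
-/

set_option autoImplicit false
set_option linter.unusedSectionVars false

noncomputable section

open Set Filter Topology Metric

namespace Crest.Agent.R193.D1_Top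

open Crest.Agent.R193

/-! ### the sphere -/

theorem locallyPathConnected_S2 : LocallyPathConnectedSpace S2 :=
  ChartedSpace.locallyPathConnectedSpace (EuclideanSpace ℝ (Fin 2)) S2

section Transfer

variable {Z : Type} [TopologicalSpace Z]

theorem locallyPathConnected (Φ : Z ≃ₜ S2) : LocallyPathConnectedSpace Z := by
  have := locallyPathConnected_S2
  exact Φ.isOpenEmbedding.locallyPathConnectedSpace

theorem locallyConnected (Φ : Z ≃ₜ S2) : LocallyConnectedSpace Z := by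
  have := locallyPathConnected Φ
  infer_instance

theorem preconnected (Φ : Z ≃ₜ S2) : PreconnectedSpace Z := by
  have := Planar.S2_connected
  exact ⟨by
    have h := (isPreconnected_univ (α := S2)).image Φ.symm Φ.symm.continuous.continuousOn
    rwa [image_univ, Φ.symm.range_coe] at h⟩

theorem splits (Φ : Z ≃ₜ S2) : Planar.Splits Z := Planar.splits_S2.of_homeo Φ

theorem compact (Φ : Z ≃ₜ S2) : CompactSpace Z := Φ.symm.compactSpace

end Transfer

/-! ### charts -/

section Chart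

variable {Z : Type} [TopologicalSpace Z] [T2Space Z] (ψ : Chart Z)

theorem isCompact_D (r : ℝ) : IsCompact (ψ.D r) :=
  (isCompact_closedBall _ _).image ψ.emb.continuous

theorem isClosed_D (r : ℝ) : IsClosed (ψ.D r) := (isCompact_D ψ r).isClosed

theorem isClosed_E (r : ℝ) : IsClosed (ψ.E r) :=
  (ψ.emb.isOpenMap _ isOpen_ball).isClosed_compl

omit [T2Space Z] in
theorem D_mono {r r' : ℝ} (h : r ≤ r') : ψ.D r ⊆ ψ.D r' :=
  image_mono (closedBall_subset_closedBall h)

omit [T2Space Z] in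
theorem E_mono {r r' : ℝ} (h : r ≤ r') : ψ.E r' ⊆ ψ.E r :=
  compl_subset_compl.2 (image_mono (ball_subset_ball h))

omit [T2Space Z] in
theorem disjoint_D_E {r r' : ℝ} (h : r < r') : Disjoint (ψ.D r) (ψ.E r') := by
  rw [disjoint_left]
  intro x hx hx'
  exact hx' (image_mono (closedBall_subset_ball h) hx)

omit [T2Space Z] in
theorem isConnected_D {r : ℝ} (hr : 0 ≤ r) : IsConnected (ψ.D r) := by
  refine ⟨?_, ?_⟩
  · exact (nonempty_closedBall.2 hr).image _
  · exact ((convex_closedBall (0 : ℝ × ℝ) r).isPreconnected).image _ ψ.emb.continuous.continuousOn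

omit [T2Space Z] in
/-- the closed annulus `1 ≤ |x| ≤ 2` of the chart -/
def Ann (a b : ℝ) : Set Z := ψ.f '' {p | a ≤ dist p 0 ∧ dist p 0 ≤ b}

theorem isCompact_Ann (a b : ℝ) : IsCompact (Ann ψ a b) := by
  refine IsCompact.image ?_ ψ.emb.continuous
  have : {p : ℝ × ℝ | a ≤ dist p 0 ∧ dist p 0 ≤ b} = closedBall 0 b ∩ {p | a ≤ dist p 0} := by
    ext p; simp only [mem_inter_iff, mem_closedBall, Set.mem_ofPred_eq]; tauto
  rw [this]
  exact (isCompact_closedBall _ _).inter_right (isClosed_le continuous_const (by fun_prop))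

theorem isClosed_Ann (a b : ℝ) : IsClosed (Ann ψ a b) := (isCompact_Ann ψ a b).isClosed

theorem closure_compl_subset {a b : ℝ} : closure (ψ.D a ∪ ψ.E b)ᶜ ⊆ Ann ψ a b := by
  apply closure_minimal _ (isClosed_Ann ψ a b)
  intro x hx
  rw [compl_union] at hx
  obtain ⟨h1, h2⟩ := hx
  unfold Chart.E at h2
  rw [compl_compl] at h2
  obtain ⟨p, hp, rfl⟩ := h2
  refine ⟨p, ⟨?_, (mem_ball.1 hp).le⟩, rfl⟩
  by_contra hcon
  push Not at hcon
  exact h1 ⟨p, mem_closedBall.2 hcon.le, rfl⟩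

omit [T2Space Z] in
theorem disjoint_D_Ann {r a b : ℝ} (h : r < a) : Disjoint (ψ.D r) (Ann ψ a b) := by
  rw [disjoint_left]
  rintro x ⟨p, hp, rfl⟩ ⟨q, hq, hqp⟩
  have := ψ.emb.injective hqp
  subst this
  exact absurd (mem_closedBall.1 hp) (not_le.2 (lt_of_lt_of_le h hq.1))

omit [T2Space Z] in
theorem disjoint_E_Ann {r a b : ℝ} (h : b < r) : Disjoint (ψ.E r) (Ann ψ a b) := by
  rw [disjoint_left]
  rintro x hx ⟨q, hq, rfl⟩
  exact hx ⟨q, mem_ball.2 (lt_of_le_of_lt hq.2 h), rfl⟩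

/-- the complement of an open square of a chart is connected -/
theorem isPreconnected_E [PreconnectedSpace Z] {r : ℝ} (hr : 0 < r) : IsPreconnected (ψ.E r) := by
  set C : Set Z := ψ.f '' sphere (0 : ℝ × ℝ) r with hC
  have hCc : IsPreconnected C := by
    refine IsPreconnected.image ?_ _ ψ.emb.continuous.continuousOn
    have hrank : 1 < Module.rank ℝ (ℝ × ℝ) := by
      rw [← Module.finrank_eq_rank, Module.finrank_prod, Module.finrank_self]
      norm_num
    exact (isConnected_sphere hrank 0 hr.le).isPreconnected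
  have hCE : C ⊆ ψ.E r := by
    rintro x ⟨p, hp, rfl⟩ ⟨q, hq, hqp⟩
    have := ψ.emb.injective hqp
    subst this
    exact absurd (mem_ball.1 hq) (not_lt.2 (mem_sphere.1 hp).ge)
  have hBC : closure (ψ.f '' ball (0 : ℝ × ℝ) r) ⊆ ψ.f '' ball (0 : ℝ × ℝ) r ∪ C := by
    have h1 : ψ.f '' ball (0 : ℝ × ℝ) r ∪ C = ψ.D r := by
      rw [hC, ← image_union]
      unfold Chart.D
      congr 1
      exact ball_union_sphere
    rw [h1]
    exact closure_minimal (image_mono ball_subset_closedBall) (isClosed_D ψ r)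
  -- key: a closed subset of `E` missing `C`, with closed complement in `E`, is empty or everything
  have key : ∀ A B : Set Z, IsClosed A → IsClosed B → ψ.E r ⊆ A ∪ B → ψ.E r ∩ (A ∩ B) = ∅ →
      C ⊆ A → (ψ.E r ∩ B).Nonempty → False := by
    intro A B hA hB hcov hdis hCA hBn
    have hF : IsClosed (ψ.E r ∩ B) := (isClosed_E ψ r).inter hB
    have hG : IsClosed (ψ.f '' ball (0 : ℝ × ℝ) r ∪ (ψ.E r ∩ A)) := by
      rw [← closure_eq_iff_isClosed]
      apply subset_antisymm _ subset_closure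
      rw [closure_union]
      apply union_subset
      · refine hBC.trans (union_subset subset_union_left ?_)
        exact fun x hx => Or.inr ⟨hCE hx, hCA hx⟩
      · rw [((isClosed_E ψ r).inter hA).closure_eq]
        exact subset_union_right
    obtain ⟨z, -, hz1, hz2⟩ := isPreconnected_closed_iff.1 (isPreconnected_univ (α := Z)) _ _ hF hG
      (by
        intro z _
        by_cases hz : z ∈ ψ.f '' ball (0 : ℝ × ℝ) r
        · exact Or.inr (Or.inl hz)
        · rcases hcov hz with h | h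
          · exact Or.inr (Or.inr ⟨hz, h⟩)
          · exact Or.inl ⟨hz, h⟩)
      (by simpa using hBn)
      (by
        refine ⟨ψ.f 0, mem_univ _, Or.inl ⟨0, mem_ball_self hr, rfl⟩⟩)
    rcases hz2 with hz2 | hz2
    · exact hz1.1 hz2
    · have : z ∈ ψ.E r ∩ (A ∩ B) := ⟨hz1.1, hz2.2, hz1.2⟩
      rw [hdis] at this
      exact this
  rw [isPreconnected_closed_iff]
  intro A B hA hB hcov hAn hBn
  by_contra hcon
  rw [not_nonempty_iff_eq_empty] at hcon
  have hCAB : C ⊆ A ∨ C ⊆ B := by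
    rw [isPreconnected_closed_iff] at hCc
    by_contra hnot
    push Not at hnot
    obtain ⟨hn1, hn2⟩ := hnot
    rw [not_subset] at hn1 hn2
    obtain ⟨x, hxC, hxA⟩ := hn1
    obtain ⟨y, hyC, hyB⟩ := hn2
    obtain ⟨z, hz1, hz2⟩ := hCc A B hA hB (hCE.trans hcov)
      ⟨y, hyC, (hcov (hCE hyC)).resolve_right hyB⟩ ⟨x, hxC, (hcov (hCE hxC)).resolve_left hxA⟩
    have : z ∈ ψ.E r ∩ (A ∩ B) := ⟨hCE hz1, hz2⟩
    rw [hcon] at this
    exact this
  rcases hCAB with h | h
  · exact key A B hA hB hcov hcon h hBn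
  · exact key B A hB hA (by rwa [union_comm]) (by rwa [inter_comm B A]) h hAn

theorem nonempty_E [CompactSpace Z] [PreconnectedSpace Z] {r : ℝ} : (ψ.E r).Nonempty := by
  by_contra hcon
  rw [not_nonempty_iff_eq_empty] at hcon
  unfold Chart.E at hcon
  rw [compl_empty_iff] at hcon
  have h1 : ψ.f (r, 0) ∈ ψ.f '' ball (0 : ℝ × ℝ) r := by rw [hcon]; trivial
  obtain ⟨q, hq, hqp⟩ := h1
  have := ψ.emb.injective hqp
  subst this
  rw [mem_ball, dist_zero_right, Prod.norm_def] at hq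
  simp only [norm_zero] at hq
  have h2 := le_max_left ‖r‖ (0:ℝ)
  have h3 := le_abs_self r
  rw [Real.norm_eq_abs] at hq h2
  linarith

theorem isConnected_E [CompactSpace Z] [PreconnectedSpace Z] {r : ℝ} (hr : 0 < r) :
    IsConnected (ψ.E r) := ⟨nonempty_E ψ, isPreconnected_E ψ hr⟩

end Chart

/-! ### charts and group elements -/

section Smul

variable {G Z : Type} [Group G] [MetricSpace Z] [MulAction G Z] (S : Setup G Z)


theorem smul_image (g : G) (ψ : Chart Z) (A : Set (ℝ × ℝ)) :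
    (Chart.smul S g ψ).f '' A = (fun x => g • x) '' (ψ.f '' A) := by
  rw [image_image]; rfl

theorem smul_D (g : G) (ψ : Chart Z) (r : ℝ) :
    (Chart.smul S g ψ).D r = (fun x => g • x) '' (ψ.D r) := smul_image S g ψ _

theorem smul_E (g : G) (ψ : Chart Z) (r : ℝ) :
    (Chart.smul S g ψ).E r = (fun x => g • x) '' (ψ.E r) := by
  unfold Chart.E
  rw [smul_image, image_compl_eq (MulAction.bijective g)]

end Smul

end Crest.Agent.R193.D1_Top
end
end

-- ▼ part R193/D1_Pot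
section

/-!
# R193, block D1 (helper584): discrete potentials of level `n` with bounded energy
-/

set_option autoImplicit false
set_option linter.unusedSectionVars false

noncomputable section

open Set Filter Topology

namespace Crest.Agent.R193.D1_Pot

open Crest.Agent.R193 Crest.Agent.R193.F_Sep2

variable {G Z : Type} [Group G] [MetricSpace Z] [MulAction G Z] {S : Setup G Z}

open scoped Classical in
/-- gradient of `f` at the tile `h` of level `n` -/
def grad (T : Tiles S) (n : ℕ) (f : G → ℝ) (h : G) : ℝ :=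
  ∑ k ∈ (S.sph n).filter (T.adj h), |f k - f h|

theorem grad_nonneg (T : Tiles S) (n : ℕ) (f : G → ℝ) (h : G) : 0 ≤ grad T n f h :=
  Finset.sum_nonneg fun _ _ => abs_nonneg _

theorem abs_sub_le_grad (T : Tiles S) {n : ℕ} (f : G → ℝ) {h k : G} (hk : k ∈ S.sph n)
    (hadj : T.adj h k) : |f k - f h| ≤ grad T n f h := by
  classical
  unfold grad
  exact Finset.single_le_sum (f := fun k => |f k - f h|) (fun _ _ => abs_nonneg _)
    (Finset.mem_filter.2 ⟨hk, hadj⟩)

theorem adj_symm (T : Tiles S) {a b : G} (h : T.adj a b) : T.adj b a := by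
  unfold Tiles.adj at *
  rwa [inter_comm]


/-- the intersection graph of the tiles of level `n` -/
def tg (T : Tiles S) (n : ℕ) : SimpleGraph {h // h ∈ S.sph n} where
  Adj a b := a ≠ b ∧ T.adj a.1 b.1
  symm := ⟨fun _ _ h => ⟨h.1.symm, adj_symm T h.2⟩⟩
  loopless := ⟨fun _ h => h.1 rfl⟩

theorem tg_reachable [PreconnectedSpace Z] (T : Tiles S) (n : ℕ) (v w : {h // h ∈ S.sph n}) :
    (tg T n).Reachable v w := by
  classical
  by_contra hcon
  have hcl : ∀ P : {h // h ∈ S.sph n} → Prop, IsClosed (⋃ h ∈ {h | P h}, T.U h.1) := fun P =>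
    (toFinite _).isClosed_biUnion fun i _ => T.isClosed _
  obtain ⟨z, -, hz1, hz2⟩ := isPreconnected_closed_iff.1 (isPreconnected_univ (α := Z)) _ _
    (hcl fun h => (tg T n).Reachable v h) (hcl fun h => ¬ (tg T n).Reachable v h)
    (by
      intro z _
      obtain ⟨h, hh, hz⟩ := exists_tile T z n
      by_cases hr : (tg T n).Reachable v ⟨h, hh⟩
      · exact Or.inl (mem_biUnion (x := (⟨h, hh⟩ : {h // h ∈ S.sph n})) hr hz)
      · exact Or.inr (mem_biUnion (x := (⟨h, hh⟩ : {h // h ∈ S.sph n})) hr hz))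
    (by
      obtain ⟨z, hz⟩ := (T.isConnected v.1).nonempty
      exact ⟨z, mem_univ _, mem_biUnion (x := v) (SimpleGraph.Reachable.refl v) hz⟩)
    (by
      obtain ⟨z, hz⟩ := (T.isConnected w.1).nonempty
      exact ⟨z, mem_univ _, mem_biUnion (x := w) hcon hz⟩)
  simp only [mem_iUnion, exists_prop] at hz1 hz2
  obtain ⟨a, ha, hza⟩ := hz1
  obtain ⟨b, hb, hzb⟩ := hz2
  have ha' : (tg T n).Reachable v a := ha
  have hb' : ¬ (tg T n).Reachable v b := hb
  have hne : a ≠ b := by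
    rintro rfl
    exact hb' ha'
  have : (tg T n).Adj a b := ⟨hne, ⟨z, hza, hzb⟩⟩
  exact hb' (ha'.trans this.reachable)

open scoped Classical in
theorem walk_preconnected (T : Tiles S) (n : ℕ) {v w : {h // h ∈ S.sph n}} (p : (tg T n).Walk v w) :
    IsPreconnected (⋃ x ∈ p.support.toFinset, T.U x.1) := by
  classical
  induction p with
  | nil => simpa using (T.isConnected _).isPreconnected
  | @cons a b c h p ih =>
    have e : (⋃ x ∈ (SimpleGraph.Walk.cons h p).support.toFinset, T.U x.1)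
        = T.U a.1 ∪ ⋃ x ∈ p.support.toFinset, T.U x.1 := by
      ext z
      simp
    rw [e]
    obtain ⟨z, hz1, hz2⟩ := h.2
    refine IsPreconnected.union z hz1 ?_ (T.isConnected _).isPreconnected ih
    simp only [mem_iUnion, exists_prop]
    exact ⟨b, by simp, hz2⟩

/-- union bound for sums -/
theorem sum_le_sum_sum {α β : Type*} (c : Finset β) (P : Finset α) (f : α → Finset β) (μ : β → ℝ)
    (hμ : ∀ b, 0 ≤ μ b) (h : ∀ k ∈ c, ∃ x ∈ P, k ∈ f x) :
    ∑ k ∈ c, μ k ≤ ∑ x ∈ P, ∑ k ∈ f x, μ k := by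
  classical
  calc ∑ k ∈ c, μ k ≤ ∑ k ∈ c, ∑ x ∈ P, (if k ∈ f x then μ k else 0) := by
        refine Finset.sum_le_sum fun k hk => ?_
        obtain ⟨x, hx, hkx⟩ := h k hk
        refine le_trans (le_of_eq ?_) (Finset.single_le_sum
          (f := fun x => if k ∈ f x then μ k else 0)
          (fun y _ => by split_ifs <;> [exact hμ k; exact le_rfl]) hx)
        simp [hkx]
    _ = ∑ x ∈ P, ∑ k ∈ c, (if k ∈ f x then μ k else 0) := Finset.sum_comm
    _ ≤ ∑ x ∈ P, ∑ k ∈ f x, μ k := by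
        refine Finset.sum_le_sum fun x _ => ?_
        rw [← Finset.sum_filter]
        refine Finset.sum_le_sum_of_subset_of_nonneg ?_ fun k _ _ => hμ k
        intro k hk
        exact (Finset.mem_filter.1 hk).2

/-- degree bound -/
def DegLe (T : Tiles S) (n : ℕ) (Δ : ℕ) : Prop :=
  ∀ h ∈ S.sph n, ∀ A ⊆ S.sph n, (∀ k ∈ A, T.adj h k) → A.card ≤ Δ

theorem DegLe.card_filter {T : Tiles S} {n Δ : ℕ} (h : DegLe T n Δ) {a : G} (ha : a ∈ S.sph n)
    [DecidablePred (T.adj a)] : ((S.sph n).filter (T.adj a)).card ≤ Δ :=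
  h a ha _ (Finset.filter_subset _ _) fun _ hk => (Finset.mem_filter.1 hk).2

theorem tg_deg {T : Tiles S} {n Δ : ℕ} (hΔ : DegLe T n Δ) (v : {h // h ∈ S.sph n}) :
    {w | (tg T n).Adj v w}.ncard ≤ Δ := by
  classical
  have h1 : {w | (tg T n).Adj v w}.ncard
      = ((Subtype.val : {h // h ∈ S.sph n} → G) '' {w | (tg T n).Adj v w}).ncard :=
    (ncard_image_of_injective _ Subtype.val_injective).symm
  rw [h1]
  have h2 : ((Subtype.val : {h // h ∈ S.sph n} → G) '' {w | (tg T n).Adj v w})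
      ⊆ ((S.sph n).filter (T.adj v.1) : Finset G) := by
    rintro _ ⟨w, hw, rfl⟩
    have hw' : (tg T n).Adj v w := hw
    simp only [Finset.coe_filter]
    exact ⟨w.2, hw'.2⟩
  calc _ ≤ ((((S.sph n).filter (T.adj v.1) : Finset G) : Set G)).ncard :=
        ncard_le_ncard h2 (Finset.finite_toSet _)
    _ = ((S.sph n).filter (T.adj v.1)).card := ncard_coe_finset _
    _ ≤ Δ := hΔ.card_filter v.2

/-- extension of a function on the sphere -/
def ext (n : ℕ) (u : {h // h ∈ S.sph n} → ℝ) (h : G) : ℝ :=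
  open scoped Classical in if hh : h ∈ S.sph n then u ⟨h, hh⟩ else 0

theorem ext_apply {n : ℕ} (u : {h // h ∈ S.sph n} → ℝ) {h : G} (hh : h ∈ S.sph n) :
    ext n u h = u ⟨h, hh⟩ := by
  unfold ext
  rw [dif_pos hh]

theorem grad_eq (T : Tiles S) (n : ℕ) (u : {h // h ∈ S.sph n} → ℝ) (v : {h // h ∈ S.sph n}) :
    grad T n (ext n u) v.1 = FG.grad (tg T n) u v := by
  classical
  unfold grad
  rw [FG.grad_def, Finset.sum_filter]
  rw [← Finset.sum_attach (S.sph n), ← Finset.univ_eq_attach]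
  refine Finset.sum_congr rfl fun w _ => ?_
  rw [ext_apply u w.2, ext_apply u v.2]
  by_cases hvw : v = w
  · subst hvw
    simp
  · have hiff : (tg T n).Adj v w ↔ T.adj v.1 w.1 := ⟨fun h => h.2, fun h => ⟨hvw, h⟩⟩
    by_cases h : T.adj v.1 w.1
    · rw [if_pos h, if_pos (hiff.2 h), abs_sub_comm]
    · rw [if_neg h, if_neg (fun h' => h (hiff.1 h'))]

theorem lap_eq (T : Tiles S) (n : ℕ) (u : {h // h ∈ S.sph n} → ℝ) (v : {h // h ∈ S.sph n})
    [DecidablePred (T.adj v.1)] :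
    ∑ k ∈ (S.sph n).filter (T.adj v.1), (ext n u k - ext n u v.1) = FG.lap (tg T n) u v := by
  classical
  rw [FG.lap_def, Finset.sum_filter]
  rw [← Finset.sum_attach (S.sph n), ← Finset.univ_eq_attach]
  refine Finset.sum_congr rfl fun w _ => ?_
  rw [ext_apply u w.2, ext_apply u v.2]
  by_cases hvw : v = w
  · subst hvw
    simp
  · have hiff : (tg T n).Adj v w ↔ T.adj v.1 w.1 := ⟨fun h => h.2, fun h => ⟨hvw, h⟩⟩
    by_cases h : T.adj v.1 w.1
    · rw [if_pos h, if_pos (hiff.2 h)]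
    · rw [if_neg h, if_neg (fun h' => h (hiff.1 h'))]

open scoped Classical in
/-- **Existence of discrete potentials of bounded energy.** -/
theorem exists_pot [PreconnectedSpace Z] (T : Tiles S) {D E : Set Z} {n : ℕ} {L : ℝ}
    (hL : SepBound T n D E L) (hL0 : 0 < L) (hDn : D.Nonempty)
    (hdis : ∀ h ∈ S.sph n, ¬ ((T.U h ∩ D).Nonempty ∧ (T.U h ∩ E).Nonempty)) {Δ : ℕ}
    (hΔ : DegLe T n Δ) :
    ∃ f : G → ℝ, Pot T n D E f ∧ ∑ h ∈ S.sph n, grad T n f h ^ 2 ≤ 4 * (Δ : ℝ) ^ 4 * L := by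
  classical
  let X : Finset G := S.sph n
  -- the probability on separating families
  set Fam : Finset (Finset G) := X.powerset.filter (fun s => Separates (T.un s) D E) with hFam
  have hmemF : ∀ s, s ∈ Fam ↔ s ⊆ X ∧ Separates (T.un s) D E := by
    intro s
    rw [hFam, Finset.mem_filter, Finset.mem_powerset]
  obtain ⟨w, hw0, -, hw1, hw2⟩ := Dual.exists_prob X Fam
    (by
      obtain ⟨A, hA, hs, -⟩ := hL (fun _ => 0) (fun _ => le_rfl)
      exact ⟨A, (hmemF A).2 ⟨hA, hs⟩⟩)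
    (fun s hs => ((hmemF s).1 hs).1) (1 / L) (by positivity)
    (by
      intro ρ hρ hρ1
      obtain ⟨A, hA, hs, hle⟩ := hL ρ hρ
      have h1 := hρ1 A ((hmemF A).2 ⟨hA, hs⟩)
      rw [div_le_iff₀ hL0]
      nlinarith)
  rw [one_div_one_div] at hw2
  set μ : G → ℝ := Dual.pm Fam w with hμ
  have hμ0 : ∀ v, 0 ≤ μ v := Dual.pm_nonneg hw0
  set ρ : {h // h ∈ X} → ℝ := fun v => ∑ k ∈ X.filter (T.adj v.1), μ k with hρ
  have hρ0 : ∀ v, 0 ≤ ρ v := fun v => Finset.sum_nonneg fun k _ => hμ0 k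
  -- boundary sets
  set Ls : Set {h // h ∈ X} := {v | (T.U v.1 ∩ E).Nonempty} with hLs
  set Rs : Set {h // h ∈ X} := {v | (T.U v.1 ∩ D).Nonempty} with hRs
  have hLR : Disjoint Ls Rs := by
    rw [Set.disjoint_left]
    intro v hv1 hv2
    exact hdis v.1 v.2 ⟨hv2, hv1⟩
  have hconn : ∀ v, ∃ w', w' ∈ Ls ∪ Rs ∧ (tg T n).Reachable v w' := by
    intro v
    obtain ⟨z, hz⟩ := hDn
    obtain ⟨h, hh, hzh⟩ := exists_tile T z n
    exact ⟨⟨h, hh⟩, Or.inr ⟨z, hzh, hz⟩, tg_reachable T n _ _⟩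
  obtain ⟨u, hu, hu01, -⟩ := FG.exists_sol (tg T n) Ls Rs hLR hconn
  have hadm : ∀ l ∈ Ls, ∀ r ∈ Rs, ∀ p : (tg T n).Walk l r,
      1 ≤ ∑ x ∈ p.support.toFinset, ρ x := by
    intro l hl r hr p
    set c' : Finset G := X.filter (fun k => ∃ x ∈ p.support.toFinset, T.adj x.1 k) with hc'
    have h1 : 1 ≤ ∑ k ∈ c', μ k := by
      refine Dual.one_le_of_meets Fam w hw0 hw1 c' ?_
      intro s hs
      rw [hmemF] at hs
      obtain ⟨z, hz1, hz2⟩ := hs.2 _ (walk_preconnected T n p)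
        (by
          obtain ⟨z, hz1, hz2⟩ := hr
          refine ⟨z, ?_, hz2⟩
          simp only [mem_iUnion, exists_prop]
          exact ⟨r, by simp, hz1⟩)
        (by
          obtain ⟨z, hz1, hz2⟩ := hl
          refine ⟨z, ?_, hz2⟩
          simp only [mem_iUnion, exists_prop]
          exact ⟨l, by simp, hz1⟩)
      simp only [Tiles.un, mem_iUnion, exists_prop] at hz1 hz2
      obtain ⟨x, hx, hzx⟩ := hz1
      obtain ⟨k, hk, hzk⟩ := hz2
      exact ⟨k, hk, Finset.mem_filter.2 ⟨hs.1 hk, x, hx, ⟨z, hzx, hzk⟩⟩⟩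
    have h3 : ∀ k ∈ c', ∃ x ∈ p.support.toFinset, k ∈ X.filter (T.adj x.1) := by
      intro k hk
      rw [hc', Finset.mem_filter] at hk
      obtain ⟨hkX, x, hx, hxk⟩ := hk
      exact ⟨x, hx, Finset.mem_filter.2 ⟨hkX, hxk⟩⟩
    exact h1.trans (sum_le_sum_sum c' p.support.toFinset
      (fun x : {h // h ∈ S.sph n} => X.filter (T.adj x.1)) μ hμ0 h3)
  have hen := hu.en_le_modulus hLR ρ hρ0 Δ (tg_deg hΔ) (by convert hadm)
  -- energy of `ρ`
  have hρsq : ∑ v, ρ v ^ 2 ≤ (Δ : ℝ) ^ 2 * L := by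
    have h1 : ∑ v, ρ v ^ 2 = ∑ a ∈ X, (∑ b ∈ X.filter (T.adj a), μ b) ^ 2 := by
      rw [Finset.univ_eq_attach]
      exact Finset.sum_attach X (fun a => (∑ b ∈ X.filter (T.adj a), μ b) ^ 2)
    rw [h1]
    refine (sum_sq_le X X T.adj Δ μ ?_ ?_).trans ?_
    · intro a ha
      exact hΔ.card_filter ha
    · intro b hb
      refine hΔ b hb _ (Finset.filter_subset _ _) fun k hk => ?_
      exact adj_symm T (Finset.mem_filter.1 hk).2
    · gcongr
  refine ⟨ext n u, ⟨?_, ?_, ?_, ?_⟩, ?_⟩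
  · intro h
    by_cases hh : h ∈ S.sph n
    · rw [ext_apply u hh]
      exact hu01 _
    · unfold ext
      rw [dif_neg hh]
      exact ⟨le_rfl, zero_le_one⟩
  · intro h hh hD
    rw [ext_apply u hh]
    exact hu.bc.2 ⟨h, hh⟩ hD
  · intro h hh hE
    rw [ext_apply u hh]
    exact hu.bc.1 ⟨h, hh⟩ hE
  · intro h hh hD hE
    have h1 := lap_eq T n u ⟨h, hh⟩
    have h2 := hu.harm ⟨h, hh⟩
      (fun hL' => by
        have h3 : (T.U h ∩ E).Nonempty := hL'
        rw [hE] at h3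
        exact Set.not_nonempty_empty h3)
      (fun hR' => by
        have h3 : (T.U h ∩ D).Nonempty := hR'
        rw [hD] at h3
        exact Set.not_nonempty_empty h3)
    rw [h2] at h1
    exact h1
  · have h1 : ∑ h ∈ S.sph n, grad T n (ext n u) h ^ 2 = ∑ v, FG.grad (tg T n) u v ^ 2 := by
      rw [Finset.univ_eq_attach, ← Finset.sum_attach (S.sph n)]
      refine Finset.sum_congr rfl fun v _ => ?_
      rw [grad_eq T n u v]
    rw [h1]
    have h2 := FG.sum_grad_sq_le (tg T n) u Δ (tg_deg hΔ)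
    have hΔ0 : (0:ℝ) ≤ Δ := Nat.cast_nonneg _
    calc ∑ v, FG.grad (tg T n) u v ^ 2 ≤ 2 * Δ * FG.en (tg T n) u := h2
      _ ≤ 2 * Δ * (2 * Δ * ∑ v, ρ v ^ 2) := by gcongr
      _ ≤ 2 * Δ * (2 * Δ * ((Δ : ℝ) ^ 2 * L)) := by gcongr
      _ = 4 * (Δ : ℝ) ^ 4 * L := by ring

end Crest.Agent.R193.D1_Pot
end
end

-- ▼ part R193/D1_Ann
section

/-!
# R193, block D1 (helper584): oscillation of discrete potentials inside an annulus
-/

set_option autoImplicit false
set_option linter.unusedSectionVars false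

noncomputable section

open Set Filter Topology

namespace Crest.Agent.R193.D1_Ann

open Crest.Agent.R193 Crest.Agent.R193.F_Sep2 Crest.Agent.R193.D1_Pot Crest.Agent.R193.D1_Top

variable {G Z : Type} [Group G] [MetricSpace Z] [MulAction G Z] {S : Setup G Z}

open scoped Classical in
/-- square of the gradient on the tiles meeting `F` -/
def gradSq (T : Tiles S) (n : ℕ) (f : G → ℝ) (F : Set Z) : ℝ :=
  ∑ l ∈ (S.sph n).filter (fun l => (T.U l ∩ F).Nonempty), grad T n f l ^ 2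

theorem gradSq_nonneg (T : Tiles S) (n : ℕ) (f : G → ℝ) (F : Set Z) : 0 ≤ gradSq T n f F :=
  Finset.sum_nonneg fun _ _ => sq_nonneg _

theorem gradSq_mono (T : Tiles S) (n : ℕ) (f : G → ℝ) {F F' : Set Z} (h : F ⊆ F') :
    gradSq T n f F ≤ gradSq T n f F' := by
  classical
  unfold gradSq
  refine Finset.sum_le_sum_of_subset_of_nonneg ?_ fun _ _ _ => sq_nonneg _
  intro l hl
  rw [Finset.mem_filter] at hl ⊢
  exact ⟨hl.1, hl.2.mono (inter_subset_inter_right _ h)⟩

/-- tiles of level `n` meeting `Ann χ 1 2` miss `χ.D (1/2)` and `χ.E 3` -/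
def Small (T : Tiles S) (n : ℕ) (χ : Chart Z) : Prop :=
  ∀ h ∈ S.sph n, (T.U h ∩ Ann χ 1 2).Nonempty →
    Disjoint (T.U h) (χ.D (1/2)) ∧ Disjoint (T.U h) (χ.E 3)

/-- a loop in the annulus `Ann χ 1 2` along which the gradient is small -/
theorem exists_loop [LocallyPathConnectedSpace Z] [PreconnectedSpace Z] [CompactSpace Z]
    (hX : Planar.Splits Z) (T : Tiles S) (χ : Chart Z)
    {L : ℝ} {n : ℕ} (hsep : SepBound T n (χ.D 1) (χ.E 2) L) (hsmall : Small T n χ)
    (f : G → ℝ) :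
    ∃ B : Finset G, B ⊆ S.sph n ∧ (∀ b ∈ B, (T.U b ∩ Ann χ 1 2).Nonempty) ∧
      Separates (⋃ h ∈ B, T.U h) (χ.D (1/2)) (χ.E 3) ∧ Planar.FamConn T.U B ∧ B.Nonempty ∧
      ∑ b ∈ B, grad T n f b ≤ Real.sqrt (L * gradSq T n f (Ann χ 1 2)) := by
  classical
  set As : Finset G := (S.sph n).filter (fun l => (T.U l ∩ Ann χ 1 2).Nonempty) with hAs
  set ρ : G → ℝ := fun l => if l ∈ As then grad T n f l else 0 with hρ
  have hρ0 : ∀ h, 0 ≤ ρ h := by
    intro h
    simp only [hρ]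
    split_ifs
    · exact grad_nonneg T n f h
    · exact le_rfl
  obtain ⟨A0, hA0, hA0s, hA0le⟩ := hsep ρ hρ0
  have hsum : ∑ h ∈ S.sph n, ρ h ^ 2 = gradSq T n f (Ann χ 1 2) := by
    unfold gradSq
    rw [← hAs, ← Finset.sum_subset (Finset.filter_subset _ _ : As ⊆ S.sph n)]
    · refine Finset.sum_congr rfl fun l hl => ?_
      simp only [hρ]
      rw [if_pos hl]
    · intro l _ hl
      simp only [hρ]
      rw [if_neg hl]
      simp
  rw [hsum] at hA0le
  set A' : Finset G := A0.filter (fun l => l ∈ As) with hA'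
  have hsep' : Separates (⋃ h ∈ A', T.U h) (χ.D 1) (χ.E 2) := by
    refine D1_Loop.separates_filter T.U T.isClosed (isClosed_D χ 1) (isClosed_E χ 2)
      (disjoint_D_E χ (by norm_num)) A0 A' ?_ hA0s
    intro h hh hne
    rw [hA', Finset.mem_filter]
    refine ⟨hh, ?_⟩
    rw [hAs, Finset.mem_filter]
    exact ⟨hA0 hh, hne.mono (inter_subset_inter_right _ (closure_compl_subset χ))⟩
  have hsep'' : Separates (⋃ h ∈ A', T.U h) (χ.D (1/2)) (χ.E 3) := by
    intro c hc h1 h2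
    exact hsep' c hc (h1.mono (inter_subset_inter_right _ (D_mono χ (by norm_num))))
      (h2.mono (inter_subset_inter_right _ (E_mono χ (by norm_num))))
  have hA's : ∀ h ∈ A', h ∈ S.sph n ∧ (T.U h ∩ Ann χ 1 2).Nonempty := by
    intro h hh
    rw [hA', Finset.mem_filter, hAs, Finset.mem_filter] at hh
    exact hh.2
  obtain ⟨B, hBA, hBs, hBc, hBn⟩ := D1_Loop.exists_famConn hX T.U T.isClosed
    (isConnected_D χ (by norm_num)) (isConnected_E χ (by norm_num)) A' hsep''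
    (fun h hh => (hsmall h (hA's h hh).1 (hA's h hh).2).1)
    (fun h hh => (hsmall h (hA's h hh).1 (hA's h hh).2).2)
  refine ⟨B, fun b hb => (hA's b (hBA hb)).1, fun b hb => (hA's b (hBA hb)).2, hBs, hBc, hBn, ?_⟩
  have h1 : ∑ b ∈ B, grad T n f b ≤ ∑ h ∈ A0, ρ h := by
    calc ∑ b ∈ B, grad T n f b = ∑ b ∈ B, ρ b := by
          refine Finset.sum_congr rfl fun b hb => ?_
          have := hBA hb
          rw [hA', Finset.mem_filter] at this
          simp only [hρ]
          rw [if_pos this.2]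
      _ ≤ ∑ h ∈ A0, ρ h :=
          Finset.sum_le_sum_of_subset_of_nonneg (hBA.trans (Finset.filter_subset _ _))
            fun h _ _ => hρ0 h
  refine h1.trans (Real.le_sqrt_of_sq_le ?_)
  exact hA0le

/-- a potential is squeezed inside a loop -/
theorem pot_le [PreconnectedSpace Z] (T : Tiles S) {D E D' E' : Set Z} (hD : IsPreconnected D)
    (hE : IsPreconnected E) (hDE' : (D ∩ E').Nonempty) (hEE' : (E ∩ E').Nonempty)
    {n : ℕ} {f : G → ℝ} (hf : Pot T n D E f) (B : Finset G) (hB : B ⊆ S.sph n)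
    (hBs : Separates (⋃ h ∈ B, T.U h) D' E') (hBc : Planar.FamConn T.U B) (hBn : B.Nonempty)
    {s : ℝ} (hs : ∑ b ∈ B, grad T n f b ≤ s) :
    ∀ k ∈ S.sph n, ∀ k' ∈ S.sph n, (T.U k ∩ D').Nonempty → (T.U k' ∩ D').Nonempty →
      |f k - f k'| ≤ 4 * s := by
  classical
  obtain ⟨b0, hb0⟩ := hBn
  have hcov : ⋃ h ∈ S.sph n, T.U h = univ := by
    rw [eq_univ_iff_forall]
    intro z
    obtain ⟨h, hh, hz⟩ := exists_tile T z n
    simp only [mem_iUnion, exists_prop]
    exact ⟨h, hh, hz⟩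
  have hosc : ∀ h ∈ S.sph n, (∃ b ∈ B, (T.U h ∩ T.U b).Nonempty) → |f h - f b0| ≤ 2 * s := by
    intro h hh ⟨b, hb, hne⟩
    have h1 : |f h - f b| ≤ grad T n f b := abs_sub_le_grad T f hh (adj_symm T hne)
    have h2 : grad T n f b ≤ ∑ b ∈ B, grad T n f b :=
      Finset.single_le_sum (f := fun b => grad T n f b) (fun b _ => grad_nonneg T n f b) hb
    have h3 : |f b - f b0| ≤ ∑ b ∈ B, grad T n f b := by
      refine D1_Loop.osc_famConn T.U B hBc f (grad T n f) (fun b _ => grad_nonneg T n f b) ?_ hb hb0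
      intro a ha a' ha' hne'
      rw [abs_sub_comm]
      exact abs_sub_le_grad T f (hB ha') hne'
    have h4 : f h - f b0 = (f h - f b) + (f b - f b0) := by ring
    rw [h4]
    have h5 := abs_add_le (f h - f b) (f b - f b0)
    linarith
  have hsub : ∀ (f' : G → ℝ), (∀ h ∈ S.sph n, T.U h ∩ D = ∅ → T.U h ∩ E = ∅ →
      ∑ h' ∈ (S.sph n).filter (T.adj h), (f' h' - f' h) = 0) →
      (∀ h ∈ S.sph n, ∀ k ∈ S.sph n, (T.U h ∩ D).Nonempty → (T.U k ∩ D).Nonempty → f' k = f' h) →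
      (∀ h ∈ S.sph n, ∀ k ∈ S.sph n, (T.U h ∩ E).Nonempty → (T.U k ∩ E).Nonempty → f' k = f' h) →
      ∀ h ∈ S.sph n, (T.U h ∩ E').Nonempty ∨ D1_Loop.SubAt T.U (S.sph n) f' h ∨
      ∃ K : Set Z, IsPreconnected K ∧ (K ∩ E').Nonempty ∧ (T.U h ∩ K).Nonempty ∧
        ∀ k ∈ S.sph n, (T.U k ∩ K).Nonempty → f' k = f' h := by
    intro f' h1 h2 h3 h hh
    by_cases hhD : (T.U h ∩ D).Nonempty
    · exact Or.inr (Or.inr ⟨D, hD, hDE', hhD, fun k hk hkD => h2 h hh k hk hhD hkD⟩)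
    by_cases hhE : (T.U h ∩ E).Nonempty
    · exact Or.inr (Or.inr ⟨E, hE, hEE', hhE, fun k hk hkE => h3 h hh k hk hhE hkE⟩)
    · refine Or.inr (Or.inl ?_)
      unfold D1_Loop.SubAt
      have := h1 h hh (not_nonempty_iff_eq_empty.1 hhD) (not_nonempty_iff_eq_empty.1 hhE)
      exact le_of_eq this.symm
  have hup : ∀ k ∈ S.sph n, (T.U k ∩ D').Nonempty → f k ≤ f b0 + 2 * s := by
    intro k hk hkD
    refine D1_Loop.max_principle T.U (S.sph n) (fun h _ => T.isClosed h)
      (fun h _ => T.isConnected h) hcov B hB ⟨b0, hb0⟩ hBs f _ ?_ ?_ k hk hkD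
    · intro h hh hhB
      have := (abs_le.1 (hosc h hh hhB)).2
      linarith
    · exact hsub f hf.harm (fun h hh k hk h1 h2 => by rw [hf.one h hh h1, hf.one k hk h2])
        (fun h hh k hk h1 h2 => by rw [hf.zero h hh h1, hf.zero k hk h2])
  have hdn : ∀ k ∈ S.sph n, (T.U k ∩ D').Nonempty → f b0 - 2 * s ≤ f k := by
    intro k hk hkD
    have := D1_Loop.max_principle T.U (S.sph n) (fun h _ => T.isClosed h)
      (fun h _ => T.isConnected h) hcov B hB ⟨b0, hb0⟩ hBs (fun h => - f h) (2 * s - f b0) ?_ ?_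
      k hk hkD
    · linarith
    · intro h hh hhB
      have := (abs_le.1 (hosc h hh hhB)).1
      linarith
    · refine hsub (fun h => - f h) ?_ (fun h hh k hk h1 h2 => by rw [hf.one h hh h1, hf.one k hk h2])
        (fun h hh k hk h1 h2 => by rw [hf.zero h hh h1, hf.zero k hk h2])
      intro h hh h1 h2
      have h3 := hf.harm h hh h1 h2
      have h4 : ∑ h' ∈ (S.sph n).filter (T.adj h), (-f h' - -f h)
          = - ∑ h' ∈ (S.sph n).filter (T.adj h), (f h' - f h) := by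
        rw [← Finset.sum_neg_distrib]
        exact Finset.sum_congr rfl fun _ _ => by ring
      rw [h4, h3, neg_zero]
  intro k hk k' hk' h1 h2
  rw [abs_le]
  have a1 := hup k hk h1
  have a2 := hdn k hk h1
  have a3 := hup k' hk' h2
  have a4 := hdn k' hk' h2
  constructor <;> linarith

/-- **Annulus lemma.** -/
theorem ann_osc [LocallyPathConnectedSpace Z] [PreconnectedSpace Z] [CompactSpace Z]
    (hX : Planar.Splits Z) (T : Tiles S) {D E : Set Z} (hD : IsPreconnected D)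
    (hE : IsPreconnected E) (χ : Chart Z) (hDE' : (D ∩ χ.E 3).Nonempty)
    (hEE' : (E ∩ χ.E 3).Nonempty) {L : ℝ} {n : ℕ} (hsep : SepBound T n (χ.D 1) (χ.E 2) L)
    (hsmall : Small T n χ) {f : G → ℝ} (hf : Pot T n D E f) :
    ∀ k ∈ S.sph n, ∀ k' ∈ S.sph n, (T.U k ∩ χ.D (1/2)).Nonempty → (T.U k' ∩ χ.D (1/2)).Nonempty →
      |f k - f k'| ≤ 4 * Real.sqrt (L * gradSq T n f (Ann χ 1 2)) := by
  obtain ⟨B, hB, -, hBs, hBc, hBn, hle⟩ := exists_loop hX T χ hsep hsmall f
  exact pot_le T hD hE hDE' hEE' hf B hB hBs hBc hBn hle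

end Crest.Agent.R193.D1_Ann
end
end

-- ▼ part R193/F_Equi
section

/-!
# R193, block D1/F3 (helper321): equicontinuity of the discrete potentials of bounded energy
-/

set_option autoImplicit false

noncomputable section

open Set Filter Topology Metric
open scoped Classical

namespace Crest.Agent.R193.F_Equi

open Crest.Agent.R193 Crest.Agent.R193.T_Comp Crest.Agent.R193.F_PotEx Crest.Agent.R193.D1_Ann
  Crest.Agent.R193.D1_Top

variable {G Z : Type} [Group G] [MetricSpace Z] [MulAction G Z] {S : Setup G Z} (T : Tiles S)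

/-- discrete energy of level `n` (ordered pairs) -/
def En (n : ℕ) (f : G → ℝ) : ℝ :=
  ∑ h ∈ S.sph n, ∑ h' ∈ (S.sph n).filter (fun h' => T.adj h h'), (f h - f h') ^ 2

theorem sum_grad_sq_le (n : ℕ) (f : G → ℝ) :
    ∑ l ∈ S.sph n, D1_Pot.grad T n f l ^ 2 ≤ (Dl T : ℝ) * En T n f := by
  unfold En
  rw [Finset.mul_sum]
  refine Finset.sum_le_sum fun l hl => ?_
  unfold D1_Pot.grad
  have h1 := sq_sum_le_card_mul_sum_sq (s := (S.sph n).filter (fun h' => T.adj l h'))
    (f := fun k => |f k - f l|)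
  have h2 : ∑ k ∈ (S.sph n).filter (fun h' => T.adj l h'), |f k - f l| ^ 2 =
      ∑ k ∈ (S.sph n).filter (fun h' => T.adj l h'), (f l - f k) ^ 2 := by
    refine Finset.sum_congr rfl fun k _ => ?_
    rw [sq_abs]
    ring
  have h3 : (((S.sph n).filter (fun h' => T.adj l h')).card : ℝ) ≤ (Dl T : ℝ) := by
    exact_mod_cast card_filter_adj_le T hl
  calc _ ≤ (((S.sph n).filter (fun h' => T.adj l h')).card : ℝ) *
        ∑ k ∈ (S.sph n).filter (fun h' => T.adj l h'), |f k - f l| ^ 2 := by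
        convert h1
    _ ≤ (Dl T : ℝ) * ∑ k ∈ (S.sph n).filter (fun h' => T.adj l h'), |f k - f l| ^ 2 :=
        mul_le_mul_of_nonneg_right h3 (Finset.sum_nonneg fun _ _ => sq_nonneg _)
    _ = _ := by rw [h2]

/-- charts are eventually `Small` -/
theorem exists_small (χ : Chart Z) : ∃ n0 : ℕ, ∀ n ≥ n0, Small T n χ := by
  obtain ⟨n1, hn1⟩ := eventually_not_both T (isCompact_Ann χ 1 2) (isClosed_D χ (1 / 2))
    (disjoint_D_Ann χ (by norm_num)).symm
  obtain ⟨n2, hn2⟩ := eventually_not_both T (isCompact_Ann χ 1 2) (isClosed_E χ 3)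
    (disjoint_E_Ann χ (by norm_num)).symm
  refine ⟨max n1 n2, fun n hn h hh hne => ⟨?_, ?_⟩⟩
  · rw [Set.disjoint_iff_inter_eq_empty, ← not_nonempty_iff_eq_empty]
    exact fun hc => hn1 n ((le_max_left _ _).trans hn) h hh ⟨hne, hc⟩
  · rw [Set.disjoint_iff_inter_eq_empty, ← not_nonempty_iff_eq_empty]
    exact fun hc => hn2 n ((le_max_right _ _).trans hn) h hh ⟨hne, hc⟩

/-- tiles are eventually small -/
theorem exists_diam {r : ℝ} (hr : 0 < r) :
    ∃ n0 : ℕ, ∀ n ≥ n0, ∀ h ∈ S.sph n, ∀ x ∈ T.U h, ∀ y ∈ T.U h, dist x y < r := by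
  have hlim : Tendsto (fun n : ℕ => Real.exp (-S.ε * ((n : ℝ) - T.R - S.δ))) atTop (𝓝 0) := by
    refine Real.tendsto_exp_atBot.comp ?_
    have h1 : Tendsto (fun n : ℕ => (n : ℝ) - T.R - S.δ) atTop atTop :=
      tendsto_atTop_add_const_right _ _ (tendsto_atTop_add_const_right _ _
        tendsto_natCast_atTop_atTop)
    exact h1.const_mul_atTop_of_neg (by linarith [S.ε_pos])
  obtain ⟨N, hN⟩ := (hlim.eventually (gt_mem_nhds hr)).exists_forall_of_atTop
  refine ⟨N, fun n hn h hh x hx y hy => ?_⟩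
  have h1 := dist_le_of_mem T hx hy
  rw [(mem_sph S).1 hh] at h1
  exact h1.trans_lt (hN n hn)

/-- equicontinuity -/
theorem equi (Φ : Z ≃ₜ S2)
    (hM : ∀ ψ : Chart Z, ∃ L : ℝ, ∀ n : ℕ, SepBound T n (ψ.D 1) (ψ.E 2) L)
    {D E : Set Z} (hD : IsPreconnected D) (hE : IsPreconnected E)
    (hD2 : ∃ a ∈ D, ∃ b ∈ D, a ≠ b) (hE2 : ∃ a ∈ E, ∃ b ∈ E, a ≠ b)
    (C : ℝ) {η : ℝ} (hη : 0 < η) :
    ∃ r > 0, ∃ n0 : ℕ, ∀ n ≥ n0, ∀ f : G → ℝ, Pot T n D E f → En T n f ≤ C →
      ∀ h ∈ S.sph n, ∀ h' ∈ S.sph n, ∀ x ∈ T.U h, ∀ y ∈ T.U h', dist x y < r →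
        |f h - f h'| ≤ η := by
  have := locallyPathConnected Φ
  have := preconnected Φ
  have := compact Φ
  have hX := splits Φ
  obtain ⟨lam, L, ρ0, hlam, hL, hρ0, hring⟩ :=
    F_Ring.ring_all T Φ hM (r1 := 1 / 2) (r2 := 3) (by norm_num) (by norm_num)
  obtain ⟨a, ha, b, hb, hab⟩ := hD2
  obtain ⟨a', ha', b', hb', hab'⟩ := hE2
  have hlam0 : 0 < lam := by linarith
  -- top scale
  set ρt : ℝ := min ρ0 (min (dist a b / (2 * lam)) (dist a' b' / (2 * lam))) with hρt
  have hρt0 : 0 < ρt := by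
    refine lt_min hρ0 (lt_min ?_ ?_)
    · exact div_pos (dist_pos.2 hab) (by positivity)
    · exact div_pos (dist_pos.2 hab') (by positivity)
  have hout : ∀ (D : Set Z) (a b : Z), a ∈ D → b ∈ D → ρt ≤ dist a b / (2 * lam) →
      ∀ x : Z, ∀ ρ ≤ ρt, (D ∩ (ball x (lam * ρ))ᶜ).Nonempty := by
    intro D a b ha hb hle x ρ hρ
    by_contra hcon
    rw [not_nonempty_iff_eq_empty, ← disjoint_iff_inter_eq_empty,
      disjoint_compl_right_iff_subset] at hcon
    have h1 := mem_ball.1 (hcon ha)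
    have h2 := mem_ball.1 (hcon hb)
    have h3 := dist_triangle_right a b x
    rw [le_div_iff₀ (by positivity)] at hle
    nlinarith
  have houtD := hout D a b ha hb ((min_le_right _ _).trans (min_le_left _ _))
  have houtE := hout E a' b' ha' hb' ((min_le_right _ _).trans (min_le_right _ _))
  -- number of annuli
  set M : ℝ := L * ((Dl T : ℝ) * |C|) with hM'
  have hM0 : 0 ≤ M := by positivity
  obtain ⟨K0, hK0⟩ := exists_nat_ge (16 * M / η ^ 2)
  set K : ℕ := K0 + 1 with hK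
  have hKpos : (0 : ℝ) < K := by rw [hK]; positivity
  have hKη : 16 * (M / K) ≤ η ^ 2 := by
    have h1 : 16 * M / η ^ 2 ≤ K := hK0.trans (by rw [hK]; push_cast; linarith)
    rw [div_le_iff₀ (by positivity)] at h1
    rw [← mul_div_assoc, div_le_iff₀ hKpos]
    linarith
  set ρ : ℕ → ℝ := fun i => ρt / (2 * lam) ^ i with hρ
  have hρpos : ∀ i, 0 < ρ i := fun i => by rw [hρ]; positivity
  have hone : 1 ≤ 2 * lam := by linarith
  have hρanti : ∀ i j, i ≤ j → ρ j ≤ ρ i := by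
    intro i j hij
    exact div_le_div_of_nonneg_left hρt0.le (by positivity) (pow_le_pow_right₀ hone hij)
  have hρt' : ∀ i, ρ i ≤ ρt := by
    intro i
    have := hρanti 0 i (Nat.zero_le _)
    simpa [hρ] using this
  have hρle : ∀ i, ρ i ≤ ρ0 := fun i => (hρt' i).trans (min_le_left _ _)
  have hρlam : ∀ i j, i < j → lam * ρ j ≤ ρ i / 2 := by
    intro i j hij
    have h1 : ρ j ≤ ρ (i + 1) := hρanti (i + 1) j hij
    have h2 : ρ (i + 1) * (2 * lam) = ρ i := by
      rw [hρ]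
      simp only
      rw [pow_succ]
      field_simp
    nlinarith
  set r0 : ℝ := ρ K with hr0
  -- the key local statement
  have key : ∀ x : Z, ∃ n0 : ℕ, ∀ n ≥ n0, ∀ f : G → ℝ, Pot T n D E f → En T n f ≤ C →
      ∀ h ∈ S.sph n, ∀ h' ∈ S.sph n, (T.U h ∩ closedBall x r0).Nonempty →
      (T.U h' ∩ closedBall x r0).Nonempty → |f h - f h'| ≤ η := by
    intro x
    choose χ hχ1 hχ2 n1 hn1 using fun i : ℕ => hring x (ρ i) (hρpos i) (hρle i)
    choose n2 hn2 using fun i : ℕ => exists_small T (χ i)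
    obtain ⟨n3, hn3⟩ := exists_diam T (half_pos (hρpos K))
    refine ⟨max ((Finset.range K).sup fun i => max (n1 i) (n2 i)) n3, ?_⟩
    intro n hn f hf hen
    have hn12 : ∀ i < K, n1 i ≤ n ∧ n2 i ≤ n := by
      intro i hi
      have h1 : max (n1 i) (n2 i) ≤ (Finset.range K).sup fun i => max (n1 i) (n2 i) :=
        Finset.le_sup (f := fun i => max (n1 i) (n2 i)) (Finset.mem_range.2 hi)
      have h2 := (h1.trans (le_max_left _ _)).trans hn
      exact ⟨(le_max_left _ _).trans h2, (le_max_right _ _).trans h2⟩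
    have hn3' : n3 ≤ n := (le_max_right _ _).trans hn
    set F : ℕ → Finset G := fun i => (S.sph n).filter (fun l => (T.U l ∩ Ann (χ i) 1 2).Nonempty)
      with hF
    have hAnn1 : ∀ i, ∀ z ∈ Ann (χ i) 1 2, ρ i < dist z x := by
      intro i z hz
      by_contra hc
      push Not at hc
      exact Set.disjoint_left.1 (disjoint_D_Ann (χ i) (by norm_num : (1 / 2 : ℝ) < 1))
        (hχ1 i hc) hz
    have hAnn2 : ∀ i, ∀ z ∈ Ann (χ i) 1 2, dist z x < lam * ρ i := by
      intro i z hz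
      have : z ∈ ((χ i).E 3)ᶜ := fun hc =>
        Set.disjoint_left.1 (disjoint_E_Ann (χ i) (by norm_num : (2 : ℝ) < 3)) hc hz
      exact mem_ball.1 (hχ2 i this)
    have hdisj : ∀ i < K, ∀ j < K, i < j → Disjoint (F i) (F j) := by
      intro i _ j hj hij
      rw [Finset.disjoint_left]
      intro l hl1 hl2
      obtain ⟨hls, y, hy, hyA⟩ := Finset.mem_filter.1 hl1
      obtain ⟨-, z, hz, hzA⟩ := Finset.mem_filter.1 hl2
      have h1 := hAnn1 i y hyA
      have h2 := hAnn2 j z hzA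
      have h3 := hn3 n hn3' l hls y hy z hz
      have h4 := dist_triangle y z x
      have h5 := hρlam i j hij
      have h6 := hρanti i K (by omega)
      linarith
    have hdisj' : ((Finset.range K : Finset ℕ) : Set ℕ).PairwiseDisjoint F := by
      intro i hi j hj hij
      have hi' := Finset.mem_range.1 (Finset.mem_coe.1 hi)
      have hj' := Finset.mem_range.1 (Finset.mem_coe.1 hj)
      rcases lt_or_gt_of_ne hij with h | h
      · exact hdisj i hi' j hj' h
      · exact (hdisj j hj' i hi' h).symm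
    have hsum : ∑ i ∈ Finset.range K, gradSq T n f (Ann (χ i) 1 2) ≤ (Dl T : ℝ) * |C| := by
      calc ∑ i ∈ Finset.range K, gradSq T n f (Ann (χ i) 1 2)
          = ∑ i ∈ Finset.range K, ∑ l ∈ F i, D1_Pot.grad T n f l ^ 2 := by
            refine Finset.sum_congr rfl fun i _ => ?_
            unfold gradSq
            rfl
        _ = ∑ l ∈ (Finset.range K).biUnion F, D1_Pot.grad T n f l ^ 2 :=
            (Finset.sum_biUnion hdisj').symm
        _ ≤ ∑ l ∈ S.sph n, D1_Pot.grad T n f l ^ 2 := by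
            refine Finset.sum_le_sum_of_subset_of_nonneg ?_ fun _ _ _ => sq_nonneg _
            intro l hl
            obtain ⟨i, -, hi⟩ := Finset.mem_biUnion.1 hl
            exact (Finset.mem_filter.1 hi).1
        _ ≤ (Dl T : ℝ) * En T n f := sum_grad_sq_le T n f
        _ ≤ (Dl T : ℝ) * |C| :=
            mul_le_mul_of_nonneg_left (hen.trans (le_abs_self C)) (Nat.cast_nonneg _)
    obtain ⟨i, hiK, hi⟩ : ∃ i ∈ Finset.range K, gradSq T n f (Ann (χ i) 1 2) ≤
        (Dl T : ℝ) * |C| / K := by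
      refine Finset.exists_le_of_sum_le ⟨0, Finset.mem_range.2 (by omega)⟩ ?_
      rw [Finset.sum_const, Finset.card_range, nsmul_eq_mul, mul_div_cancel₀ _ hKpos.ne']
      exact hsum
    have hiK' := Finset.mem_range.1 hiK
    intro h hh h' hh' hne hne'
    have hsub : closedBall x r0 ⊆ (χ i).D (1 / 2) :=
      (closedBall_subset_closedBall (hρanti i K (by omega))).trans (hχ1 i)
    have hE3 : (ball x (lam * ρ i))ᶜ ⊆ (χ i).E 3 := by
      rw [compl_subset_comm]
      exact hχ2 i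
    have hosc := ann_osc hX T hD hE (χ i)
      ((houtD x (ρ i) (hρt' i)).mono (inter_subset_inter_right _ hE3))
      ((houtE x (ρ i) (hρt' i)).mono (inter_subset_inter_right _ hE3))
      (hn1 i n (hn12 i hiK').1) (hn2 i n (hn12 i hiK').2) hf h hh h' hh'
      (hne.mono (inter_subset_inter_right _ hsub))
      (hne'.mono (inter_subset_inter_right _ hsub))
    refine hosc.trans ?_
    have h1 : L * gradSq T n f (Ann (χ i) 1 2) ≤ M / K := by
      rw [hM', mul_div_assoc]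
      exact mul_le_mul_of_nonneg_left hi hL.le
    have h2 : 4 * Real.sqrt (L * gradSq T n f (Ann (χ i) 1 2)) =
        Real.sqrt (16 * (L * gradSq T n f (Ann (χ i) 1 2))) := by
      rw [Real.sqrt_mul (by norm_num : (0 : ℝ) ≤ 16)]
      congr 1
      rw [show (16 : ℝ) = 4 ^ 2 by norm_num, Real.sqrt_sq (by norm_num)]
    rw [h2]
    exact Real.sqrt_le_iff.2 ⟨hη.le, by linarith⟩
  -- finite net
  choose n0 hn0 using key
  obtain ⟨t, -, htf, htc⟩ := finite_cover_balls_of_compact (isCompact_univ (X := Z))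
    (half_pos (hρpos K))
  refine ⟨r0 / 2, half_pos (hρpos K), htf.toFinset.sup n0, ?_⟩
  intro n hn f hf hen h hh h' hh' x hx y hy hxy
  have hxt := htc (mem_univ x)
  rw [mem_iUnion₂] at hxt
  obtain ⟨z, hz, hxz⟩ := hxt
  rw [mem_ball] at hxz
  have hnz : n0 z ≤ n := (Finset.le_sup (f := n0) (htf.mem_toFinset.2 hz)).trans hn
  refine hn0 z n hnz f hf hen h hh h' hh' ⟨x, hx, ?_⟩ ⟨y, hy, ?_⟩
  · rw [mem_closedBall]
    have := hρpos K
    linarith
  · rw [mem_closedBall]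
    have h1 := dist_triangle y x z
    rw [dist_comm y x] at h1
    have h2 : dist x z < r0 / 2 := hxz
    linarith

end Crest.Agent.R193.F_Equi
end
end

-- ▼ part R193/F_Three
section

/-!
# R193, block D1/F3 (helper321): existence of the limit potentials, from the sum estimate `HSum`
-/

set_option autoImplicit false

noncomputable section

open Set Filter Topology Metric
open scoped Classical

namespace Crest.Agent.R193.F_Three

open Crest.Agent.R193 Crest.Agent.R193.F_PotEx Crest.Agent.R193.F_Equi Crest.Agent.R193.D1_Top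

variable {G Z : Type} [Group G] [MetricSpace Z] [MulAction G Z] {S : Setup G Z} (T : Tiles S)

/-- the sum estimate (helper584's D1_Sum) -/
def HSum (ψ : Chart Z) : Prop :=
  ∀ C R : ℝ, ∃ C' : ℝ, ∀ m : ℕ, ∃ n0 : ℕ, ∀ n ≥ n0, ∀ f : G → ℝ,
    Pot T n (ψ.D 1) (ψ.E 2) f → En T n f ≤ C → ∃ o : G → ℝ,
      (∀ h ∈ S.sph m, ∀ k ∈ S.sph n, ∀ k' ∈ S.sph n, (T.U k ∩ S.Sh R h).Nonempty →
        (T.U k' ∩ S.Sh R h).Nonempty → |f k - f k'| ≤ o h) ∧
      ∑ h ∈ S.sph m, (o h) ^ 2 ≤ C'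

theorem two_points_D (ψ : Chart Z) : ∃ a ∈ ψ.D 1, ∃ b ∈ ψ.D 1, a ≠ b := by
  refine ⟨ψ.f 0, ⟨0, by simp, rfl⟩, ψ.f (1, 0), ⟨(1, 0), by simp, rfl⟩, fun h => ?_⟩
  have := ψ.emb.injective h
  simpa using congrArg Prod.fst this

theorem two_points_E (ψ : Chart Z) : ∃ a ∈ ψ.E 2, ∃ b ∈ ψ.E 2, a ≠ b := by
  refine ⟨ψ.f (2, 0), ?_, ψ.f (3, 0), ?_, fun h => ?_⟩
  · rintro ⟨p, hp, hpe⟩
    have := ψ.emb.injective hpe
    rw [this] at hp
    simp at hp
  · rintro ⟨p, hp, hpe⟩
    have := ψ.emb.injective hpe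
    rw [this, mem_ball, dist_zero_right, Prod.norm_def] at hp
    simp at hp
    norm_num at hp
  · have := congrArg Prod.fst (ψ.emb.injective h)
    norm_num at this

theorem F3_of (Φ : Z ≃ₜ S2)
    (hM : ∀ ψ : Chart Z, ∃ L : ℝ, ∀ n : ℕ, SepBound T n (ψ.D 1) (ψ.E 2) L) (ψ : Chart Z)
    (hS : HSum T ψ) :
    ∃ (u : C(Z, ℝ)) (un : ℕ → G → ℝ), IsPot T (ψ.D 1) (ψ.E 2) u un := by
  have := locallyPathConnected Φ
  have := preconnected Φ
  have := compact Φ
  obtain ⟨L, hL⟩ := hM ψ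
  obtain ⟨C, N, hN⟩ := exists_pot T (isCompact_D ψ 1) ⟨_, (two_points_D ψ).choose_spec.1⟩
    (isClosed_E ψ 2) (disjoint_D_E ψ (by norm_num)) hL
  set un : ℕ → G → ℝ := fun n => if h : N ≤ n then (hN n h).choose else fun _ => 0 with hun
  have hunN : ∀ n, N ≤ n → Pot T n (ψ.D 1) (ψ.E 2) (un n) ∧ En T n (un n) ≤ C := by
    intro n hn
    have := (hN n hn).choose_spec
    rw [hun]
    simp only [hn, dif_pos]
    exact this
  have hbd : ∀ n h, |un n h| ≤ 1 := by
    intro n h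
    by_cases hn : N ≤ n
    · have := (hunN n hn).1.bd h
      rw [abs_of_nonneg this.1]
      exact this.2
    · rw [hun]
      simp [hn]
  have hle : ((hyperfilter ℕ : Filter ℕ)) ≤ atTop := Nat.hyperfilter_le_atTop
  have hequi : ∀ η > (0 : ℝ), ∃ r > (0 : ℝ), ∀ᶠ n in (hyperfilter ℕ : Filter ℕ),
      ∀ h ∈ S.sph n, ∀ h' ∈ S.sph n, ∀ x ∈ T.U h, ∀ y ∈ T.U h', dist x y < r →
        |un n h - un n h'| ≤ η := by
    intro η hη
    obtain ⟨r, hr, n0, hn0⟩ := equi T Φ hM (isConnected_D ψ zero_le_one).isPreconnected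
      (isPreconnected_E ψ two_pos) (two_points_D ψ) (two_points_E ψ) C hη
    refine ⟨r, hr, hle ?_⟩
    filter_upwards [eventually_ge_atTop (max n0 N)] with n hn
    have h1 := hunN n ((le_max_right _ _).trans hn)
    exact hn0 n ((le_max_left _ _).trans hn) (un n) h1.1 h1.2
  obtain ⟨u, hu⟩ := F_Lim.exists_limit T un hbd hequi
  have hval : ∀ (x : Z) (c : ℝ), (∀ n, N ≤ n → ∀ h ∈ S.sph n, x ∈ T.U h → un n h = c) →
      u x = c := by
    intro x c hc
    by_contra hne
    have hpos : 0 < |u x - c| / 2 := half_pos (abs_pos.2 (sub_ne_zero.2 hne))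
    obtain ⟨n, hn1, hn2⟩ := ((hu _ hpos).and (hle (eventually_ge_atTop N))).exists
    have h1 := hn1 (F_Lim.tile T n x) (F_Lim.tile_mem T n x) x (F_Lim.mem_tile T n x)
    rw [hc n hn2 _ (F_Lim.tile_mem T n x) (F_Lim.mem_tile T n x), abs_sub_comm] at h1
    linarith [abs_nonneg (u x - c)]
  have hubd : ∀ x, 0 ≤ u x ∧ u x ≤ 1 := by
    intro x
    have key : ∀ η > (0 : ℝ), -η ≤ u x ∧ u x ≤ 1 + η := by
      intro η hη
      obtain ⟨n, hn1, hn2⟩ := ((hu η hη).and (hle (eventually_ge_atTop N))).exists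
      have h1 := abs_le.1 (hn1 (F_Lim.tile T n x) (F_Lim.tile_mem T n x) x (F_Lim.mem_tile T n x))
      have h2 := (hunN n hn2).1.bd (F_Lim.tile T n x)
      constructor <;> linarith [h1.1, h1.2, h2.1, h2.2]
    constructor
    · refine le_of_forall_pos_le_add fun η hη => ?_
      linarith [(key η hη).1]
    · exact le_of_forall_pos_le_add fun η hη => (key η hη).2
  refine ⟨u, un, ⟨hubd, ?_, ?_, ?_, hu, ?_⟩⟩
  · intro x hx
    exact hval x 1 fun n hn h hh hxh => (hunN n hn).1.one h hh ⟨x, hxh, hx⟩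
  · intro x hx
    exact hval x 0 fun n hn h hh hxh => (hunN n hn).1.zero h hh ⟨x, hxh, hx⟩
  · exact hle ((eventually_ge_atTop N).mono fun n hn => (hunN n hn).1)
  · refine F_Lim.oscBound_of_lim T un u hu (fun x => ?_) ?_
    · rw [abs_of_nonneg (hubd x).1]
      exact (hubd x).2
    · intro R
      obtain ⟨C', hC'⟩ := hS C R
      refine ⟨C', fun m => ?_⟩
      obtain ⟨n0, hn0⟩ := hC' m
      refine hle ((eventually_ge_atTop (max n0 N)).mono fun n hn => ?_)
      have h1 := hunN n ((le_max_right _ _).trans hn)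
      exact hn0 n ((le_max_left _ _).trans hn) (un n) h1.1 h1.2

end Crest.Agent.R193.F_Three
end
end

-- ▼ part R193/D1_Sum
section

/-!
# R193, block D1 (helper584): oscillations of potentials over shadows are square summable
-/

set_option autoImplicit false
set_option linter.unusedSectionVars false

noncomputable section

open Set Filter Topology Metric

namespace Crest.Agent.R193.D1_Sum

open Crest.Agent.R193 Crest.Agent.R193.D1_Pot Crest.Agent.R193.D1_Top Crest.Agent.R193.D1_Ann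

variable {G Z : Type} [Group G] [MetricSpace Z] [MulAction G Z] {S : Setup G Z}

/-- standard charts with a uniform `SepBound` -/
theorem exists_std (T : Tiles S) (Φ : Z ≃ₜ S2)
    (hM : ∀ ψ : Chart Z, ∃ L : ℝ, ∀ n : ℕ, SepBound T n (ψ.D 1) (ψ.E 2) L) (R0 : ℝ) :
    ∃ (m : ℕ) (ψ : Fin m → Chart Z) (η R L : ℝ), 0 < η ∧ 0 ≤ R ∧ 0 < L ∧ ∀ (g : G) (y : Z),
      y ∈ S.Gd R0 g → ∃ i, closedBall y η ⊆ (ψ i).f '' ball 0 (1 / 2) ∧
        (ψ i).f '' closedBall 0 3 ⊆ S.Gd R g ∧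
        ∀ n ≥ S.len g, SepBound T n ((Chart.smul S g (ψ i)).D 1)
          ((Chart.smul S g (ψ i)).E 2) L := by
  have := locallyPathConnected Φ
  obtain ⟨m, ψ, η, R, hη, hfam⟩ := CHx.exists_family S Φ R0 (r1 := 1 / 2) (r2 := 3)
    (by norm_num) (by norm_num)
  choose L hL using fun i => hM (ψ i)
  set L1 : ℝ := 1 + ∑ i, |L i| with hL1
  have hL1pos : 0 < L1 := by
    have : 0 ≤ ∑ i, |L i| := Finset.sum_nonneg fun _ _ => abs_nonneg _
    linarith
  have hLi : ∀ i, L i ≤ L1 := by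
    intro i
    have h1 := Finset.single_le_sum (f := fun i => |L i|) (fun _ _ => abs_nonneg _)
      (Finset.mem_univ i)
    have h2 := le_abs_self (L i)
    linarith
  refine ⟨m, ψ, η, max R 0, L1 * (F_Sep2.mult T (max R 0) : ℝ) ^ 2 + 1, hη, le_max_right _ _,
    by positivity, ?_⟩
  intro g y hy
  obtain ⟨i, hi1, hi2⟩ := hfam g y hy
  have hi3 : (ψ i).f '' closedBall 0 3 ⊆ S.Gd (max R 0) g :=
    hi2.trans (S_Basic.Gd_mono S (le_max_left _ _) g)
  refine ⟨i, hi1, hi3, ?_⟩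
  intro n hn
  obtain ⟨k, rfl⟩ := Nat.exists_eq_add_of_le' hn
  have hcl : closure ((ψ i).E 2)ᶜ ⊆ S.Gd (max R 0) g := by
    refine Subset.trans ?_ hi3
    unfold Chart.E
    rw [compl_compl]
    refine closure_minimal (image_mono (ball_subset_closedBall.trans
      (closedBall_subset_closedBall (by norm_num)))) ?_
    exact isClosed_D (ψ i) 3
  have h := F_Sep2.sepBound_smul T (m := k) (k := g) (le_max_right R 0) (isClosed_E (ψ i) 2)
    (disjoint_D_E (ψ i) (by norm_num)) hcl hL1pos.le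
    (F_Sep2.SepBound.mono (hL i k) subset_rfl subset_rfl (hLi i))
  rw [smul_D, smul_E]
  exact F_Sep2.SepBound.mono h subset_rfl subset_rfl (by linarith)

/-- charts around shadows, with a uniform `SepBound` -/
theorem exists_chart_Sh (T : Tiles S) (Φ : Z ≃ₜ S2)
    (hM : ∀ ψ : Chart Z, ∃ L : ℝ, ∀ n : ℕ, SepBound T n (ψ.D 1) (ψ.E 2) L) (R : ℝ) :
    ∃ (L R2 : ℝ) (c : ℕ), 0 < L ∧ 0 ≤ R2 ∧ ∀ h : G, c ≤ S.len h → (S.Sh R h).Nonempty →
      ∃ χ : Chart Z, S.Sh R h ⊆ χ.D (1 / 2) ∧ χ.f '' closedBall 0 3 ⊆ S.Sh R2 h ∧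
        ∀ n ≥ S.len h, SepBound T n (χ.D 1) (χ.E 2) L := by
  obtain ⟨m, ψ, η, R1, L, hη, hR1, hL, hstd⟩ := exists_std T Φ hM (2 * S.δ)
  have hδ := S_Basic.δ_pos S
  have hε := S.ε_pos
  -- choose `c`
  obtain ⟨c, hc⟩ : ∃ c : ℕ, R ≤ c ∧
      Real.exp (S.ε * (1 + 5 * S.δ + R)) * Real.exp (-S.ε * c) ≤ η := by
    obtain ⟨c, hc⟩ := exists_nat_ge (max R ((S.ε * (1 + 5 * S.δ + R) - Real.log η) / S.ε))
    refine ⟨c, (le_max_left _ _).trans hc, ?_⟩
    rw [← Real.exp_add, ← Real.le_log_iff_exp_le hη]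
    have h1 := (le_max_right _ _).trans hc
    rw [div_le_iff₀ hε] at h1
    linarith
  obtain ⟨hcR, hcη⟩ := hc
  refine ⟨L, c + R1 + 2 * S.δ, c, hL, by positivity, ?_⟩
  intro h hh ⟨x, hx⟩
  obtain ⟨h', hh', hlen⟩ := S.geod h (S.len h - c) (Nat.sub_le _ _)
  have hlc : (S.len h' : ℝ) = S.len h - c := by
    rw [hh', Nat.cast_sub hh]
  have hlc2 : (S.len (h'⁻¹ * h) : ℝ) = c := by
    rw [hlen]
    have : S.len h - (S.len h - c) = c := by omega
    rw [this]
  have hgp : S.gp h h' = S.len h - c := by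
    rw [S_Basic.gp_symm, S_Basic.gp_eq, hlc, hlc2]
    ring
  -- points of the shadow of `h` are in the shadow of `h'`
  have hsub : ∀ y ∈ S.Sh R h, y ∈ S.Sh S.δ h' := by
    intro y hy
    rw [S_Basic.mem_Sh] at hy ⊢
    have h1 := S_Basic.hyp_s1 S y h h'
    rw [hgp] at h1
    have h2 : (S.len h : ℝ) - c ≤ min (S.s y h) (S.len h - c) := le_min (by linarith) le_rfl
    linarith
  have hy0 : h'⁻¹ • x ∈ S.Gd (2 * S.δ) h' := by
    have := S_Basic.inv_smul_mem_Gd S (hsub x hx)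
    rwa [← two_mul] at this
  obtain ⟨i, hi1, hi2, hi3⟩ := hstd h' (h'⁻¹ • x) hy0
  refine ⟨Chart.smul S h' (ψ i), ?_, ?_, ?_⟩
  · intro y hy
    have hd : dist (h'⁻¹ • y) (h'⁻¹ • x) ≤ η := by
      have h1 := S_Basic.dist_smul_le S y x h'⁻¹
      rw [S.len_inv] at h1
      have h2 := S_Basic.dist_le_of_mem_Sh S hy hx
      refine h1.trans ?_
      calc Real.exp (S.ε * (1 + 4 * S.δ)) * Real.exp (S.ε * S.len h') * dist y x
          ≤ Real.exp (S.ε * (1 + 4 * S.δ)) * Real.exp (S.ε * S.len h') *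
            Real.exp (-S.ε * (S.len h - R - S.δ)) := by gcongr
        _ = Real.exp (S.ε * (1 + 5 * S.δ + R)) * Real.exp (-S.ε * c) := by
            rw [← Real.exp_add, ← Real.exp_add, ← Real.exp_add, hlc]
            congr 1
            ring
        _ ≤ η := hcη
    obtain ⟨p, hp, hpy⟩ := hi1 (mem_closedBall.2 hd)
    refine ⟨p, ball_subset_closedBall hp, ?_⟩
    show h' • (ψ i).f p = y
    rw [hpy, smul_inv_smul]
  · rw [smul_image]
    rintro _ ⟨z, hz, rfl⟩
    have h1 := S_Basic.smul_mem_Sh S (hi2 hz)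
    rw [S_Basic.mem_Sh] at h1 ⊢
    have h2 := S_Basic.hyp_s1 S (h' • z) h' h
    rw [S_Basic.gp_symm, hgp] at h2
    have h3 : (S.len h : ℝ) - c - R1 - S.δ ≤ min (S.s (h' • z) h') (S.len h - c) := by
      refine le_min (by rw [hlc] at h1; linarith) (by linarith)
    show (S.len h : ℝ) - (c + R1 + 2 * S.δ) ≤ S.s (h' • z) h
    linarith
  · intro n hn
    refine hi3 n (le_trans ?_ hn)
    rw [hh']
    exact Nat.sub_le _ _

/-! ### tiles -/

theorem tile_small (T : Tiles S) {r : ℝ} (hr : 0 < r) :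
    ∃ N : ℕ, ∀ n ≥ N, ∀ h ∈ S.sph n, ∀ x ∈ T.U h, ∀ y ∈ T.U h, dist x y < r := by
  have hε := S.ε_pos
  obtain ⟨N, hN⟩ := exists_nat_gt (T.R + S.δ - Real.log r / S.ε)
  refine ⟨N, fun n hn h hh x hx y hy => ?_⟩
  rw [F_Sep2.mem_sph] at hh
  refine lt_of_le_of_lt (S_Basic.dist_le_of_mem_Sh S (T.sub h hx) (T.sub h hy)) ?_
  rw [← Real.lt_log_iff_exp_lt hr, hh]
  have h1 : (N : ℝ) ≤ n := by exact_mod_cast hn
  have h2 : T.R + S.δ - Real.log r / S.ε < n := by linarith
  have h3 : Real.log r / S.ε * S.ε = Real.log r := by field_simp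
  nlinarith

theorem exists_small_level (T : Tiles S) (χ : Chart Z) : ∃ N : ℕ, ∀ n ≥ N, Small T n χ := by
  have hd : Disjoint (Ann χ 1 2) (χ.D (1 / 2) ∪ χ.E 3) := by
    rw [disjoint_union_right]
    exact ⟨(disjoint_D_Ann χ (by norm_num)).symm, (disjoint_E_Ann χ (by norm_num)).symm⟩
  obtain ⟨r, hr, hsep⟩ := Metric.exists_pos_forall_lt_edist (isCompact_Ann χ 1 2)
    ((isClosed_D χ (1 / 2)).union (isClosed_E χ 3)) hd
  obtain ⟨N, hN⟩ := tile_small T (r := r) (by exact_mod_cast hr)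
  refine ⟨N, fun n hn h hh ⟨z, hz1, hz2⟩ => ?_⟩
  have key : ∀ w ∈ T.U h, w ∉ χ.D (1 / 2) ∪ χ.E 3 := by
    intro w hw hw2
    have h1 := hsep z hz2 w hw2
    have h2 := hN n hn h hh z hz1 w hw
    rw [edist_dist, ENNReal.lt_ofReal_iff_toReal_lt (by simp)] at h1
    simp only [ENNReal.coe_toReal] at h1
    linarith
  constructor
  · rw [disjoint_left]
    intro w hw hw2
    exact key w hw (Or.inl hw2)
  · rw [disjoint_left]
    intro w hw hw2
    exact key w hw (Or.inr hw2)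

/-- valence bound -/
theorem exists_degLe (T : Tiles S) : ∃ Δ : ℕ, ∀ n, DegLe T n Δ := by
  classical
  refine ⟨(S.bal ⌊2 * T.R + 2 * S.δ⌋₊).card, fun n h hh A hA hadj => ?_⟩
  have h1 : A.filter (fun _ => True) = A := by simp
  rw [← h1]
  refine F_Sep2.card_filter_le (S := S) A (fun k => h⁻¹ * k) (fun a b hab => by simpa using hab) _ ?_
  intro k hk _
  obtain ⟨z, hz1, hz2⟩ := hadj k hk
  apply Nat.le_floor
  rw [F_Sep2.mem_sph] at hh
  have hk' := F_Sep2.mem_sph.1 (hA hk)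
  exact S_Basic.len_le_of_mem_Sh_of_eq S (hh.trans hk'.symm) (T.sub h hz1) (T.sub k hz2)

/-- overlap bound: a tile of level `n ≥ m` meets boundedly many shadows of level `m` -/
theorem exists_overlap (T : Tiles S) (R : ℝ) : ∃ N : ℕ, ∀ m n : ℕ, m ≤ n → ∀ k ∈ S.sph n,
    ∀ A ⊆ S.sph m, (∀ h ∈ A, (T.U k ∩ S.Sh R h).Nonempty) → A.card ≤ N := by
  classical
  refine ⟨(S.bal ⌊2 * max R T.R + 4 * S.δ⌋₊).card, fun m n hmn k hk A hA hne => ?_⟩
  rcases A.eq_empty_or_nonempty with rfl | ⟨h0, hh0⟩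
  · simp
  have hgp : ∀ h ∈ A, (m : ℝ) - max R T.R - S.δ ≤ S.gp k h := by
    intro h hh
    obtain ⟨z, hz1, hz2⟩ := hne h hh
    have h1 := S_Basic.gp_ge_of_mem_Sh S (T.sub k hz1) hz2
    rw [F_Sep2.mem_sph.1 hk, F_Sep2.mem_sph.1 (hA hh)] at h1
    have h2 : (m : ℝ) ≤ n := by exact_mod_cast hmn
    have h3 := le_max_left R T.R
    have h4 := le_max_right R T.R
    have h5 : (m : ℝ) - max R T.R ≤ min ((n : ℝ) - T.R) (m - R) := le_min (by linarith) (by linarith)
    linarith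
  have h1 : A.filter (fun _ => True) = A := by simp
  rw [← h1]
  refine F_Sep2.card_filter_le (S := S) A (fun k => h0⁻¹ * k) (fun a b hab => by simpa using hab)
    _ ?_
  intro h hh _
  apply Nat.le_floor
  have h2 := S_Basic.hyp S h0 k h
  rw [S_Basic.gp_symm S h0 k] at h2
  have h3 : (m : ℝ) - max R T.R - S.δ ≤ min (S.gp k h0) (S.gp k h) :=
    le_min (hgp h0 hh0) (hgp h hh)
  have h4 := S_Basic.len_inv_mul_eq S h0 h
  rw [F_Sep2.mem_sph.1 (hA hh0), F_Sep2.mem_sph.1 (hA hh)] at h4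
  linarith

/-- sum over shadows of the local energies -/
theorem sum_gradSq_le (T : Tiles S) {R : ℝ} {N m n : ℕ} (f : G → ℝ)
    (hN : ∀ k ∈ S.sph n, ∀ A ⊆ S.sph m, (∀ h ∈ A, (T.U k ∩ S.Sh R h).Nonempty) → A.card ≤ N) :
    ∑ h ∈ S.sph m, gradSq T n f (S.Sh R h) ≤ N * ∑ k ∈ S.sph n, grad T n f k ^ 2 := by
  classical
  unfold gradSq
  simp_rw [Finset.sum_filter]
  rw [Finset.sum_comm, Finset.mul_sum]
  refine Finset.sum_le_sum fun k hk => ?_
  rw [← Finset.sum_filter, Finset.sum_const, nsmul_eq_mul]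
  have h1 := hN k hk ((S.sph m).filter fun h => (T.U k ∩ S.Sh R h).Nonempty)
    (Finset.filter_subset _ _) (fun h hh => (Finset.mem_filter.1 hh).2)
  have h2 : (((S.sph m).filter fun h => (T.U k ∩ S.Sh R h).Nonempty).card : ℝ) ≤ N := by
    exact_mod_cast h1
  exact mul_le_mul_of_nonneg_right h2 (sq_nonneg _)

/-- from the energy to the sum of the squares of the gradients -/
theorem sum_grad_sq_le (T : Tiles S) {n Δ : ℕ} (hΔ : DegLe T n Δ) (f : G → ℝ) :
    open scoped Classical in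
    ∑ k ∈ S.sph n, grad T n f k ^ 2 ≤
      Δ * ∑ h ∈ S.sph n, ∑ h' ∈ (S.sph n).filter (fun h' => T.adj h h'), (f h - f h') ^ 2 := by
  classical
  rw [Finset.mul_sum]
  refine Finset.sum_le_sum fun k hk => ?_
  unfold grad
  refine (sq_sum_le_card_mul_sum_sq (s := (S.sph n).filter (T.adj k))
    (f := fun k' => |f k' - f k|)).trans ?_
  have h1 : (((S.sph n).filter (T.adj k)).card : ℝ) ≤ Δ := by
    exact_mod_cast hΔ.card_filter hk
  have h2 : ∑ k' ∈ (S.sph n).filter (T.adj k), |f k' - f k| ^ 2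
      = ∑ k' ∈ (S.sph n).filter (fun h' => T.adj k h'), (f k - f k') ^ 2 := by
    refine Finset.sum_congr rfl fun k' _ => ?_
    rw [sq_abs]; ring
  rw [← h2]
  exact mul_le_mul_of_nonneg_right h1 (Finset.sum_nonneg fun _ _ => sq_nonneg _)

/-- **Square summability of the oscillations over shadows.** -/
theorem hsum_of (T : Tiles S) (Φ : Z ≃ₜ S2)
    (hM : ∀ ψ : Chart Z, ∃ L : ℝ, ∀ n : ℕ, SepBound T n (ψ.D 1) (ψ.E 2) L) {D E : Set Z}
    (hD : IsPreconnected D) (hE : IsPreconnected E) (hD2 : D.Nontrivial) (hE2 : E.Nontrivial)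
    (C : ℝ) (R : ℝ) :
    ∃ C' : ℝ, ∀ m : ℕ, ∃ n0 : ℕ, ∀ n ≥ n0, ∀ f : G → ℝ, Pot T n D E f →
      ∑ k ∈ S.sph n, grad T n f k ^ 2 ≤ C →
      ∃ o : G → ℝ, (∀ h ∈ S.sph m, ∀ k ∈ S.sph n, ∀ k' ∈ S.sph n, (T.U k ∩ S.Sh R h).Nonempty →
        (T.U k' ∩ S.Sh R h).Nonempty → |f k - f k'| ≤ o h) ∧ ∑ h ∈ S.sph m, o h ^ 2 ≤ C' := by
  classical
  have := locallyPathConnected Φ
  have := preconnected Φ
  have := compact Φ
  have hX := splits Φ
  have hε := S.ε_pos
  obtain ⟨L, R2, c, hL, hR2, hch⟩ := exists_chart_Sh T Φ hM R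
  obtain ⟨N, hN⟩ := exists_overlap T R2
  -- large levels `m`
  obtain ⟨a1, ha1, b1, hb1, hab1⟩ := hD2
  obtain ⟨a2, ha2, b2, hb2, hab2⟩ := hE2
  obtain ⟨m1, hm1⟩ : ∃ m1 : ℕ, ∀ h : G, m1 ≤ S.len h → ∀ x ∈ S.Sh R2 h, ∀ y ∈ S.Sh R2 h,
      dist x y < min (dist a1 b1) (dist a2 b2) := by
    have hr : 0 < min (dist a1 b1) (dist a2 b2) := lt_min (dist_pos.2 hab1) (dist_pos.2 hab2)
    obtain ⟨m1, hm1⟩ := exists_nat_gt (R2 + S.δ - Real.log (min (dist a1 b1) (dist a2 b2)) / S.ε)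
    refine ⟨m1, fun h hh x hx y hy => ?_⟩
    refine lt_of_le_of_lt (S_Basic.dist_le_of_mem_Sh S hx hy) ?_
    rw [← Real.lt_log_iff_exp_lt hr]
    have h1 : (m1 : ℝ) ≤ S.len h := by exact_mod_cast hh
    have h3 : Real.log (min (dist a1 b1) (dist a2 b2)) / S.ε * S.ε
        = Real.log (min (dist a1 b1) (dist a2 b2)) := by field_simp
    nlinarith
  set m0 : ℕ := max c m1 with hm0
  -- the constant
  set K : ℝ := ∑ m ∈ Finset.range m0, ((S.sph m).card : ℝ) with hK
  have hK0 : 0 ≤ K := Finset.sum_nonneg fun _ _ => Nat.cast_nonneg _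
  refine ⟨K + 16 * L * (N * |C|), fun m => ?_⟩
  by_cases hm : m < m0
  · refine ⟨0, fun n _ f hf _ => ⟨fun _ => 1, fun h _ k _ k' _ _ _ => ?_, ?_⟩⟩
    · have h1 := hf.bd k
      have h2 := hf.bd k'
      rw [abs_le]
      constructor <;> linarith
    · simp only [one_pow, Finset.sum_const, nsmul_eq_mul, mul_one]
      have h1 : ((S.sph m).card : ℝ) ≤ K :=
        Finset.single_le_sum (f := fun m => ((S.sph m).card : ℝ)) (fun _ _ => Nat.cast_nonneg _)
          (Finset.mem_range.2 hm)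
      have : 0 ≤ 16 * L * (N * |C|) := by positivity
      linarith
  · push Not at hm
    have hmc : c ≤ m := (le_max_left _ _).trans hm
    have hmm1 : m1 ≤ m := (le_max_right _ _).trans hm
    -- charts for the shadows of level `m`
    have hch' : ∀ h : G, ∃ (nh : ℕ), h ∈ S.sph m → (S.Sh R h).Nonempty → ∀ n ≥ nh, ∀ f : G → ℝ,
        Pot T n D E f → ∀ k ∈ S.sph n, ∀ k' ∈ S.sph n, (T.U k ∩ S.Sh R h).Nonempty →
        (T.U k' ∩ S.Sh R h).Nonempty →
        |f k - f k'| ≤ 4 * Real.sqrt (L * gradSq T n f (S.Sh R2 h)) := by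
      intro h
      by_cases hh : h ∈ S.sph m ∧ (S.Sh R h).Nonempty
      · obtain ⟨hh1, hh2⟩ := hh
        have hlen := F_Sep2.mem_sph.1 hh1
        obtain ⟨χ, hχ1, hχ2, hχ3⟩ := hch h (by rw [hlen]; exact hmc) hh2
        obtain ⟨n1, hn1⟩ := exists_small_level T χ
        have hmeet : ∀ (F : Set Z) (a b : Z), a ∈ F → b ∈ F →
            min (dist a1 b1) (dist a2 b2) ≤ dist a b → (F ∩ χ.E 3).Nonempty := by
          intro F a b ha hb hab
          by_contra hcon
          rw [not_nonempty_iff_eq_empty] at hcon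
          have hF : ∀ z ∈ F, z ∈ S.Sh R2 h := by
            intro z hz
            have h1 : z ∉ χ.E 3 := fun h2 => by
              have : z ∈ F ∩ χ.E 3 := ⟨hz, h2⟩
              rw [hcon] at this
              exact this
            unfold Chart.E at h1
            rw [mem_compl_iff, not_not] at h1
            exact hχ2 (image_mono ball_subset_closedBall h1)
          have := hm1 h (by rw [hlen]; exact hmm1) a (hF a ha) b (hF b hb)
          linarith
        refine ⟨max n1 m, fun _ _ n hn f hf k hk k' hk' h1 h2 => ?_⟩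
        have h3 := ann_osc hX T hD hE χ (hmeet D a1 b1 ha1 hb1 (min_le_left _ _))
          (hmeet E a2 b2 ha2 hb2 (min_le_right _ _))
          (hχ3 n (by rw [hlen]; exact (le_max_right _ _).trans hn))
          (hn1 n ((le_max_left _ _).trans hn)) hf k hk k' hk'
          (h1.mono (inter_subset_inter_right _ hχ1)) (h2.mono (inter_subset_inter_right _ hχ1))
        refine h3.trans ?_
        have h4 : gradSq T n f (Ann χ 1 2) ≤ gradSq T n f (S.Sh R2 h) := by
          refine gradSq_mono T n f (Subset.trans ?_ hχ2)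
          refine image_mono ?_
          intro p hp
          have hp' : dist p 0 ≤ 2 := hp.2
          exact mem_closedBall.2 (hp'.trans (by norm_num))
        gcongr
      · refine ⟨0, fun h1 h2 => absurd ⟨h1, h2⟩ hh⟩
    choose nh hnh using hch'
    refine ⟨max m ((S.sph m).sup nh), fun n hn f hf hC => ?_⟩
    refine ⟨fun h => 4 * Real.sqrt (L * gradSq T n f (S.Sh R2 h)), ?_, ?_⟩
    · intro h hh k hk k' hk' h1 h2
      have hne : (S.Sh R h).Nonempty := h1.mono inter_subset_right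
      refine hnh h hh hne n ?_ f hf k hk k' hk' h1 h2
      exact (Finset.le_sup hh).trans ((le_max_right _ _).trans hn)
    · have h1 : ∀ h ∈ S.sph m, (4 * Real.sqrt (L * gradSq T n f (S.Sh R2 h))) ^ 2
          = 16 * L * gradSq T n f (S.Sh R2 h) := by
        intro h _
        rw [mul_pow, Real.sq_sqrt (mul_nonneg hL.le (gradSq_nonneg T n f _))]
        ring
      rw [Finset.sum_congr rfl h1, ← Finset.mul_sum]
      have h2 := sum_gradSq_le T f (hN m n ((le_max_left _ _).trans hn))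
      have h3 : (N : ℝ) * ∑ k ∈ S.sph n, grad T n f k ^ 2 ≤ N * |C| := by
        have := hC.trans (le_abs_self C)
        gcongr
      have h4 : 16 * L * ∑ h ∈ S.sph m, gradSq T n f (S.Sh R2 h) ≤ 16 * L * (N * |C|) := by
        have := h2.trans h3
        gcongr
      linarith

theorem nontrivial_D (ψ : Chart Z) : (ψ.D 1).Nontrivial := by
  refine ⟨ψ.f 0, ⟨0, by simp, rfl⟩, ψ.f (1, 0), ⟨(1, 0), ?_, rfl⟩, ?_⟩
  · rw [mem_closedBall, dist_zero_right, Prod.norm_def]
    simp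
  · intro h
    have := ψ.emb.injective h
    have h2 := congrArg Prod.fst this
    simp at h2

theorem nontrivial_E (ψ : Chart Z) : (ψ.E 2).Nontrivial := by
  have hmem : ∀ t : ℝ, 2 ≤ t → ψ.f (t, 0) ∈ ψ.E 2 := by
    rintro t ht ⟨q, hq, hqp⟩
    have := ψ.emb.injective hqp
    subst this
    rw [mem_ball, dist_zero_right, Prod.norm_def] at hq
    have h2 := le_max_left ‖t‖ ‖(0:ℝ)‖
    have h3 := le_abs_self t
    rw [← Real.norm_eq_abs] at h3
    have hq' : max ‖t‖ ‖(0:ℝ)‖ < 2 := hq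
    linarith
  refine ⟨ψ.f (2, 0), hmem 2 le_rfl, ψ.f (3, 0), hmem 3 (by norm_num), ?_⟩
  intro h
  have := ψ.emb.injective h
  have h2 := congrArg Prod.fst this
  norm_num at h2

open scoped Classical in
/-- the form consumed by `F_Three` (helper321) -/
theorem hsum (T : Tiles S) (Φ : Z ≃ₜ S2)
    (hM : ∀ ψ : Chart Z, ∃ L : ℝ, ∀ n : ℕ, SepBound T n (ψ.D 1) (ψ.E 2) L) (ψ : Chart Z) (C : ℝ) :
    ∀ R : ℝ, ∃ C' : ℝ, ∀ m : ℕ, ∃ n0 : ℕ, ∀ n ≥ n0, ∀ f : G → ℝ,
      Pot T n (ψ.D 1) (ψ.E 2) f →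
      (∑ h ∈ S.sph n, ∑ h' ∈ (S.sph n).filter (fun h' => T.adj h h'), (f h - f h') ^ 2 ≤ C) →
      ∃ o : G → ℝ, (∀ h ∈ S.sph m, ∀ k ∈ S.sph n, ∀ k' ∈ S.sph n, (T.U k ∩ S.Sh R h).Nonempty →
        (T.U k' ∩ S.Sh R h).Nonempty → |f k - f k'| ≤ o h) ∧ ∑ h ∈ S.sph m, (o h) ^ 2 ≤ C' := by
  have := preconnected Φ
  intro R
  obtain ⟨Δ, hΔ⟩ := exists_degLe T
  obtain ⟨C', hC'⟩ := hsum_of T Φ hM (isConnected_D ψ zero_le_one).isPreconnected
    (isPreconnected_E ψ two_pos) (nontrivial_D ψ) (nontrivial_E ψ) (Δ * C) R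
  refine ⟨C', fun m => ?_⟩
  obtain ⟨n0, hn0⟩ := hC' m
  refine ⟨n0, fun n hn f hf hen => hn0 n hn f hf ?_⟩
  refine (sum_grad_sq_le T (hΔ n) f).trans ?_
  gcongr

end Crest.Agent.R193.D1_Sum
end
end

-- ▼ part R193/F_Main
section

/-!
# R193, block F: `F_main`
-/

set_option autoImplicit false

noncomputable section

open Set Filter Topology Metric

namespace Crest.Agent.R193.F_Main

open Crest.Agent.R193

/-- BLOCK F (statement copied from `Spec.F_main`). -/
theorem F_main {G Z : Type} [Group G] [MetricSpace Z] [MulAction G Z]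
    (S : Setup G Z) (T : Tiles S) (Φ : Z ≃ₜ S2)
    (hM : ∀ ψ : Chart Z, ∃ L : ℝ, ∀ n : ℕ, SepBound T n (ψ.D 1) (ψ.E 2) L) :
    Nonempty (DForm S) := by
  refine F_Pre.F_main_pre (F_One.F1_spec G Z) ?_ S T Φ hM
  intro S T Φ hM ψ
  refine F_Three.F3_of T Φ hM ψ ?_
  intro C R
  obtain ⟨C', hC'⟩ := D1_Sum.hsum T Φ hM ψ C R
  refine ⟨C', fun m => ?_⟩
  obtain ⟨n0, hn0⟩ := hC' m
  exact ⟨n0, fun n hn f hf hen => hn0 n hn f hf hen⟩

end Crest.Agent.R193.F_Main
end
end

-- ▼ part R193/M1_Records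
section

/-!
# R193 M1 (helper260): record levels
-/

set_option autoImplicit false

open Set Filter Topology Metric

namespace Crest.Agent.R193.M1x

open Crest.Agent.R193 Crest.Agent.R193.CHx

variable {G Z : Type} [Group G] [MetricSpace Z] [MulAction G Z]

lemma SepBound.mono_const {S : Setup G Z} {T : Tiles S} {n : ℕ} {D E : Set Z} {L L' : ℝ}
    (h : SepBound T n D E L) (hL : L ≤ L') : SepBound T n D E L' := by
  intro ρ hρ
  obtain ⟨A, h1, h2, h3⟩ := h ρ hρ
  refine ⟨A, h1, h2, h3.trans ?_⟩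
  have : 0 ≤ ∑ h ∈ S.sph n, (ρ h) ^ 2 := Finset.sum_nonneg fun _ _ => sq_nonneg _
  gcongr

lemma sum_biUnion_le {ι : Type} [DecidableEq G] (s : Finset ι) (A : ι → Finset G) (f : G → ℝ)
    (hf : ∀ h, 0 ≤ f h) : ∑ h ∈ s.biUnion A, f h ≤ ∑ j ∈ s, ∑ h ∈ A j, f h := by
  classical
  induction s using Finset.induction_on with
  | empty => simp
  | insert a s ha ih =>
    rw [Finset.biUnion_insert, Finset.sum_insert ha]
    have h1 := Finset.sum_union_inter (s₁ := A a) (s₂ := s.biUnion A) (f := f)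
    have h2 : 0 ≤ ∑ h ∈ A a ∩ s.biUnion A, f h := Finset.sum_nonneg fun h _ => hf h
    linarith

/-- the trivial bound -/
lemma sepBound_card {S : Setup G Z} (T : Tiles S) (n : ℕ) (D E : Set Z) :
    SepBound T n D E ((S.sph n).card) := by
  intro ρ _
  exact ⟨S.sph n, Finset.Subset.refl _, separates_sph T n D E, sq_sum_le_card_mul_sum_sq⟩

/-- the set of admissible constants is closed -/
lemma sepBound_of_forall_gt {S : Setup G Z} {T : Tiles S} {n : ℕ} {D E : Set Z} {L : ℝ}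
    (h : ∀ L' > L, SepBound T n D E L') : SepBound T n D E L := by
  classical
  intro ρ hρ
  set s : ℝ := ∑ h ∈ S.sph n, (ρ h) ^ 2 with hs
  have hs0 : 0 ≤ s := Finset.sum_nonneg fun _ _ => sq_nonneg _
  set F : Finset (Finset G) := (S.sph n).powerset.filter fun A => Separates (T.un A) D E with hF
  have hFne : F.Nonempty := ⟨S.sph n, by simp [hF, separates_sph]⟩
  obtain ⟨A, hA, hmin⟩ := F.exists_min_image (fun A => (∑ h ∈ A, ρ h) ^ 2) hFne
  simp only [hF, Finset.mem_filter, Finset.mem_powerset] at hA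
  refine ⟨A, hA.1, hA.2, ?_⟩
  refine le_of_forall_pos_lt_add fun ε hε => ?_
  obtain ⟨B, hB1, hB2, hB3⟩ := h (L + ε / (2 * (s + 1))) (by
    have : 0 < ε / (2 * (s + 1)) := by positivity
    linarith) ρ hρ
  have h1 := hmin B (by simp only [hF, Finset.mem_filter, Finset.mem_powerset]; exact ⟨hB1, hB2⟩)
  have h2 : ε / (2 * (s + 1)) * s ≤ ε / 2 := by
    rw [div_mul_eq_mul_div, div_le_div_iff₀ (by positivity) (by norm_num)]
    nlinarith
  calc (∑ h ∈ A, ρ h) ^ 2 ≤ (∑ h ∈ B, ρ h) ^ 2 := h1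
    _ ≤ (L + ε / (2 * (s + 1))) * s := hB3
    _ = L * s + ε / (2 * (s + 1)) * s := by ring
    _ < L * s + ε := by linarith

/-- **Record levels.** If the separating moduli of the family `ψ` degenerate, there are a sequence of
constants `L n → ∞`, good up to level `n`, and one rectangle `χ` with infinitely many record levels at
which the left-right modulus of `χ` is at most `32 / L`. -/
theorem exists_records (S : Setup G Z) (T : Tiles S) (Φ : Z ≃ₜ S2) {m : ℕ} (ψ : Fin m → Chart Z)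
    (h : ¬ ∃ L : ℝ, ∀ (i : Fin m) (n : ℕ), SepBound T n ((ψ i).D 1) ((ψ i).E 2) L) :
    ∃ (L : ℕ → ℝ) (χ : Chart Z) (φ : ℕ → ℕ), Monotone L ∧ Tendsto L atTop atTop ∧ (∀ n, 1 ≤ L n) ∧
      (∀ (i : Fin m) (n : ℕ), ∀ k ≤ n, SepBound T k ((ψ i).D 1) ((ψ i).E 2) (L n)) ∧
      StrictMono φ ∧ (∃ (i : Fin m) (j : Fin 4), χ = (ψ i).comp (rect j)) ∧
      ∀ k, ∃ ρ : G → ℝ, (∀ h, 0 ≤ ρ h) ∧ LRadm T (φ k) χ ρ ∧
        ∑ h ∈ S.sph (φ k), (ρ h) ^ 2 ≤ 32 / L (φ k) := by
  classical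
  -- the sets of good constants
  set GC : ℕ → Set ℝ := fun n => {L : ℝ | 1 ≤ L ∧ ∀ (i : Fin m), ∀ k ≤ n,
    SepBound T k ((ψ i).D 1) ((ψ i).E 2) L} with hGC
  have hbdd : ∀ n, BddBelow (GC n) := fun n => ⟨1, fun L hL => hL.1⟩
  have hne : ∀ n, (GC n).Nonempty := by
    intro n
    refine ⟨1 + ∑ k ∈ Finset.range (n + 1), ((S.sph k).card : ℝ), ?_, ?_⟩
    · have : (0 : ℝ) ≤ ∑ k ∈ Finset.range (n + 1), ((S.sph k).card : ℝ) :=
        Finset.sum_nonneg fun _ _ => Nat.cast_nonneg _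
      linarith
    · intro i k hk
      refine SepBound.mono_const (sepBound_card T k _ _) ?_
      have : ((S.sph k).card : ℝ) ≤ ∑ k ∈ Finset.range (n + 1), ((S.sph k).card : ℝ) :=
        Finset.single_le_sum (f := fun k => ((S.sph k).card : ℝ)) (fun _ _ => Nat.cast_nonneg _)
          (Finset.mem_range.mpr (by omega))
      linarith
  set L : ℕ → ℝ := fun n => sInf (GC n) with hL
  have hLmem : ∀ n, L n ∈ GC n := by
    intro n
    refine ⟨le_csInf (hne n) fun b hb => hb.1, fun i k hk => ?_⟩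
    refine sepBound_of_forall_gt fun L' hL' => ?_
    obtain ⟨b, hb, hbL⟩ := exists_lt_of_csInf_lt (hne n) hL'
    exact SepBound.mono_const (hb.2 i k hk) hbL.le
  have hmono : Monotone L := by
    intro a b hab
    exact csInf_le_csInf (hbdd a) (hne b) fun x hx => ⟨hx.1, fun i k hk => hx.2 i k (hk.trans hab)⟩
  have hunb : ∀ C : ℝ, ∃ n, C < L n := by
    intro C
    by_contra hcon
    push Not at hcon
    exact h ⟨C, fun i n => SepBound.mono_const ((hLmem n).2 i n le_rfl) (hcon n)⟩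
  have htend : Tendsto L atTop atTop := by
    rw [tendsto_atTop_atTop]
    intro C
    obtain ⟨n, hn⟩ := hunb C
    exact ⟨n, fun a ha => hn.le.trans (hmono ha)⟩
  -- gluing thresholds
  choose N hN using fun i : Fin m => gluing T Φ (ψ i)
  -- record levels
  have hrec : ∀ N0 : ℕ, ∃ k > N0, ∃ (i : Fin m) (L' : ℝ), L k / 2 ≤ L' ∧
      ¬ SepBound T k ((ψ i).D 1) ((ψ i).E 2) L' := by
    intro N0
    obtain ⟨n, hn⟩ := hunb (2 * L N0)
    have h1 : 1 ≤ L N0 := (hLmem N0).1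
    have h2 : L n / 2 < L n := by linarith
    have h3 : L n / 2 ∉ GC n := fun hmem => by
      have := csInf_le (hbdd n) hmem
      have h4 : L n = sInf (GC n) := rfl
      linarith
    have h5 : ∃ (i : Fin m) (k : ℕ), k ≤ n ∧ ¬ SepBound T k ((ψ i).D 1) ((ψ i).E 2) (L n / 2) := by
      by_contra hcon
      push Not at hcon
      exact h3 ⟨by linarith, fun i k hk => hcon i k hk⟩
    obtain ⟨i, k, hk, hkS⟩ := h5
    refine ⟨k, ?_, i, L n / 2, by have := hmono hk; linarith, hkS⟩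
    by_contra hle
    push Not at hle
    exact hkS (SepBound.mono_const ((hLmem N0).2 i k hle) (by linarith))
  -- admissible weights
  have hadm : ∀ N0 : ℕ, ∃ k > N0, ∃ (i : Fin m) (j : Fin 4), ∃ ρ : G → ℝ, (∀ h, 0 ≤ ρ h) ∧
      LRadm T k ((ψ i).comp (rect j)) ρ ∧ ∑ h ∈ S.sph k, (ρ h) ^ 2 ≤ 32 / L k := by
    intro N0
    obtain ⟨k, hk, i, L', hL', hS⟩ := hrec (N0 + ∑ i, N i)
    have hkN : N i ≤ k := by
      have : N i ≤ ∑ i, N i := Finset.single_le_sum (fun _ _ => Nat.zero_le _) (Finset.mem_univ i)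
      omega
    refine ⟨k, by omega, i, ?_⟩
    have hLk : 1 ≤ L k := (hLmem k).1
    have hL'p : 0 < L' := by linarith
    unfold SepBound at hS
    push Not at hS
    obtain ⟨ρ, hρ, hρS⟩ := hS
    set s : ℝ := ∑ h ∈ S.sph k, (ρ h) ^ 2 with hs
    have hs0 : 0 ≤ s := Finset.sum_nonneg fun _ _ => sq_nonneg _
    have hspos : 0 < s := by
      rcases hs0.eq_or_lt with h0 | h0
      · exfalso
        have h1 := hρS (S.sph k) (Finset.Subset.refl _) (separates_sph T k _ _)
        rw [← h0, mul_zero] at h1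
        have h2 : ∀ h ∈ S.sph k, ρ h = 0 := by
          intro h hh
          have h3 := (Finset.sum_eq_zero_iff_of_nonneg (fun _ _ => sq_nonneg _)).mp h0.symm h hh
          exact pow_eq_zero_iff (two_ne_zero) |>.mp h3
        rw [Finset.sum_eq_zero h2] at h1
        simp at h1
      · exact h0
    set c : ℝ := Real.sqrt (L' * s) with hc
    have hcpos : 0 < c := Real.sqrt_pos.mpr (by positivity)
    have hcsq : c ^ 2 = L' * s := Real.sq_sqrt (by positivity)
    by_contra hcon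
    push Not at hcon
    -- short crossings in all four rectangles
    have hshort : ∀ j : Fin 4, ∃ A : Finset G, Crossing T k ((ψ i).comp (rect j)) A ∧
        ∑ h ∈ A, ρ h < c / 4 := by
      intro j
      have h1 := hcon j (fun h => 4 / c * ρ h) (fun h => mul_nonneg (by positivity) (hρ h))
      by_contra h2
      push Not at h2
      have h3 : LRadm T k ((ψ i).comp (rect j)) (fun h => 4 / c * ρ h) := by
        intro A hA
        have h4 := h2 A hA
        rw [← Finset.mul_sum, div_mul_eq_mul_div, le_div_iff₀ hcpos]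
        linarith
      have h5 := h1 h3
      have h6 : ∑ h ∈ S.sph k, (4 / c * ρ h) ^ 2 = 16 / L' := by
        have : ∀ h ∈ S.sph k, (4 / c * ρ h) ^ 2 = 16 / c ^ 2 * ρ h ^ 2 := fun h _ => by ring
        rw [Finset.sum_congr rfl this, ← Finset.mul_sum, hcsq, ← hs]
        field_simp
      rw [h6] at h5
      have h7 : 16 / L' ≤ 32 / L k := by
        rw [div_le_div_iff₀ hL'p (by linarith)]
        linarith
      linarith
    choose A hA1 hA2 using hshort
    set B : Finset G := Finset.univ.biUnion A with hB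
    have hBsub : B ⊆ S.sph k := Finset.biUnion_subset.mpr fun j _ => (hA1 j).sub
    have hsep := hN i k hkN A hA1 B (fun j => Finset.subset_biUnion_of_mem A (Finset.mem_univ j))
    have h1 := hρS B hBsub hsep
    have h2 : ∑ h ∈ B, ρ h ≤ ∑ j : Fin 4, ∑ h ∈ A j, ρ h := by
      rw [hB]
      exact sum_biUnion_le _ A ρ hρ
    have h3 : ∑ j : Fin 4, ∑ h ∈ A j, ρ h < c := by
      rw [Fin.sum_univ_four]
      have := hA2 0; have := hA2 1; have := hA2 2; have := hA2 3
      linarith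
    have h4 : 0 ≤ ∑ h ∈ B, ρ h := Finset.sum_nonneg fun h _ => hρ h
    have h5 : (∑ h ∈ B, ρ h) ^ 2 ≤ c ^ 2 := by
      have : ∑ h ∈ B, ρ h ≤ c := by linarith
      gcongr
    rw [hcsq] at h5
    linarith
  -- pigeonhole
  have hfreq : ∃ p : Fin m × Fin 4, ∃ᶠ k in atTop, ∃ ρ : G → ℝ, (∀ h, 0 ≤ ρ h) ∧
      LRadm T k ((ψ p.1).comp (rect p.2)) ρ ∧ ∑ h ∈ S.sph k, (ρ h) ^ 2 ≤ 32 / L k := by
    by_contra hcon
    push Not at hcon
    have h1 : ∀ᶠ k in atTop, ∀ p : Fin m × Fin 4, ¬ ∃ ρ : G → ℝ, (∀ h, 0 ≤ ρ h) ∧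
      LRadm T k ((ψ p.1).comp (rect p.2)) ρ ∧ ∑ h ∈ S.sph k, (ρ h) ^ 2 ≤ 32 / L k := by
      rw [eventually_all]
      intro p
      have := hcon p
      rw [Filter.eventually_atTop] at *
      obtain ⟨a, ha⟩ := this
      refine ⟨a, fun b hb hex => ?_⟩
      obtain ⟨ρ, h1, h2, h3⟩ := hex
      have := ha b hb ρ h1 h2
      linarith
    obtain ⟨a, ha⟩ := eventually_atTop.mp h1
    obtain ⟨k, hk, i, j, ρ, hρ⟩ := hadm a
    exact ha k (by omega) (i, j) ⟨ρ, hρ⟩
  obtain ⟨p, hp⟩ := hfreq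
  obtain ⟨φ, hφ, hφp⟩ := extraction_of_frequently_atTop hp
  exact ⟨L, (ψ p.1).comp (rect p.2), φ, hmono, htend, fun n => (hLmem n).1,
    fun i n k hk => (hLmem n).2 i k hk, hφ, ⟨p.1, p.2, rfl⟩, hφp⟩

end Crest.Agent.R193.M1x
end

-- ▼ part R193/M1_Rec
section

/-!
# R193 M1 (helper260): from degenerating moduli to `Rec T`
-/

set_option autoImplicit false

open Set Filter Topology Metric

namespace Crest.Agent.R193.M1_Rec

open Crest.Agent.R193 Crest.Agent.R193.CHx Crest.Agent.R193.M1x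

variable {G Z : Type} [Group G] [MetricSpace Z] [MulAction G Z]

lemma Q_preconnected (χ : Chart Z) : IsPreconnected χ.Q :=
  (isPreconnected_Icc.prod isPreconnected_Icc).image _ χ.emb.continuous.continuousOn

/-- the graph of the tiles meeting `Q` is connected -/
theorem reachable {S : Setup G Z} (T : Tiles S) (χ : Chart Z) (n : ℕ) (v w : T.V χ n) :
    (T.gr χ n).Reachable v w := by
  have hcov : χ.Q ⊆ T.un (T.V χ n) := by
    intro x hx
    have h1 : x ∈ T.un (S.sph n) := by rw [M1x.un_sph]; trivial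
    obtain ⟨h, hh, hxh⟩ := mem_iUnion₂.mp h1
    exact mem_biUnion (x := h) (by
      show h ∈ (T.V χ n : Set G)
      exact_mod_cast Tiles.mem_V.mpr ⟨M1x.mem_sph.mp (by exact_mod_cast hh), x, hxh, hx⟩) hxh
  have h1 := T_Comp.chain_of_preconnected T (Q_preconnected χ) hcov v.2 w.2
    (Tiles.mem_V.mp v.2).2 (Tiles.mem_V.mp w.2).2
  have key : ∀ a b : G, Relation.ReflTransGen
      (fun a b => a ∈ T.V χ n ∧ b ∈ T.V χ n ∧ (T.U a ∩ T.U b ∩ χ.Q).Nonempty) a b →
      ∀ (ha : a ∈ T.V χ n) (hb : b ∈ T.V χ n), (T.gr χ n).Reachable ⟨a, ha⟩ ⟨b, hb⟩ := by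
    intro a b hab
    induction hab with
    | refl => intro ha hb; exact SimpleGraph.Reachable.refl _
    | @tail b c _ hbc ih =>
      intro ha hc
      refine (ih ha hbc.1).trans ?_
      by_cases hbc' : b = c
      · subst hbc'; exact SimpleGraph.Reachable.refl _
      · refine SimpleGraph.Adj.reachable ⟨fun h => hbc' (congrArg Subtype.val h), ?_⟩
        obtain ⟨x, hx, _⟩ := hbc.2.2
        exact ⟨x, hx⟩
  exact key v w h1 v.2 w.2

/-- walks give preconnected unions of tiles -/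
theorem walk_preconnected {S : Setup G Z} (T : Tiles S) (χ : Chart Z) (n : ℕ) {v w : T.V χ n}
    (p : (T.gr χ n).Walk v w) : IsPreconnected (⋃ h ∈ p.support, T.U (h : G)) := by
  induction p with
  | nil => simpa using (T.isConnected _).isPreconnected
  | cons hadj p ih =>
    rename_i a b c
    rw [SimpleGraph.Walk.support_cons]
    have h1 : (⋃ h ∈ a :: p.support, T.U (h : G)) = T.U (a : G) ∪ ⋃ h ∈ p.support, T.U (h : G) := by
      ext x; simp
    rw [h1]
    obtain ⟨x, hxa, hxb⟩ := hadj.2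
    exact (T.isConnected _).isPreconnected.union x hxa
      (mem_biUnion (x := b) p.start_mem_support hxb) ih

open Classical in
/-- walks from the left to the right are crossings -/
theorem crossing_of_walk {S : Setup G Z} (T : Tiles S) (χ : Chart Z) (n : ℕ) {v w : T.V χ n}
    (hv : v ∈ T.Lt χ n) (hw : w ∈ T.Rt χ n) (p : (T.gr χ n).Walk v w) :
    Crossing T n χ (p.support.toFinset.map (Function.Embedding.subtype _)) where
  sub := by
    intro h hh
    obtain ⟨a, _, rfl⟩ := Finset.mem_map.mp hh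
    exact M1x.mem_sph.mpr (Tiles.mem_V.mp a.2).1
  meets := by
    intro h hh
    obtain ⟨a, _, rfl⟩ := Finset.mem_map.mp hh
    exact (Tiles.mem_V.mp a.2).2
  conn := by
    have h1 := walk_preconnected T χ n p
    have h2 : T.un (p.support.toFinset.map (Function.Embedding.subtype _)) =
        ⋃ h ∈ p.support, T.U (h : G) := by
      ext x
      simp [Tiles.un]
    rw [h2]; exact h1
  left := ⟨v, Finset.mem_map.mpr ⟨v, List.mem_toFinset.mpr p.start_mem_support, rfl⟩, hv⟩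
  right := ⟨w, Finset.mem_map.mpr ⟨w, List.mem_toFinset.mpr p.end_mem_support, rfl⟩, hw⟩

/-- left and right tiles are different for large levels -/
theorem disjoint_left_right {S : Setup G Z} (T : Tiles S) (χ : Chart Z) :
    ∃ N : ℕ, ∀ n ≥ N, Disjoint (T.Lt χ n) (T.Rt χ n) := by
  obtain ⟨η, hη, hclose⟩ := exists_close χ
    (isCompact_singleton.prod isCompact_Icc : IsCompact (({(0 : ℝ)} : Set ℝ) ×ˢ Icc (0 : ℝ) 1))
    (by norm_num : (0 : ℝ) < 1)
  obtain ⟨N, hN⟩ := tile_small T hη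
  refine ⟨N, fun n hn => disjoint_left.mpr ?_⟩
  rintro ⟨h, hh⟩ ⟨x, hx, hxl⟩ ⟨y, hy, hyr⟩
  obtain ⟨p, hp, rfl⟩ := hxl
  obtain ⟨q, hq, rfl⟩ := hyr
  have h1 := hN n hn h (M1x.mem_sph.mpr (Tiles.mem_V.mp hh).1) _ hy _ hx
  obtain ⟨x', hx', hd⟩ := hclose p hp _ h1
  have h2 : x' = q := χ.emb.injective hx'
  subst h2
  have h3 : p.1 = 0 := hp.1
  have h4 : x'.1 = 1 := hq.1
  rw [Prod.dist_eq] at hd
  have h5 := (le_max_left (dist x'.1 p.1) (dist x'.2 p.2)).trans_lt hd
  rw [h3, h4, Real.dist_eq] at h5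
  norm_num at h5

/-- degree bound -/
theorem degree_le {S : Setup G Z} (T : Tiles S) (χ : Chart Z) (n : ℕ) (v : T.V χ n) :
    {w | (T.gr χ n).Adj v w}.ncard ≤ T_Comp.Nb S (2 * T.R + 2 * S.δ) := by
  classical
  rw [Set.ncard_eq_toFinset_card']
  rw [← Finset.card_map (Function.Embedding.subtype (fun x => x ∈ T.V χ n))]
  apply T_Comp.card_adj_le T (v : G)
  intro h hh
  obtain ⟨a, ha, rfl⟩ := Finset.mem_map.mp hh
  rw [Set.mem_toFinset] at ha
  exact ⟨by
    show S.len (a : G) = S.len (v : G)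
    rw [(Tiles.mem_V.mp a.2).1, (Tiles.mem_V.mp v.2).1], ha.2⟩

/-- **M1.** -/
theorem M1 (S : Setup G Z) (T : Tiles S) (Φ : Z ≃ₜ S2) (ψ0 : Chart Z)
    (h : ¬ ∃ L : ℝ, ∀ n : ℕ, SepBound T n (ψ0.D 1) (ψ0.E 2) L) : Nonempty (Rec T) := by
  classical
  have hcpt : CompactSpace Z := Φ.symm.compactSpace
  obtain ⟨m, ψ, η, R, hη, hfam⟩ := exists_family S Φ (T.R + 100 * S.δ) (r1 := 1) (r2 := 2)
    (by norm_num) (by norm_num)
  set ψ' : Fin (m + 1) → Chart Z := Fin.cons ψ0 ψ with hψ'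
  have h' : ¬ ∃ L : ℝ, ∀ (i : Fin (m + 1)) (n : ℕ),
      SepBound T n ((ψ' i).D 1) ((ψ' i).E 2) L := by
    rintro ⟨L, hL⟩
    exact h ⟨L, fun n => hL 0 n⟩
  obtain ⟨L, χ, φ, hmono, htend, hone, hsep, hφ, _, hρ⟩ := exists_records S T Φ ψ' h'
  obtain ⟨N, hN⟩ := disjoint_left_right T χ
  set Δ : ℕ := T_Comp.Nb S (2 * T.R + 2 * S.δ) with hΔ
  -- the potentials
  have hsol : ∀ n : ℕ, ∃ u : G → ℝ, Disjoint (T.Lt χ n) (T.Rt χ n) → (T.V χ n).Nonempty →
      (T.Lt χ n ∪ T.Rt χ n).Nonempty →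
      FG.Sol (T.gr χ n) (T.Lt χ n) (T.Rt χ n) (fun h => u (h : G)) := by
    intro n
    by_cases hd : Disjoint (T.Lt χ n) (T.Rt χ n) ∧ (T.Lt χ n ∪ T.Rt χ n).Nonempty
    · obtain ⟨hd, w, hw⟩ := hd
      obtain ⟨u, hu, _, _⟩ := FG.exists_sol (T.gr χ n) (T.Lt χ n) (T.Rt χ n) hd
        (fun v => ⟨w, hw, reachable T χ n v w⟩)
      refine ⟨fun g => if hg : g ∈ T.V χ n then u ⟨g, hg⟩ else 0, fun _ _ _ => ?_⟩
      have : (fun h : T.V χ n => (if hg : (h : G) ∈ T.V χ n then u ⟨(h : G), hg⟩ else 0)) = u := by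
        funext h
        simp
      rw [this]; exact hu
    · exact ⟨fun _ => 0, fun h1 _ h2 => absurd ⟨h1, h2⟩ hd⟩
  choose u hu using hsol
  have hLne : ∀ n, (T.Lt χ n).Nonempty := by
    intro n
    have h1 : χ.f (0, 0) ∈ T.un (S.sph n) := by rw [M1x.un_sph]; trivial
    obtain ⟨g, hg, hx⟩ := mem_iUnion₂.mp h1
    refine ⟨⟨g, Tiles.mem_V.mpr ⟨M1x.mem_sph.mp (by exact_mod_cast hg), χ.f (0, 0), hx,
      ⟨(0, 0), by simp, rfl⟩⟩⟩, χ.f (0, 0), hx, ⟨(0, 0), by simp, rfl⟩⟩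
  have husol : ∀ n ≥ N, FG.Sol (T.gr χ n) (T.Lt χ n) (T.Rt χ n) (fun h => u n (h : G)) := by
    intro n hn
    obtain ⟨w, hw⟩ := hLne n
    exact hu n (hN n hn) ⟨w, w.2⟩ ⟨w, Or.inl hw⟩
  refine ⟨{
    ι := Fin (m + 1)
    ψ := ψ'
    R0 := T.R + 100 * S.δ
    hR0 := le_rfl
    R1 := max R 1
    R1_pos := by positivity
    η := η
    η_pos := hη
    fam := ?_
    L := L
    one_le := hone
    mono := hmono
    sep := fun i k n hk => hsep i n k hk
    χ := χ
    C := 2 * Δ * 32 + 1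
    C_pos := by positivity
    recs := {n | N ≤ n ∧ ∃ k, φ k = n}
    unbdd := ?_
    u := u
    disj := fun n hn => hN n hn.1
    sol := fun n hn => husol n hn.1
    en_le := ?_ }⟩
  · intro g y hy
    obtain ⟨i, hi1, hi2⟩ := hfam g y hy
    refine ⟨Fin.succ i, ?_, ?_⟩
    · simp only [hψ', Fin.cons_succ]
      exact ball_subset_closedBall.trans (hi1.trans (image_mono ball_subset_closedBall))
    · simp only [hψ', Fin.cons_succ]
      have h1 : ((ψ i).E 2)ᶜ = (ψ i).f '' ball (0 : ℝ × ℝ) 2 := by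
        simp [Chart.E]
      rw [h1]
      have h2 : closure ((ψ i).f '' ball (0 : ℝ × ℝ) 2) ⊆ (ψ i).f '' closedBall (0 : ℝ × ℝ) 2 :=
        closure_minimal (image_mono ball_subset_closedBall)
          ((isCompact_closedBall (0 : ℝ × ℝ) 2).image (ψ i).emb.continuous).isClosed
      refine h2.trans (hi2.trans ?_)
      intro x hx
      have h3 : S.s x g⁻¹ ≤ R := hx
      exact h3.trans (le_max_left _ _)
  · intro B M
    obtain ⟨a, ha⟩ := (tendsto_atTop_atTop.mp htend) B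
    set k := max (max M a) N with hk
    have h1 : k ≤ φ k := hφ.id_le k
    refine ⟨φ k, ⟨?_, k, rfl⟩, ?_, ha _ ?_⟩
    · exact (le_max_right _ _).trans h1
    · exact ((le_max_left _ _).trans (le_max_left _ _)).trans h1
    · exact ((le_max_right _ _).trans (le_max_left _ _)).trans h1
  · rintro n ⟨hn, k, rfl⟩
    obtain ⟨ρ, hρ0, hadm, hsum⟩ := hρ k
    have h1 := (husol (φ k) hn).en_le_modulus (hN _ hn) (fun v => ρ (v : G)) (fun v => hρ0 _) Δ
      (fun v => degree_le T χ _ v) (by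
        intro l hl r hr p
        have h2 := hadm _ (crossing_of_walk T χ _ hl hr p)
        rw [Finset.sum_map] at h2
        refine le_of_le_of_eq h2 (Finset.sum_congr ?_ (fun _ _ => rfl))
        ext; simp)
    have h2 : ∑ v : T.V χ (φ k), ρ (v : G) ^ 2 ≤ ∑ h ∈ S.sph (φ k), ρ h ^ 2 := by
      rw [Finset.sum_coe_sort (T.V χ (φ k)) (fun h => ρ h ^ 2)]
      refine Finset.sum_le_sum_of_subset_of_nonneg ?_ (fun _ _ _ => sq_nonneg _)
      intro h hh
      exact M1x.mem_sph.mpr (Tiles.mem_V.mp hh).1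
    have hLp : 0 < L (φ k) := by linarith [hone (φ k)]
    calc FG.en (T.gr χ (φ k)) (fun h => u (φ k) (h : G))
        ≤ 2 * Δ * ∑ v : T.V χ (φ k), ρ (v : G) ^ 2 := h1
      _ ≤ 2 * Δ * (32 / L (φ k)) := by
          have := h2.trans hsum
          gcongr
      _ = (2 * Δ * 32) / L (φ k) := by ring
      _ ≤ (2 * Δ * 32 + 1) / L (φ k) := by
          gcongr
          linarith

end Crest.Agent.R193.M1_Rec
end

-- ▼ part R193/M_Asm

/-!
# R193, block M: assembly (helper635)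

`M_main` from M2 (`Nonempty (Lim P)`) and M5 (`M5Out P Λ`); M1 and M7 are proved.
-/

set_option autoImplicit false

namespace Crest.Agent.R193.M_Asm

open Crest.Agent.R193

variable {G Z : Type} [Group G] [MetricSpace Z] [MulAction G Z]

theorem M_main_of (S : Setup G Z) (T : Tiles S) (Φ : Z ≃ₜ S2)
    (h2 : ∀ P : Rec T, Nonempty (Lim P))
    (h5 : ∀ (P : Rec T) (Λ : Lim P), M7_Glue.M5Out P Λ) (ψ : Chart Z) :
    ∃ L : ℝ, ∀ n : ℕ, SepBound T n (ψ.D 1) (ψ.E 2) L := by
  by_contra h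
  obtain ⟨P⟩ := M1_Rec.M1 S T Φ ψ h
  obtain ⟨Λ⟩ := h2 P
  exact M7_Glue.M7 Φ P Λ (h5 P Λ)

end Crest.Agent.R193.M_Asm
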